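import Vale.Agent.P095.Tools

/-! P095: the annihilator, the quotients by it and the trivially acting subgroup. See skel/P095/BLUEPRINT.md. -/

namespace Vale.Agent.P095

open Filter Topology Vale.Agent.P101 Vale.Agent.P101.F
open scoped ComplexOrder

universe u v w

variable {B : Type u} [CStarAlgebra B] {G : Type v} [Group G] {E : Env B G}
variable {ω : Ultrafilter ℕ}


theorem uact_umk (g : G) (x y : BoundedContinuousFunction ℕ B) (h : ∀ n, y n = E.α g (x n)) :
    uact E ω g (umk ω x) = umk ω y :=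
  congrArg (umk ω) (BoundedContinuousFunction.ext fun n => (h n).symm)

theorem uact_uconst (g : G) (a : B) : uact E ω g (uconst ω a) = uconst ω (E.α g a) := rfl

theorem uact_mul (g h : G) (x : Ultrapower B ω) :
    uact E ω (g * h) x = uact E ω g (uact E ω h x) := by
  obtain ⟨x, rfl⟩ := umk_surjective x
  exact uact_umk (g * h) x (seqMap _ (seqMap _ x)) fun n => by rw [map_mul]; rfl

theorem uact_one (x : Ultrapower B ω) : uact E ω 1 x = x := by
  obtain ⟨x, rfl⟩ := umk_surjective x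
  exact uact_umk 1 x x fun n => by rw [map_one]; rfl

theorem norm_uact (g : G) (x : Ultrapower B ω) : ‖uact E ω g x‖ = ‖x‖ := by
  refine le_antisymm (NonUnitalStarAlgHom.norm_apply_le _ x) ?_
  have := NonUnitalStarAlgHom.norm_apply_le (uact E ω g⁻¹) (uact E ω g x)
  rwa [← uact_mul, inv_mul_cancel, uact_one] at this

theorem ann_const (g : G) (a : B) : uconst ω a = uact E ω g (uconst ω (E.α g⁻¹ a)) := by
  rw [← uact_uconst, ← uact_mul, mul_inv_cancel, uact_one]

theorem uact_mem {x : Ultrapower B ω} (hx : x ∈ centralSeq B ω) (g : G) :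
    uact E ω g x ∈ centralSeq B ω := by
  refine mem_centralSeq.2 fun a => ?_
  rw [ann_const (E := E) g a, ← map_mul, ← map_mul, mem_centralSeq.1 hx]

theorem cenG_le : cenG E ω ≤ centralSeq B ω := inf_le_left

theorem IsAnn.zero : IsAnn E ω 0 := fun _ _ => mul_zero _

theorem IsAnn.add {x y : Ultrapower B ω} (hx : IsAnn E ω x) (hy : IsAnn E ω y) :
    IsAnn E ω (x + y) := fun a ha => by rw [mul_add, hx a ha, hy a ha, add_zero]

theorem IsAnn.neg {x : Ultrapower B ω} (hx : IsAnn E ω x) : IsAnn E ω (-x) := fun a ha => by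
  rw [mul_neg, hx a ha, neg_zero]

theorem IsAnn.smul {x : Ultrapower B ω} (hx : IsAnn E ω x) (c : ℂ) : IsAnn E ω (c • x) :=
  fun a ha => by rw [mul_smul_comm, hx a ha, smul_zero]

theorem IsAnn.mul_right {x : Ultrapower B ω} (hx : IsAnn E ω x) (y : Ultrapower B ω) :
    IsAnn E ω (x * y) := fun a ha => by rw [← mul_assoc, hx a ha, zero_mul]

theorem IsAnn.mul_left {x y : Ultrapower B ω} (hx : IsAnn E ω x) (hy : y ∈ centralSeq B ω) :
    IsAnn E ω (y * x) := fun a ha => by
  rw [← mul_assoc, mem_centralSeq.1 hy, mul_assoc, hx a ha, mul_zero]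

theorem IsAnn.star' {x : Ultrapower B ω} (hx : IsAnn E ω x) (hc : x ∈ centralSeq B ω) :
    IsAnn E ω (star x) := fun a ha => by
  have h := hx _ (E.star_mem ha)
  rw [mem_centralSeq.1 hc, map_star] at h
  simpa only [star_mul, star_star, star_zero] using congrArg star h

theorem IsAnn.act {x : Ultrapower B ω} (hx : IsAnn E ω x) (g : G) :
    IsAnn E ω (uact E ω g x) := fun a ha => by
  rw [ann_const (E := E) g a, ← map_mul, hx _ (E.inv _ a ha), map_zero]

theorem ann_closed (x : Ultrapower B ω) : IsClosed {b : B | uconst ω b * x = 0} :=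
  isClosed_eq ((reind_cont (uconst ω)).mul continuous_const) continuous_const

theorem isAnn_of_dense {a : ℕ → B} (ha : ∀ b ∈ E.I, b ∈ closure (Set.range a))
    {x : Ultrapower B ω} (h : ∀ n, uconst ω (a n) * x = 0) : IsAnn E ω x := fun b hb =>
  closure_minimal (t := {b : B | uconst ω b * x = 0}) (by rintro _ ⟨n, rfl⟩; exact h n)
    (ann_closed x) (ha b hb)

theorem exists_annQuot (E : Env B G) (ω : Ultrafilter ℕ) (S : StarSubalgebra ℂ (Ultrapower B ω))
    (hc : IsClosed (S : Set (Ultrapower B ω))) (hS : S ≤ centralSeq B ω) :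
    ∃ (F : Type u) (_ : CStarAlgebra F) (q : S →⋆ₐ[ℂ] F), AnnQuot E ω q := by
  let : CStarAlgebra S := StarSubalgebra.cstarAlgebra S
  let J : Ideal S :=
    { carrier := {x | IsAnn E ω x}
      zero_mem' := IsAnn.zero
      add_mem' := IsAnn.add
      smul_mem' := fun y _ hx => IsAnn.mul_left hx (hS y.2) }
  have : J.IsTwoSided := ⟨fun y hx => IsAnn.mul_right hx y⟩
  have hJ : IsClosed (J : Set S) := by
    have : (J : Set S) = ⋂ a ∈ E.I, {x : S | uconst ω a * x = 0} := by
      ext x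
      simp only [Set.mem_iInter]
      rfl
    rw [this]
    exact isClosed_biInter fun a _ => isClosed_eq (by fun_prop) continuous_const
  obtain ⟨F, _, q, h1, h2, -⟩ := exists_quot J hJ
  exact ⟨F, _, q, h1, h2⟩

theorem ann_cut {D : Type*} [CStarAlgebra D] (a : D) {s : ℝ} (hs : 0 < s) :
    ∃ y g : D, ‖star a * a - y‖ ≤ s ^ 2 ∧ ‖g‖ ≤ s⁻¹ ∧ g * a * y = y := by
  have hsa := IsSelfAdjoint.star_mul_self a
  have h0 (t : ℝ) : 0 < max t (s ^ 2) := lt_max_of_lt_right (by positivity)
  have hg : Continuous fun t : ℝ => (max t (s ^ 2))⁻¹ :=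
    Continuous.inv₀ (by fun_prop) fun t => (h0 t).ne'
  refine ⟨cfc (fun t : ℝ => max (t - s ^ 2) 0) (star a * a),
    star (a * cfc (fun t : ℝ => (max t (s ^ 2))⁻¹) (star a * a)), ?_, ?_, ?_⟩
  · nth_rw 1 [← cfc_id' ℝ (star a * a)]
    rw [← cfc_sub (fun t : ℝ => t) _ (star a * a)]
    refine norm_cfc_le (by positivity) fun t ht => ?_
    have h1 : 0 ≤ t := spectrum_nonneg_of_nonneg (star_mul_self_nonneg a) ht
    rw [Real.norm_eq_abs, abs_le]
    rcases le_total t (s ^ 2) with h | h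
    · rw [max_eq_right (by linarith)]; constructor <;> nlinarith
    · rw [max_eq_left (by linarith)]; constructor <;> nlinarith
  · rw [norm_star]
    refine le_of_sq_le_sq ?_ (by positivity)
    rw [sq, ← CStarRing.norm_star_mul_self, toolsA_conj a hg.continuousOn]
    refine norm_cfc_le (sq_nonneg _) fun t ht => ?_
    have h1 : 0 ≤ t := spectrum_nonneg_of_nonneg (star_mul_self_nonneg a) ht
    have h2 := h0 t
    rw [Real.norm_of_nonneg (by positivity), inv_pow]
    exact (mul_le_of_le_one_left (by positivity) (inv_mul_le_one_of_le₀ (le_max_left _ _) h2.le)).trans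
      (inv_anti₀ (by positivity) (le_max_right _ _))
  · rw [star_mul, IsSelfAdjoint.cfc.star_eq, mul_assoc _ (star a)]
    nth_rw 2 [← cfc_id' ℝ (star a * a)]
    rw [← cfc_mul _ (fun t : ℝ => t) _ hg.continuousOn,
      ← cfc_mul _ _ _ (hg.fun_mul continuous_id').continuousOn]
    refine cfc_congr fun t _ => ?_
    rcases le_total t (s ^ 2) with h | h
    · simp only [max_eq_right (by linarith : t - s ^ 2 ≤ 0), mul_zero]
    · simp only [max_eq_left h]
      rw [inv_mul_cancel₀ (by nlinarith), one_mul]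

theorem ann_le {D F : Type*} [CStarAlgebra D] [CStarAlgebra F] (q : D →⋆ₐ[ℂ] F) {a y : D} {s : ℝ}
    (hs : 0 < s) (h : ‖star a * a - y‖ ≤ s ^ 2) (hy : q y = 0) : ‖q a‖ ≤ s := by
  have := (NonUnitalStarAlgHom.norm_apply_le q _).trans h
  rw [map_sub, hy, sub_zero, map_mul, map_star, CStarRing.norm_star_mul_self, ← sq] at this
  exact le_of_sq_le_sq this hs.le

section Quot

variable {S : StarSubalgebra ℂ (Ultrapower B ω)} {F : Type u} [CStarAlgebra F] {q : S →⋆ₐ[ℂ] F}

theorem AnnQuot.lift (hq : AnnQuot E ω q) (hc : IsClosed (S : Set (Ultrapower B ω))) (y : F) :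
    ∃ x : S, q x = y ∧ ‖(x : Ultrapower B ω)‖ ≤ ‖y‖ :=
  letI : CStarAlgebra S := StarSubalgebra.cstarAlgebra S
  exists_lift_norm q hq.surj y

theorem AnnQuot.lift_sa (hq : AnnQuot E ω q) (hc : IsClosed (S : Set (Ultrapower B ω))) {y : F}
    (hy : star y = y) : ∃ x : S, q x = y ∧ star x = x ∧ ‖(x : Ultrapower B ω)‖ ≤ ‖y‖ :=
  letI : CStarAlgebra S := StarSubalgebra.cstarAlgebra S
  exists_lift_sa q hq.surj hy

theorem AnnQuot.norm_mul_le (hq : AnnQuot E ω q) (hc : IsClosed (S : Set (Ultrapower B ω)))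
    {a : B} (ha : a ∈ E.I) (x : S) : ‖uconst ω a * x‖ ≤ ‖a‖ * ‖q x‖ := by
  obtain ⟨y, e, h⟩ := hq.lift hc (q x)
  have h1 := (hq.ker (x - y)).1 (by rw [map_sub, e, sub_self]) a ha
  rw [AddSubgroupClass.coe_sub, mul_sub, sub_eq_zero] at h1
  rw [h1]
  exact (_root_.norm_mul_le _ _).trans (mul_le_mul (NonUnitalStarAlgHom.norm_apply_le _ a) h
    (norm_nonneg _) (norm_nonneg _))

theorem AnnQuot.norm_le_of (hq : AnnQuot E ω q) (hc : IsClosed (S : Set (Ultrapower B ω)))
    (hS : S ≤ centralSeq B ω) (x : S) {C : ℝ} (hC : 0 ≤ C)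
    (h : ∀ a ∈ E.I, ‖uconst ω a * x‖ ≤ C * ‖a‖) : ‖q x‖ ≤ C := by
  let : CStarAlgebra S := StarSubalgebra.cstarAlgebra S
  refine le_of_forall_gt_imp_ge_of_dense fun t ht => ?_
  have t0 := hC.trans_lt ht
  obtain ⟨y, g, h1, h2, h3⟩ := ann_cut x t0
  refine ann_le q t0 h1 ((hq.ker y).2 fun a ha => ?_)
  have h4 : (g : Ultrapower B ω) * x * y = y := congrArg Subtype.val h3
  have h5 : ‖uconst ω a * y‖ ≤ t⁻¹ * C * ‖uconst ω a * y‖ := by
    refine le_of_forall_pos_le_add fun ε hε => ?_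
    obtain ⟨e, he, -, e1, e2⟩ := E.exists_unit {a} (by simpa using ha)
      (ε := ε / (‖(y : Ultrapower B ω)‖ + 1)) (by positivity)
    have e3 : uconst ω a * y = g * (uconst ω e * x) * (uconst ω a * y) - uconst ω (e * a - a) * y := by
      have c1 := mem_centralSeq.1 (hS g.2) e
      have c2 := mem_centralSeq.1 (hS (g * x).2) a
      rw [MulMemClass.coe_mul] at c2
      rw [← mul_assoc g.1, ← c1, mul_assoc (uconst ω e), mul_assoc (uconst ω e),
        ← mul_assoc (g.1 * x.1), ← c2, mul_assoc (uconst ω a), h4, map_sub, map_mul, sub_mul,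
        mul_assoc, sub_sub_cancel]
    have e4 : ‖uconst ω (e * a - a) * y‖ ≤ ε := by
      refine (_root_.norm_mul_le _ _).trans ((mul_le_mul ((NonUnitalStarAlgHom.norm_apply_le _ _).trans
        (e2 a (Finset.mem_singleton_self a)).1) (le_add_of_nonneg_right zero_le_one) (norm_nonneg _)
        (by positivity)).trans_eq (div_mul_cancel₀ _ (by positivity)))
    have e5 : ‖uconst ω e * x‖ ≤ C := (h e he).trans (mul_le_of_le_one_right hC e1)
    refine (congrArg norm e3).trans_le ((norm_sub_le _ _).trans (add_le_add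
      (norm_mul₃_le.trans ?_) e4))
    gcongr
    exact h2
  have h6 : t⁻¹ * C < 1 := by rwa [inv_mul_lt_iff₀ t0, mul_one]
  exact norm_le_zero_iff.1 (by nlinarith [norm_nonneg (uconst ω a * y)])

/-- the cross norm property for simple ideals -/
theorem AnnQuot.norm_mul_eq (hq : AnnQuot E ω q) (hc : IsClosed (S : Set (Ultrapower B ω)))
    (hS : S ≤ centralSeq B ω) (hs : Simp E) {a : B} (ha : a ∈ E.I) (x : S) :
    ‖uconst ω a * x‖ = ‖a‖ * ‖q x‖ := by
  let : CStarAlgebra S := StarSubalgebra.cstarAlgebra S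
  refine le_antisymm (hq.norm_mul_le hc ha x) ?_
  have key : ∀ s, 0 < s → s < ‖a‖ → ∀ t, 0 < t → t < ‖q x‖ → s * t ≤ ‖uconst ω a * x‖ := by
    intro s s0 s1 t t0 t1
    obtain ⟨y, g, h1, h2, h3⟩ := ann_cut a s0
    obtain ⟨y', g', h1', h2', h3'⟩ := ann_cut x t0
    have h4 : (g' : Ultrapower B ω) * x * y' = y' := congrArg Subtype.val h3'
    have hy : y ∈ E.I := h3 ▸ E.mul_right (E.mul_left ha g) y
    have hne : uconst ω y * y' ≠ 0 := fun h0 => by
      refine (ann_le q t0 h1' ((hq.ker y').2 fun b hb => ?_)).not_gt t1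
      have hy0 : y ≠ 0 := fun e => (ann_le (StarAlgHom.id ℂ B) s0 h1 e).not_gt s1
      refine closure_minimal (t := {b : B | uconst ω b * y' = 0}) (fun z hz => ?_) (ann_closed _)
        (hs y hy hy0 b hb)
      change uconst ω z * y' = 0
      induction hz using Submodule.span_induction with
      | mem z hz =>
        obtain ⟨u, v, rfl⟩ := hz
        rw [map_mul, map_mul, mul_assoc, mem_centralSeq.1 (hS y'.2), mul_assoc,
          ← mul_assoc (uconst ω y), h0, zero_mul, mul_zero]
      | zero => rw [map_zero, zero_mul]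
      | add u v _ _ hu hv => rw [map_add, add_mul, hu, hv, add_zero]
      | smul c u _ hu => rw [map_smul, smul_mul_assoc, hu, smul_zero]
    have e : uconst ω y * y' = uconst ω g * g' * (uconst ω a * x) * (uconst ω y * y') := by
      have c1 := mem_centralSeq.1 (hS g'.2) a
      have c2 := mem_centralSeq.1 (hS (g' * x).2) y
      rw [MulMemClass.coe_mul] at c2
      rw [mul_assoc (uconst ω g), ← mul_assoc g'.1, ← c1, mul_assoc (uconst ω a), ← mul_assoc (uconst ω g),
        mul_assoc, ← mul_assoc (g'.1 * x.1), ← c2, mul_assoc (uconst ω y), h4, ← mul_assoc,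
        ← map_mul, ← map_mul, h3]
    have h5 : ‖uconst ω g * g'‖ ≤ s⁻¹ * t⁻¹ := (_root_.norm_mul_le _ _).trans (mul_le_mul
      ((NonUnitalStarAlgHom.norm_apply_le _ _).trans h2) h2' (norm_nonneg _) (by positivity))
    have h6 : 1 * ‖uconst ω y * y'‖ ≤ s⁻¹ * t⁻¹ * ‖uconst ω a * x‖ * ‖uconst ω y * y'‖ := by
      rw [one_mul]
      refine (congrArg norm e).trans_le (norm_mul₃_le.trans ?_)
      gcongr
    have h7 := le_of_mul_le_mul_right h6 (norm_pos_iff.2 hne)
    rwa [← mul_inv, le_inv_mul_iff₀ (mul_pos s0 t0), mul_one] at h7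
  rcases (norm_nonneg a).eq_or_lt with a0 | a0
  · rw [← a0, zero_mul]
    exact norm_nonneg _
  rw [← le_div_iff₀' a0]
  refine le_of_forall_lt_imp_le_of_dense fun t t1 => ?_
  rcases le_or_gt t 0 with t0 | t0
  · exact t0.trans (by positivity)
  rw [le_div_iff₀' a0, ← le_div_iff₀ t0]
  refine le_of_forall_lt_imp_le_of_dense fun s s1 => ?_
  rcases le_or_gt s 0 with s0 | s0
  · exact s0.trans (by positivity)
  exact (le_div_iff₀ t0).2 (key s s0 s1 t t0 t1)

end Quot

theorem exists_trivSubgroup (E : Env B G) (ω : Ultrafilter ℕ) :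
    ∃ N : Subgroup G, ∀ g, g ∈ N ↔ Triv E ω g := by
  refine ⟨{ carrier := {g | Triv E ω g}
            one_mem' := fun x _ => ?_
            mul_mem' := fun {g h} hg hh x hx => ?_
            inv_mem' := fun {g} hg x hx => ?_ }, fun _ => Iff.rfl⟩
  · have := (hg _ (uact_mem (E := E) hx h)).add (hh x hx)
    rwa [sub_add_sub_cancel, ← uact_mul] at this
  · rw [uact_one, sub_self]
    exact IsAnn.zero
  · have := (hg _ (uact_mem (E := E) hx g⁻¹)).neg
    rwa [neg_sub, ← uact_mul, mul_inv_cancel, uact_one] at this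

end Vale.Agent.P095
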