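import Vale.Agent.P095.SubBasic

/-! P095: almost unperforation from almost divisibility. See skel/P095/BLUEPRINT.md. -/

namespace Vale.Agent.P095

open Filter Topology Vale.Agent.P101 Vale.Agent.P101.F
open scoped ComplexOrder

universe u v w

variable {B : Type u} [CStarAlgebra B] {G : Type v} [Group G] {E : Env B G}
variable {ω : Ultrafilter ℕ}

theorem au_small {K ε : ℝ} (hK : 0 ≤ K) (hε : 0 < ε) : ∃ η, 0 < η ∧ K * η ≤ ε :=
  ⟨ε / (K + 1), by positivity, by
    rw [← mul_div_assoc, div_le_iff₀ (by positivity)]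
    nlinarith⟩

theorem au_mul3 {a b c : B} {α β γ : ℝ} (ha : ‖a‖ ≤ α) (hb : ‖b‖ ≤ β) (hc : ‖c‖ ≤ γ) :
    ‖a * b * c‖ ≤ α * β * γ :=
  norm_mul_le_of_le (norm_mul_le_of_le ha hb) hc

theorem au_term {T T' w w' y d : B} {M C η : ℝ} (hT : ‖T‖ ≤ M) (hT' : ‖T'‖ ≤ M) (hy : ‖y‖ ≤ M)
    (hw' : ‖w'‖ ≤ C) (h1 : ‖w * star y - star y * w‖ ≤ η) (h2 : ‖y * (star w * w' - d)‖ ≤ η)
    (h3 : ‖d * T' - T' * d‖ ≤ η) :
    ‖star (w * T) * y * (w' * T') - star T * y * T' * d‖ ≤ M * M * (C + 2) * η := by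
  have e : star (w * T) * y * (w' * T') - star T * y * T' * d =
      star T * (star (star y * w - w * star y) * w') * T' +
        star T * (y * (star w * w' - d)) * T' + star T * y * (d * T' - T' * d) := by
    simp only [star_mul, star_sub, star_star]
    noncomm_ring
  have hs : ‖star T‖ ≤ M := by rwa [norm_star]
  have h4 : ‖star (star y * w - w * star y)‖ ≤ η := by rwa [norm_star, norm_sub_rev]
  have a1 := au_mul3 hs (norm_mul_le_of_le h4 hw') hT'
  have a2 := au_mul3 hs h2 hT'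
  have a3 := au_mul3 hs hy h3
  rw [e]
  refine (norm_add_le_of_le (norm_add_le_of_le a1 a2) a3).trans (le_of_eq ?_)
  ring

theorem au_sum {ι : Type*} [Fintype ι] {f g : ι → ι → B} {c : ℝ}
    (h : ∀ p q, ‖f p q - g p q‖ ≤ c) :
    ‖∑ p, ∑ q, f p q - ∑ p, ∑ q, g p q‖ ≤ (Fintype.card ι : ℝ) ^ 2 * c := by
  simp only [← Finset.sum_sub_distrib]
  refine (norm_sum_le_of_le _ fun p _ => norm_sum_le_of_le _ fun q _ => h p q).trans (le_of_eq ?_)
  simp only [Finset.sum_const, Finset.card_univ, nsmul_eq_mul]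
  ring

theorem sub_of_divA (hd : DivA E) {x y : B} (hx : x ∈ E.I) (hy : y ∈ E.I) {n R : ℕ}
    (h : Sub ((n + 2) * R) x (n + 1) y) : Sub R x 1 y := by
  classical
  intro ε hε
  obtain ⟨C, hC⟩ := hd n
  obtain ⟨e, he, he'⟩ := au_small (K := (Fintype.card (Fin (n + 2)) : ℝ) ^ 2 * |C|)
    (by positivity) (half_pos hε)
  obtain ⟨t, ht⟩ := h e he
  obtain ⟨M, hM0, hMy, hMt⟩ : ∃ M : ℝ, 0 ≤ M ∧ ‖y‖ ≤ M ∧ ∀ k a, ‖t k a‖ ≤ M := by
    have h0 : 0 ≤ ∑ p : Fin (n + 1) × Fin ((n + 2) * R), ‖t p.1 p.2‖ := by positivity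
    refine ⟨‖y‖ + ∑ p : Fin (n + 1) × Fin ((n + 2) * R), ‖t p.1 p.2‖, by positivity,
      le_add_of_nonneg_right h0, fun k a => le_add_of_nonneg_of_le (norm_nonneg _) ?_⟩
    exact Finset.single_le_sum (f := fun p : Fin (n + 1) × Fin ((n + 2) * R) => ‖t p.1 p.2‖)
      (fun _ _ => norm_nonneg _) (Finset.mem_univ (k, a))
  obtain ⟨η, hη, hη'⟩ := au_small
    (K := (Fintype.card (Fin (n + 1) × Fin (n + 2)) : ℝ) ^ 2 * (M * M * (|C| + 2)) + 1)
    (by positivity) (half_pos hε)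
  obtain ⟨w, m, hw, hm, hc, hI⟩ := hC ({x, y, star y} ∪
    Finset.univ.image fun p : Fin (n + 1) × Fin ((n + 2) * R) => t p.1 p.2) η hη
  have c1 := (hc (star y) (by simp)).1
  have c2 := (hI y (by simp) hy).1
  have c3 := fun k a => (hc (t k a)
    (Finset.mem_union_right _ (Finset.mem_image.2 ⟨(k, a), Finset.mem_univ _, rfl⟩))).2
  have c4 := (hI x (by simp) hx).2
  refine ⟨fun _ i => ∑ p : Fin (n + 1) × Fin (n + 2),
    w p.1 p.2 * t p.1 (finProdFinEquiv (p.2, i)), fun i i' => ?_⟩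
  have d1 := au_sum (ι := Fin (n + 1) × Fin (n + 2))
    (f := fun p q => star (w p.1 p.2 * t p.1 (finProdFinEquiv (p.2, i))) * y *
      (w q.1 q.2 * t q.1 (finProdFinEquiv (q.2, i'))))
    (g := fun p q => star (t p.1 (finProdFinEquiv (p.2, i))) * y *
      t q.1 (finProdFinEquiv (q.2, i')) * if p.1 = q.1 then m p.2 q.2 else 0)
    fun p q => au_term (hMt _ _) (hMt _ _) hMy ((hw _ _).trans (le_abs_self C)) (c1 _ _)
      (c2 _ _ _ _) (by
        split_ifs
        · exact c3 _ _ _ _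
        · simpa using hη.le)
  have d2 := au_sum (ι := Fin (n + 2)) (c := e * |C|)
    (f := fun j j' => (∑ k, star (t k (finProdFinEquiv (j, i))) * y *
      t k (finProdFinEquiv (j', i'))) * m j j')
    (g := fun j j' => (if finProdFinEquiv (j, i) = finProdFinEquiv (j', i') then x else 0) * m j j')
    fun j j' => by
      rw [← sub_mul]
      exact norm_mul_le_of_le (ht _ _) ((hm _ _).trans (le_abs_self C))
  have e1 : ∑ p : Fin (n + 1) × Fin (n + 2), ∑ q : Fin (n + 1) × Fin (n + 2),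
      star (t p.1 (finProdFinEquiv (p.2, i))) * y * t q.1 (finProdFinEquiv (q.2, i')) *
        (if p.1 = q.1 then m p.2 q.2 else 0) =
      ∑ j, ∑ j', (∑ k, star (t k (finProdFinEquiv (j, i))) * y *
        t k (finProdFinEquiv (j', i'))) * m j j' := by
    simp only [Fintype.sum_prod_type_right, mul_ite, mul_zero, Finset.sum_ite_eq, Finset.mem_univ,
      if_true, Finset.sum_mul]
    exact Finset.sum_congr rfl fun j _ => Finset.sum_comm
  have d3 : ‖∑ j, ∑ j', (if finProdFinEquiv (j, i) = finProdFinEquiv (j', i') then x else 0) *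
      m j j' - if i = i' then x else 0‖ ≤ η := by
    simp only [EmbeddingLike.apply_eq_iff_eq, Prod.mk.injEq]
    by_cases hi : i = i'
    · simpa [hi, mul_sub, Finset.mul_sum] using c4
    · simpa [hi] using hη.le
  rw [e1] at d1
  rw [Fin.sum_univ_one, star_sum, Finset.sum_mul, Finset.sum_mul]
  simp only [Finset.mul_sum]
  refine (norm_sub_le_norm_sub_add_norm_sub _ _ _).trans ((add_le_add d1
    ((norm_sub_le_norm_sub_add_norm_sub _ _ _).trans (add_le_add d2 d3))).trans ?_)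
  linarith

end Vale.Agent.P095
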