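import Vale.Agent.P101.FSide
import Vale.Agent.P101.ZAbsorb

/-!
P095: internal definitions. A possibly non-unital algebra is an ideal `I` of codimension at most
one in a unital algebra `B`. The order on every unital C*-algebra is `F.specOrder`.
-/

namespace Vale.Agent.P095

open Filter Topology Vale.Agent.P101 Vale.Agent.P101.F
open scoped ComplexOrder

universe u v

open Classical in
/-- the Folner condition -/
def Folner (G : Type v) [Group G] : Prop :=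
  ∀ (K : Finset G) (ε : ℝ), 0 < ε → ∃ F : Finset G, F.Nonempty ∧
    ∀ g ∈ K, ((F.filter fun x => g * x ∉ F).card : ℝ) ≤ ε * F.card

/-- star polynomials in the variables and their translates, with constant coefficients -/
inductive Dfn {Q : Type u} [CStarAlgebra Q] {G : Type v} (α : G → Q → Q) {V : Type} :
    ((V → Q) → Q) → Prop
  | const (c : Q) : Dfn α fun _ => c
  | var (i : V) : Dfn α fun x => x i
  | act (g : G) {P : (V → Q) → Q} : Dfn α P → Dfn α fun x => α g (P x)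
  | star {P : (V → Q) → Q} : Dfn α P → Dfn α fun x => star (P x)
  | add {P P' : (V → Q) → Q} : Dfn α P → Dfn α P' → Dfn α fun x => P x + P' x
  | mul {P P' : (V → Q) → Q} : Dfn α P → Dfn α P' → Dfn α fun x => P x * P' x

section Tracial

variable {Q : Type u} [CStarAlgebra Q] {G : Type v} [Group G]

/-- a self-adjoint unitary -/
structure Symm (b : Q) : Prop where
  sa : star b = b
  sq : b * b = 1

/-- two anticommuting symmetries, that is, a unital copy of `M_2` -/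
structure Pair (h k : Q) : Prop where
  fst : Symm h
  snd : Symm k
  anti : h * k = -(k * h)

/-- a partition of unity into projections -/
structure Part {Ω : Type} [Fintype Ω] (p : Ω → Q) : Prop where
  sa : ∀ i, star (p i) = p i
  sq : ∀ i, p i * p i = p i
  orth : ∀ i j, i ≠ j → p i * p j = 0
  sum : ∑ i, p i = 1

/-- the 2-seminorm of a positive functional -/
noncomputable def nrm (τ : Q →L[ℂ] ℂ) (x : Q) : ℝ := √(τ (star x * x)).re

/-- a positive tracial functional of norm at most one -/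
structure IsTr (τ : Q →L[ℂ] ℂ) : Prop where
  pos : ∀ x, 0 ≤ τ (star x * x)
  norm_le : ‖τ‖ ≤ 1
  trace : ∀ x y, τ (x * y) = τ (y * x)

/-- a countably saturated tracial system with approximately central copies of `M_2` -/
structure TSat (α : G →* (Q ≃⋆ₐ[ℂ] Q)) (T : Set (Q →L[ℂ] ℂ)) : Prop where
  tr : ∀ τ ∈ T, IsTr τ
  inv : ∀ τ ∈ T, ∀ g, ∃ τ' ∈ T, ∀ x, τ' x = τ (α g x)
  sep : ∀ x, (∀ τ ∈ T, τ (star x * x) = 0) → x = 0
  sat : ∀ (V : Type) [Countable V] (P : ℕ → (V → Q) → Q) (c : ℕ → ℝ),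
    (∀ k, Dfn (fun g => α g) (P k)) →
    (∀ (m : ℕ) (ε : ℝ), 0 < ε → ∃ x : V → Q, (∀ i, ‖x i‖ ≤ 1) ∧
      ∀ k < m, ∀ τ ∈ T, (τ (P k x)).re ≤ c k + ε) →
    ∃ x : V → Q, (∀ i, ‖x i‖ ≤ 1) ∧ ∀ k, ∀ τ ∈ T, (τ (P k x)).re ≤ c k
  copy : ∀ S : Set Q, S.Countable → ∃ h k, Pair h k ∧ ∀ s ∈ S, Commute h s ∧ Commute k s

/-- the orbit of a pair -/
def lay (α : G →* (Q ≃⋆ₐ[ℂ] Q)) (h k : Q) : Set Q := {x | ∃ g, x = α g h ∨ x = α g k}

/-- ordered product -/
noncomputable def oprod {N : ℕ} (m : Fin N → Q) : Q := (List.ofFn m).prod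

/-- a word in the translates of the `Z l` and their adjoints -/
noncomputable def word (α : G →* (Q ≃⋆ₐ[ℂ] Q)) {L : ℕ} (Z : Fin L → Q)
    (w : List (G × Fin L × Bool)) : Q :=
  (w.map fun p => if p.2.2 then α p.1 (Z p.2.1) else star (α p.1 (Z p.2.1))).prod

/-- exchange of `Z l` and its adjoint -/
def flipW {G : Type v} {L : ℕ} (l : Fin L) (w : List (G × Fin L × Bool)) :
    List (G × Fin L × Bool) :=
  w.map fun p => if p.2.1 = l then (p.1, p.2.1, !p.2.2) else p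

/-- the coordinate signs on a Cantor cube -/
def sgn {ι : Type*} (i : ι) : C(ι → Bool, ℂ) :=
  ⟨fun x => if x i then 1 else -1,
    (continuous_of_discreteTopology (f := fun b : Bool => if b then (1 : ℂ) else -1)).comp
      (continuous_apply i)⟩

/-- translation on the cube -/
def xorB {L : ℕ} (t x : Fin L → Bool) : Fin L → Bool := fun l => xor (x l) (t l)

/-- `exp (i t h)` for a symmetry `h` -/
noncomputable def rot (t : ℝ) (h : Q) : Q :=
  ((Real.cos t : ℝ) : ℂ) • (1 : Q) + (((Real.sin t : ℝ) : ℂ) * Complex.I) • h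

/-- the real part -/
noncomputable def rePart (x : Q) : Q := (2⁻¹ : ℂ) • (x + star x)

/-- the distributions of `y` have uniformly no atom at zero -/
def NonAt (T : Set (Q →L[ℂ] ℂ)) (y : Q) : Prop :=
  ∀ ε : ℝ, 0 < ε → ∃ δ : ℝ, 0 < δ ∧
    ∀ τ ∈ T, (τ (cfc (fun t : ℝ => max (1 - |t| / δ) 0) y)).re ≤ ε

/-- `b` is a uniform 2-norm limit of odd functions of `y` -/
def Approx (T : Set (Q →L[ℂ] ℂ)) (b y : Q) : Prop :=
  ∀ ε : ℝ, 0 < ε → ∃ f : ℝ → ℝ, Continuous f ∧ (∀ t, f (-t) = -f t) ∧ (∀ t, |f t| ≤ 1) ∧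
    ∀ τ ∈ T, nrm τ (b - cfc f y) ≤ ε

/-- left translation of configurations -/
def shiftG {L : ℕ} (s : G) : C(G × Fin L → Bool, G × Fin L → Bool) :=
  ⟨fun x p => x (s * p.1, p.2), continuous_pi fun _ => continuous_apply _⟩

/-- simultaneous translation of all values of a configuration -/
def flipX (G : Type v) {L : ℕ} (t : Fin L → Bool) : C(G × Fin L → Bool, G × Fin L → Bool) :=
  ⟨fun x p => xor (x p) (t p.2), continuous_pi fun p =>
    (continuous_of_discreteTopology (f := fun b : Bool => xor b (t p.2))).comp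
      (continuous_apply p)⟩

/-- the multiset of the values of a configuration on `F` -/
def loc {G : Type v} {L : ℕ} (F : Finset G) (x : G × Fin L → Bool) : Multiset (Fin L → Bool) :=
  F.val.map fun g l => x (g, l)

end Tracial

/-- the relations of Rordam and Winter with a contraction -/
def HasRW (Q : Type*) [CStarAlgebra Q] : Prop :=
  ∀ n : ℕ, ∃ (φ : Fin (n + 1) → Fin (n + 1) → Q) (v : Q), RW 0 φ v ∧ ‖v‖ ≤ 1

/-- ping-pong data -/
structure Ping {Γ J : Type} [Group Γ] (g : J → Γ) (Up Um : J → Set Γ) : Prop where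
  disjp : ∀ i j, i ≠ j → Disjoint (Up i) (Up j)
  disjm : ∀ i j, i ≠ j → Disjoint (Um i) (Um j)
  maps : ∀ i x, x ∉ Um i → g i * x ∈ Up i

/-- residual finiteness -/
def ResFin (Γ : Type) [Group Γ] : Prop :=
  ∀ S : Finset Γ, ∃ (Δ : Type) (_ : Group Δ) (_ : Fintype Δ) (π : Γ →* Δ), Set.InjOn π S

open Classical in
/-- the matrix of `∑ Φ i j ⊗ W i* W j` with `W i = (λ (g (i, r)))_r`, compressed along `e` -/
noncomputable def pingM {Γ Y : Type} [Group Γ] {k m R : ℕ} (g : Fin m × Fin R → Γ)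
    (Φ : Fin m → Fin m → Matrix (Fin k) (Fin k) ℂ) (e : Y → Γ) :
    Matrix (Fin k × Fin R × Y) (Fin k × Fin R × Y) ℂ :=
  Matrix.of fun a b => ∑ i, ∑ j,
    if g (i, a.2.1) * e a.2.2 = g (j, b.2.1) * e b.2.2 then Φ i j a.1 b.1 else 0

/-- a block matrix as one matrix -/
def blockM {k m : ℕ} (Φ : Fin m → Fin m → Matrix (Fin k) (Fin k) ℂ) :
    Matrix (Fin m × Fin k) (Fin m × Fin k) ℂ := Matrix.of fun a b => Φ a.1 b.1 a.2 b.2

/-- an ideal of codimension at most one with an action -/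
structure Env (B : Type u) [CStarAlgebra B] (G : Type v) [Group G] where
  I : Ideal B
  two : I.IsTwoSided
  closed : IsClosed (I : Set B)
  codim : ∀ b : B, ∃ c : ℂ, b - c • (1 : B) ∈ I
  α : G →* (B ≃⋆ₐ[ℂ] B)
  inv : ∀ g, ∀ a ∈ I, α g a ∈ I

section Conc

variable {B : Type u} [CStarAlgebra B] {G : Type v} [Group G]

/-- simplicity of the ideal -/
def Simp (E : Env B G) : Prop :=
  ∀ a ∈ E.I, a ≠ 0 → ∀ b ∈ E.I,
    b ∈ closure (Submodule.span ℂ {z : B | ∃ x y, z = x * a * y} : Set B)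

/-- the action on the ultrapower -/
noncomputable def uact (E : Env B G) (ω : Ultrafilter ℕ) (g : G) :
    Ultrapower B ω →⋆ₐ[ℂ] Ultrapower B ω := umap ω (E.α g : B →⋆ₐ[ℂ] B)

/-- annihilator of the ideal -/
def IsAnn (E : Env B G) (ω : Ultrafilter ℕ) (x : Ultrapower B ω) : Prop :=
  ∀ a ∈ E.I, uconst ω a * x = 0

/-- invariant central sequences -/
noncomputable def cenG (E : Env B G) (ω : Ultrafilter ℕ) : StarSubalgebra ℂ (Ultrapower B ω) :=
  centralSeq B ω ⊓ ⨅ g, StarAlgHom.equalizer (uact E ω g) (StarAlgHom.id ℂ _)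

lemma mem_cenG {E : Env B G} {ω : Ultrafilter ℕ} {x : Ultrapower B ω} :
    x ∈ cenG E ω ↔ x ∈ centralSeq B ω ∧ ∀ g, uact E ω g x = x := by
  simp [cenG, StarSubalgebra.mem_iInf, StarAlgHom.mem_equalizer]

instance isClosed_cenG (E : Env B G) (ω : Ultrafilter ℕ) :
    IsClosed (cenG E ω : Set (Ultrapower B ω)) := by
  have : (cenG E ω : Set (Ultrapower B ω)) =
      (centralSeq B ω : Set (Ultrapower B ω)) ∩ ⋂ g, {x | uact E ω g x = x} := by
    ext x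
    simp [mem_cenG]
  rw [this]
  exact (isClosed_centralSeq B ω).inter (isClosed_iInter fun g =>
    isClosed_eq (reind_cont (uact E ω g)) continuous_id)

noncomputable instance cstarAlgebraCenG (E : Env B G) (ω : Ultrafilter ℕ) :
    CStarAlgebra (cenG E ω) := StarSubalgebra.cstarAlgebra _

/-- `g` acts trivially on central sequences modulo the annihilator -/
def Triv (E : Env B G) (ω : Ultrafilter ℕ) (g : G) : Prop :=
  ∀ x ∈ centralSeq B ω, IsAnn E ω (uact E ω g x - x)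

/-- limits of functionals from `S` -/
def IsLim (ω : Ultrafilter ℕ) (S : Set (B →L[ℂ] ℂ)) (ρ : Ultrapower B ω →L[ℂ] ℂ) : Prop :=
  ∃ r : ℕ → B →L[ℂ] ℂ, (∀ n, r n ∈ S) ∧ ∀ x : BoundedContinuousFunction ℕ B,
    Tendsto (fun n => r n (x n)) (ω : Filter ℕ) (𝓝 (ρ (umk ω x)))

/-- the elements on which `a'` acts as a unit -/
def her (a' : B) : Set B := {y | a' * y = y ∧ y * a' = y}

/-- a positive trace of norm at most one on the subalgebra `H` -/
structure IsTraceOn (H : Set B) (τ : B → ℂ) : Prop where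
  add : ∀ x ∈ H, ∀ y ∈ H, τ (x + y) = τ x + τ y
  smul : ∀ (c : ℂ), ∀ x ∈ H, τ (c • x) = c * τ x
  pos : ∀ x ∈ H, 0 ≤ τ (star x * x)
  le : ∀ x ∈ H, (τ (star x * x)).re ≤ ‖x‖ ^ 2
  bound : ∀ x ∈ H, ‖τ x‖ ≤ 4 * ‖x‖
  trace : ∀ x ∈ H, ∀ y ∈ H, τ (x * y) = τ (y * x)

/-- the functionals `x ↦ τ (a x a)` -/
def trSet (a a' : B) : Set (B →L[ℂ] ℂ) :=
  {ρ | ∃ τ, IsTraceOn (her a') τ ∧ ∀ x, ρ x = τ (a * x * a)}

/-- three positive contractions of the ideal, each a unit for the previous one -/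
structure Tri (E : Env B G) (a a' a'' : B) : Prop where
  mem : a ∈ E.I ∧ a' ∈ E.I ∧ a'' ∈ E.I
  pos : 0 ≤ a ∧ 0 ≤ a' ∧ 0 ≤ a''
  norm : ‖a‖ ≤ 1 ∧ ‖a'‖ ≤ 1 ∧ ‖a''‖ ≤ 1
  ne : a ≠ 0
  mul : a' * a = a
  mul' : a'' * a' = a'

/-- the trace kernel -/
def IsNeg (E : Env B G) (ω : Ultrafilter ℕ) (a a' : B) (x : Ultrapower B ω) : Prop :=
  ∀ g ρ, IsLim ω (trSet (E.α g a) (E.α g a')) ρ → ρ (star x * x) = 0

/-- approximately central, tracially approximate copies of `M_2` -/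
def CopyA (E : Env B G) (a a' : B) : Prop :=
  ∀ (S : Finset B) (K : Finset G) (ε : ℝ), 0 < ε → ∃ h k : B, star h = h ∧ star k = k ∧
    ‖h‖ ≤ 2 ∧ ‖k‖ ≤ 2 ∧ (∀ b ∈ S, ‖h * b - b * h‖ ≤ ε ∧ ‖k * b - b * k‖ ≤ ε) ∧
    ∀ g ∈ K, ∀ ρ ∈ trSet (E.α g a) (E.α g a'),
      ∀ w ∈ [h * h - 1, k * k - 1, h * k + k * h], (ρ (star w * w)).re ≤ ε

/-- approximately central witnesses for almost divisibility of the unit -/
def DivA (E : Env B G) : Prop :=
  ∀ n : ℕ, ∃ C : ℝ, ∀ (S : Finset B) (ε : ℝ), 0 < ε →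
    ∃ (w : Fin (n + 1) → Fin (n + 2) → B) (m : Fin (n + 2) → Fin (n + 2) → B),
      (∀ k j, ‖w k j‖ ≤ C) ∧ (∀ j j', ‖m j j'‖ ≤ C) ∧
      (∀ b ∈ S, (∀ k j, ‖w k j * b - b * w k j‖ ≤ ε) ∧ ∀ j j', ‖m j j' * b - b * m j j'‖ ≤ ε) ∧
      ∀ b ∈ S, b ∈ E.I →
        (∀ k j k' j', ‖b * (star (w k j) * w k' j' - if k = k' then m j j' else 0)‖ ≤ ε) ∧
        ‖b * (∑ j, m j j - 1)‖ ≤ ε

/-- Cuntz subequivalence of `m` copies of `x` and `n` copies of `y` -/
def Sub (m : ℕ) (x : B) (n : ℕ) (y : B) : Prop :=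
  ∀ ε : ℝ, 0 < ε → ∃ t : Fin n → Fin m → B, ∀ i j,
    ‖∑ k, star (t k i) * y * t k j - if i = j then x else 0‖ ≤ ε

/-- `(x - ε)₊` -/
noncomputable def cut (ε : ℝ) (x : B) : B := cfc (fun t : ℝ => max (t - ε) 0) x

/-- positivity of a matrix over `B` -/
def MPos {ι : Type*} [Fintype ι] (M : ι → ι → B) : Prop :=
  ∀ v : ι → B, 0 ≤ ∑ i, ∑ j, star (v i) * M i j * v j

/-- `q` is the quotient map of `S` by the annihilator -/
structure AnnQuot (E : Env B G) (ω : Ultrafilter ℕ) {S : StarSubalgebra ℂ (Ultrapower B ω)}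
    {F : Type u} [CStarAlgebra F] (q : S →⋆ₐ[ℂ] F) : Prop where
  surj : Function.Surjective q
  ker : ∀ x : S, q x = 0 ↔ IsAnn E ω x

/-- a state -/
structure IsState (φ : B →L[ℂ] ℂ) : Prop where
  one : φ 1 = 1
  pos : ∀ x, 0 ≤ φ (star x * x)

/-- the completely positive map `M_k → B` with Kraus form `c` -/
noncomputable def kraus {k l : ℕ} (c : Fin l → Fin k → B) (m : Matrix (Fin k) (Fin k) ℂ) : B :=
  ∑ s, ∑ i, ∑ j, m i j • (star (c s i) * c s j)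

/-- the completely positive map `B → M_k` given by vectors of the state `φ` -/
noncomputable def vecs (φ : B →L[ℂ] ℂ) {k r : ℕ} (d : Fin r → Fin k → B) (a : B) :
    Matrix (Fin k) (Fin k) ℂ := Matrix.of fun i j => ∑ s, φ (star (d s i) * a * d s j)

/-- the completely positive approximation property of the ideal -/
def CPAP (E : Env B G) : Prop :=
  ∀ (F : Finset B) (ε : ℝ), (∀ a ∈ F, a ∈ E.I) → 0 < ε →
    ∃ (k l : ℕ) (φ : B →ₗ[ℂ] Matrix (Fin k) (Fin k) ℂ) (c : Fin l → Fin k → B),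
      (∀ s i, c s i ∈ E.I) ∧
      (∀ a : Fin k → B, (∀ i, a i ∈ E.I) → 0 ≤ ∑ i, ∑ j, φ (star (a i) * a j) i j) ∧
      ∀ a ∈ F, ‖kraus c (φ a) - a‖ ≤ ε

/-- nuclearity through vectors of a state -/
def NucL (E : Env B G) (φ : B →L[ℂ] ℂ) : Prop :=
  ∀ (F : Finset B) (ε : ℝ), (∀ a ∈ F, a ∈ E.I) → 0 < ε →
    ∃ (k l r : ℕ) (c : Fin l → Fin k → B) (d : Fin r → Fin k → B), (∀ s i, c s i ∈ E.I) ∧
      ∀ a ∈ F, ‖kraus c (vecs φ d a) - a‖ ≤ ε

/-- the state `φ` is excised by the decreasing sequence `x` -/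
structure Excises (E : Env B G) (φ : B →L[ℂ] ℂ) (x : ℕ → B) : Prop where
  state : IsState φ
  mem : ∀ n, x n ∈ E.I
  pos : ∀ n, 0 ≤ x n
  norm : ∀ n, ‖x n‖ = 1
  mul : ∀ n, x n * x (n + 1) = x (n + 1)
  lim : ∀ a, Tendsto (fun n => ‖x n * a * x n - φ a • (x n * x n)‖) atTop (𝓝 0)

/-- the condition of Kishimoto -/
def Kish (E : Env B G) (σ : B ≃⋆ₐ[ℂ] B) : Prop :=
  ∀ c ∈ E.I, 0 ≤ c → c ≠ 0 → ∀ (a : B) (ε : ℝ), 0 < ε →
    ∃ r, ‖c * r‖ = 1 ∧ ‖star (c * r) * a * σ (c * r)‖ ≤ ε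

/-- the square of `f` is infinitesimal for Cuntz comparison -/
def NegSeq (E : Env B G) (ω : Ultrafilter ℕ) (f : ℕ → B) : Prop :=
  ∀ h ∈ E.I, 0 ≤ h → ∀ y ∈ E.I, 0 ≤ y → y ≠ 0 → ∀ (R : ℕ) (ε : ℝ), 0 < ε →
    ∀ᶠ n in (ω : Filter ℕ), Sub R (cut ε (h * (f n * f n) * h)) 1 y

/-- equivariant property (SI) in the form that is needed -/
def SIU (E : Env B G) (ω : Ultrafilter ℕ) (a a' : B) : Prop :=
  ∀ f ∈ centralSeq B ω, star f = f → ‖f‖ ≤ 1 → IsNeg E ω a a' f →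
    ∃ s : Fin 2 → Ultrapower B ω, (∀ i, s i ∈ centralSeq B ω ∧ ‖s i‖ ≤ 2) ∧
      (∀ i j, IsAnn E ω (star (s i) * s j - if i = j then f * f else 0)) ∧
      ∀ g, ¬ Triv E ω g → ∀ i j, star (s i) * uact E ω g (s j) = 0

/-- joined to the unit by a path of invertible elements -/
def InvJoined (w : B) : Prop :=
  ∃ f : unitInterval → B, Continuous f ∧ (∀ t, IsUnit (f t)) ∧ f 0 = 1 ∧ f 1 = w

/-- the closed span of the products `θ a * β z`, `a ∈ I` -/
def tensI {D Z : Type*} [CStarAlgebra D] [CStarAlgebra Z] (E : Env B G) (θ : B →⋆ₐ[ℂ] D)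
    (β : Z →⋆ₐ[ℂ] D) : Set D :=
  closure (Submodule.span ℂ {d : D | ∃ a ∈ E.I, ∃ z, d = θ a * β z} : Set D)

/-- the multiplier picture of the tensor product with `Z` -/
structure Tens (E : Env B G) (Z D : Type*) [CStarAlgebra Z] [CStarAlgebra D] where
  θ : B →⋆ₐ[ℂ] D
  β : Z →⋆ₐ[ℂ] D
  δ : G →* (D ≃⋆ₐ[ℂ] D)
  comm : ∀ a z, Commute (θ a) (β z)
  iso : ∀ a ∈ E.I, ‖θ a‖ = ‖a‖
  δθ : ∀ g a, δ g (θ a) = θ (E.α g a)
  δβ : ∀ g z, δ g (β z) = β z
  ideal : ∀ d ∈ tensI E θ β, ∀ x, x * d ∈ tensI E θ β ∧ d * x ∈ tensI E θ β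

/-- the unitaries of the one-sided intertwining argument -/
def Tens.Key {E : Env B G} {Z D : Type*} [CStarAlgebra Z] [CStarAlgebra D] (X : Tens E Z D) :
    Prop :=
  ∀ (S : Finset B) (T : Finset D) (K : Finset G) (η : ℝ), (∀ d ∈ T, d ∈ tensI E X.θ X.β) →
    0 < η → ∃ v ∈ unitary D, (∀ a ∈ S, ‖v * X.θ a - X.θ a * v‖ ≤ η) ∧
      (∀ g ∈ K, ‖X.δ g v - v‖ ≤ η) ∧ ∀ d ∈ T, ∃ a ∈ E.I, ‖star v * d * v - X.θ a‖ ≤ η

/-- cocycle conjugacy in the multiplier picture -/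
def Tens.Conj {E : Env B G} {Z D : Type*} [CStarAlgebra Z] [CStarAlgebra D] (X : Tens E Z D) :
    Prop :=
  ∃ (Φ : B →⋆ₐ[ℂ] D) (u : G → D), (∀ a ∈ E.I, ‖Φ a‖ = ‖a‖) ∧
    Φ '' (E.I : Set B) = tensI E X.θ X.β ∧ (∀ g, u g ∈ unitary D) ∧
    (∀ g h, u (g * h) = u g * X.δ g (u h)) ∧
    ∀ g a, Φ (E.α g a) = u g * X.δ g (Φ a) * star (u g)

end Conc

end Vale.Agent.P095
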