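import Vale.Agent.P095.Nrm

/-! P095: Haar unitaries have no atoms; signs of self-adjoint elements. See skel/P095/BLUEPRINT.md. -/

namespace Vale.Agent.P095

open Filter Topology Vale.Agent.P101 Vale.Agent.P101.F
open scoped ComplexOrder

universe u v w

variable {Q : Type u} [CStarAlgebra Q] {G : Type v} [Group G]
variable {α : G →* (Q ≃⋆ₐ[ℂ] Q)} {T : Set (Q →L[ℂ] ℂ)}

theorem nonAt_mono (ν : Q →L[ℂ] ℂ) (hν : ∀ x, 0 ≤ ν (star x * x)) {a b : Q} (h : a ≤ b) :
    (ν a).re ≤ (ν b).re := by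
  have h1 : 0 ≤ b - a := sub_nonneg.2 h
  have h2 := hν (CFC.sqrt (b - a))
  rw [(CFC.sqrt_nonneg (b - a)).star_eq, CFC.sqrt_mul_sqrt_self _ h1, map_sub] at h2
  have h3 := (Complex.le_def.1 h2).1
  simp only [Complex.zero_re, Complex.sub_re] at h3
  linarith

theorem nonAt_mul_le (ν : Q →L[ℂ] ℂ) (hν : ∀ x, 0 ≤ ν (star x * x)) (a x : Q) {C : ℝ}
    (h : ‖a‖ ≤ C) : (ν (star (a * x) * (a * x))).re ≤ C ^ 2 * (ν (star x * x)).re := by
  have h1 := nonAt_mono ν hν (CStarAlgebra.star_left_conjugate_le_norm_smul (a := x)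
    (b := star a * a))
  have h2 := (Complex.le_def.1 (hν x)).1
  rw [ν.map_smul_of_tower, Complex.smul_re, CStarRing.norm_star_mul_self, smul_eq_mul] at h1
  rw [star_mul, mul_assoc, ← mul_assoc (star a), ← mul_assoc]
  refine h1.trans (mul_le_mul_of_nonneg_right ?_ h2)
  nlinarith [norm_nonneg a]

theorem nonAt_add_le (ν : Q →L[ℂ] ℂ) (hν : ∀ x, 0 ≤ ν (star x * x)) (a b : Q) :
    (ν (star (a + b) * (a + b))).re ≤ 2 * (ν (star a * a)).re + 2 * (ν (star b * b)).re := by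
  have h := (Complex.le_def.1 (hν (a - b))).1
  simp only [star_sub, star_add, sub_mul, mul_sub, add_mul, mul_add, map_sub, map_add,
    Complex.sub_re, Complex.add_re, Complex.zero_re] at h ⊢
  linarith

theorem nonAt_star (ν : Q →L[ℂ] ℂ) (hν : ∀ x, 0 ≤ ν (star x * x)) {u : Q} (h : ν u = 0) :
    ν (star u) = 0 := by
  have h0 := (Complex.le_def.1 (hν 1)).2
  have h1 := (Complex.le_def.1 (hν u)).2
  have h2 := (Complex.le_def.1 (hν (1 + u))).2
  have h3 := (Complex.le_def.1 (hν (1 + Complex.I • u))).2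
  simp only [star_add, star_one, star_smul, add_mul, mul_add, one_mul, mul_one, map_add,
    smul_mul_assoc, mul_smul_comm, map_smul, h, smul_eq_mul, Complex.add_im, Complex.zero_im,
    Complex.mul_im, Complex.star_def, Complex.conj_I, Complex.neg_re, Complex.neg_im,
    Complex.I_re, Complex.I_im, Complex.mul_re, mul_zero] at h0 h1 h2 h3
  apply Complex.ext
  · simp only [Complex.zero_re]
    linarith
  · simp only [Complex.zero_im]
    linarith

theorem fejer (ν : Q →L[ℂ] ℂ) (hν : ∀ x, 0 ≤ ν (star x * x)) {W e e' : Q} (hW : W ∈ unitary Q)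
    (h0 : ∀ n : ℕ, 1 ≤ n → ν (W ^ n) = 0) {M : ℕ} (hM : 0 < M) (hc : Commute W e) (he : ‖e‖ ≤ 1)
    (he' : e' * e = e) (hW' : ‖(W - 1) * e'‖ ≤ 1 / M) :
    (ν (star e * e)).re ≤ 4 * (ν 1).re / M := by
  have hM' : (0 : ℝ) < M := by exact_mod_cast hM
  have a1 : ∀ i k : ℕ, star (W ^ i) * W ^ (i + k) = W ^ k := fun i k => by
    rw [pow_add, ← mul_assoc, (pow_mem hW i).1, one_mul]
  have a2 : ∀ i j : ℕ, ν (star (W ^ i) * W ^ j) = if i = j then ν 1 else 0 := by
    intro i j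
    rcases lt_trichotomy i j with h | rfl | h
    · obtain ⟨k, rfl⟩ := Nat.exists_eq_add_of_le h.le
      rw [a1, if_neg h.ne, h0 k (by omega)]
    · rw [if_pos rfl, (pow_mem hW i).1]
    · obtain ⟨k, rfl⟩ := Nat.exists_eq_add_of_le h.le
      have h1 := nonAt_star ν hν (h0 k (by omega))
      rw [← a1 j k, star_mul, star_star] at h1
      rw [if_neg h.ne', h1]
  obtain ⟨S, hS⟩ : ∃ S, S = ∑ i ∈ Finset.range M, W ^ i := ⟨_, rfl⟩
  have a3 : (ν (star S * S)).re = M * (ν 1).re := by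
    rw [hS, star_sum, Finset.sum_mul_sum]
    simp only [map_sum, a2]
    rw [Finset.sum_congr rfl fun i hi => (Finset.sum_ite_eq _ i fun _ => ν 1).trans (if_pos hi)]
    simp
  have a4 : ∀ i : ℕ, ‖(1 - W ^ i) * e'‖ ≤ i / M := by
    intro i
    induction i with
    | zero => simp
    | succ i ih =>
      rw [show (1 - W ^ (i + 1)) * e' = W * ((1 - W ^ i) * e') - (W - 1) * e' by
        rw [pow_succ']; noncomm_ring]
      refine (norm_sub_le _ _).trans ?_
      rw [CStarRing.norm_mem_unitary_mul _ hW]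
      push_cast
      rw [add_div]
      exact add_le_add ih hW'
  have a5 : ‖∑ i ∈ Finset.range M, (1 - W ^ i) * e'‖ ≤ M / 2 := by
    refine (norm_sum_le_of_le _ fun i _ => a4 i).trans ?_
    have h1 : ∀ n : ℕ, ∑ i ∈ Finset.range n, (i : ℝ) ≤ n ^ 2 / 2 := by
      intro n
      induction n with
      | zero => simp
      | succ n ih =>
        rw [Finset.sum_range_succ]
        push_cast
        nlinarith
    rw [← Finset.sum_div, div_le_iff₀ hM']
    nlinarith [h1 M]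
  have a6 : (M : ℂ) • e = e * S + (∑ i ∈ Finset.range M, (1 - W ^ i) * e') * e := by
    have h1 : e * S = S * e := by
      rw [hS]
      exact (Commute.sum_left _ _ _ fun i _ => hc.pow_left i).eq.symm
    rw [h1, ← Finset.sum_mul, mul_assoc, he', Finset.sum_sub_distrib, ← hS, ← add_mul]
    simp [Nat.cast_smul_eq_nsmul]
  have a7 := nonAt_add_le ν hν (e * S) ((∑ i ∈ Finset.range M, (1 - W ^ i) * e') * e)
  have a8 := nonAt_mul_le ν hν e S he
  have a9 := nonAt_mul_le ν hν _ e a5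
  have a10 : (ν (star ((M : ℂ) • e) * (M : ℂ) • e)).re = M ^ 2 * (ν (star e * e)).re := by
    simp only [star_smul, smul_mul_assoc, mul_smul_comm, map_smul, smul_eq_mul, star_natCast]
    simp [sq, mul_assoc]
  rw [← a6, a10] at a7
  rw [le_div_iff₀ hM']
  refine le_of_mul_le_mul_left ?_ hM'
  nlinarith

/-- a bump function around `ζ` -/
noncomputable def nonAt_bump (ζ : ℂ) (r : ℝ) (z : ℂ) : ℝ := max 0 (min 1 (2 - ‖z - ζ‖ / r))

theorem nonAt_bump_cont (ζ : ℂ) (r : ℝ) : Continuous (nonAt_bump ζ r) := by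
  unfold nonAt_bump
  fun_prop

theorem nonAt_bump_mem (ζ : ℂ) (r : ℝ) (z : ℂ) :
    0 ≤ nonAt_bump ζ r z ∧ nonAt_bump ζ r z ≤ 1 :=
  ⟨le_max_left _ _, max_le zero_le_one (min_le_left _ _)⟩

theorem nonAt_bump_one {ζ z : ℂ} {r : ℝ} (hr : 0 < r) (h : ‖z - ζ‖ ≤ r) :
    nonAt_bump ζ r z = 1 := by
  have h1 : ‖z - ζ‖ / r ≤ 1 := (div_le_one hr).2 h
  rw [nonAt_bump, min_eq_left (by linarith), max_eq_right zero_le_one]

theorem nonAt_bump_zero {ζ z : ℂ} {r : ℝ} (hr : 0 < r) (h : 2 * r ≤ ‖z - ζ‖) :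
    nonAt_bump ζ r z = 0 := by
  have h1 : 2 ≤ ‖z - ζ‖ / r := (le_div_iff₀ hr).2 h
  exact max_eq_left ((min_le_right _ _).trans (by linarith))

theorem nonAt_point {τ : Q →L[ℂ] ℂ} (hτ : IsTr τ) {Z : Q} (hZ : Z ∈ unitary Q)
    (h0 : ∀ n : ℕ, 1 ≤ n → τ (Z ^ n) = 0) {ζ : ℂ} (hζ : ‖ζ‖ = 1) {M : ℕ} (hM : 0 < M) :
    (τ (cfc (fun z => ((nonAt_bump ζ (1 / (4 * M)) z ^ 2 : ℝ) : ℂ)) Z)).re ≤ 4 / M := by
  have hM' : (0 : ℝ) < M := by exact_mod_cast hM
  have hN : IsStarNormal Z := isStarNormal_of_mem_unitary hZ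
  obtain ⟨r, hr⟩ : ∃ r : ℝ, r = 1 / (4 * M) := ⟨_, rfl⟩
  have hr0 : 0 < r := by rw [hr]; positivity
  have c1 := nonAt_bump_cont ζ r
  have c2 := nonAt_bump_cont ζ (2 * r)
  have hζ' : star ζ * ζ = 1 := by
    rw [Complex.star_def, Complex.conj_mul', hζ]
    simp
  have hW : star ζ • Z ∈ unitary Q := by
    constructor
    · rw [star_smul, star_star, smul_mul_smul_comm, hZ.1, mul_comm, hζ', one_smul]
    · rw [star_smul, star_star, smul_mul_smul_comm, hZ.2, hζ', one_smul]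
  have h := fejer τ hτ.pos (e := cfc (fun z => (nonAt_bump ζ r z : ℂ)) Z)
    (e' := cfc (fun z => (nonAt_bump ζ (2 * r) z : ℂ)) Z) hW
    (fun n hn => by rw [smul_pow, map_smul, h0 n hn, smul_zero]) hM
    (((Commute.refl Z).cfc hN.star_comm_self _).symm.smul_left _)
    (norm_cfc_le zero_le_one fun z _ => by
      rw [Complex.norm_real, Real.norm_of_nonneg (nonAt_bump_mem ζ r z).1]
      exact (nonAt_bump_mem ζ r z).2)
    (by
      rw [← cfc_mul ..]
      refine cfc_congr fun z _ => ?_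
      rcases le_total ‖z - ζ‖ (2 * r) with h | h
      · simp [nonAt_bump_one (by positivity) h]
      · simp [nonAt_bump_zero hr0 h])
    (by
      have e : star ζ • Z - 1 = cfc (fun z : ℂ => star ζ * z - 1) Z := by
        rw [cfc_sub .., cfc_const_mul_id .., cfc_const_one ..]
      rw [e, ← cfc_mul ..]
      refine norm_cfc_le (by positivity) fun z _ => ?_
      have e2 : ‖star ζ * z - 1‖ = ‖z - ζ‖ := by
        rw [← hζ', ← mul_sub, norm_mul, norm_star, hζ, one_mul]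
      have e3 : 1 / (M : ℝ) = 2 * (2 * r) := by
        rw [hr]
        field_simp
        norm_num
      rw [norm_mul, e2, Complex.norm_real, Real.norm_of_nonneg (nonAt_bump_mem ζ _ z).1, e3]
      rcases le_total ‖z - ζ‖ (2 * (2 * r)) with h | h
      · nlinarith [nonAt_bump_mem ζ (2 * r) z, norm_nonneg (z - ζ)]
      · rw [nonAt_bump_zero (by positivity) h, mul_zero]
        positivity)
  rw [← cfc_star, ← cfc_mul ..] at h
  have h1 : (τ 1).re ≤ 1 := by
    refine (Complex.re_le_norm _).trans ((hτ.norm_apply_le 1).trans ?_)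
    rcases subsingleton_or_nontrivial Q with h3 | h3
    · simp [Subsingleton.elim (1 : Q) 0]
    · simp
  rw [← hr]
  have e : (fun z => ((nonAt_bump ζ r z ^ 2 : ℝ) : ℂ)) =
      fun z => star (nonAt_bump ζ r z : ℂ) * (nonAt_bump ζ r z : ℂ) := by
    funext z
    simp [sq]
  rw [e]
  refine h.trans (div_le_div_of_nonneg_right (by linarith) hM'.le)

theorem nonAt_near {z : ℂ} (hz : ‖z‖ = 1) {c s δ r : ℝ} (hs : 0 ≤ s) (hcs : c ^ 2 + s ^ 2 = 1)
    (hr : 0 < r) (h1 : δ ≤ 1) (h2 : 3 * δ ≤ r ^ 2) (h : |z.re - c| ≤ δ) :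
    ‖z - ⟨c, s⟩‖ ≤ r ∨ ‖z - ⟨c, -s⟩‖ ≤ r := by
  have e : z.re ^ 2 + z.im ^ 2 = 1 := by
    have := Complex.sq_norm z
    rw [hz, Complex.normSq_apply] at this
    linarith
  have key : ∀ y : ℝ, 0 ≤ y → z.re ^ 2 + y ^ 2 = 1 → (z.re - c) ^ 2 + (y - s) ^ 2 ≤ r ^ 2 := by
    intro y hy ey
    obtain ⟨h3, h4⟩ := abs_le.1 h
    have b1 : |z.re + c| ≤ 2 := abs_le.2 ⟨by nlinarith [sq_nonneg (z.re + 1), sq_nonneg (c + 1)],
      by nlinarith [sq_nonneg (z.re - 1), sq_nonneg (c - 1)]⟩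
    have b2 : |y ^ 2 - s ^ 2| ≤ δ * 2 := by
      rw [show y ^ 2 - s ^ 2 = -((z.re - c) * (z.re + c)) by linarith, abs_neg, abs_mul]
      exact mul_le_mul h b1 (abs_nonneg _) (by linarith)
    have b3 : (y - s) ^ 2 ≤ |y ^ 2 - s ^ 2| := by
      rcases le_total y s with h5 | h5
      · exact le_trans (by nlinarith) (neg_le_abs _)
      · exact le_trans (by nlinarith) (le_abs_self _)
    nlinarith
  rcases le_total 0 z.im with h5 | h5
  · left
    refine abs_le_of_sq_le_sq' ?_ hr.le |>.2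
    rw [Complex.sq_norm, Complex.normSq_apply]
    have := key z.im h5 e
    simp only [Complex.sub_re, Complex.sub_im]
    linarith
  · right
    refine abs_le_of_sq_le_sq' ?_ hr.le |>.2
    rw [Complex.sq_norm, Complex.normSq_apply]
    have := key (-z.im) (by linarith) (by linarith)
    simp only [Complex.sub_re, Complex.sub_im]
    linarith

theorem nonAt_rePart (hT : ∀ τ ∈ T, IsTr τ) {Z : Q} (hZ : Z ∈ unitary Q)
    (h0 : ∀ τ ∈ T, ∀ n : ℕ, 1 ≤ n → τ (Z ^ n) = 0) (c : ℝ) :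
    NonAt T (rePart Z - (c : ℂ) • (1 : Q)) := by
  intro ε hε
  have hN : IsStarNormal Z := isStarNormal_of_mem_unitary hZ
  obtain ⟨M, hM⟩ := exists_nat_gt (8 / ε)
  have hM' : (0 : ℝ) < M := lt_trans (by positivity) hM
  have hM0 : 0 < M := by exact_mod_cast hM'
  obtain ⟨c', hc1, hc2⟩ : ∃ c' : ℝ, c' ^ 2 ≤ 1 ∧ ∀ x : ℝ, |x| ≤ 1 → |x - c'| ≤ |x - c| := by
    rcases le_total c (-1) with h | h
    · refine ⟨-1, by norm_num, fun x hx => ?_⟩
      rw [abs_of_nonneg (by linarith [(abs_le.1 hx).1])]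
      exact le_trans (by linarith) (le_abs_self _)
    · rcases le_total c 1 with h' | h'
      · exact ⟨c, by nlinarith, fun _ _ => le_rfl⟩
      · refine ⟨1, by norm_num, fun x hx => ?_⟩
        rw [abs_of_nonpos (by linarith [(abs_le.1 hx).2])]
        exact le_trans (by linarith) (neg_le_abs _)
  obtain ⟨s, hs, hcs⟩ : ∃ s : ℝ, 0 ≤ s ∧ c' ^ 2 + s ^ 2 = 1 :=
    ⟨√(1 - c' ^ 2), Real.sqrt_nonneg _, by rw [Real.sq_sqrt (by linarith)]; ring⟩
  have hn : ∀ t : ℝ, t ^ 2 = s ^ 2 → ‖(⟨c', t⟩ : ℂ)‖ = 1 := fun t ht => by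
    rw [← pow_eq_one_iff_of_nonneg (norm_nonneg _) two_ne_zero, Complex.sq_norm,
      Complex.normSq_mk]
    linarith
  obtain ⟨r, hr⟩ : ∃ r : ℝ, r = 1 / (4 * M) := ⟨_, rfl⟩
  have hr0 : 0 < r := by rw [hr]; positivity
  obtain ⟨δ, d0, d1, d2⟩ : ∃ δ : ℝ, 0 < δ ∧ δ ≤ 1 ∧ 3 * δ ≤ r ^ 2 :=
    ⟨min 1 (r ^ 2 / 3), by positivity, min_le_left _ _, by
      linarith [min_le_right 1 (r ^ 2 / 3)]⟩
  refine ⟨δ, d0, fun τ hτ => ?_⟩
  have p1 := nonAt_point (hT τ hτ) hZ (h0 τ hτ) (hn s rfl) hM0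
  have p2 := nonAt_point (hT τ hτ) hZ (h0 τ hτ) (hn (-s) (by ring)) hM0
  rw [← hr] at p1 p2
  have c1 : ∀ ζ, Continuous fun z => ((nonAt_bump ζ r z ^ 2 : ℝ) : ℂ) := fun ζ =>
    Complex.continuous_ofReal.comp ((nonAt_bump_cont ζ r).pow 2)
  have e1 : rePart Z - (c : ℂ) • (1 : Q) =
      cfc (fun z : ℂ => 2⁻¹ * (z + star z) - c * 1) Z := by
    rw [cfc_sub .., cfc_const_mul .., cfc_const_mul .., cfc_add .., cfc_const_one .., cfc_id' ..,
      cfc_star_id .., rePart]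
  have e2 : IsSelfAdjoint (rePart Z - (c : ℂ) • (1 : Q)) := by
    simp [IsSelfAdjoint, rePart, add_comm]
  have e3 : cfc (fun t : ℝ => max (1 - |t| / δ) 0) (rePart Z - (c : ℂ) • (1 : Q)) ≤
      cfc (fun z => ((nonAt_bump ⟨c', s⟩ r z ^ 2 : ℝ) : ℂ)) Z +
        cfc (fun z => ((nonAt_bump ⟨c', -s⟩ r z ^ 2 : ℝ) : ℂ)) Z := by
    rw [cfc_real_eq_complex _ e2, e1, ← cfc_comp' .., ← cfc_add Z _ _ (c1 _).continuousOn
      (c1 _).continuousOn]
    refine cfc_mono (fun z hz => ?_) (by fun_prop) ((c1 _).add (c1 _)).continuousOn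
    have hz1 := spectrum.norm_eq_one_of_unitary hZ hz
    have e4 : (2⁻¹ * (z + star z) - c * 1 : ℂ).re = z.re - c := by
      simp
      ring
    rw [e4, ← Complex.ofReal_add, Complex.real_le_real]
    refine max_le ?_ (by positivity)
    rcases le_total |z.re - c| δ with h | h
    · have h1 : 0 ≤ |z.re - c| / δ := by positivity
      rcases nonAt_near hz1 hs hcs hr0 d1 d2
        ((hc2 _ (hz1 ▸ Complex.abs_re_le_norm z)).trans h) with h2 | h2
      · rw [nonAt_bump_one hr0 h2]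
        nlinarith [sq_nonneg (nonAt_bump ⟨c', -s⟩ r z)]
      · rw [nonAt_bump_one hr0 h2]
        nlinarith [sq_nonneg (nonAt_bump ⟨c', s⟩ r z)]
    · have h1 : 1 ≤ |z.re - c| / δ := (one_le_div d0).2 h
      exact le_trans (by linarith) (add_nonneg (sq_nonneg _) (sq_nonneg _))
  have h1 := (hT τ hτ).re_mono e3
  rw [map_add, Complex.add_re] at h1
  have h2 : 8 / (M : ℝ) ≤ ε := by
    rw [div_lt_iff₀ hε] at hM
    rw [div_le_iff₀ hM']
    linarith
  have h3 : 4 / (M : ℝ) + 4 / M = 8 / M := by ring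
  linarith

/-- the approximate sign function -/
noncomputable def nonAt_g (δ t : ℝ) : ℝ := t * (max δ |t|)⁻¹

theorem nonAt_k_cont {δ : ℝ} (h : 0 < δ) : Continuous fun t : ℝ => (max δ |t|)⁻¹ :=
  Continuous.inv₀ (by fun_prop) fun _ => (h.trans_le (le_max_left _ _)).ne'

theorem nonAt_g_cont {δ : ℝ} (h : 0 < δ) : Continuous (nonAt_g δ) :=
  continuous_id.mul (nonAt_k_cont h)

theorem nonAt_g_abs {δ : ℝ} (h : 0 < δ) (t : ℝ) :
    |nonAt_g δ t| = |t| * (max δ |t|)⁻¹ ∧ 1 - |nonAt_g δ t| = max (1 - |t| / δ) 0 := by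
  have h1 : 0 < max δ |t| := h.trans_le (le_max_left _ _)
  have h2 : |nonAt_g δ t| = |t| * (max δ |t|)⁻¹ := by
    rw [nonAt_g, abs_mul, abs_of_pos (inv_pos.2 h1)]
  refine ⟨h2, ?_⟩
  rw [h2]
  rcases le_total δ |t| with h3 | h3
  · have h4 : 1 ≤ |t| / δ := (one_le_div h).2 h3
    rw [max_eq_right h3, mul_inv_cancel₀ (h.trans_le h3).ne', max_eq_right (by linarith), sub_self]
  · have h4 : |t| / δ ≤ 1 := (div_le_one h).2 h3
    rw [max_eq_left h3, max_eq_left (by linarith), div_eq_mul_inv]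

theorem nonAt_g_le {δ : ℝ} (h : 0 < δ) (t : ℝ) : |nonAt_g δ t| ≤ 1 := by
  have := (nonAt_g_abs h t).2
  linarith [le_max_right (1 - |t| / δ) 0]

theorem nonAt_nrm_le {τ : Q →L[ℂ] ℂ} {x : Q} {ε : ℝ} (hε : 0 ≤ ε)
    (h : (τ (star x * x)).re ≤ ε ^ 2) : nrm τ x ≤ ε := Real.sqrt_le_iff.2 ⟨hε, h⟩

theorem TSat.exists_sgn (hT : TSat α T) {y : Q} (hy : star y = y) (hn : NonAt T y) :
    ∃ b, Symm b ∧ 0 ≤ b * y ∧ Approx T b y := by
  have hy' : IsSelfAdjoint y := hy
  obtain ⟨x, -, hx, -⟩ := hT.sat2 (V := Unit) (ι := Fin 3) (κ := Empty)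
    ![fun x => star (x ()) - x (), fun x => x () * x () - 1,
      fun x => x () * y - cfc (fun t : ℝ => |t|) y] (fun j => j.elim)
    (fun i => by
      fin_cases i
      · exact (Dfn.var ()).star.sub (Dfn.var ())
      · exact ((Dfn.var ()).mul (Dfn.var ())).sub (Dfn.const 1)
      · exact ((Dfn.var ()).mul (Dfn.const y)).sub (Dfn.const _))
    (fun j => j.elim)
    (fun s t ε hε => by
      obtain ⟨δ0, d0, hδ⟩ := hn (ε ^ 2 / 2) (by positivity)
      obtain ⟨δ, d1, d2, d3⟩ : ∃ δ : ℝ, 0 < δ ∧ δ ≤ δ0 ∧ δ ≤ ε :=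
        ⟨min δ0 ε, lt_min d0 hε, min_le_left _ _, min_le_right _ _⟩
      have c1 := nonAt_g_cont d1
      refine ⟨fun _ => cfc (nonAt_g δ) y, fun _ => norm_cfc_le zero_le_one fun t _ =>
        nonAt_g_le d1 t, fun i _ τ hτ => ?_, fun j => j.elim⟩
      fin_cases i
      · refine ((hT.tr τ hτ).nrm_le_norm _).trans ?_
        show ‖star (cfc (nonAt_g δ) y) - cfc (nonAt_g δ) y‖ ≤ ε
        rw [(IsSelfAdjoint.cfc (f := nonAt_g δ) (a := y)).star_eq, sub_self, norm_zero]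
        exact hε.le
      · refine nonAt_nrm_le hε.le ?_
        show (τ (star (cfc (nonAt_g δ) y * cfc (nonAt_g δ) y - 1) *
          (cfc (nonAt_g δ) y * cfc (nonAt_g δ) y - 1))).re ≤ _
        have e1 : cfc (nonAt_g δ) y * cfc (nonAt_g δ) y - 1 =
            cfc (fun t => nonAt_g δ t * nonAt_g δ t - 1) y := by
          rw [cfc_sub .., cfc_mul .., cfc_const_one ..]
        have e2 : star (cfc (fun t => nonAt_g δ t * nonAt_g δ t - 1) y) *
            cfc (fun t => nonAt_g δ t * nonAt_g δ t - 1) y ≤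
            cfc (fun t : ℝ => max (1 - |t| / δ0) 0) y +
              cfc (fun t : ℝ => max (1 - |t| / δ0) 0) y := by
          rw [IsSelfAdjoint.cfc.star_eq, ← cfc_mul .., ← cfc_add ..]
          refine cfc_mono fun t _ => ?_
          have h1 := (nonAt_g_abs d1 t).2
          have h2 := nonAt_g_le d1 t
          have h3 : max (1 - |t| / δ) 0 ≤ max (1 - |t| / δ0) 0 :=
            max_le_max (sub_le_sub_left (div_le_div_of_nonneg_left (abs_nonneg _) d1 d2) _) le_rfl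
          rw [← abs_mul_abs_self (nonAt_g δ t)]
          have h4 := abs_nonneg (nonAt_g δ t)
          generalize |nonAt_g δ t| = a at *
          have h5 : 0 ≤ a * a := by positivity
          have h6 : a * a ≤ 1 := by nlinarith
          nlinarith
        have h1 := (hT.tr τ hτ).re_mono e2
        rw [map_add, Complex.add_re] at h1
        rw [e1]
        linarith [hδ τ hτ]
      · refine ((hT.tr τ hτ).nrm_le_norm _).trans (le_trans ?_ d3)
        show ‖cfc (nonAt_g δ) y * y - cfc (fun t : ℝ => |t|) y‖ ≤ δ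
        have e1 : cfc (nonAt_g δ) y * y - cfc (fun t : ℝ => |t|) y =
            cfc (fun t => nonAt_g δ t * t - |t|) y := by
          rw [cfc_sub .., cfc_mul .., cfc_id' ..]
        rw [e1]
        refine norm_cfc_le d1.le fun t _ => ?_
        have e2 : nonAt_g δ t * t - |t| = -(|t| * max (1 - |t| / δ) 0) := by
          rw [← (nonAt_g_abs d1 t).2, (nonAt_g_abs d1 t).1, nonAt_g, mul_right_comm,
            ← abs_mul_abs_self t]
          ring
        rw [e2, norm_neg, Real.norm_of_nonneg (by positivity)]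
        rcases le_total δ |t| with h3 | h3
        · have h4 : 1 ≤ |t| / δ := (one_le_div d1).2 h3
          rw [max_eq_right (by linarith), mul_zero]
          exact d1.le
        · have h4 : 0 ≤ |t| / δ := by positivity
          have h5 : max (1 - |t| / δ) 0 ≤ 1 := max_le (by linarith) zero_le_one
          nlinarith [abs_nonneg t])
  obtain ⟨b, hb⟩ : ∃ b, b = x () := ⟨_, rfl⟩
  have b1 : star b = b := hb ▸ sub_eq_zero.1 (hx 0)
  have b2 : b * b = 1 := hb ▸ sub_eq_zero.1 (hx 1)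
  have b3 : b * y = cfc (fun t : ℝ => |t|) y := hb ▸ sub_eq_zero.1 (hx 2)
  refine ⟨b, ⟨b1, b2⟩, b3 ▸ cfc_nonneg fun t _ => abs_nonneg t, fun ε hε => ?_⟩
  obtain ⟨δ, d1, hδ⟩ := hn (ε ^ 2) (by positivity)
  have c1 := nonAt_g_cont d1
  have c2 := nonAt_k_cont d1
  refine ⟨nonAt_g δ, c1, fun t => by simp [nonAt_g], nonAt_g_le d1, fun τ hτ =>
    nonAt_nrm_le hε.le (le_trans ((hT.tr τ hτ).re_mono ?_) (hδ τ hτ))⟩
  have e1 : b * cfc (nonAt_g δ) y = cfc (fun t => |nonAt_g δ t|) y := by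
    have h1 : cfc (nonAt_g δ) y = y * cfc (fun t : ℝ => (max δ |t|)⁻¹) y := by
      unfold nonAt_g
      rw [cfc_mul _ _ y (by fun_prop) c2.continuousOn, cfc_id' ..]
    rw [h1, ← mul_assoc, b3, ← cfc_mul _ _ y (by fun_prop) c2.continuousOn]
    exact cfc_congr fun t _ => (nonAt_g_abs d1 t).1.symm
  have e2 : cfc (nonAt_g δ) y * b = cfc (fun t => |nonAt_g δ t|) y := by
    have h1 := congrArg star e1
    rwa [star_mul, b1, IsSelfAdjoint.cfc.star_eq, IsSelfAdjoint.cfc.star_eq] at h1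
  have e3 : star (b - cfc (nonAt_g δ) y) * (b - cfc (nonAt_g δ) y) =
      cfc (fun t => 1 - |nonAt_g δ t| - (|nonAt_g δ t| - nonAt_g δ t * nonAt_g δ t)) y := by
    rw [star_sub, b1, IsSelfAdjoint.cfc.star_eq, sub_mul, mul_sub, mul_sub, b2, e1, e2,
      cfc_sub .., cfc_sub .., cfc_sub .., cfc_mul .., cfc_const_one ..]
  rw [e3]
  refine cfc_mono fun t _ => ?_
  rw [← (nonAt_g_abs d1 t).2, ← abs_mul_abs_self (nonAt_g δ t)]
  nlinarith [nonAt_g_le d1 t, abs_nonneg (nonAt_g δ t)]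

theorem TSat.commute_act (hT : TSat α T) {b y s : Q} (hy : star y = y) (hb : Approx T b y)
    (g : G) (h : Commute (α g y) s) : Commute (α g b) s := by
  refine hT.eq_of_nrm fun ε hε τ hτ => ?_
  obtain ⟨f, hf, -, -, h1⟩ := hb (ε / (2 * (‖s‖ + 1))) (by positivity)
  obtain ⟨τ', hτ', h2⟩ := hT.nrm_act hτ g
  have e1 : α g (cfc f y) = cfc f (α g y) := map_cfc_real (α g : Q →⋆ₐ[ℂ] Q) hy hf
  have e2 : α g b * s - s * α g b = α g (b - cfc f y) * s - s * α g (b - cfc f y) := by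
    rw [map_sub, e1, sub_mul, mul_sub, (h.cfc_real f).eq]
    abel
  have h3 := h1 τ' hτ'
  rw [← h2, le_div_iff₀ (by positivity)] at h3
  have t := hT.tr τ hτ
  rw [e2]
  refine (t.nrm_sub_le _ _).trans ((add_le_add (t.nrm_mul_right _ _) (t.nrm_mul_left _ _)).trans ?_)
  nlinarith [nrm_nonneg τ (α g (b - cfc f y))]

end Vale.Agent.P095
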