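import Vale.Agent.P095.Fields
import Vale.Agent.P095.NonAt

/-! P095: commuting fields of symmetries with a flip symmetry. See skel/P095/BLUEPRINT.md. -/

namespace Vale.Agent.P095

open Filter Topology Vale.Agent.P101 Vale.Agent.P101.F
open scoped ComplexOrder

universe u v w

variable {Q : Type u} [CStarAlgebra Q] {G : Type v} [Group G]
variable {α : G →* (Q ≃⋆ₐ[ℂ] Q)} {T : Set (Q →L[ℂ] ℂ)}


/-- the imaginary part -/
noncomputable def bitsY (z : Q) : Q := rePart ((-Complex.I) • z)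

lemma bitsY_eq (z : Q) :
    bitsY z = (2⁻¹ * Complex.I : ℂ) • star z - (2⁻¹ * Complex.I : ℂ) • z := by
  simp only [bitsY, rePart, star_smul, star_neg, Complex.star_def, Complex.conj_I, neg_neg,
    smul_add, smul_smul, neg_smul, smul_neg]
  abel

lemma bitsY_sa (z : Q) : star (bitsY z) = bitsY z := by
  simp only [bitsY, rePart, star_smul, star_add, star_star, add_comm]
  congr 1
  simp

lemma bitsY_star (z : Q) : bitsY (star z) = -bitsY z := by
  rw [bitsY_eq, bitsY_eq, star_star, neg_sub]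

lemma bitsY_act (g : G) (z : Q) : α g (bitsY z) = bitsY (α g z) := by
  rw [bitsY_eq, bitsY_eq, map_sub, map_smul, map_smul, map_star]

lemma bitsY_commute {z s : Q} (hz : z ∈ unitary Q) (h : Commute z s) : Commute (bitsY z) s := by
  have h1 : Commute (star z) s := by
    have e1 := (Unitary.mem_iff.1 hz).1
    have e2 := (Unitary.mem_iff.1 hz).2
    calc star z * s = star z * s * (z * star z) := by rw [e2, mul_one]
      _ = star z * (s * z) * star z := by simp only [mul_assoc]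
      _ = star z * z * s * star z := by rw [← h.eq]; simp only [mul_assoc]
      _ = s * star z := by rw [e1, one_mul]
  rw [bitsY_eq]
  exact (h1.smul_left _).sub_left (h.smul_left _)

lemma bits_unitary {z : Q} (hz : z ∈ unitary Q) : (-Complex.I) • z ∈ unitary Q := by
  have e1 := (Unitary.mem_iff.1 hz).1
  have e2 := (Unitary.mem_iff.1 hz).2
  rw [Unitary.mem_iff]
  simp [smul_smul, e1, e2]

lemma bits_word_append {L : ℕ} (Z : Fin L → Q) (w w' : List (G × Fin L × Bool)) :
    word α Z (w ++ w') = word α Z w * word α Z w' := by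
  simp only [word, List.map_append, List.prod_append]

/-- a closed algebra of pairs on which the two components have the same trace -/
lemma bits_alg {L : ℕ} (Z : Fin L → Q) (φ : Q →L[ℂ] ℂ) (l : Fin L)
    (h : ∀ w, φ (word α Z w) = φ (word α Z (flipW l w))) :
    ∃ D : StarSubalgebra ℂ (Q × Q), IsClosed (D : Set (Q × Q)) ∧ (∀ x ∈ D, φ x.1 = φ x.2) ∧
      ∀ g l', (α g (Z l'), if l' = l then star (α g (Z l')) else α g (Z l')) ∈ D := by
  obtain ⟨s, hs⟩ : ∃ s : Set (Q × Q), s = {x | ∃ g l',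
    x = (α g (Z l'), if l' = l then star (α g (Z l')) else α g (Z l'))} := ⟨_, rfl⟩
  have h1 : ∀ x ∈ Submonoid.closure (s ∪ star s),
      ∃ w, x = (word α Z w, word α Z (flipW l w)) := by
    intro x hx
    induction hx using Submonoid.closure_induction with
    | mem x hx =>
      rcases hx with hx | hx
      · rw [hs] at hx
        obtain ⟨g, l', rfl⟩ := hx
        refine ⟨[(g, l', true)], ?_⟩
        by_cases e : l' = l <;> simp [word, flipW, e]
      · rw [Set.mem_star, hs] at hx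
        obtain ⟨g, l', hx⟩ := hx
        refine ⟨[(g, l', false)], ?_⟩
        rw [← star_star x, hx, Prod.star_def]
        by_cases e : l' = l <;> simp [word, flipW, e]
    | one => exact ⟨[], rfl⟩
    | mul x y _ _ hx hy =>
      obtain ⟨w, rfl⟩ := hx
      obtain ⟨w', rfl⟩ := hy
      refine ⟨w ++ w', ?_⟩
      have e : flipW l (w ++ w') = flipW l w ++ flipW l w' := List.map_append
      rw [e, bits_word_append, bits_word_append]
      rfl
  have h2 : ∀ x ∈ StarAlgebra.adjoin ℂ s, φ x.1 = φ x.2 := by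
    intro x hx
    have hx' : x ∈ Subalgebra.toSubmodule (Algebra.adjoin ℂ (s ∪ star s)) := hx
    rw [Algebra.adjoin_eq_span] at hx'
    clear hx
    induction hx' using Submodule.span_induction with
    | mem x hx =>
      obtain ⟨w, rfl⟩ := h1 x hx
      exact h w
    | zero => rfl
    | add x y _ _ hx hy => rw [Prod.fst_add, Prod.snd_add, map_add, map_add, hx, hy]
    | smul c x _ hx => rw [Prod.smul_fst, Prod.smul_snd, map_smul, map_smul, hx]
  refine ⟨(StarAlgebra.adjoin ℂ s).topologicalClosure,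
    StarSubalgebra.isClosed_topologicalClosure _, fun x hx => ?_, fun g l' => ?_⟩
  · exact closure_minimal (t := {x : Q × Q | φ x.1 = φ x.2}) h2
      (isClosed_eq (φ.continuous.comp continuous_fst) (φ.continuous.comp continuous_snd)) hx
  · exact StarSubalgebra.le_topologicalClosure _
      (StarAlgebra.subset_adjoin ℂ s (hs ▸ ⟨g, l', rfl⟩))

lemma bits_cfc_gen {X : Type w} [CStarAlgebra X] (D : StarSubalgebra ℂ X)
    (hD : IsClosed (D : Set X)) (π₁ π₂ : X →⋆ₐ[ℂ] Q) {a : X} (ha : a ∈ D) (hs : star a = a)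
    {f : ℝ → ℝ} (hf : Continuous f) : ∃ b ∈ D, π₁ b = cfc f (π₁ a) ∧ π₂ b = cfc f (π₂ a) :=
  ⟨cfc f a, cfc_mem (𝕜' := ℂ) f ha, map_cfc_real π₁ hs hf, map_cfc_real π₂ hs hf⟩

lemma bits_cfc_pair (D : StarSubalgebra ℂ (Q × Q)) (hD : IsClosed (D : Set (Q × Q))) {x x' : Q}
    (h : (x, x') ∈ D) (hx : star x = x) (hx' : star x' = x') {f : ℝ → ℝ}
    (hf : Continuous f) : (cfc f x, cfc f x') ∈ D := by
  obtain ⟨⟨b, b'⟩, h1, h2, h3⟩ := bits_cfc_gen D hD (StarAlgHom.fst ℂ Q Q) (StarAlgHom.snd ℂ Q Q)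
    h (by rw [Prod.star_def, hx, hx']) hf
  have h4 : b = cfc f x := h2
  have h5 : b' = cfc f x' := h3
  rwa [← h4, ← h5]

lemma bits_cfc_odd {x : Q} (hx : star x = x) {f : ℝ → ℝ} (hf : Continuous f)
    (ho : ∀ t, f (-t) = -f t) : cfc f (-x) = -cfc f x := by
  have hx' : IsSelfAdjoint x := hx
  rw [← cfc_comp_neg f x hf.continuousOn hx', ← cfc_neg]
  simp only [ho]

lemma bits_prod_sign {ι : Type*} (P : ι → Prop) [DecidablePred P] (c : ι → Q) (w : List ι) :
    (w.map fun p => (c p, if P p then -c p else c p)).prod =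
      ((w.map c).prod, (-1 : ℂ) ^ (w.countP fun p => P p) • (w.map c).prod) := by
  induction w with
  | nil => simp [Prod.one_eq_mk]
  | cons a w ih =>
    rw [List.map_cons, List.prod_cons, ih, List.map_cons, List.prod_cons, List.countP_cons,
      Prod.mk_mul_mk]
    by_cases h : P a <;> simp [h, pow_succ]

lemma bits_vanish {L : ℕ} (Z : Fin L → Q) (φ : Q →L[ℂ] ℂ) (l : Fin L)
    (h : ∀ w, φ (word α Z w) = φ (word α Z (flipW l w))) (f : Fin L → ℝ → ℝ)
    (hf : ∀ l, Continuous (f l)) (ho : ∀ l t, f l (-t) = -f l t) (w : List (G × Fin L))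
    (hw : Odd (w.countP fun p => p.2 = l)) :
    φ (w.map fun p => cfc (f p.2) (bitsY (α p.1 (Z p.2)))).prod = 0 := by
  obtain ⟨D, hD, h1, h2⟩ := bits_alg Z φ l h
  have h3 : ∀ p : G × Fin L, (cfc (f p.2) (bitsY (α p.1 (Z p.2))),
      if p.2 = l then -cfc (f p.2) (bitsY (α p.1 (Z p.2)))
      else cfc (f p.2) (bitsY (α p.1 (Z p.2)))) ∈ D := by
    intro p
    have h4 : (bitsY (α p.1 (Z p.2)),
        bitsY (if p.2 = l then star (α p.1 (Z p.2)) else α p.1 (Z p.2))) ∈ D := by
      rw [bitsY_eq, bitsY_eq]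
      exact sub_mem (D.smul_mem (star_mem (h2 p.1 p.2)) _) (D.smul_mem (h2 p.1 p.2) _)
    have h6 := bits_cfc_pair D hD h4 (bitsY_sa _) (bitsY_sa _) (hf p.2)
    split_ifs at h6 ⊢ with e
    · rwa [bitsY_star, bits_cfc_odd (bitsY_sa _) (hf _) (ho _)] at h6
    · exact h6
  have h4 := h1 _ (list_prod_mem (l := w.map fun p : G × Fin L =>
    (cfc (f p.2) (bitsY (α p.1 (Z p.2))), if p.2 = l then -cfc (f p.2) (bitsY (α p.1 (Z p.2)))
      else cfc (f p.2) (bitsY (α p.1 (Z p.2))))) fun x hx => by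
    obtain ⟨p, _, rfl⟩ := List.mem_map.1 hx
    exact h3 p)
  rw [bits_prod_sign (fun p : G × Fin L => p.2 = l), hw.neg_one_pow] at h4
  simp only [neg_smul, one_smul, map_neg] at h4
  linear_combination (2⁻¹ : ℂ) * h4

theorem TSat.exists_bits (hT : TSat α T) [Countable G] (S : Set Q) (hS : S.Countable) (L : ℕ) :
    ∃ b : Fin L → Q, (∀ l, Symm (b l)) ∧ (∀ g l, ∀ s ∈ S, Commute (α g (b l)) s) ∧
      (∀ g g' l l', Commute (α g (b l)) (α g' (b l'))) ∧
      ∀ y ∈ S, ∀ τ ∈ T, ∀ (w : List (G × Fin L)) (l : Fin L), Odd (w.countP fun p => p.2 = l) →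
        τ (y * (w.map fun p => α p.1 (b p.2)).prod) = 0 := by
  obtain ⟨Z, hZ, h1, h2, h3, h4⟩ := hT.exists_fields S hS L
  have hna : ∀ l, NonAt T (bitsY (Z l)) := by
    intro l
    have := nonAt_rePart hT.tr (bits_unitary (hZ l)) (fun τ hτ n hn => by
      rw [smul_pow, map_smul, h3 l τ hτ n hn, smul_zero]) 0
    rwa [Complex.ofReal_zero, zero_smul, sub_zero] at this
  choose b hb _ hap using fun l => hT.exists_sgn (bitsY_sa (Z l)) (hna l)
  have hu : ∀ g l, α g (Z l) ∈ unitary Q := fun g l => Unitary.map_mem (α g) (hZ l)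
  have hc : ∀ g l s, Commute (α g (Z l)) s → Commute (α g (b l)) s := fun g l s h =>
    hT.commute_act (bitsY_sa _) (hap l) g (by rw [bitsY_act]; exact bitsY_commute (hu g l) h)
  refine ⟨b, hb, fun g l s hs => hc g l s (h1 g l s hs),
    fun g g' l l' => hc g l _ (hc g' l' _ (h2 g' g l' l)).symm, fun y hy τ hτ w l hw => ?_⟩
  have ht := hT.tr τ hτ
  refine norm_le_zero_iff.1 (le_of_forall_pos_le_add fun ε hε => ?_)
  have hK : 0 < ‖y‖ * w.length + 1 := by positivity
  choose f hf ho hf1 hfa using fun l => hap l (ε / (‖y‖ * w.length + 1)) (by positivity)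
  have h5 := bits_vanish (α := α) Z (τ.comp (ContinuousLinearMap.mul ℂ Q y)) l
    (fun w => h4 y hy τ hτ w l) f hf ho w hw
  have h6 := ht.nrm_prod_sub w (fun p => α p.1 (b p.2))
    (fun p => cfc (f p.2) (bitsY (α p.1 (Z p.2)))) (ε := ε / (‖y‖ * w.length + 1))
    (fun p _ => ((hb p.2).act p.1).norm_le)
    (fun p _ => norm_cfc_le zero_le_one fun t _ => hf1 p.2 t) (fun p _ => by
      obtain ⟨τ', hτ', e⟩ := hT.nrm_act hτ p.1
      have e2 := map_cfc_real (α p.1 : Q →⋆ₐ[ℂ] Q) (bitsY_sa (Z p.2)) (hf p.2)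
      have e3 : α p.1 (cfc (f p.2) (bitsY (Z p.2))) = cfc (f p.2) (α p.1 (bitsY (Z p.2))) := e2
      rw [← bitsY_act, ← e3, ← map_sub, e]
      exact hfa p.2 τ' hτ')
  have h7 : τ (y * (w.map fun p => cfc (f p.2) (bitsY (α p.1 (Z p.2)))).prod) = 0 := h5
  rw [← sub_zero (τ _), ← h7, ← map_sub, ← mul_sub, zero_add]
  refine (ht.norm_le_nrm _).trans ((ht.nrm_mul_left _ _).trans
    ((mul_le_mul_of_nonneg_left h6 (norm_nonneg y)).trans ?_))
  rw [← mul_assoc, mul_div_assoc', div_le_iff₀ hK]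
  nlinarith

end Vale.Agent.P095
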