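import Vale.Agent.P095.Tools

/-! P095: commutative subalgebras and functions of commuting symmetries. See skel/P095/BLUEPRINT.md. -/

namespace Vale.Agent.P095

open Filter Topology Vale.Agent.P101 Vale.Agent.P101.F
open scoped ComplexOrder

universe u v w

variable {Q : Type u} [CStarAlgebra Q] {G : Type v} [Group G]

theorem BitsHom_gel (S : Set Q) (hS : ∀ x ∈ S, ∀ y ∈ S, Commute x y ∧ Commute x (star y)) :
    ∃ (D : StarSubalgebra ℂ Q) (X : Type u) (_ : TopologicalSpace X) (_ : CompactSpace X)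
      (e : D ≃⋆ₐ[ℂ] C(X, ℂ)), S ⊆ D ∧ IsClosed (D : Set Q) ∧ ∀ x, ‖e x‖ = ‖(x : Q)‖ := by
  have h1 := StarAlgebra.isMulCommutative_adjoin ℂ (fun x hx y hy => (hS x hx y hy).1.eq)
    fun x hx y hy => (hS x hx y hy).2.eq
  let D := (StarAlgebra.adjoin ℂ S).topologicalClosure
  have h2 : IsClosed (D : Set Q) := StarSubalgebra.isClosed_topologicalClosure _
  have h3 : ∀ x y : D, x * y = y * x :=
    (StarSubalgebra.commRingTopologicalClosure _ h1.is_comm.comm).mul_comm
  let _ : CommCStarAlgebra D := { StarSubalgebra.cstarAlgebra D with mul_comm := h3 }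
  exact ⟨D, _, _, inferInstance, gelfandStarTransform D,
    (StarAlgebra.subset_adjoin ℂ S).trans (StarSubalgebra.le_topologicalClosure _), h2,
    fun x => StarAlgEquiv.norm_map (gelfandStarTransform D) x⟩

/-- norms in a commutative subalgebra are computed by characters -/
theorem exists_comm_sub (S : Set Q) (hS : ∀ x ∈ S, ∀ y ∈ S, Commute x y ∧ Commute x (star y)) :
    ∃ D : StarSubalgebra ℂ Q, S ⊆ D ∧ IsClosed (D : Set Q) ∧ (∀ x ∈ D, ∀ y ∈ D, Commute x y) ∧
      (∀ (x : D) (C : ℝ), 0 ≤ C → (∀ χ : D →⋆ₐ[ℂ] ℂ, ‖χ x‖ ≤ C) → ‖(x : Q)‖ ≤ C) ∧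
      ∀ x : D, 0 ≤ (x : Q) ↔ ∀ χ : D →⋆ₐ[ℂ] ℂ, 0 ≤ χ x := by
  obtain ⟨D, X, _, _, e, h1, h2, h3⟩ := BitsHom_gel S hS
  let ev : X → (D →⋆ₐ[ℂ] ℂ) := fun t => (ContinuousMap.evalStarAlgHom ℂ ℂ t).comp e
  refine ⟨D, h1, h2, fun x hx y hy => ?_, fun x C hC h => ?_, fun x => ⟨fun h χ => ?_, fun h => ?_⟩⟩
  · exact congrArg Subtype.val (e.injective (a₁ := ⟨x, hx⟩ * ⟨y, hy⟩) (a₂ := ⟨y, hy⟩ * ⟨x, hx⟩)
      (by rw [map_mul, map_mul, mul_comm]))
  · rw [← h3]
    exact (ContinuousMap.norm_le _ hC).2 fun t => h (ev t)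
  · have h4 := AlgHom.apply_mem_spectrum χ x
    rw [StarSubalgebra.spectrum_eq] at h4
    exact spectrum_nonneg_of_nonneg h h4
  · let g : C(X, ℂ) := ⟨fun t => (√(e x t).re : ℝ), by fun_prop⟩
    have h4 : e x = star g * g := by
      ext t
      have h5 : 0 ≤ e x t := h (ev t)
      simp only [g, ContinuousMap.mul_apply, ContinuousMap.star_apply, ContinuousMap.coe_mk,
        RCLike.star_def, Complex.conj_ofReal, ← Complex.ofReal_mul,
        Real.mul_self_sqrt (Complex.nonneg_iff.1 h5).1]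
      exact (Complex.eq_re_of_ofReal_le h5)
    have h5 : x = star (e.symm g) * e.symm g := by
      rw [← map_star, ← map_mul, ← h4, e.symm_apply_apply]
    rw [h5]
    exact star_mul_self_nonneg (e.symm g : Q)

theorem sgn_induction {ι : Type*} {p : C(ι → Bool, ℂ) → Prop} (hc : IsClosed {f | p f})
    (hw : ∀ w : List ι, p (w.map sgn).prod) (h0 : p 0) (hadd : ∀ f g, p f → p g → p (f + g))
    (hsmul : ∀ (c : ℂ) f, p f → p (c • f)) (f : C(ι → Bool, ℂ)) : p f := by
  have h1 := ContinuousMap.starSubalgebra_topologicalClosure_eq_top_of_separatesPoints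
    (StarAlgebra.adjoin ℂ (Set.range (sgn (ι := ι)))) fun x y hxy => by
      obtain ⟨i, hi⟩ := Function.ne_iff.1 hxy
      refine ⟨_, ⟨sgn i, StarAlgebra.subset_adjoin ℂ _ ⟨i, rfl⟩, rfl⟩, ?_⟩
      simp only [sgn, ContinuousMap.coe_mk]
      cases hx : x i <;> cases hy : y i <;> simp_all <;> norm_num
  have h2 : f ∈ closure (StarAlgebra.adjoin ℂ (Set.range (sgn (ι := ι))) : Set C(ι → Bool, ℂ)) := by
    rw [← StarSubalgebra.topologicalClosure_coe, h1]
    trivial
  refine closure_minimal (fun g hg => ?_) hc h2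
  have h3 : g ∈ Subalgebra.toSubmodule
    (StarAlgebra.adjoin ℂ (Set.range (sgn (ι := ι)))).toSubalgebra := hg
  rw [StarAlgebra.adjoin_toSubalgebra, Algebra.adjoin_eq_span] at h3
  clear hg
  induction h3 using Submodule.span_induction with
  | zero => exact h0
  | add f g _ _ h h' => exact hadd f g h h'
  | smul c f _ h => exact hsmul c f h
  | mem g hg =>
    suffices ∃ w : List ι, g = (w.map sgn).prod from this.elim fun w h => h ▸ hw w
    induction hg using Submonoid.closure_induction with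
    | one => exact ⟨[], rfl⟩
    | mul f g _ _ h h' =>
      obtain ⟨w, rfl⟩ := h
      obtain ⟨w', rfl⟩ := h'
      exact ⟨w ++ w', by simp⟩
    | mem g hg =>
      rcases hg with ⟨i, rfl⟩ | ⟨i, hi⟩
      · exact ⟨[i], by simp⟩
      · refine ⟨[i], ?_⟩
        rw [← star_star g, ← hi]
        ext x
        cases hx : x i <;> simp [sgn, hx]

theorem exists_bitsHom {ι : Type*} (b : ι → Q) (hb : ∀ i, Symm (b i))
    (hc : ∀ i j, Commute (b i) (b j)) :
    ∃ P : C(ι → Bool, ℂ) →⋆ₐ[ℂ] Q, ∀ i, P (sgn i) = b i := by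
  classical
  obtain ⟨D, X, _, _, e, h1, -, -⟩ := BitsHom_gel (Set.range b) (by
    rintro _ ⟨i, rfl⟩ _ ⟨j, rfl⟩
    exact ⟨hc i j, (hb j).sa.symm ▸ hc i j⟩)
  let f : ι → C(X, ℂ) := fun i => e ⟨b i, h1 ⟨i, rfl⟩⟩
  have h2 : ∀ i t, f i t = 1 ∨ f i t = -1 := fun i t => by
    have h3 : f i * f i = 1 := by
      rw [← map_mul, ← map_one e]
      exact congrArg e (Subtype.ext (hb i).sq)
    exact mul_self_eq_one_iff.1 (congrArg (· t) h3)
  let m : C(X, ι → Bool) := ⟨fun t i => decide (f i t = 1), continuous_pi fun i => by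
    refine (continuous_bool_rng true).2 ⟨?_, ?_⟩
    · simpa [Set.preimage] using isClosed_eq (f i).continuous continuous_const
    · have h3 := (isClosed_eq (f i).continuous (continuous_const (y := (-1 : ℂ)))).isOpen_compl
      rwa [show {t | f i t = -1}ᶜ = (fun t => decide (f i t = 1)) ⁻¹' {true} from
        Set.ext fun t => by rcases h2 i t with h | h <;> simp [h] <;> norm_num] at h3⟩
  refine ⟨D.subtype.comp ((e.symm : C(X, ℂ) →⋆ₐ[ℂ] D).comp
    (ContinuousMap.compStarAlgHom' ℂ ℂ m)), fun i => ?_⟩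
  have h3 : (sgn i).comp m = f i := by
    ext t
    rcases h2 i t with h | h <;> simp [sgn, m, h]
    norm_num
  exact congrArg Subtype.val ((congrArg e.symm h3).trans (e.symm_apply_apply _))

theorem bits_commute {ι : Type*} (P : C(ι → Bool, ℂ) →⋆ₐ[ℂ] Q) {y : Q}
    (h : ∀ i, Commute (P (sgn i)) y) (f : C(ι → Bool, ℂ)) : Commute (P f) y := by
  have hP := map_continuous P
  refine sgn_induction (p := fun f => Commute (P f) y) (isClosed_eq (by fun_prop) (by fun_prop))
    (fun w => ?_) (by simp) (fun f g h1 h2 => ?_) (fun c f h1 => ?_) f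
  · rw [map_list_prod]
    refine Commute.list_prod_left _ _ fun x hx => ?_
    simp only [List.map_map, List.mem_map] at hx
    obtain ⟨i, -, rfl⟩ := hx
    exact h i
  · rw [map_add]
    exact h1.add_left h2
  · rw [map_smul]
    exact h1.smul_left c

theorem bits_shift {L : ℕ} (α : G →* (Q ≃⋆ₐ[ℂ] Q)) (e : Fin L → Q)
    (P : C(G × Fin L → Bool, ℂ) →⋆ₐ[ℂ] Q) (hP : ∀ g l, P (sgn (g, l)) = α g (e l)) (s : G)
    (f : C(G × Fin L → Bool, ℂ)) : α s (P f) = P (f.comp (shiftG s)) := by
  let A := (α s : Q →⋆ₐ[ℂ] Q).comp P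
  let B := P.comp (ContinuousMap.compStarAlgHom' ℂ ℂ (shiftG (L := L) s))
  refine sgn_induction (p := fun f => A f = B f)
    (isClosed_eq (map_continuous A) (map_continuous B)) (fun w => ?_) (by simp)
    (fun f g h1 h2 => by rw [map_add, map_add, h1, h2])
    (fun c f h1 => by rw [map_smul, map_smul, h1]) f
  rw [map_list_prod, map_list_prod, List.map_map, List.map_map]
  refine congrArg _ (List.map_congr_left fun p _ => ?_)
  change α s (P (sgn (p.1, p.2))) = P (sgn (s * p.1, p.2))
  rw [hP, hP, map_mul]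
  rfl

theorem bits_flip {L : ℕ} (P : C(G × Fin L → Bool, ℂ) →⋆ₐ[ℂ] Q) (τ : Q →L[ℂ] ℂ) (y : Q)
    (h : ∀ (w : List (G × Fin L)) (l : Fin L), Odd (w.countP fun p => p.2 = l) →
      τ (y * (w.map fun p => P (sgn p)).prod) = 0) (t : Fin L → Bool)
    (f : C(G × Fin L → Bool, ℂ)) : τ (y * P (f.comp (flipX G t))) = τ (y * P f) := by
  let B := P.comp (ContinuousMap.compStarAlgHom' ℂ ℂ (flipX G t))
  have hP := map_continuous P
  have hB := map_continuous B
  refine sgn_induction (p := fun f => τ (y * B f) = τ (y * P f))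
    (isClosed_eq (by fun_prop) (by fun_prop)) (fun w => ?_) (by simp)
    (fun f g h1 h2 => by simp only [map_add, mul_add, h1, h2])
    (fun c f h1 => by simp only [map_smul, mul_smul_comm, h1]) f
  let c : Fin L → ℂ := fun l => if t l then -1 else 1
  have h1 : ∀ p, B (sgn p) = c p.2 • P (sgn p) := fun p => by
    rw [← map_smul]
    refine congrArg P (ContinuousMap.ext fun x => ?_)
    cases hx : x p <;> cases ht : t p.2 <;> simp [sgn, flipX, c, hx, ht]
  have h2 : B (w.map sgn).prod = ((w.map Prod.snd).map c).prod • P (w.map sgn).prod := by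
    induction w with
    | nil => simp
    | cons p w ih =>
      simp only [List.map_cons, List.prod_cons, map_mul, ih, h1, smul_mul_smul_comm]
  rw [h2, mul_smul_comm, map_smul]
  by_cases h3 : ∃ l, Odd (w.countP fun p => p.2 = l)
  · obtain ⟨l, hl⟩ := h3
    have h4 : τ (y * P (w.map sgn).prod) = 0 := by
      rw [map_list_prod, List.map_map]
      exact h w l hl
    rw [h4, smul_zero]
  · rw [Finset.prod_list_map_count, Finset.prod_eq_one, one_smul]
    intro l _
    have h4 : Even ((w.map Prod.snd).count l) := by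
      rw [List.count_eq_countP, List.countP_map]
      exact Nat.not_odd_iff_even.1 fun ho => h3 ⟨l, ho⟩
    simp only [c]
    split_ifs
    · exact h4.neg_one_pow
    · exact one_pow _

theorem continuous_of_local {ι Y : Type*} [TopologicalSpace Y] (F : Finset ι)
    (f : (ι → Bool) → Y) (h : ∀ x y, (∀ i ∈ F, x i = y i) → f x = f y) : Continuous f := by
  classical
  have h1 : f = (fun z : F → Bool => f fun i => if h : i ∈ F then z ⟨i, h⟩ else false) ∘
      fun x i => x i := funext fun x => h _ _ fun i hi => by simp [hi]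
  rw [h1]
  exact continuous_of_discreteTopology.comp (by fun_prop)

theorem loc_flipX {L : ℕ} (F : Finset G) (t : Fin L → Bool) (x : G × Fin L → Bool) :
    loc F (flipX G t x) = (loc F x).map (xorB t) := by
  simp only [loc, Multiset.map_map]
  rfl

theorem card_loc {L : ℕ} (F : Finset G) (x : G × Fin L → Bool) :
    Multiset.card (loc F x) = F.card := by
  simp [loc]

open Classical in
theorem card_loc_sub {L : ℕ} (F : Finset G) (s : G) (x : G × Fin L → Bool) :
    Multiset.card (loc F x - loc F (shiftG s x)) ≤ (F.filter fun g => s * g ∉ F).card := by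
  have h1 : loc F (shiftG s x) = loc (F.image (s * ·)) x := by
    rw [loc, loc, Finset.image_val_of_injOn (mul_right_injective s).injOn, Multiset.map_map]
    rfl
  have h2 : loc F x - loc (F.image (s * ·)) x ≤ loc (F \ F.image (s * ·)) x := by
    rw [tsub_le_iff_right, loc, loc, loc, ← Multiset.map_add, Finset.sdiff_val]
    exact Multiset.map_le_map le_tsub_add
  rw [h1]
  refine (Multiset.card_le_card h2).trans ?_
  rw [card_loc, Finset.card_sdiff_comm (Finset.card_image_of_injective _ (mul_right_injective s)).symm]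
  refine (Finset.card_le_card fun g hg => ?_).trans (Finset.card_image_le (f := (s * ·)))
  obtain ⟨h3, h4⟩ := Finset.mem_sdiff.1 hg
  obtain ⟨a, ha, rfl⟩ := Finset.mem_image.1 h3
  exact Finset.mem_image_of_mem _ (Finset.mem_filter.2 ⟨ha, h4⟩)

end Vale.Agent.P095
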