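import Vale.Agent.P095.SubBasic_a

/-! P095: a trace from a state, after Cuntz and Pedersen. See skel/P095/BLUEPRINT.md. -/

namespace Vale.Agent.P095

open Filter Topology Vale.Agent.P101 Vale.Agent.P101.F
open scoped ComplexOrder

universe u v w

variable {B : Type u} [CStarAlgebra B]

section

variable {a' x y : B}

theorem cp_add (hx : x ∈ her a') (hy : y ∈ her a') : x + y ∈ her a' :=
  ⟨by rw [mul_add, hx.1, hy.1], by rw [add_mul, hx.2, hy.2]⟩

theorem cp_sub (hx : x ∈ her a') (hy : y ∈ her a') : x - y ∈ her a' :=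
  ⟨by rw [mul_sub, hx.1, hy.1], by rw [sub_mul, hx.2, hy.2]⟩

theorem cp_smul (c : ℂ) (hx : x ∈ her a') : c • x ∈ her a' :=
  ⟨by rw [mul_smul_comm, hx.1], by rw [smul_mul_assoc, hx.2]⟩

theorem cp_rsmul (c : ℝ) (hx : x ∈ her a') : c • x ∈ her a' :=
  ⟨by rw [mul_smul_comm, hx.1], by rw [smul_mul_assoc, hx.2]⟩

theorem cp_mul (hx : x ∈ her a') (hy : y ∈ her a') : x * y ∈ her a' :=
  ⟨by rw [← mul_assoc, hx.1], by rw [mul_assoc, hy.2]⟩

theorem cp_star (ha : star a' = a') (hx : x ∈ her a') : star x ∈ her a' :=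
  ⟨by rw [← ha, ← star_mul, hx.2], by rw [← ha, ← star_mul, hx.1]⟩

theorem cp_of_le (ha : star a' = a') (hx : star x = x) (h : x * x ≤ y) (hy : y ∈ her a') :
    x ∈ her a' := by
  have h1 : a' * x = x := sb_unit_of_le (by rwa [hx]) hy.1
  exact ⟨h1, by rw [← hx, ← ha, ← star_mul, h1]⟩

theorem cp_parts (ha : star a' = a') (hx : x ∈ her a') (s : star x = x) :
    x⁺ ∈ her a' ∧ x⁻ ∈ her a' := by
  have e : x * x = x⁺ * x⁺ + x⁻ * x⁻ := by
    conv_lhs => rw [← CFC.posPart_sub_negPart x s]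
    rw [sub_mul, mul_sub, mul_sub, CFC.posPart_mul_negPart, CFC.negPart_mul_posPart]
    abel
  have h1 := (CFC.posPart_nonneg x).star_eq
  have h2 := (CFC.negPart_nonneg x).star_eq
  refine ⟨cp_of_le ha h1 ?_ (cp_mul hx hx), cp_of_le ha h2 ?_ (cp_mul hx hx)⟩
  · exact e ▸ le_add_of_nonneg_right (by simpa only [h2] using star_mul_self_nonneg x⁻)
  · exact e ▸ le_add_of_nonneg_left (by simpa only [h1] using star_mul_self_nonneg x⁺)

theorem cp_reim (ha : star a' = a') (hx : x ∈ her a') :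
    (realPart x : B) ∈ her a' ∧ (imaginaryPart x : B) ∈ her a' := by
  rw [realPart_apply_coe, imaginaryPart_apply_coe]
  exact ⟨cp_rsmul _ (cp_add hx (cp_star ha hx)),
    cp_smul _ (cp_rsmul _ (cp_sub hx (cp_star ha hx)))⟩

end

/-- an additive homogeneous function on the positive cone extends to a functional -/
theorem exists_traceOn {a' : B} (ha : star a' = a') (p : B → ℝ)
    (h0 : ∀ x ∈ her a', 0 ≤ x → 0 ≤ p x ∧ p x ≤ ‖x‖)
    (hadd : ∀ x ∈ her a', ∀ y ∈ her a', 0 ≤ x → 0 ≤ y → p (x + y) = p x + p y)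
    (hsmul : ∀ c : ℝ, 0 ≤ c → ∀ x ∈ her a', 0 ≤ x → p (c • x) = c * p x)
    (htr : ∀ z ∈ her a', p (star z * z) = p (z * star z)) :
    ∃ τ, IsTraceOn (her a') τ ∧ ∀ x ∈ her a', 0 ≤ x → τ x = p x := by
  obtain ⟨q, hq⟩ : ∃ q : B → ℝ, ∀ x, q x = p x⁺ - p x⁻ := ⟨_, fun _ => rfl⟩
  have q1 : ∀ u ∈ her a', ∀ v ∈ her a', 0 ≤ u → 0 ≤ v → q (u - v) = p u - p v := by
    intro u hu v hv u0 v0
    have s := (u0.isSelfAdjoint.sub v0.isSelfAdjoint).star_eq
    have m := cp_parts ha (cp_sub hu hv) s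
    have e : (u - v)⁺ + v = u + (u - v)⁻ := by
      rw [← sub_eq_sub_iff_add_eq_add, CFC.posPart_sub_negPart _ s]
    have h1 := hadd _ m.1 _ hv (CFC.posPart_nonneg _) v0
    have h2 := hadd _ hu _ m.2 u0 (CFC.negPart_nonneg _)
    rw [e] at h1
    rw [hq]
    linarith
  have q2 : ∀ x ∈ her a', ∀ y ∈ her a', star x = x → star y = y → q (x + y) = q x + q y := by
    intro x hx y hy sx sy
    have mx := cp_parts ha hx sx
    have my := cp_parts ha hy sy
    have e : x + y = (x⁺ + y⁺) - (x⁻ + y⁻) := by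
      rw [← sub_add_sub_comm, CFC.posPart_sub_negPart _ sx, CFC.posPart_sub_negPart _ sy]
    rw [e, q1 _ (cp_add mx.1 my.1) _ (cp_add mx.2 my.2)
      (add_nonneg (CFC.posPart_nonneg _) (CFC.posPart_nonneg _))
      (add_nonneg (CFC.negPart_nonneg _) (CFC.negPart_nonneg _)),
      hadd _ mx.1 _ my.1 (CFC.posPart_nonneg _) (CFC.posPart_nonneg _),
      hadd _ mx.2 _ my.2 (CFC.negPart_nonneg _) (CFC.negPart_nonneg _), hq, hq]
    ring
  have q3 : ∀ (c : ℝ), ∀ x ∈ her a', star x = x → q (c • x) = c * q x := by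
    intro c x hx sx
    have mx := cp_parts ha hx sx
    have p0 := CFC.posPart_nonneg x
    have n0 := CFC.negPart_nonneg x
    rcases le_total 0 c with hc | hc
    · have e : c • x = c • x⁺ - c • x⁻ := by rw [← smul_sub, CFC.posPart_sub_negPart _ sx]
      rw [e, q1 _ (cp_rsmul c mx.1) _ (cp_rsmul c mx.2) (smul_nonneg hc p0) (smul_nonneg hc n0),
        hsmul c hc _ mx.1 p0, hsmul c hc _ mx.2 n0, hq]
      ring
    · have hc' := neg_nonneg.2 hc
      have e : c • x = (-c) • x⁻ - (-c) • x⁺ := by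
        rw [← smul_sub, ← neg_sub, CFC.posPart_sub_negPart _ sx, neg_smul_neg]
      rw [e, q1 _ (cp_rsmul _ mx.2) _ (cp_rsmul _ mx.1) (smul_nonneg hc' n0) (smul_nonneg hc' p0),
        hsmul _ hc' _ mx.1 p0, hsmul _ hc' _ mx.2 n0, hq]
      ring
  have q4 : ∀ x ∈ her a', star x = x → |q x| ≤ ‖x‖ := by
    intro x hx sx
    have mx := cp_parts ha hx sx
    have h1 := h0 _ mx.1 (CFC.posPart_nonneg x)
    have h2 := h0 _ mx.2 (CFC.negPart_nonneg x)
    have h3 := CStarAlgebra.norm_posPart_le x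
    have h4 := CStarAlgebra.norm_negPart_le x
    rw [hq, abs_le]
    constructor <;> linarith
  have z0 : (0 : B) ∈ her a' := ⟨mul_zero _, zero_mul _⟩
  have p0 : p 0 = 0 := le_antisymm ((h0 0 z0 le_rfl).2.trans_eq norm_zero) (h0 0 z0 le_rfl).1
  have q5 : ∀ x ∈ her a', 0 ≤ x → q x = p x := fun x hx x0 => by
    simpa only [sub_zero, p0] using q1 x hx 0 z0 x0 le_rfl
  obtain ⟨τ, hτ⟩ : ∃ τ : B → ℂ, ∀ x, τ x = q (realPart x) + Complex.I * q (imaginaryPart x) :=
    ⟨_, fun _ => rfl⟩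
  have sr : ∀ x : B, star (realPart x : B) = realPart x := fun x => (realPart x).2
  have si : ∀ x : B, star (imaginaryPart x : B) = imaginaryPart x := fun x => (imaginaryPart x).2
  have t1 : ∀ x ∈ her a', ∀ y ∈ her a', τ (x + y) = τ x + τ y := by
    intro x hx y hy
    have mx := cp_reim ha hx
    have my := cp_reim ha hy
    rw [hτ, hτ, hτ, map_add, map_add, AddSubgroup.coe_add, AddSubgroup.coe_add,
      q2 _ mx.1 _ my.1 (sr x) (sr y), q2 _ mx.2 _ my.2 (si x) (si y)]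
    push_cast
    ring
  have t2 : ∀ (c : ℂ), ∀ x ∈ her a', τ (c • x) = c * τ x := by
    intro c x hx
    have mx := cp_reim ha hx
    have s : ∀ (r : ℝ) (y : B), star y = y → star (r • y) = r • y := fun r y hy => by
      rw [star_smul, star_trivial r, hy]
    rw [hτ, hτ, realPart_smul, imaginaryPart_smul, sub_eq_add_neg, ← neg_smul,
      AddSubgroup.coe_add, AddSubgroup.coe_add]
    simp only [selfAdjoint.val_smul]
    rw [q2 _ (cp_rsmul _ mx.1) _ (cp_rsmul _ mx.2) (s _ _ (sr x)) (s _ _ (si x)),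
      q2 _ (cp_rsmul _ mx.2) _ (cp_rsmul _ mx.1) (s _ _ (si x)) (s _ _ (sr x)),
      q3 _ _ mx.1 (sr x), q3 _ _ mx.1 (sr x), q3 _ _ mx.2 (si x), q3 _ _ mx.2 (si x)]
    apply Complex.ext
    · simp
      ring
    · simp
  have t3 : ∀ x ∈ her a', 0 ≤ x → τ x = p x := by
    intro x hx x0
    rw [hτ, x0.isSelfAdjoint.coe_realPart, x0.isSelfAdjoint.imaginaryPart, q5 x hx x0,
      ZeroMemClass.coe_zero, q5 0 z0 le_rfl, p0]
    simp
  have t4 : ∀ x ∈ her a', τ (star x * x) = p (star x * x) := fun x hx =>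
    t3 _ (cp_mul (cp_star ha hx) hx) (star_mul_self_nonneg x)
  have t5 : ∀ x ∈ her a', τ (star x * x) = τ (x * star x) := fun x hx => by
    rw [t4 x hx, t3 _ (cp_mul hx (cp_star ha hx)) (mul_star_self_nonneg x), htr x hx]
  have t6 : ∀ x ∈ her a', ∀ y ∈ her a',
      τ (star x * y) + τ (star y * x) = τ (x * star y) + τ (y * star x) := by
    intro x hx y hy
    have hx' := cp_star ha hx
    have hy' := cp_star ha hy
    have h1 := t5 _ (cp_add hx hy)
    rw [star_add, add_mul, add_mul, mul_add, mul_add, mul_add, mul_add,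
      t1 _ (cp_add (cp_mul hx' hx) (cp_mul hx' hy)) _ (cp_add (cp_mul hy' hx) (cp_mul hy' hy)),
      t1 _ (cp_add (cp_mul hx hx') (cp_mul hx hy')) _ (cp_add (cp_mul hy hx') (cp_mul hy hy')),
      t1 _ (cp_mul hx' hx) _ (cp_mul hx' hy), t1 _ (cp_mul hy' hx) _ (cp_mul hy' hy),
      t1 _ (cp_mul hx hx') _ (cp_mul hx hy'), t1 _ (cp_mul hy hx') _ (cp_mul hy hy'),
      t5 x hx, t5 y hy] at h1
    linear_combination h1
  refine ⟨τ, ⟨t1, t2, fun x hx => ?_, fun x hx => ?_, fun x hx => ?_, fun x hx y hy => ?_⟩, t3⟩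
  · rw [t4 x hx]
    exact Complex.zero_le_real.2 (h0 _ (cp_mul (cp_star ha hx) hx) (star_mul_self_nonneg x)).1
  · rw [t4 x hx, Complex.ofReal_re, sq, ← CStarRing.norm_star_mul_self]
    exact (h0 _ (cp_mul (cp_star ha hx) hx) (star_mul_self_nonneg x)).2
  · have mx := cp_reim ha hx
    have h1 := (q4 _ mx.1 (sr x)).trans (realPart.norm_le x)
    have h2 := (q4 _ mx.2 (si x)).trans (imaginaryPart.norm_le x)
    rw [hτ]
    refine (norm_add_le _ _).trans ?_
    rw [norm_mul, Complex.norm_I, one_mul, Complex.norm_real, Complex.norm_real, Real.norm_eq_abs,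
      Real.norm_eq_abs]
    linarith [norm_nonneg x]
  · have hx' := cp_star ha hx
    have hy' := cp_star ha hy
    have h1 := t6 _ hx' _ hy
    have h2 := t6 _ hx' _ (cp_smul Complex.I hy)
    rw [star_star] at h1
    rw [star_star, star_smul, mul_smul_comm, mul_smul_comm, smul_mul_assoc, smul_mul_assoc,
      t2 _ _ (cp_mul hx hy), t2 _ _ (cp_mul hy' hx'), t2 _ _ (cp_mul hx' hy'),
      t2 _ _ (cp_mul hy hx), Complex.star_def, Complex.conj_I] at h2
    linear_combination (1 / 2) * h1 - (Complex.I / 2) * h2 +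
      (τ (x * y) - τ (star y * star x) + τ (star x * star y) - τ (y * x)) / 2 * Complex.I_sq

/-- the relation `u = ∑ y* y`, `v = ∑ y y*` -/
def CPRel (a' u v : B) : Prop := ∃ (m : ℕ) (y : Fin m → B), (∀ i, y i ∈ her a') ∧
  ∑ i, star (y i) * y i = u ∧ ∑ i, y i * star (y i) = v

/-- witnesses for an upper bound -/
def CPWitn (a' : B) (ψ : B →L[ℂ] ℂ) (x : B) (r : ℝ) : Prop :=
  ∀ η : ℝ, 0 < η → ∃ u v, CPRel a' u v ∧ ‖x - u‖ < η ∧ (ψ v).re < r + η

section

variable {a' u v u' v' x x' : B} {ψ : B →L[ℂ] ℂ} {r r' : ℝ}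

theorem CPRel.nonneg (h : CPRel a' u v) : 0 ≤ v := by
  obtain ⟨m, y, -, -, rfl⟩ := h
  exact Finset.sum_nonneg fun i _ => mul_star_self_nonneg _

theorem CPRel.add (h : CPRel a' u v) (h' : CPRel a' u' v') : CPRel a' (u + u') (v + v') := by
  obtain ⟨m, y, hy, rfl, rfl⟩ := h
  obtain ⟨m', y', hy', rfl, rfl⟩ := h'
  refine ⟨m + m', Fin.append y y', fun i => ?_, ?_, ?_⟩
  · refine Fin.addCases (fun i => ?_) (fun i => ?_) i
    · simpa only [Fin.append_left] using hy i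
    · simpa only [Fin.append_right] using hy' i
  · simp only [Fin.sum_univ_add, Fin.append_left, Fin.append_right]
  · simp only [Fin.sum_univ_add, Fin.append_left, Fin.append_right]

theorem CPRel.smul (h : CPRel a' u v) {c : ℝ} (hc : 0 ≤ c) : CPRel a' (c • u) (c • v) := by
  obtain ⟨m, y, hy, rfl, rfl⟩ := h
  refine ⟨m, fun i => √c • y i, fun i => cp_rsmul _ (hy i), ?_, ?_⟩ <;>
    simp only [star_smul, star_trivial √c, smul_mul_assoc, mul_smul_comm, smul_smul,
      Real.mul_self_sqrt hc, Finset.smul_sum]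

theorem CPRel.split (h : CPRel a' u v) {s s' : B} (hs : s * a' = s) (hs' : s' * a' = s')
    (hle : s * star s + s' * star s' ≤ 1) :
    ∃ w w', CPRel a' (star s * u * s) w ∧ CPRel a' (star s' * u * s') w' ∧ w + w' ≤ v := by
  obtain ⟨m, y, hy, rfl, rfl⟩ := h
  have h1 : ∀ s : B, s * a' = s → CPRel a' (star s * (∑ i, star (y i) * y i) * s)
      (∑ i, y i * s * star (y i * s)) := fun s hs =>
    ⟨m, fun i => y i * s, fun i => ⟨by rw [← mul_assoc, (hy i).1], by rw [mul_assoc, hs]⟩,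
      by simp only [star_mul, Finset.mul_sum, Finset.sum_mul, mul_assoc], rfl⟩
  refine ⟨_, _, h1 s hs, h1 s' hs', ?_⟩
  rw [← Finset.sum_add_distrib]
  refine Finset.sum_le_sum fun i _ => ?_
  simpa only [star_mul, mul_add, add_mul, mul_assoc, mul_one] using
    star_right_conjugate_le_conjugate hle (y i)

theorem CPWitn.nonneg (h : CPWitn a' ψ x r) (hψ : IsState ψ) : 0 ≤ r := by
  refine le_of_forall_pos_le_add fun e he => ?_
  obtain ⟨u, v, k1, -, k2⟩ := h e he
  exact (Complex.nonneg_iff.1 (hψ.nonneg k1.nonneg)).1.trans k2.le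

theorem cp_witn_norm (ha : star a' = a') (hψ : IsState ψ) (hx : x ∈ her a') (x0 : 0 ≤ x) :
    CPWitn a' ψ x ‖x‖ := by
  intro e he
  obtain ⟨s, -, s1, s2⟩ := sb_sqrt x0
  refine ⟨x, x, ⟨1, fun _ => s, fun _ => cp_of_le ha s1 s2.le hx, by simp [s1, s2],
    by simp [s1, s2]⟩, by simpa using he, lt_add_of_le_of_pos ?_ he⟩
  exact (Complex.re_le_norm _).trans ((ψ.le_opNorm x).trans
    (mul_le_of_le_one_left (norm_nonneg _) hψ.norm_le))

theorem CPWitn.add (h : CPWitn a' ψ x r) (h' : CPWitn a' ψ x' r') :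
    CPWitn a' ψ (x + x') (r + r') := by
  intro e he
  obtain ⟨u, v, k1, k2, k3⟩ := h _ (half_pos he)
  obtain ⟨u', v', l1, l2, l3⟩ := h' _ (half_pos he)
  refine ⟨_, _, k1.add l1, ?_, ?_⟩
  · rw [add_sub_add_comm]
    linarith [norm_add_le (x - u) (x' - u')]
  · rw [map_add, Complex.add_re]
    linarith

theorem CPWitn.smul (h : CPWitn a' ψ x r) {c : ℝ} (hc : 0 ≤ c) : CPWitn a' ψ (c • x) (c * r) := by
  intro e he
  obtain ⟨u, v, k1, k2, k3⟩ := h (e / (c + 1)) (by positivity)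
  have h1 : c * (e / (c + 1)) < e := by
    rw [← mul_div_assoc, div_lt_iff₀ (by positivity)]
    linarith
  refine ⟨_, _, k1.smul hc, ?_, ?_⟩
  · rw [← smul_sub, norm_smul, Real.norm_of_nonneg hc]
    exact (mul_le_mul_of_nonneg_left k2.le hc).trans_lt h1
  · rw [← Complex.coe_smul, map_smul, smul_eq_mul, Complex.re_ofReal_mul]
    linarith [mul_le_mul_of_nonneg_left k3.le hc]

theorem CPWitn.split (h : CPWitn a' ψ x (r + r')) (ha : star a' = a') (hψ : IsState ψ) {w w' : B}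
    (hw : w ∈ her a') (hw' : w' ∈ her a') (hle : star w * w + star w' * w' ≤ x) :
    CPWitn a' ψ (w * star w) r ∨ CPWitn a' ψ (w' * star w') r' := by
  by_contra hc
  simp only [CPWitn, not_or, not_forall, not_exists, not_and, not_lt] at hc
  obtain ⟨⟨e, he, h1⟩, e', he', h2⟩ := hc
  have w0 := star_mul_self_nonneg w
  have w0' := star_mul_self_nonneg w'
  have hd : 0 < min e e' / 2 := half_pos (lt_min he he')
  obtain ⟨u, v, k1, k2, k3⟩ := h _ hd
  obtain ⟨k, s1, -, -, s2, s3⟩ := sb_dom ((add_nonneg w0 w0').trans hle) hd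
  have m : ∀ w ∈ her a', k * star w * a' = k * star w := fun w hw => by
    rw [mul_assoc, (cp_star ha hw).2]
  obtain ⟨z, z', r1, r2, r3⟩ := k1.split (m w hw) (m w' hw') (le_trans (by
    simpa only [star_mul, star_star, s1, mul_add, add_mul, mul_assoc] using
      star_left_conjugate_le_conjugate hle k) s2)
  have n : ∀ w, star w * w ≤ x →
      ‖w * star w - star (k * star w) * u * (k * star w)‖ < min e e' := by
    intro w hw
    have n1 : ‖k * star w‖ ≤ 1 := by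
      rw [← norm_star, star_mul, star_star, s1]
      exact (s3 w hw).1
    have n2 : ‖star (k * star w) * (x - u) * (k * star w)‖ ≤ ‖x - u‖ := by
      refine norm_mul₃_le.trans ?_
      rw [norm_star, mul_right_comm]
      exact mul_le_of_le_one_left (norm_nonneg _) (mul_le_one₀ n1 (norm_nonneg _) n1)
    have n3 := (s3 w hw).2
    rw [norm_sub_rev] at n3
    rw [mul_sub, sub_mul] at n2
    linarith [norm_sub_le_norm_sub_add_norm_sub (w * star w) (star (k * star w) * x * (k * star w))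
      (star (k * star w) * u * (k * star w))]
  have a1 := h1 _ _ r1 ((n w ((le_add_of_nonneg_right w0').trans hle)).trans_le (min_le_left _ _))
  have a2 := h2 _ _ r2 ((n w' ((le_add_of_nonneg_left w0).trans hle)).trans_le (min_le_right _ _))
  have a3 := (Complex.nonneg_iff.1 (hψ.nonneg (sub_nonneg.2 r3))).1
  rw [map_sub, map_add, Complex.sub_re, Complex.add_re] at a3
  linarith [min_le_left e e']

end

theorem exists_trace_ge {a' : B} (ha : star a' = a') {ψ : B →L[ℂ] ℂ} (hψ : IsState ψ) {b : B}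
    (hb : b ∈ her a') (hb0 : 0 ≤ b) {δ η : ℝ} (hη : 0 < η)
    (h : ∀ (m : ℕ) (y : Fin m → B), (∀ i, y i ∈ her a') → ‖b - ∑ i, star (y i) * y i‖ < η →
      δ ≤ (ψ (∑ i, y i * star (y i))).re) :
    ∃ τ, IsTraceOn (her a') τ ∧ δ ≤ (τ b).re := by
  obtain ⟨p, hp⟩ : ∃ p : B → ℝ, ∀ x, p x = sInf {r | CPWitn a' ψ x r} := ⟨_, fun _ => rfl⟩
  have p1 : ∀ x r, CPWitn a' ψ x r → p x ≤ r := fun x r hr =>
    hp x ▸ csInf_le ⟨0, fun _ h => h.nonneg hψ⟩ hr
  have p2 : ∀ x ∈ her a', 0 ≤ x → CPWitn a' ψ x (p x) := by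
    intro x hx x0 e he
    obtain ⟨r, hr, h1⟩ := exists_lt_of_csInf_lt (s := {r | CPWitn a' ψ x r})
      ⟨_, cp_witn_norm ha hψ hx x0⟩ (lt_add_of_pos_right _ (half_pos he))
    obtain ⟨u, v, k1, k2, k3⟩ := hr _ (half_pos he)
    rw [← hp] at h1
    exact ⟨u, v, k1, by linarith, by linarith⟩
  have p3 : ∀ x ∈ her a', 0 ≤ x → 0 ≤ p x ∧ p x ≤ ‖x‖ := fun x hx x0 =>
    ⟨(p2 x hx x0).nonneg hψ, p1 _ _ (cp_witn_norm ha hψ hx x0)⟩
  have p4 : ∀ b ∈ her a', ∀ w ∈ her a', ∀ w' ∈ her a', star w * w + star w' * w' ≤ b →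
      p (w * star w) + p (w' * star w') ≤ p b := by
    intro b hb w hw w' hw' hle
    have b0 := (add_nonneg (star_mul_self_nonneg w) (star_mul_self_nonneg w')).trans hle
    by_contra hc
    have hb' := p2 b hb b0
    rw [show p b = (p b + p (w * star w) - p (w' * star w')) / 2 +
      (p b - p (w * star w) + p (w' * star w')) / 2 by ring] at hb'
    rcases hb'.split ha hψ hw hw' hle with k | k <;> linarith [p1 _ _ k]
  have z0 : (0 : B) ∈ her a' := ⟨mul_zero _, zero_mul _⟩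
  have p5 : ∀ z ∈ her a', p (z * star z) ≤ p (star z * z) := by
    intro z hz
    have := p4 _ (cp_mul (cp_star ha hz) hz) z hz 0 z0 (by simp)
    rw [zero_mul] at this
    linarith [(p3 0 z0 le_rfl).1]
  have p6 : ∀ c : ℝ, 0 ≤ c → ∀ x ∈ her a', 0 ≤ x → p (c • x) ≤ c * p x := fun c hc x hx x0 =>
    p1 _ _ ((p2 x hx x0).smul hc)
  have p7 : ∀ x ∈ her a', ∀ y ∈ her a', 0 ≤ x → 0 ≤ y → p (x + y) = p x + p y := by
    intro x hx y hy x0 y0
    refine le_antisymm (p1 _ _ ((p2 x hx x0).add (p2 y hy y0))) ?_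
    obtain ⟨s, -, s1, s2⟩ := sb_sqrt x0
    obtain ⟨t, -, t1, t2⟩ := sb_sqrt y0
    have := p4 _ (cp_add hx hy) s (cp_of_le ha s1 s2.le hx) t (cp_of_le ha t1 t2.le hy)
      (by rw [s1, s2, t1, t2])
    rwa [s1, s2, t1, t2] at this
  have p8 : ∀ c : ℝ, 0 ≤ c → ∀ x ∈ her a', 0 ≤ x → p (c • x) = c * p x := by
    intro c hc x hx x0
    refine le_antisymm (p6 c hc x hx x0) ?_
    rcases hc.eq_or_lt with rfl | hc'
    · rw [zero_mul, zero_smul]
      exact (p3 0 z0 le_rfl).1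
    · have := p6 c⁻¹ (inv_nonneg.2 hc) _ (cp_rsmul c hx) (smul_nonneg hc x0)
      rwa [inv_smul_smul₀ hc'.ne', le_inv_mul_iff₀ hc'] at this
  have p9 : ∀ z ∈ her a', p (star z * z) = p (z * star z) := by
    intro z hz
    refine le_antisymm ?_ (p5 z hz)
    simpa only [star_star] using p5 _ (cp_star ha hz)
  obtain ⟨τ, h1, h2⟩ := exists_traceOn ha p p3 p7 p8 p9
  refine ⟨τ, h1, ?_⟩
  rw [h2 b hb hb0, Complex.ofReal_re]
  refine le_of_forall_pos_le_add fun e he => ?_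
  obtain ⟨u, v, ⟨m, y, k1, rfl, rfl⟩, k2, k3⟩ := p2 b hb hb0 _ (lt_min hη he)
  linarith [h m y k1 (k2.trans_le (min_le_left _ _)), min_le_right η e]

end Vale.Agent.P095
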