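import Vale.Agent.P095.CPTrace

/-! P095: elements with small traces, after Cuntz and Pedersen. See skel/P095/BLUEPRINT.md. -/

namespace Vale.Agent.P095

open Filter Topology Vale.Agent.P101 Vale.Agent.P101.F
open scoped ComplexOrder Pointwise

universe u v w

variable {B : Type u} [CStarAlgebra B]

/-- a state that is large on a convex set of positive elements of large norm -/
lemma cpWit_state {C : Set B} (hC : Convex ℝ C) {c₀ : B} (h0 : c₀ ∈ C) {δ : ℝ} (hδ : 0 < δ)
    (h : ∀ c ∈ C, 0 ≤ c ∧ δ ≤ ‖c‖) : ∃ ψ : B →L[ℂ] ℂ, IsState ψ ∧ ∀ c ∈ C, δ ≤ (ψ c).re := by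
  have hN : Convex ℝ {x : B | x + star x ≤ 0} := fun x hx y hy a b ha hb _ => by
    have := add_nonpos (smul_nonpos_of_nonneg_of_nonpos ha (show x + star x ≤ 0 from hx))
      (smul_nonpos_of_nonneg_of_nonpos hb (show y + star y ≤ 0 from hy))
    simpa only [Set.mem_ofPred_eq, star_add, star_smul, star_trivial, smul_add, add_add_add_comm]
      using this
  obtain ⟨f, u, h1, h2⟩ := RCLike.geometric_hahn_banach_open (𝕜 := ℂ)
    ((convex_ball (0 : B) δ).add hN) Metric.isOpen_ball.add_right hC (Set.disjoint_left.2 (by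
      rintro _ ⟨z, hz, x, hx, rfl⟩ hc
      obtain ⟨a1, a2⟩ := h (z + x) hc
      have a3 := CStarAlgebra.norm_le_norm_of_nonneg_of_le (add_nonneg a1 a1)
        (show z + x + (z + x) ≤ z + star z by
          nth_rewrite 2 [← a1.isSelfAdjoint.star_eq]
          rw [star_add, add_add_add_comm]
          exact add_le_of_nonpos_right hx)
      have a4 := norm_add_le z (star z)
      rw [← two_smul ℝ, norm_smul, Real.norm_two] at a3
      rw [norm_star] at a4
      rw [mem_ball_zero_iff] at hz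
      exact absurd a2 (not_le.2 (by linarith))))
  simp only [RCLike.re_to_complex] at h1 h2
  have hu : 0 < u := by
    simpa using h1 _ (Set.add_mem_add (Metric.mem_ball_self hδ) (b := 0) (by simp))
  have h3 : ∀ x : B, x + star x ≤ 0 → (f x).re ≤ 0 := fun x hx => not_lt.1 fun hp => by
    have a2 := h1 _ (Set.add_mem_add (Metric.mem_ball_self hδ) (b := (u / (f x).re) • x) (by
      have := smul_nonpos_of_nonneg_of_nonpos (div_pos hu hp).le hx
      simpa only [Set.mem_ofPred_eq, star_smul, star_trivial, smul_add] using this))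
    rw [zero_add, f.map_smul_of_tower, Complex.smul_re, smul_eq_mul, div_mul_cancel₀ _ hp.ne'] at a2
    exact a2.false
  have h4 : ∀ p : B, 0 ≤ p → 0 ≤ f p := fun p hp => by
    have a1 := h3 (-p) (by
      rw [star_neg, hp.isSelfAdjoint.star_eq]
      exact add_nonpos (neg_nonpos.2 hp) (neg_nonpos.2 hp))
    have a2 := h3 (Complex.I • p) (by simp [hp.isSelfAdjoint.star_eq])
    have a3 := h3 (-(Complex.I • p)) (by simp [hp.isSelfAdjoint.star_eq])
    simp only [map_neg, map_smul, smul_eq_mul, Complex.neg_re, Complex.I_mul_re] at a1 a2 a3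
    exact Complex.nonneg_iff.2 ⟨by linarith, by linarith⟩
  obtain ⟨r, hr⟩ : ∃ r : ℝ, (r : ℂ) = f 1 :=
    ⟨(f 1).re, Complex.ext rfl (by simpa using (h4 1 zero_le_one).2)⟩
  have h5 : 0 < r := by
    have a1 := (h4 _ (sub_nonneg.2 (h c₀ h0).1.isSelfAdjoint.le_algebraMap_norm_self)).1
    rw [map_sub, Algebra.algebraMap_eq_smul_one, f.map_smul_of_tower, ← hr] at a1
    simp only [Complex.zero_re, Complex.sub_re, Complex.smul_re, Complex.ofReal_re,
      smul_eq_mul] at a1
    exact (pos_iff_pos_of_mul_pos (by linarith [h2 c₀ h0] : 0 < ‖c₀‖ * r)).1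
      (hδ.trans_le (h c₀ h0).2)
  have h6 : δ * r ≤ u := not_lt.1 fun hp => by
    have a1 := h1 _ (Set.add_mem_add (a := (u / r) • (1 : B)) (b := 0) (by
      rw [mem_ball_zero_iff, norm_smul, Real.norm_of_nonneg (by positivity)]
      exact (mul_le_of_le_one_right (by positivity)
        ((CStarAlgebra.norm_le_one_iff_of_nonneg (1 : B) zero_le_one).2 le_rfl)).trans_lt
        ((div_lt_iff₀ h5).2 hp)) (by simp))
    rw [add_zero, f.map_smul_of_tower, ← hr, Complex.smul_re, smul_eq_mul, Complex.ofReal_re,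
      div_mul_cancel₀ _ h5.ne'] at a1
    exact a1.false
  refine ⟨((r⁻¹ : ℝ) : ℂ) • f, ⟨?_, fun x => ?_⟩, fun c hc => ?_⟩
  · simp [← hr, h5.ne']
  · exact mul_nonneg (by positivity) (h4 _ (star_mul_self_nonneg x))
  · rw [smul_apply, smul_eq_mul, Complex.re_ofReal_mul, ← div_eq_inv_mul,
      le_div_iff₀ h5]
    exact h6.trans (h2 c hc)

theorem cp_witness {a' : B} (ha : star a' = a') {b : B} (hb : b ∈ her a') (hb0 : 0 ≤ b) {δ : ℝ}
    (h : ∀ τ, IsTraceOn (her a') τ → (τ b).re < δ) {η : ℝ} (hη : 0 < η) :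
    ∃ (m : ℕ) (y : Fin m → B), (∀ i, y i ∈ her a') ∧ ‖∑ i, y i * star (y i)‖ ≤ δ ∧
      ‖b - ∑ i, star (y i) * y i‖ ≤ η := by
  by_contra hne
  have hδ : 0 < δ := h (fun _ => 0) (by constructor <;> simp)
  obtain ⟨z, rfl⟩ := CStarAlgebra.nonneg_iff_eq_star_mul_self.1 hb0
  have hP : Convex ℝ {p : B × B | ∃ (m : ℕ) (y : Fin m → B), (∀ i, y i ∈ her a') ∧
      p = (∑ i, star (y i) * y i, ∑ i, y i * star (y i))} := by
    rintro _ ⟨m, y, hy, rfl⟩ _ ⟨m', y', hy', rfl⟩ s t hs ht -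
    have e : ∀ (r : ℝ) (x : B), x ∈ her a' → r • x ∈ her a' := fun r x hx =>
      ⟨by rw [mul_smul_comm, hx.1], by rw [smul_mul_assoc, hx.2]⟩
    refine ⟨m + m', Fin.append (fun i => √s • y i) fun i => √t • y' i, fun i => ?_, ?_⟩
    · refine Fin.addCases (fun i => ?_) (fun i => ?_) i
      · simpa using e _ _ (hy i)
      · simpa using e _ _ (hy' i)
    · simp [Fin.sum_univ_add, smul_smul, Real.mul_self_sqrt, hs, ht, Finset.smul_sum]
  obtain ⟨x, hx1, hx2⟩ : ∃ x : B, star x = x ∧ x * x = star z * z :=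
    ⟨CFC.sqrt (star z * z), CFC.sqrt_nonneg _ |>.isSelfAdjoint.star_eq, CFC.sqrt_mul_sqrt_self _ hb0⟩
  have hx3 : x * a' = x := by
    have e : star (x * (1 - a')) * (x * (1 - a')) = (1 - a') * (x * x * (1 - a')) := by
      simp only [star_mul, star_sub, star_one, ha, hx1, mul_assoc]
    rw [hx2, mul_sub (star z * z), mul_one, hb.2, sub_self, mul_zero,
      CStarRing.star_mul_self_eq_zero_iff, mul_sub, mul_one, sub_eq_zero] at e
    exact e.symm
  obtain ⟨ψ, h1, h2⟩ := cpWit_state ((hP.inter ((convex_ball (star z * z) η).linear_preimage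
    (LinearMap.fst ℝ B B))).linear_image (LinearMap.snd ℝ B B)) (c₀ := x * x)
    ⟨(x * x, x * x), ⟨⟨1, fun _ => x, fun _ => ⟨by simpa [ha, hx1] using congrArg star hx3, hx3⟩,
      by simp [hx1]⟩, by simpa [hx2] using hη⟩, rfl⟩ hδ (by
      rintro _ ⟨_, ⟨⟨m, y, hy, rfl⟩, hy'⟩, rfl⟩
      exact ⟨Finset.sum_nonneg (s := .univ) fun i _ => mul_star_self_nonneg (y i),
        not_lt.1 fun hlt => hne ⟨m, y, hy, hlt.le, (mem_ball_iff_norm'.1 hy').le⟩⟩)
  obtain ⟨τ, h3, h4⟩ := exists_trace_ge ha h1 hb hb0 hη fun m y hy hy' =>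
    h2 _ ⟨_, ⟨⟨m, y, hy, rfl⟩, mem_ball_iff_norm'.2 hy'⟩, rfl⟩
  exact absurd (h τ h3) (not_lt.2 h4)

end Vale.Agent.P095
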