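import Vale.Agent.P095.OprodA
import Vale.Agent.P101.ZHalf

/-! P095: commutators of unitaries are connected to the unit. See skel/P095/BLUEPRINT.md. -/

namespace Vale.Agent.P095

open Filter Topology Vale.Agent.P101 Vale.Agent.P101.F
open scoped ComplexOrder Matrix.Norms.L2Operator

universe u v w

open ZTens in
lemma commut_mdata {B C : Type*} [CStarAlgebra B] [CStarAlgebra C] {p q : ℕ} (α : B →⋆ₐ[ℂ] C)
    (β : dimDrop p q →⋆ₐ[ℂ] C)
    (hc : ∀ f g, Commute (α f) (β g)) (Γ : C(unitInterval, B) →⋆ₐ[ℂ] C)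
    (h1 : ∀ φ b, Γ (φ • ContinuousMap.const unitInterval b) = β (sc p q φ) * α b)
    (h2 : ∀ y, (∀ φ, Commute (β (sc p q φ)) y) → (∀ b, Commute (α b) y) → ∀ g, Commute (Γ g) y) :
    MData Γ (Equiv.refl (Fin p × Fin q)) (Equiv.prodComm (Fin p) (Fin q)) (β (sc p q tt))
      (fun j k => β (eA p q (Matrix.single j k 1))) (fun j k => β (eB p q (Matrix.single j k 1)))
      fun x y => β (eM p q (Matrix.single x y 1)) := by
  have hcomm : ∀ g f, Commute (Γ g) (β f) := fun g f =>
    h2 _ (fun φ => (sc_comm φ f).map β) (fun b => hc b f) g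
  have e1 : 1 - β (sc p q tt) = β (sc p q (1 - tt)) := by simp
  constructor
  · simpa using h1 tt 1
  · intro j k
    rw [← map_star]
    refine congrArg β (zext fun t => ?_)
    change star ((eA p q _).1 t) = _
    rw [eA_apply, eA_apply, star_smul, ← map_star, single_star]
    simp
  · intro j k l n
    rw [e1, ← map_mul, ← map_mul, ← map_zero β, ← apply_ite β]
    refine congrArg β (zext fun t => ?_)
    change (eA p q _).1 t * (eA p q _).1 t = _
    rw [eA_apply, eA_apply, smul_mul_smul_comm, ← map_mul, single_mul]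
    split_ifs
    · change _ = (sc p q _).1 t * (eA p q _).1 t
      rw [eA_apply, sc_apply, smul_mul_smul_comm, one_mul]
      rfl
    · rw [map_zero, smul_zero]; rfl
  · rw [e1, ← map_sum]
    refine congrArg β (zext fun t => ?_)
    simp only [sum_apply, eA_apply, sc_apply, ← Finset.smul_sum, ← map_sum]
    rw [Matrix.sum_single_one, map_one]
    rfl
  · exact fun x j k => hcomm _ _
  · intro j k
    rw [← map_star]
    refine congrArg β (zext fun t => ?_)
    change star ((eB p q _).1 t) = _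
    rw [eB_apply, eB_apply, star_smul, ← map_star, single_star]
    simp
  · intro j k l n
    rw [← map_mul, ← map_mul, ← map_zero β, ← apply_ite β]
    refine congrArg β (zext fun t => ?_)
    change (eB p q _).1 t * (eB p q _).1 t = _
    rw [eB_apply, eB_apply, smul_mul_smul_comm, ← map_mul, single_mul]
    split_ifs
    · change _ = (sc p q _).1 t * (eB p q _).1 t
      rw [eB_apply, sc_apply, smul_mul_smul_comm, one_mul]
      rfl
    · rw [map_zero, smul_zero]; rfl
  · rw [← map_sum]
    refine congrArg β (zext fun t => ?_)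
    simp only [sum_apply, eB_apply, sc_apply, ← Finset.smul_sum, ← map_sum]
    rw [Matrix.sum_single_one, map_one]
    rfl
  · exact fun x j k => hcomm _ _
  · intro j k
    rw [← map_star]
    refine congrArg β (zext fun t => ?_)
    change star ((eM p q _).1 t) = _
    rw [eM_apply, eM_apply, star_smul, single_star]
    simp
  · intro j k l n
    rw [e1, ← map_mul, ← map_mul, ← map_mul, ← map_zero β, ← apply_ite β]
    refine congrArg β (zext fun t => ?_)
    change (eM p q _).1 t * (eM p q _).1 t = _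
    rw [eM_apply, eM_apply, smul_mul_smul_comm, single_mul]
    split_ifs
    · change _ = (sc p q _).1 t * (sc p q _).1 t * (eM p q _).1 t
      rw [eM_apply, sc_apply, sc_apply, smul_mul_smul_comm, smul_mul_smul_comm, one_mul, one_mul]
      rfl
    · simp
  · exact fun g x y => hcomm _ _
  · intro j k
    rw [← map_mul, ← map_sum]
    refine congrArg β (zext fun t => ?_)
    change (sc p q _).1 t * (eA p q _).1 t = _
    simp only [sum_apply, eA_apply, eM_apply, sc_apply, ← Finset.smul_sum, smul_mul_smul_comm,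
      one_mul, kL_single]
    rfl
  · intro j k
    rw [e1, ← map_mul, ← map_sum]
    refine congrArg β (zext fun t => ?_)
    change (sc p q _).1 t * (eB p q _).1 t = _
    simp only [sum_apply, eB_apply, eM_apply, sc_apply, ← Finset.smul_sum, smul_mul_smul_comm,
      one_mul, kR_single]
    rw [mul_comm]
    rfl

section Abstract

variable {M : Type u} [CStarAlgebra M]

/-- `u` on the range of `e` and one on the complement -/
noncomputable def commutC (u e : M) : M := 1 + (u - 1) * e

lemma commutC_add {u e e' : M} (h : Commute u e) (h0 : e * e' = 0) :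
    commutC u e * commutC u e' = commutC u (e + e') := by
  have h1 : e * (u - 1) = (u - 1) * e := (h.symm.sub_right (Commute.one_right e)).eq
  unfold commutC
  calc _ = 1 + (u - 1) * (e + e') + (u - 1) * (e * (u - 1)) * e' := by noncomm_ring
    _ = _ := by rw [h1, mul_assoc, mul_assoc, h0]; simp

lemma commutC_comm {u s e e' : M} (h : Commute s e) (h' : Commute u e') (h0 : e * e' = 0)
    (h0' : e' * e = 0) : Commute (commutC u e) (commutC s e') := by
  have h1 : e * (s - 1) = (s - 1) * e := (h.symm.sub_right (Commute.one_right e)).eq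
  have h2 : e' * (u - 1) = (u - 1) * e' := (h'.symm.sub_right (Commute.one_right e')).eq
  unfold commutC
  change _ * _ = _ * _
  calc _ = 1 + (u - 1) * e + (s - 1) * e' + (u - 1) * (e * (s - 1)) * e' := by noncomm_ring
    _ = 1 + (u - 1) * e + (s - 1) * e' + (s - 1) * (e' * (u - 1)) * e := by
      rw [h1, h2, mul_assoc, mul_assoc, h0, mul_assoc (s - 1), mul_assoc (u - 1), h0']; simp
    _ = _ := by noncomm_ring

lemma commutC_mem {u e : M} (hu : u ∈ unitary M) (h : Commute u e) (he : star e = e)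
    (he2 : e * e = e) : commutC u e ∈ unitary M := by
  have hs : Commute (star u) e := by simpa [he] using h.star_star
  have key : ∀ a b : M, Commute b e → a * b = 1 → (1 + (a - 1) * e) * (1 + (b - 1) * e) = 1 := by
    intro a b hb hab
    have h1 : e * (b - 1) = (b - 1) * e := (hb.symm.sub_right (Commute.one_right e)).eq
    calc _ = 1 + (a - 1) * e + (b - 1) * e + (a - 1) * (e * (b - 1)) * e := by noncomm_ring
      _ = 1 + (a * b - 1) * e := by
        rw [h1, mul_assoc, mul_assoc, he2]; noncomm_ring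
      _ = 1 := by rw [hab]; simp
  have e1 : star (commutC u e) = 1 + (star u - 1) * e := by
    unfold commutC
    rw [star_add, star_one, star_mul, he, star_sub, star_one,
      (hs.symm.sub_right (Commute.one_right e)).eq]
  exact ⟨by rw [e1]; exact key _ _ h hu.1, by rw [e1]; exact key _ _ hs hu.2⟩

lemma oprod_commutC {N : ℕ} {u : M} {e : Fin N → M} (h : ∀ i, Commute u (e i))
    (h0 : ∀ i j, i ≠ j → e i * e j = 0) :
    oprod (fun i => commutC u (e i)) = commutC u (∑ i, e i) := by
  induction N with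
  | zero => simp [oprod, commutC]
  | succ n ih =>
    have := ih (e := fun i => e i.succ) (fun i => h _)
      fun i j hij => h0 _ _ fun h' => hij (Fin.succ_injective _ h')
    unfold oprod at this ⊢
    rw [List.ofFn_succ, List.prod_cons, this, Fin.sum_univ_succ, commutC_add (h 0)]
    rw [Finset.mul_sum]
    exact Finset.sum_eq_zero fun i _ => h0 _ _ (Fin.succ_ne_zero i).symm

lemma commut_oprod_mem {N : ℕ} (S : StarSubalgebra ℂ M) {m : Fin N → M} (h : ∀ i, m i ∈ S) :
    oprod m ∈ S := list_prod_mem fun x hx => by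
  obtain ⟨i, rfl⟩ := List.mem_ofFn.1 hx
  exact h i

lemma commut_cont {X : Type*} [TopologicalSpace X] {N : ℕ} {m : X → Fin N → M}
    (h : ∀ i, Continuous fun x => m x i) : Continuous fun x => oprod (m x) := by
  unfold oprod
  simp only [List.ofFn_eq_map]
  exact continuous_list_prod _ fun i _ => h i

lemma commut_swap {N N' : ℕ} (a : Fin N → Fin N' → M)
    (h : ∀ i i' j j', i ≠ i' → Commute (a i j) (a i' j')) :
    oprod (fun i => oprod (a i)) = oprod fun j => oprod fun i => a i j := by
  have := prod_oprod (List.finRange N') (fun j i => a i j) fun j _ j' _ i i' hi => h i i' j j' hi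
  unfold oprod at this ⊢
  simp only [List.ofFn_eq_map] at this ⊢
  exact this.symm

end Abstract

/-- the path of rank one projections from `e i i` to `e o o` -/
noncomputable def commutP {n : ℕ} (o i : Fin n) (θ : ℝ) : Matrix (Fin n) (Fin n) ℂ :=
  flipPath (permM (Equiv.swap o i)) θ * Matrix.single i i 1 *
    star (flipPath (permM (Equiv.swap o i)) θ)

lemma commutP_zero {n : ℕ} (o i : Fin n) : commutP o i 0 = Matrix.single i i 1 := by
  simp [commutP]

lemma commutP_one {n : ℕ} (o i : Fin n) : commutP o i 1 = Matrix.single o o 1 := by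
  rw [commutP, flipPath_one, star_permM (Equiv.symm_swap o i), permM_conj (Equiv.symm_swap o i)]
  ext a b
  simp only [Matrix.submatrix_apply, Matrix.single_apply]
  refine if_congr ?_ rfl rfl
  rw [← Equiv.symm_apply_eq, ← Equiv.symm_apply_eq (Equiv.swap o i), Equiv.symm_swap,
    Equiv.swap_apply_right]

lemma commutP_star {n : ℕ} (o i : Fin n) (θ : ℝ) : star (commutP o i θ) = commutP o i θ := by
  rw [commutP, star_mul, star_mul, star_star, ZTens.single_star, mul_assoc]

lemma commutP_sq {n : ℕ} (o i : Fin n) (θ : ℝ) :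
    commutP o i θ * commutP o i θ = commutP o i θ := by
  have h := (flipPath_mem_unitary (star_permM (Equiv.symm_swap o i))
    (permM_sq (Equiv.symm_swap o i)) θ).1
  have h2 : Matrix.single i i (1 : ℂ) * Matrix.single i i 1 = Matrix.single i i 1 := by
    rw [Matrix.single_mul_single_same, one_mul]
  unfold commutP
  set v := flipPath (permM (Equiv.swap o i)) θ
  calc _ = v * (Matrix.single i i 1 * (star v * v) * Matrix.single i i 1) * star v := by
        simp only [mul_assoc]
    _ = _ := by rw [h, mul_one, h2]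

lemma continuous_commutP {n : ℕ} (o i : Fin n) : Continuous (commutP o i) := by
  have := continuous_flipPath (permM (Equiv.swap o i))
  unfold commutP
  fun_prop

lemma commut_single {n : ℕ} {i j : Fin n} (h : i ≠ j) :
    Matrix.single i i (1 : ℂ) * Matrix.single j j (1 : ℂ) = 0 :=
  Matrix.single_mul_single_of_ne _ _ _ _ h _

section Main

variable {M : Type u} [CStarAlgebra M] {p q : ℕ}

/-- the product of the unitaries along the moving projections -/
noncomputable def commutU (L : Matrix (Fin p) (Fin p) ℂ →⋆ₐ[ℂ] M)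
    (R : Matrix (Fin q) (Fin q) ℂ →⋆ₐ[ℂ] M) (u : M) (o : Fin p) (o' : Fin q) (a b : ℝ) : M :=
  oprod fun i => oprod fun j => commutC u (L (commutP o i a) * R (commutP o' j b))

variable {L : Matrix (Fin p) (Fin p) ℂ →⋆ₐ[ℂ] M} {R : Matrix (Fin q) (Fin q) ℂ →⋆ₐ[ℂ] M}

lemma commut_mul (hc : ∀ x y, Commute (L x) (R y)) (x x' y y') :
    L x * R y * (L x' * R y') = L (x * x') * R (y * y') := by
  rw [map_mul, map_mul, mul_assoc, ← mul_assoc (R y), ← (hc x' y).eq]
  simp only [mul_assoc]

lemma commutU_mem (hc : ∀ x y, Commute (L x) (R y)) {u : M} (hu : u ∈ unitary M)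
    (hL : ∀ x, Commute u (L x)) (hR : ∀ y, Commute u (R y)) (o o' a b) :
    commutU L R u o o' a b ∈ unitary M :=
  oprod_mem_unitary fun i => oprod_mem_unitary fun j => commutC_mem hu ((hL _).mul_right (hR _))
    (by rw [star_mul, ← map_star, ← map_star, commutP_star, commutP_star, (hc _ _).eq])
    (by rw [commut_mul hc, commutP_sq, commutP_sq])

lemma commutU_right (hc : ∀ x y, Commute (L x) (R y)) {u : M}
    (hL : ∀ x, Commute u (L x)) (hR : ∀ y, Commute u (R y)) (o o' a) :
    commutU L R u o o' a 0 = oprod fun i => commutC u (L (commutP o i a)) := by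
  unfold commutU
  congr 1
  funext i
  rw [oprod_commutC (fun j => (hL _).mul_right (hR _)) fun j j' h => by
    rw [commut_mul hc, commutP_zero, commutP_zero, commut_single h, map_zero, mul_zero]]
  simp only [commutP_zero, ← Finset.mul_sum, ← map_sum, Matrix.sum_single_one, map_one, mul_one]

lemma commutU_left (hc : ∀ x y, Commute (L x) (R y)) {u : M}
    (hL : ∀ x, Commute u (L x)) (hR : ∀ y, Commute u (R y)) (o o' b) :
    commutU L R u o o' 0 b = oprod fun j => commutC u (R (commutP o' j b)) := by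
  have h0 : ∀ (i i' : Fin p) y y', i ≠ i' →
      L (commutP o i 0) * R y * (L (commutP o i' 0) * R y') = 0 := fun i i' y y' h => by
    rw [commut_mul hc, commutP_zero, commutP_zero, commut_single h, map_zero, zero_mul]
  unfold commutU
  rw [commut_swap _ fun i i' j j' h => commutC_comm ((hL _).mul_right (hR _))
    ((hL _).mul_right (hR _)) (h0 _ _ _ _ h) (h0 _ _ _ _ h.symm)]
  congr 1
  funext j
  rw [oprod_commutC (fun j => (hL _).mul_right (hR _)) fun i i' h => h0 _ _ _ _ h]
  simp only [commutP_zero, ← Finset.sum_mul, ← map_sum, Matrix.sum_single_one, map_one, one_mul]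

lemma commutU_zero (hc : ∀ x y, Commute (L x) (R y)) {u : M}
    (hL : ∀ x, Commute u (L x)) (hR : ∀ y, Commute u (R y)) (o o') :
    commutU L R u o o' 0 0 = u := by
  rw [commutU_right hc hL hR, oprod_commutC (fun j => hL _) fun i i' h => by
    rw [← map_mul, commutP_zero, commutP_zero, commut_single h, map_zero]]
  simp only [commutP_zero, ← map_sum, Matrix.sum_single_one, map_one, commutC, mul_one]
  abel

lemma commutU_comm (hc : ∀ x y, Commute (L x) (R y)) {u s : M}
    (hL : ∀ x, Commute u (L x)) (hR : ∀ y, Commute u (R y))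
    (hL' : ∀ x, Commute s (L x)) (hR' : ∀ y, Commute s (R y)) {o₀ o₁ : Fin p} {o₀' o₁' : Fin q}
    (h : o₀ ≠ o₁) (h' : o₀' ≠ o₁') {a b : ℝ} (hab : a = 1 ∨ b = 1) :
    Commute (commutU L R u o₀ o₀' a b) (commutU L R s o₁ o₁' a b) := by
  refine commute_oprod fun i => commute_oprod fun j => Commute.symm
    (commute_oprod fun i' => commute_oprod fun j' => Commute.symm
      (commutC_comm ((hL' _).mul_right (hR' _)) ((hL _).mul_right (hR _)) ?_ ?_))
  · rw [commut_mul hc]
    rcases hab with rfl | rfl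
    · rw [commutP_one, commutP_one, commut_single h, map_zero, zero_mul]
    · rw [commutP_one o₀', commutP_one o₁', commut_single h', map_zero, mul_zero]
  · rw [commut_mul hc]
    rcases hab with rfl | rfl
    · rw [commutP_one, commutP_one, commut_single h.symm, map_zero, zero_mul]
    · rw [commutP_one o₀', commutP_one o₁', commut_single h'.symm, map_zero, mul_zero]

lemma continuous_commutU (u : M) (o : Fin p) (o' : Fin q) {X : Type} [TopologicalSpace X]
    {a b : X → ℝ} (ha : Continuous a) (hb : Continuous b) :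
    Continuous fun z => commutU L R u o o' (a z) (b z) := by
  have h1 := continuous_starAlgHom L
  have h2 := continuous_starAlgHom R
  refine commut_cont fun i => commut_cont fun j => ?_
  have h3 := continuous_commutP o i
  have h4 := continuous_commutP o' j
  unfold commutC
  fun_prop

/-- the homotopy inside an algebra of functions with boundary conditions -/
lemma commut_path (hp : 2 ≤ p) (hq : 2 ≤ q) (hc : ∀ x y, Commute (L x) (R y))
    (S : StarSubalgebra ℂ C(unitInterval, M)) (N₀ N₁ : StarSubalgebra ℂ M)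
    (hS : ∀ F, F ∈ S ↔ F 0 ∈ N₀ ∧ F 1 ∈ N₁) (h0 : ∀ x, L x ∈ N₀) (h1 : ∀ y, R y ∈ N₁) {u s : M}
    (hu : u ∈ unitary M) (hs : s ∈ unitary M) (hu0 : u ∈ N₀) (hu1 : u ∈ N₁) (hs0 : s ∈ N₀)
    (hs1 : s ∈ N₁) (hL : ∀ x, Commute u (L x)) (hR : ∀ y, Commute u (R y))
    (hL' : ∀ x, Commute s (L x)) (hR' : ∀ y, Commute s (R y)) :
    ∃ f : unitInterval → S, Continuous f ∧ (∀ τ, f τ ∈ unitary S) ∧ f 0 = 1 ∧
      ∀ t, (f 1).1 t = s * u * star s * star u := by
  let a : unitInterval × unitInterval → ℝ := fun z => (1 - (z.1 : ℝ)) * min 1 (2 * (1 - (z.2 : ℝ)))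
  let b : unitInterval × unitInterval → ℝ := fun z => (1 - (z.1 : ℝ)) * min 1 (2 * (z.2 : ℝ))
  have ha : Continuous a := by fun_prop
  have hb : Continuous b := by fun_prop
  have key : ∀ (w : M) (o : Fin p) (o' : Fin q), w ∈ unitary M → w ∈ N₀ → w ∈ N₁ →
      (∀ x, Commute w (L x)) → (∀ y, Commute w (R y)) → ∃ g : unitInterval → S, Continuous g ∧
        (∀ τ, g τ ∈ unitary S) ∧ ∀ τ t, (g τ).1 t = commutU L R w o o' (a (τ, t)) (b (τ, t)) := by
    intro w o o' hw w0 w1 wL wR
    let Γ : C(unitInterval × unitInterval, M) :=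
      ⟨fun z => commutU L R w o o' (a z) (b z), continuous_commutU w o o' ha hb⟩
    have hm : ∀ τ, Γ.curry τ ∈ S := fun τ => (hS _).2 ⟨by
      change commutU L R w o o' (a (τ, 0)) (b (τ, 0)) ∈ N₀
      rw [show b (τ, 0) = 0 by simp [b], commutU_right hc wL wR]
      exact commut_oprod_mem _ fun i =>
        add_mem (one_mem _) (mul_mem (sub_mem w0 (one_mem _)) (h0 _)), by
      change commutU L R w o o' (a (τ, 1)) (b (τ, 1)) ∈ N₁
      rw [show a (τ, 1) = 0 by simp [a], commutU_left hc wL wR]
      exact commut_oprod_mem _ fun i =>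
        add_mem (one_mem _) (mul_mem (sub_mem w1 (one_mem _)) (h1 _))⟩
    refine ⟨fun τ => ⟨Γ.curry τ, hm τ⟩, Γ.curry.continuous.subtype_mk _, fun τ => ⟨?_, ?_⟩,
      fun _ _ => rfl⟩
    · exact Subtype.ext (ContinuousMap.ext fun t => (commutU_mem hc hw wL wR o o' _ _).1)
    · exact Subtype.ext (ContinuousMap.ext fun t => (commutU_mem hc hw wL wR o o' _ _).2)
  obtain ⟨g, g1, g2, g3⟩ := key u ⟨0, by omega⟩ ⟨0, by omega⟩ hu hu0 hu1 hL hR
  obtain ⟨k, k1, k2, k3⟩ := key s ⟨1, by omega⟩ ⟨1, by omega⟩ hs hs0 hs1 hL' hR'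
  have hst : Continuous fun x : S => star x :=
    (continuous_subtype_val.star).subtype_mk fun x : S => star_mem x.2
  refine ⟨fun τ => k τ * g τ * star (k τ) * star (g τ),
    ((k1.mul g1).mul (hst.comp k1)).mul (hst.comp g1), fun τ =>
    mul_mem (mul_mem (mul_mem (k2 τ) (g2 τ)) (Unitary.star_mem (k2 τ))) (Unitary.star_mem (g2 τ)),
    ?_, fun t => ?_⟩
  · have hcm : k 0 * g 0 = g 0 * k 0 := Subtype.ext (ContinuousMap.ext fun t => by
      change (k 0).1 t * (g 0).1 t = (g 0).1 t * (k 0).1 t
      rw [g3, k3]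
      refine (commutU_comm hc hL hR hL' hR' (by simp) (by simp) ?_).symm.eq
      rcases le_total (t : ℝ) (1 / 2) with h | h
      · left
        simp only [a, Set.Icc.coe_zero, sub_zero, one_mul]
        exact min_eq_left (by linarith)
      · right
        simp only [b, Set.Icc.coe_zero, sub_zero, one_mul]
        exact min_eq_left (by linarith))
    change k 0 * g 0 * star (k 0) * star (g 0) = 1
    rw [hcm, mul_assoc (g 0), (k2 0).2, mul_one, (g2 0).2]
  · change (k 1).1 t * (g 1).1 t * star ((k 1).1 t) * star ((g 1).1 t) = _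
    rw [g3, k3, show a (1, t) = 0 by simp [a], show b (1, t) = 0 by simp [b],
      commutU_zero hc hL hR, commutU_zero hc hL' hR']

end Main

open ZTens in
lemma commut_aux {B C : Type u} [CStarAlgebra B] [CStarAlgebra C] {p q : ℕ} (hp : 2 ≤ p)
    (hq : 2 ≤ q) (γ : dimDrop p q →⋆ₐ[ℂ] C) (ι : B →⋆ₐ[ℂ] C) (hc : ∀ b f, Commute (ι b) (γ f))
    {s u : B} (hs : s ∈ unitary B) (hu : u ∈ unitary B) :
    InvJoined (ι (s * u * star s * star u)) := by
  have : Nonempty (Fin p) := ⟨⟨0, by omega⟩⟩
  have : Nonempty (Fin q) := ⟨⟨0, by omega⟩⟩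
  obtain ⟨Γ, h1, h2⟩ := exists_contHom (γ.comp (sc p q)) ι fun φ b => (hc b _).symm
  have hD := commut_mdata ι γ hc Γ h1 h2
  have h3 : ∀ b, Γ (ContinuousMap.const unitInterval b) = ι b := fun b => by
    have := h1 1 b
    rw [map_one, one_mul] at this
    exact (congrArg Γ (ContinuousMap.ext fun t => (one_smul ℂ b).symm)).trans this
  let M := CStarMatrix (Fin p × Fin q) (Fin p × Fin q) B
  let π' : Matrix (Fin p × Fin q) (Fin p × Fin q) B →⋆ₐ[ℂ] M :=
    (CStarMatrix.ofMatrixStarAlgEquiv : Matrix _ _ B ≃⋆ₐ[ℂ] M)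
  let π : M →⋆ₐ[ℂ] Matrix (Fin p × Fin q) (Fin p × Fin q) B :=
    (CStarMatrix.ofMatrixStarAlgEquiv.symm : M ≃⋆ₐ[ℂ] Matrix _ _ B)
  have hπ : ∀ x y, Continuous fun m : M => π m x y := fun x y =>
    Continuous.matrix_elem continuous_id x y
  let N₀ : StarSubalgebra ℂ M := (π'.comp (kapHom B (Equiv.refl (Fin p × Fin q)))).range
  let N₁ : StarSubalgebra ℂ M := (π'.comp (kapHom B (Equiv.prodComm (Fin p) (Fin q)))).range
  let S : StarSubalgebra ℂ C(unitInterval, M) :=
    { carrier := {F | F 0 ∈ N₀ ∧ F 1 ∈ N₁}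
      mul_mem' := fun h h' => ⟨mul_mem h.1 h'.1, mul_mem h.2 h'.2⟩
      add_mem' := fun h h' => ⟨add_mem h.1 h'.1, add_mem h.2 h'.2⟩
      algebraMap_mem' := fun c => ⟨N₀.algebraMap_mem c, N₁.algebraMap_mem c⟩
      star_mem' := fun h => ⟨star_mem h.1, star_mem h.2⟩ }
  obtain ⟨Φ, hΦc, hΦ⟩ := hD.exists_hom π hπ S fun F =>
    ⟨fun ⟨⟨c, hc⟩, d, hd⟩ => ⟨⟨c, (congrArg π hc).symm⟩, d, (congrArg π hd).symm⟩,
      fun ⟨⟨c, hc⟩, d, hd⟩ => ⟨⟨c, (congrArg π' hc).symm⟩, d, (congrArg π' hd).symm⟩⟩
  let sm : ∀ n : ℕ, Matrix (Fin n) (Fin n) ℂ →⋆ₐ[ℂ] Matrix (Fin n) (Fin n) B := fun n =>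
    { (Algebra.ofId ℂ B).mapMatrix with
      map_star' := fun x => by
        ext i j
        simp [Matrix.star_apply, Algebra.algebraMap_eq_smul_one] }
  have hsm : ∀ n x i j, sm n x i j = x i j • (1 : B) := fun n x i j =>
    Algebra.algebraMap_eq_smul_one _
  let dg : ∀ (J : Type) [Fintype J] [DecidableEq J], B →⋆ₐ[ℂ] Matrix J J B := fun J _ _ =>
    { Matrix.scalarAlgHom J ℂ with
      map_star' := fun x => by
        ext i j
        by_cases h : i = j <;> simp [Matrix.star_apply, h, eq_comm] }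
  have hdg : ∀ (J : Type) [Fintype J] [DecidableEq J] b, dg J b = Matrix.diagonal fun _ => b :=
    fun J _ _ b => rfl
  have hkd : ∀ {J₀ R : Type} [Fintype J₀] [DecidableEq J₀] [DecidableEq R]
      (e : Fin p × Fin q ≃ J₀ × R) (b : B), kap e (dg J₀ b) = dg _ b := by
    intro J₀ R _ _ _ e b
    refine Matrix.ext fun x y => ?_
    rw [kap_apply, hdg, hdg, Matrix.diagonal_apply, Matrix.diagonal_apply, ← ite_and]
    refine if_congr ?_ rfl rfl
    rw [← e.injective.eq_iff, Prod.ext_iff, and_comm]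
  have hcd : ∀ n x b, Commute (dg (Fin n) b) (sm n x) := by
    intro n x b
    refine Matrix.ext fun i j => ?_
    rw [hdg, Matrix.diagonal_mul, Matrix.mul_diagonal, hsm]
    simp
  let L := (π'.comp (kapHom B (Equiv.refl (Fin p × Fin q)))).comp (sm p)
  let R := (π'.comp (kapHom B (Equiv.prodComm (Fin p) (Fin q)))).comp (sm q)
  let D := π'.comp (dg (Fin p × Fin q))
  have hD0 : ∀ b, D b = π' (kapHom B (Equiv.refl (Fin p × Fin q)) (dg _ b)) := fun b =>
    congrArg π' (hkd _ b).symm
  have hD1 : ∀ b, D b = π' (kapHom B (Equiv.prodComm (Fin p) (Fin q)) (dg _ b)) := fun b =>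
    congrArg π' (hkd _ b).symm
  have hLR : ∀ x y, Commute (L x) (R y) := by
    intro x y
    have e : ∀ {J₀ R : Type} [DecidableEq R] (e : Fin p × Fin q ≃ J₀ × R) (x : Matrix J₀ J₀ ℂ),
        kap e (x.map (algebraMap ℂ B)) = (kap e x).map (algebraMap ℂ B) := by
      intro J₀ R _ e x
      refine Matrix.ext fun a b => ?_
      rw [kap_apply, Matrix.map_apply, Matrix.map_apply, kap_apply]
      split_ifs <;> simp
    refine Commute.map ?_ π'
    change Commute (kap _ (x.map (algebraMap ℂ B))) (kap _ (y.map (algebraMap ℂ B)))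
    rw [e, e]
    exact (kL_kR x y).map (algebraMap ℂ B).mapMatrix
  have hDL : ∀ b x, Commute (D b) (L x) := fun b x => by
    rw [hD0]; exact ((hcd p x b).map (kapHom B _)).map π'
  have hDR : ∀ b y, Commute (D b) (R y) := fun b y => by
    rw [hD1]; exact ((hcd q y b).map (kapHom B _)).map π'
  obtain ⟨f, f1, f2, f3, f4⟩ := commut_path hp hq hLR S N₀ N₁ (fun F => Iff.rfl)
    (fun x => ⟨_, rfl⟩) (fun y => ⟨_, rfl⟩) (map_mem_unitary D hu) (map_mem_unitary D hs)
    ⟨_, (hD0 u).symm⟩ ⟨_, (hD1 u).symm⟩ ⟨_, (hD0 s).symm⟩ ⟨_, (hD1 s).symm⟩ (hDL u) (hDR u)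
    (hDL s) (hDR s)
  have f5 : ∀ t, (f 1).1 t = D (s * u * star s * star u) := fun t => by
    rw [f4, map_mul, map_mul, map_mul, map_star, map_star]
  refine ⟨fun τ => Φ (f τ), hΦc.comp f1, fun τ => ?_, by simp [f3], ?_⟩
  · exact ⟨⟨Φ (f τ), Φ (star (f τ)), by rw [← map_mul, (f2 τ).2, map_one],
      by rw [← map_mul, (f2 τ).1, map_one]⟩, rfl⟩
  · have r1 : IsRep (f 1).1 0 := ContinuousMap.ext fun t => by
      change (f 1).1 t = (1 - tt) t • (f 1).1 0 + tt t • (f 1).1 1 + (tt * (1 - tt)) t • (0 : M)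
      rw [f5, f5, f5, smul_zero, add_zero, ← add_smul]
      simp
    have r2 : ∀ x y, entryMap π hπ 0 x y = 0 := fun x y =>
      ContinuousMap.ext fun t => by simp
    refine (hΦ _ _ (dg _ (s * u * star s * star u)) (dg _ (s * u * star s * star u)) r1
      (by rw [f5, hD0]; rfl) (by rw [f5, hD1]; rfl)).trans ?_
    simp only [h3, r2, map_zero, zero_mul, Finset.sum_const_zero, add_zero, hdg,
      Matrix.diagonal_apply, apply_ite ι, ite_mul, Finset.sum_ite_eq, Finset.mem_univ, if_true]
    rw [← Finset.mul_sum, ← Finset.mul_sum, hD.a_sum, hD.b_sum, ← mul_add, sub_add_cancel, mul_one]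

theorem commutator_joined {C : Type u} [CStarAlgebra C] {p q : ℕ} (hp : 2 ≤ p) (hq : 2 ≤ q)
    (γ : dimDrop p q →⋆ₐ[ℂ] C) {s u : C} (hs : s ∈ unitary C) (hu : u ∈ unitary C)
    (cs : ∀ f, Commute s (γ f)) (cu : ∀ f, Commute u (γ f)) :
    InvJoined (s * u * star s * star u) := by
  let B := StarSubalgebra.centralizer ℂ (Set.range γ)
  have hB : IsClosed (B : Set C) := isClosed_centralizer _
  have hm : ∀ x, x ∈ B ↔ ∀ f, Commute x (γ f) := fun x => by
    rw [StarSubalgebra.mem_centralizer_iff]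
    constructor
    · exact fun h f => (h _ ⟨f, rfl⟩).1.symm
    · rintro h _ ⟨f, rfl⟩
      exact ⟨(h f).eq.symm, by simpa only [map_star] using (h (star f)).eq.symm⟩
  exact commut_aux hp hq γ B.subtype (fun b f => (hm _).1 b.2 f)
    (s := ⟨s, (hm s).2 cs⟩) (u := ⟨u, (hm u).2 cu⟩)
    ⟨Subtype.ext hs.1, Subtype.ext hs.2⟩ ⟨Subtype.ext hu.1, Subtype.ext hu.2⟩

end Vale.Agent.P095
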