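import Vale.Agent.P095.Basic

/-! P095: compression to a large subspace on which a matrix is almost positive. See skel/P095/BLUEPRINT.md. -/

namespace Vale.Agent.P095

open Filter Topology Vale.Agent.P101 Vale.Agent.P101.F
open scoped ComplexOrder Kronecker Matrix

universe u v w

section Aux

open Finset

theorem compress_spec {I : Type} [Fintype I] [DecidableEq I] {X : Matrix I I ℂ}
    (hX : X.IsHermitian) : ∃ (E : Matrix I I ℂ) (d : I → ℝ), E * Eᴴ = 1 ∧ Eᴴ * E = 1 ∧
      X = E * Matrix.diagonal (fun i => (d i : ℂ)) * Eᴴ := by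
  refine ⟨hX.eigenvectorUnitary, hX.eigenvalues, ?_, ?_, ?_⟩
  · exact (Matrix.mem_unitaryGroup_iff.1 hX.eigenvectorUnitary.2)
  · exact (Matrix.mem_unitaryGroup_iff'.1 hX.eigenvectorUnitary.2)
  · exact hX.spectral_theorem

theorem compress_pow {I : Type} [Fintype I] [DecidableEq I] {E : Matrix I I ℂ} (h1 : E * Eᴴ = 1)
    (h2 : Eᴴ * E = 1) (D : Matrix I I ℂ) (n : ℕ) : (E * D * Eᴴ) ^ n = E * D ^ n * Eᴴ := by
  induction n with
  | zero => simp [h1]
  | succ n ih =>
    rw [pow_succ, ih, pow_succ]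
    calc E * D ^ n * Eᴴ * (E * D * Eᴴ) = E * D ^ n * (Eᴴ * E) * D * Eᴴ := by
          simp only [Matrix.mul_assoc]
      _ = _ := by rw [h2]; simp only [Matrix.mul_assoc, Matrix.mul_one]

theorem compress_ker {Y T : Type} [Fintype Y] [Fintype T] (G : Matrix T Y ℂ) :
    ∃ (D' : ℕ) (U : Matrix Y (Fin D') ℂ), Uᴴ * U = 1 ∧
      Fintype.card Y ≤ D' + Fintype.card T ∧ G * U = 0 := by
  classical
  let L : EuclideanSpace ℂ Y →ₗ[ℂ] (T → ℂ) :=
    (Matrix.mulVecLin G).comp (WithLp.linearEquiv 2 ℂ (Y → ℂ)).toLinearMap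
  let b := stdOrthonormalBasis ℂ (LinearMap.ker L)
  refine ⟨Module.finrank ℂ (LinearMap.ker L), Matrix.of fun y d => (b d).1.ofLp y, ?_, ?_, ?_⟩
  · ext d d'
    have h := orthonormal_iff_ite.1 b.orthonormal d d'
    rw [Submodule.coe_inner, PiLp.inner_apply] at h
    simp only [Matrix.mul_apply, Matrix.conjTranspose_apply, Matrix.of_apply, Matrix.one_apply]
    rw [← h]
    exact sum_congr rfl fun y _ => by simp [mul_comm]
  · have h1 := LinearMap.finrank_range_add_finrank_ker L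
    have h2 : Module.finrank ℂ (LinearMap.range L) ≤ Fintype.card T := by
      simpa using Submodule.finrank_le (LinearMap.range L)
    rw [finrank_euclideanSpace] at h1
    omega
  · ext t d
    exact congrFun (LinearMap.mem_ker.1 (b d).2) t

end Aux

theorem compress_psd {k : ℕ} {Y : Type} [Fintype Y] [DecidableEq Y]
    {X : Matrix (Fin k × Y) (Fin k × Y) ℂ} (hX : X.IsHermitian) {C η M : ℝ} (hC : 0 < C)
    (hη : 0 < η) (n : ℕ) (h : (Matrix.trace ((1 - ((C⁻¹ : ℝ) : ℂ) • X) ^ (2 * n))).re ≤ M) :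
    ∃ (D' : ℕ) (U : Matrix Y (Fin D') ℂ), Uᴴ * U = 1 ∧
      (Fintype.card Y : ℝ) ≤ D' + k * M / (1 + η / C) ^ (2 * n) ∧
      (((1 : Matrix (Fin k) (Fin k) ℂ) ⊗ₖ U)ᴴ * (X + (η : ℂ) • 1) *
        ((1 : Matrix (Fin k) (Fin k) ℂ) ⊗ₖ U)).PosSemidef := by
  obtain ⟨E, d, h1, h2, rfl⟩ := compress_spec hX
  have e1 : 1 - ((C⁻¹ : ℝ) : ℂ) • (E * Matrix.diagonal (fun i => (d i : ℂ)) * Eᴴ) =
      E * Matrix.diagonal (fun i => ((1 - C⁻¹ * d i : ℝ) : ℂ)) * Eᴴ := by
    have : Matrix.diagonal (fun i => ((1 - C⁻¹ * d i : ℝ) : ℂ)) =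
        1 - ((C⁻¹ : ℝ) : ℂ) • Matrix.diagonal (fun i => (d i : ℂ)) := by
      ext i j
      by_cases hij : i = j <;> simp [hij]
    rw [this, Matrix.mul_sub, Matrix.sub_mul, Matrix.mul_one, h1, Matrix.mul_smul, Matrix.smul_mul]
  rw [e1, compress_pow h1 h2, Matrix.trace_mul_cycle, h2, Matrix.one_mul, Matrix.diagonal_pow,
    Matrix.trace_diagonal] at h
  simp only [Pi.pow_apply, ← Complex.ofReal_pow, ← Complex.ofReal_sum, Complex.ofReal_re] at h
  have hq : 0 < (1 + η / C) ^ (2 * n) := by positivity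
  have hbad : ((Finset.univ.filter fun i => d i < -η).card : ℝ) ≤ M / (1 + η / C) ^ (2 * n) := by
    rw [le_div_iff₀ hq, ← nsmul_eq_mul, ← Finset.sum_const]
    refine le_trans (Finset.sum_le_sum fun i hi => ?_) ((Finset.sum_le_sum_of_subset_of_nonneg
      (Finset.filter_subset _ _) fun i _ _ => ?_).trans h)
    · refine pow_le_pow_left₀ (by positivity) ?_ _
      have := mul_lt_mul_of_pos_left (Finset.mem_filter.1 hi).2 (inv_pos.2 hC)
      rw [div_eq_inv_mul]
      linarith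
    · exact Even.pow_nonneg (even_two_mul n) _
  obtain ⟨D', U, hU, hc, hG⟩ := compress_ker
    (Matrix.of fun (t : {i // d i < -η} × Fin k) (y : Y) => star (E (t.2, y) t.1.1))
  refine ⟨D', U, hU, ?_, ?_⟩
  · rw [Fintype.card_prod, Fintype.card_fin, Fintype.card_subtype] at hc
    have h3 := (Nat.cast_le (α := ℝ)).2 hc
    push_cast at h3
    rw [mul_div_assoc]
    nlinarith [mul_le_mul_of_nonneg_left hbad (Nat.cast_nonneg (α := ℝ) k)]
  · have e2 : E * Matrix.diagonal (fun i => (d i : ℂ)) * Eᴴ + (η : ℂ) • 1 =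
        E * Matrix.diagonal (fun i => ((d i + η : ℝ) : ℂ)) * Eᴴ := by
      have : Matrix.diagonal (fun i => ((d i + η : ℝ) : ℂ)) =
          Matrix.diagonal (fun i => (d i : ℂ)) + (η : ℂ) • 1 := by
        ext i j
        by_cases hij : i = j <;> simp [hij]
      rw [this, Matrix.mul_add, Matrix.add_mul, Matrix.mul_smul, Matrix.smul_mul, Matrix.mul_one,
        h1]
    have e3 : ∀ i, d i < -η → ∀ b, (Eᴴ * ((1 : Matrix (Fin k) (Fin k) ℂ) ⊗ₖ U)) i b = 0 := by
      intro i hi b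
      have := congrFun (congrFun hG (⟨i, hi⟩, b.1)) b.2
      simp only [Matrix.mul_apply, Matrix.of_apply, Matrix.zero_apply] at this
      simp only [Matrix.mul_apply, Matrix.conjTranspose_apply, Fintype.sum_prod_type,
        Matrix.kroneckerMap_apply, Matrix.one_apply, ite_mul, one_mul, zero_mul, mul_ite, mul_zero]
      rw [Finset.sum_comm]
      simpa only [Finset.sum_ite_eq', Finset.mem_univ, if_true] using this
    have e4 : Matrix.diagonal (fun i => ((d i + η : ℝ) : ℂ)) *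
        (Eᴴ * ((1 : Matrix (Fin k) (Fin k) ℂ) ⊗ₖ U)) =
        Matrix.diagonal (fun i => ((max (d i + η) 0 : ℝ) : ℂ)) *
        (Eᴴ * ((1 : Matrix (Fin k) (Fin k) ℂ) ⊗ₖ U)) := by
      ext i b
      rw [Matrix.diagonal_mul, Matrix.diagonal_mul]
      by_cases hi : d i < -η
      · rw [e3 i hi, mul_zero, mul_zero]
      · rw [max_eq_left (by linarith [not_lt.1 hi])]
    have h5 := (Matrix.PosSemidef.diagonal (d := fun i => ((max (d i + η) 0 : ℝ) : ℂ))
      fun i => Complex.zero_le_real.2 (le_max_right _ _)).conjTranspose_mul_mul_same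
        (Eᴴ * ((1 : Matrix (Fin k) (Fin k) ℂ) ⊗ₖ U))
    rw [Matrix.mul_assoc, ← e4, Matrix.conjTranspose_mul, Matrix.conjTranspose_conjTranspose] at h5
    rw [e2]
    simpa only [Matrix.mul_assoc] using h5

end Vale.Agent.P095
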