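import Vale.Agent.P095.LimTr

/-! P095: tracial copies of `M_2` from the relations of Rordam and Winter. See skel/P095/BLUEPRINT.md. -/

namespace Vale.Agent.P095

open Filter Topology Vale.Agent.P101 Vale.Agent.P101.F
open scoped ComplexOrder

universe u v w

variable {B : Type u} [CStarAlgebra B] {G : Type v} [Group G] {E : Env B G}
variable {ω : Ultrafilter ℕ}

theorem copyA_pair {F : Type u} [CStarAlgebra F] {n : Type} [Fintype n] [DecidableEq n] {o : n}
    {φ : n → n → F} {v : F} (h : RW o φ v) (σ : n → n) (hσ : Function.Involutive σ) (s : n → ℂ)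
    (hs : ∀ i, s i = 1 ∨ s i = -1) (hσs : ∀ i, s (σ i) = -s i) :
    ∃ x y : F, star x = x ∧ star y = y ∧ x * x = (1 - star v * v) * (1 - star v * v) ∧
      y * y = (1 - star v * v) * (1 - star v * v) ∧ x * y + y * x = 0 := by
  have key : ∀ (a b : n → ℂ) (f g : n → n), (∑ i, a i • φ i (f i)) * ∑ i, b i • φ i (g i) =
      ∑ i, (a i * b (f i)) • ((1 - star v * v) * φ i (g (f i))) := fun a b f g => by
    rw [Finset.sum_mul_sum]
    refine Finset.sum_congr rfl fun i _ => ?_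
    rw [Finset.sum_eq_single (f i) (fun j _ hj => by
      rw [smul_mul_smul_comm, h.mul_eq, if_neg hj.symm, smul_zero])
      fun hj => absurd (Finset.mem_univ _) hj, smul_mul_smul_comm, h.mul_eq, if_pos rfl]
  refine ⟨∑ i, s i • φ i (id i), ∑ i, (1 : ℂ) • φ i (σ i), ?_, ?_, ?_, ?_, ?_⟩
  · rw [star_sum]
    refine Finset.sum_congr rfl fun i _ => ?_
    rcases hs i with e | e <;> simp [e, h.star_eq]
  · rw [star_sum, ← Equiv.sum_comp hσ.toPerm]
    refine Finset.sum_congr rfl fun i _ => ?_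
    simp [h.star_eq, hσ i]
  · rw [key]
    conv_rhs => rw [← h.sum_eq, Finset.mul_sum, h.sum_eq]
    refine Finset.sum_congr rfl fun i _ => ?_
    rcases hs i with e | e <;> simp [e]
  · rw [key]
    conv_rhs => rw [← h.sum_eq, Finset.mul_sum, h.sum_eq]
    refine Finset.sum_congr rfl fun i _ => ?_
    simp [hσ i]
  · rw [key, key, ← Finset.sum_add_distrib]
    refine Finset.sum_eq_zero fun i _ => ?_
    simp [hσs]

theorem copyA_norm {F : Type u} [CStarAlgebra F] {v : F} (hv : ‖v‖ ≤ 1) :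
    ‖1 - star v * v‖ ≤ 1 := by
  have h1 : star v * v ≤ 1 := (CStarAlgebra.norm_le_one_iff_of_nonneg _
    (star_mul_self_nonneg v)).1 (by
      rw [CStarRing.norm_star_mul_self]
      exact mul_le_one₀ hv (norm_nonneg _) hv)
  exact (CStarAlgebra.norm_le_one_iff_of_nonneg _ (sub_nonneg.2 h1)).2
    (sub_le_self _ (star_mul_self_nonneg v))

theorem copyA_small {F : Type u} [CStarAlgebra F] {n : Type} [Fintype n] [DecidableEq n] {o : n}
    {φ : n → n → F} {v : F} (h : RW o φ v) (hv : ‖v‖ ≤ 1) {τ : F →L[ℂ] ℂ} (hτ : IsTr τ) :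
    Fintype.card n * nrm τ v ^ 2 ≤ 1 := by
  have h1 : (1 - star v * v) * v = v := by
    have := h.mul_eq o o o o
    rw [if_pos rfl] at this
    calc (1 - star v * v) * v = (1 - star v * v) * φ o o * v := by rw [mul_assoc, h.mul_v]
      _ = v := by rw [← this, mul_assoc, h.mul_v, h.mul_v]
  have h2 : ∀ i, nrm τ v ^ 2 ≤ (τ ((1 - star v * v) * φ i i)).re := fun i => by
    have e1 : star (φ i o * v) * (φ i o * v) = star v * v := by
      rw [star_mul, h.star_eq, mul_assoc, ← mul_assoc (φ o i), h.mul_eq, if_pos rfl, mul_assoc,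
        h.mul_v, h1]
    have e2 : star (star (φ i o)) * star (φ i o) = (1 - star v * v) * φ i i := by
      rw [star_star, h.star_eq, h.mul_eq, if_pos rfl]
    rw [← e2, ← hτ.nrm_sq, hτ.nrm_star, hτ.nrm_sq v, ← e1, ← hτ.nrm_sq]
    exact pow_le_pow_left₀ (nrm_nonneg _ _) ((hτ.nrm_mul_right _ _).trans
      (mul_le_of_le_one_right (nrm_nonneg _ _) hv)) 2
  have h3 := Finset.sum_le_sum fun i (_ : i ∈ Finset.univ) => h2 i
  rw [Finset.sum_const, Finset.card_univ, nsmul_eq_mul, ← Complex.re_sum, ← map_sum,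
    ← Finset.mul_sum, h.sum_eq] at h3
  exact h3.trans ((Complex.re_le_norm _).trans ((hτ.norm_apply_le _).trans ((norm_mul_le _ _).trans
    (mul_le_one₀ (copyA_norm hv) (norm_nonneg _) (copyA_norm hv)))))

theorem rw_pair {F : Type u} [CStarAlgebra F] (h : HasRW F) {ε : ℝ} (hε : 0 < ε) :
    ∃ x y : F, star x = x ∧ star y = y ∧ ‖x‖ ≤ 1 ∧ ‖y‖ ≤ 1 ∧ x * y + y * x = 0 ∧
      ∀ τ, IsTr τ → nrm τ (x * x - 1) ≤ ε ∧ nrm τ (y * y - 1) ≤ ε := by
  obtain ⟨N, hN⟩ := exists_nat_ge (4 / ε ^ 2)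
  obtain ⟨φ, v, hφ, hv⟩ := h (2 * N + 1)
  obtain ⟨x, y, h1, h2, h3, h4, h5⟩ := copyA_pair hφ Fin.rev Fin.rev_involutive
    (fun i => if i < i.rev then 1 else -1) (fun i => by split_ifs <;> simp) fun i => by
      have := i.2
      rw [Fin.rev_rev]
      by_cases hi : i < i.rev
      · rw [if_pos hi, if_neg hi.not_gt]
      · rw [if_neg hi, if_pos, neg_neg]
        rw [Fin.lt_def, Fin.val_rev] at hi ⊢
        omega
  have hc := copyA_norm hv
  have hn : ∀ z : F, star z = z → z * z = (1 - star v * v) * (1 - star v * v) → ‖z‖ ≤ 1 :=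
    fun z a b => by
      have e := CStarRing.norm_star_mul_self (x := z)
      rw [a, b] at e
      have := (norm_mul_le (1 - star v * v) (1 - star v * v)).trans
        (mul_le_one₀ hc (norm_nonneg _) hc)
      nlinarith [norm_nonneg z]
  refine ⟨x, y, h1, h2, hn x h1 h3, hn y h2 h4, h5, fun τ hτ => ?_⟩
  rw [h3, h4, and_self]
  have e1 : (1 - star v * v) * (1 - star v * v) - 1 =
      -(star v * v + (1 - star v * v) * (star v * v)) := by noncomm_ring
  have e2 : nrm τ (star v * v) ≤ nrm τ v := (hτ.nrm_mul_left _ _).trans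
    (mul_le_of_le_one_left (nrm_nonneg _ _) (by rwa [norm_star]))
  have e3 := (hτ.nrm_mul_left (1 - star v * v) (star v * v)).trans
    (mul_le_of_le_one_left (nrm_nonneg _ _) hc)
  have e4 := hτ.nrm_add_le (star v * v) ((1 - star v * v) * (star v * v))
  have e5 := copyA_small hφ hv hτ
  rw [Fintype.card_fin] at e5
  push_cast at e5
  rw [div_le_iff₀ (by positivity)] at hN
  have e6 : (2 * nrm τ v) ^ 2 ≤ ε ^ 2 := by
    have e7 := mul_le_mul_of_nonneg_right hN (sq_nonneg (nrm τ v))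
    have e8 : (N : ℝ) * nrm τ v ^ 2 ≤ 1 := by
      nlinarith [sq_nonneg (nrm τ v), (Nat.cast_nonneg N : (0 : ℝ) ≤ N)]
    nlinarith [mul_le_mul_of_nonneg_left e8 (sq_nonneg ε)]
  have e9 := (pow_le_pow_iff_left₀ (mul_nonneg zero_le_two (nrm_nonneg τ v)) hε.le
    two_ne_zero).1 e6
  rw [e1, nrm_neg]
  linarith

theorem copyA_ev {F : Type u} [CStarAlgebra F] {q : centralSeq B ω →⋆ₐ[ℂ] F}
    (hq : AnnQuot E ω q) {a a' a'' : B} (ht : Tri E a a' a'') {ε : ℝ} (hε : 0 < ε)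
    (W : centralSeq B ω) (w : BoundedContinuousFunction ℕ B) (hw : umk ω w = W)
    (h : ∀ τ, IsTr τ → nrm τ (q W) ≤ √(ε / 2)) :
    ∀ᶠ n in (ω : Filter ℕ), ∀ r ∈ trSet a a', (r (star (w n) * w n)).re ≤ ε := by
  have := eventually_of_isLim (ω := ω) (fun r hr => ht.trSet_norm hr) (star w * w) (c := ε / 2)
    (half_pos hε) fun ρ hρ => by
      obtain ⟨τ, h1, h2⟩ := ht.isTr_of_lift hρ q hq.surj fun x hx => ht.lim_ann hρ ((hq.ker x).1 hx)
      have h3 := h2 (star W * W)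
      rw [map_mul, map_star] at h3
      rw [map_mul, map_star, hw]
      refine le_trans (le_of_eq (congrArg Complex.re h3.symm)) ?_
      rw [← h1.nrm_sq]
      exact (pow_le_pow_left₀ (nrm_nonneg _ _) (h τ h1) 2).trans_eq (Real.sq_sqrt (half_pos hε).le)
  rwa [add_halves] at this

theorem copyA_of_hasRW {F : Type u} [CStarAlgebra F] {q : centralSeq B ω →⋆ₐ[ℂ] F}
    (hq : AnnQuot E ω q) (h : HasRW F) {a a' a'' : B} (ht : Tri E a a' a'') :
    CopyA E a a' := by
  intro S K ε hε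
  obtain ⟨x, y, h1, h2, h3, h4, h5, h6⟩ := rw_pair h (Real.sqrt_pos.2 (half_pos hε))
  obtain ⟨X, rfl, a1, a2⟩ := hq.lift_sa (isClosed_centralSeq B ω) h1
  obtain ⟨Y, rfl, b1, b2⟩ := hq.lift_sa (isClosed_centralSeq B ω) h2
  obtain ⟨u, hu, a3⟩ := exists_rep_sa (x := (X : Ultrapower B ω)) (congrArg Subtype.val a1)
  obtain ⟨v, hv, b3⟩ := exists_rep_sa (x := (Y : Ultrapower B ω)) (congrArg Subtype.val b1)
  have hc : ∀ z : BoundedContinuousFunction ℕ B, umk ω z ∈ centralSeq B ω → ∀ b,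
      ∀ᶠ n in (ω : Filter ℕ), ‖z n * b - b * z n‖ ≤ ε := fun z hz b =>
    ((umk_mem_centralSeq.1 hz b).eventually_le_const hε).mono fun n hn => by
      rwa [norm_sub_rev]
  have k1 : ∀ᶠ n in (ω : Filter ℕ), ∀ b ∈ S,
      ‖u n * b - b * u n‖ ≤ ε ∧ ‖v n * b - b * v n‖ ≤ ε :=
    (eventually_all_finset S).2 fun b _ => (hc u (hu ▸ X.2) b).and (hc v (hv ▸ Y.2) b)
  have k2 : ∀ᶠ n in (ω : Filter ℕ), ∀ g ∈ K, ∀ ρ ∈ trSet (E.α g a) (E.α g a'),
      ∀ w ∈ [u n * u n - 1, v n * v n - 1, u n * v n + v n * u n], (ρ (star w * w)).re ≤ ε := by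
    refine (eventually_all_finset K).2 fun g _ => ?_
    filter_upwards [copyA_ev hq (ht.act g) hε (X * X - 1) (u * u - 1) (by simp [hu])
        fun τ hτ => by simpa using (h6 τ hτ).1,
      copyA_ev hq (ht.act g) hε (Y * Y - 1) (v * v - 1) (by simp [hv])
        fun τ hτ => by simpa using (h6 τ hτ).2,
      copyA_ev hq (ht.act g) hε (X * Y + Y * X) (u * v + v * u) (by simp [hu, hv])
        fun τ _ => by simp [h5, nrm, -Real.sqrt_div']] with n c1 c2 c3 ρ hρ w hw
    simp only [List.mem_cons, List.not_mem_nil, or_false] at hw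
    rcases hw with rfl | rfl | rfl
    exacts [c1 ρ hρ, c2 ρ hρ, c3 ρ hρ]
  obtain ⟨n, c1, c2⟩ := (k1.and k2).exists
  exact ⟨u n, v n, (a3 n).1, (b3 n).1, by linarith [(a3 n).2], by linarith [(b3 n).2], c1, c2⟩

end Vale.Agent.P095
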