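import Vale.Agent.P095.Ann

/-! P095: commuting copies in the invariant central sequence algebra. See skel/P095/BLUEPRINT.md. -/

namespace Vale.Agent.P095

open Filter Topology Vale.Agent.P101 Vale.Agent.P101.F
open scoped ComplexOrder

universe u v w

variable {B : Type u} [CStarAlgebra B] {G : Type v} [Group G] {E : Env B G}
variable {ω : Ultrafilter ℕ}

theorem copyG_index (hω : (ω : Filter ℕ) ≤ cofinite) (g z : ℕ → BoundedContinuousFunction ℕ B)
    (a : ℕ → B) (s : ℕ → G) (c : ℕ → ℝ) (hg : ∀ k, umk ω (g k) ∈ cenG E ω)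
    (hc : ∀ j k, ‖uconst ω (a j) * umk ω (g k)‖ ≤ ‖a j‖ * c k) :
    ∃ m : ℕ → ℕ, ∀ j k, ‖uconst ω (a j) * umk ω (reindMap B m (g k))‖ ≤ ‖a j‖ * c k ∧
      umk ω (z j) * umk ω (reindMap B m (g k)) = umk ω (reindMap B m (g k)) * umk ω (z j) ∧
      uact E ω (s j) (umk ω (reindMap B m (g k))) = umk ω (reindMap B m (g k)) := by
  have hω' : (ω : Filter ℕ) ≤ atTop := by rwa [← Nat.cofinite_eq_atTop]
  have h0 : Tendsto (fun n : ℕ => 1 / ((n : ℝ) + 1)) (ω : Filter ℕ) (𝓝 0) :=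
    tendsto_one_div_add_atTop_nhds_zero_nat.mono_left hω'
  have key : ∀ n : ℕ, ∃ m : ℕ, ∀ k ∈ Set.Iic n, ∀ j ∈ Set.Iic n,
      ‖a j * g k m‖ < ‖a j‖ * c k + 1 / ((n : ℝ) + 1) ∧
      ‖z j n * g k m - g k m * z j n‖ < 1 / ((n : ℝ) + 1) ∧
      ‖E.α (s j) (g k m) - g k m‖ < 1 / ((n : ℝ) + 1) := by
    intro n
    have h2 : (0 : ℝ) < 1 / ((n : ℝ) + 1) := Nat.one_div_pos_of_nat
    refine Eventually.exists (f := (ω : Filter ℕ)) ?_
    refine (eventually_all_finite (Set.finite_Iic n)).2 fun k _ =>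
      (eventually_all_finite (Set.finite_Iic n)).2 fun j _ => Eventually.and ?_
        (Eventually.and ?_ ?_)
    · refine (tendsto_norm_umk (constSeq B (a j) * g k)).eventually (gt_mem_nhds ?_)
      rw [map_mul, ← uconst_apply]
      linarith [hc j k]
    · exact (umk_mem_centralSeq.1 (mem_cenG.1 (hg k)).1 (z j n)).eventually (gt_mem_nhds h2)
    · have h1 := (mem_cenG.1 (hg k)).2 (s j)
      rw [uact, umap_umk, umk_eq_iff] at h1
      exact h1.eventually (gt_mem_nhds h2)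
  choose m hm using key
  refine ⟨m, fun j k => ⟨?_, ?_, ?_⟩⟩
  · have h1 := (tendsto_const_nhds (x := ‖a j‖ * c k) (f := (ω : Filter ℕ))).add h0
    rw [add_zero] at h1
    rw [uconst_apply, ← map_mul]
    refine le_of_tendsto_of_tendsto (tendsto_norm_umk _) h1 ?_
    filter_upwards [hω' (eventually_ge_atTop k), hω' (eventually_ge_atTop j)] with n hn hn'
    exact (hm n k hn j hn').1.le
  · rw [← map_mul, ← map_mul, umk_eq_iff]
    refine squeeze_zero' (Eventually.of_forall fun _ => norm_nonneg _) ?_ h0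
    filter_upwards [hω' (eventually_ge_atTop k), hω' (eventually_ge_atTop j)] with n hn hn'
    exact (hm n k hn j hn').2.1.le
  · rw [uact, umap_umk, umk_eq_iff]
    refine squeeze_zero' (Eventually.of_forall fun _ => norm_nonneg _) ?_ h0
    filter_upwards [hω' (eventually_ge_atTop k), hω' (eventually_ge_atTop j)] with n hn hn'
    exact (hm n k hn j hn').2.2.le

theorem copyG [TopologicalSpace.SeparableSpace B] [Countable G] (hω : (ω : Filter ℕ) ≤ cofinite)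
    {F : Type u} [CStarAlgebra F] {q : cenG E ω →⋆ₐ[ℂ] F} (hq : AnnQuot E ω q) {D : Type w}
    [CStarAlgebra D] [TopologicalSpace.SeparableSpace D] (ι : D →⋆ₐ[ℂ] F) {T : Set F}
    (hT : TopologicalSpace.IsSeparable T) :
    ∃ π : D →⋆ₐ[ℂ] F, ∀ d, ∀ t ∈ T, Commute (π d) t := by
  choose σ hσ using hq.surj
  choose y hy using fun d : D => umk_surjective (ω := ω) (σ (ι d) : Ultrapower B ω)
  obtain ⟨c, hc, hcd⟩ := TopologicalSpace.exists_countable_dense D
  set G0 : StarSubalgebra ℂ (D × BoundedContinuousFunction ℕ B) :=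
    StarAlgebra.adjoin ℂ ((fun d => (d, y d)) '' c) with hG0
  have hG0s : TopologicalSpace.SeparableSpace G0 :=
    (reind_sep_adjoin (hc.image fun d => (d, y d)).isSeparable).separableSpace
  have hG0e : ∀ g ∈ G0, ∃ x : cenG E ω, q x = ι g.1 ∧ (x : Ultrapower B ω) = umk ω g.2 := by
    intro g hg
    have h1 : G0 ≤ ((StarAlgHom.equalizer (q.comp (StarAlgHom.snd ℂ D _))
        (ι.comp (StarAlgHom.fst ℂ D _))).map ((StarAlgHom.fst ℂ D _).prod
          ((cenG E ω).subtype.comp (StarAlgHom.snd ℂ D _)))).comap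
          ((StarAlgHom.fst ℂ D _).prod ((umk ω).comp (StarAlgHom.snd ℂ D _))) :=
      StarAlgebra.adjoin_le (by
        rintro _ ⟨d, -, rfl⟩
        exact ⟨(d, σ (ι d)), hσ _, Prod.ext rfl (hy d).symm⟩)
    obtain ⟨x, h2, h3⟩ := h1 hg
    exact ⟨x.2, h2.trans (congrArg ι (congrArg Prod.fst h3)), congrArg Prod.snd h3⟩
  have : Nonempty G0 := ⟨0⟩
  set g : ℕ → G0 := TopologicalSpace.denseSeq G0 with hg
  have hgd : DenseRange g := TopologicalSpace.denseRange_denseSeq G0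
  obtain ⟨c₁, hc₁, hTc₁⟩ := hT
  obtain ⟨c', hc', hTc⟩ := (hc₁.image fun t => (σ t : Ultrapower B ω)).isSeparable.union
    (TopologicalSpace.isSeparable_range (reind_cont (uconst (A := B) ω)))
  obtain ⟨t, ht⟩ := (hc'.insert 0).exists_eq_range (Set.insert_nonempty _ _)
  choose z hz using fun j => umk_surjective (ω := ω) (t j)
  obtain ⟨a, ha, had⟩ := E.exists_dense
  obtain ⟨s, hs⟩ := exists_surjective_nat G
  obtain ⟨m, hm⟩ := copyG_index (E := E) hω (fun k => (g k).1.2) z a s (fun k => ‖(g k).1.1‖)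
    (fun k => by
      obtain ⟨x, -, h⟩ := hG0e _ (g k).2
      exact h ▸ x.2)
    fun j k => by
      obtain ⟨x, h1, h2⟩ := hG0e _ (g k).2
      rw [← h2]
      refine (hq.norm_mul_le (isClosed_cenG E ω) (ha j) x).trans
        (mul_le_mul_of_nonneg_left ?_ (norm_nonneg _))
      rw [h1]
      exact NonUnitalStarAlgHom.norm_apply_le ι _
  let Φ : BoundedContinuousFunction ℕ B →⋆ₐ[ℂ] Ultrapower B ω := (umk ω).comp (reindMap B m)
  have hΦ : Continuous Φ := reind_cont Φ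
  have hu : Continuous (uconst (A := B) ω) := reind_cont _
  have hcm : ∀ x : G0, ∀ r ∈ (fun t => (σ t : Ultrapower B ω)) '' c₁ ∪ Set.range (uconst ω),
      r * Φ x.1.2 = Φ x.1.2 * r := fun x r hr => by
    refine closure_minimal (t := {r | r * Φ x.1.2 = Φ x.1.2 * r}) (fun r hr => ?_)
      (isClosed_eq (by fun_prop) (by fun_prop)) (hTc hr)
    obtain ⟨j, rfl⟩ : r ∈ Set.range t := ht ▸ Set.mem_insert_of_mem _ hr
    refine hgd.induction_on (p := fun x : G0 => t j * Φ x.1.2 = Φ x.1.2 * t j) x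
      (isClosed_eq (by fun_prop) (by fun_prop)) fun k => ?_
    rw [← hz j]
    exact (hm j k).2.1
  have hmem : ∀ x : G0, Φ x.1.2 ∈ cenG E ω := fun x => by
    refine mem_cenG.2 ⟨mem_centralSeq.2 fun b => hcm x _ (Or.inr ⟨b, rfl⟩), fun r => ?_⟩
    obtain ⟨j, rfl⟩ := hs r
    have h1 : Continuous (uact E ω (s j)) := reind_cont _
    exact hgd.induction_on (p := fun x : G0 => uact E ω (s j) (Φ x.1.2) = Φ x.1.2) x
      (isClosed_eq (by fun_prop) (by fun_prop)) fun k => (hm j k).2.2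
  let Φ' : G0 →⋆ₐ[ℂ] cenG E ω :=
    ((Φ.comp (StarAlgHom.snd ℂ D _)).comp G0.subtype).codRestrict _ hmem
  have hb : ∀ x : G0, ‖q (Φ' x)‖ ≤ 1 * ‖x.1.1‖ := fun x => by
    rw [one_mul]
    refine hq.norm_le_of (isClosed_cenG E ω) cenG_le _ (norm_nonneg _) fun b hb => ?_
    refine closure_minimal (t := {b | ‖uconst ω b * Φ x.1.2‖ ≤ ‖x.1.1‖ * ‖b‖}) ?_
      (isClosed_le (by fun_prop) (by fun_prop)) (had b hb)
    rintro _ ⟨j, rfl⟩
    refine hgd.induction_on
      (p := fun x : G0 => ‖uconst ω (a j) * Φ x.1.2‖ ≤ ‖x.1.1‖ * ‖a j‖) x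
      (isClosed_le (by fun_prop) (by fun_prop)) fun k => ?_
    rw [mul_comm ‖_‖]
    exact (hm j k).1
  let P : G0 →⋆ₐ[ℂ] (D × F) := ((StarAlgHom.fst ℂ D _).comp G0.subtype).prod (q.comp Φ')
  have hin : ∀ d ∈ c, (d, y d) ∈ G0 := fun d hd => StarAlgebra.subset_adjoin ℂ _ ⟨d, hd, rfl⟩
  obtain ⟨Ψ, hΨ⟩ := ext_graph' ((⊤ : StarSubalgebra ℂ G0).map P) 1
    (by rintro _ ⟨x, -, rfl⟩; exact hb x)
    (hcd.mono fun d hd => ⟨P ⟨_, hin d hd⟩, ⟨_, trivial, rfl⟩, rfl⟩)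
  have hΨc : Continuous Ψ := continuous_starAlgHom Ψ
  refine ⟨Ψ, fun d r hr => ?_⟩
  refine hcd.induction (P := fun d => Ψ d * r = r * Ψ d) (fun d hd => ?_)
    (isClosed_eq (by fun_prop) (by fun_prop)) d
  have h1 : Ψ d = q (Φ' ⟨_, hin d hd⟩) := hΨ (P ⟨_, hin d hd⟩) ⟨_, trivial, rfl⟩
  rw [h1]
  refine closure_minimal (t := {r | q (Φ' ⟨_, hin d hd⟩) * r = r * q (Φ' ⟨_, hin d hd⟩)})
    (fun r hr => ?_) (isClosed_eq (by fun_prop) (by fun_prop)) (hTc₁ hr)
  change _ = _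
  rw [← hσ r, ← map_mul, ← map_mul]
  exact congrArg q (Subtype.ext (hcm ⟨_, hin d hd⟩ _ (Or.inl ⟨r, hr, rfl⟩)).symm)

end Vale.Agent.P095
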