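import Vale.Agent.P095.Ann

/-! P095: almost divisibility from the relations of Rordam and Winter. See skel/P095/BLUEPRINT.md. -/

namespace Vale.Agent.P095

open Filter Topology Vale.Agent.P101 Vale.Agent.P101.F
open scoped ComplexOrder

universe u v w

variable {B : Type u} [CStarAlgebra B] {G : Type v} [Group G] {E : Env B G}
variable {ω : Ultrafilter ℕ}

theorem rw_div {F : Type u} [CStarAlgebra F] (h : HasRW F) (n : ℕ) :
    ∃ (w : Fin (n + 1) → Fin (n + 2) → F) (m : Fin (n + 2) → Fin (n + 2) → F),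
      (∀ k j k' j', star (w k j) * w k' j' = if k = k' then m j j' else 0) ∧
      ∑ j, m j j = 1 := by
  obtain ⟨φ, v, h1, h2⟩ := h n
  set c := 1 - star v * v with hc
  have hv : star v * v ≤ 1 := by
    rw [← CStarAlgebra.norm_le_one_iff_of_nonneg _ (star_mul_self_nonneg v),
      CStarRing.norm_star_mul_self]
    nlinarith [norm_nonneg v]
  have c0 : 0 ≤ c := sub_nonneg.2 hv
  obtain ⟨s, s0, ss⟩ := oz_sqrt (a := 1 + c) (add_nonneg zero_le_one c0)
  have sa : star s = s := s0.isSelfAdjoint.star_eq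
  have hcs : Commute s c := oz_comm s0 (by rw [ss]; exact (Commute.one_left c).add_left rfl)
  have hcv : c * v = v := by
    have e := h1.mul_eq 0 0 0 0
    rw [if_pos rfl] at e
    calc c * v = c * φ 0 0 * v := by rw [mul_assoc, h1.mul_v]
      _ = v := by rw [← e, mul_assoc, h1.mul_v, h1.mul_v]
  let x : Fin (n + 2) → Fin (n + 1) := Fin.cases 0 id
  let y : Fin (n + 2) → F := Fin.cases (v * s) fun _ => 1
  refine ⟨fun k j => φ k (x j) * y j, fun j j' => star (y j) * (c * φ (x j) (x j')) * y j',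
    fun k j k' j' => ?_, ?_⟩
  · rw [star_mul, h1.star_eq, mul_assoc, ← mul_assoc (φ _ k), h1.mul_eq]
    split_ifs
    · simp only [mul_assoc, hc]
    · simp
  · rw [Fin.sum_univ_succ]
    simp only [x, y, Fin.cases_zero, Fin.cases_succ, id, star_one, one_mul, mul_one]
    rw [← Finset.mul_sum, h1.sum_eq, ← hc, star_mul, sa]
    have e1 : c * φ 0 0 * (v * s) = v * s := by
      rw [mul_assoc, ← mul_assoc (φ 0 0), h1.mul_v, ← mul_assoc, hcv]
    have e2 : star v * v = 1 - c := by rw [hc, sub_sub_cancel]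
    rw [mul_assoc, e1, mul_assoc, ← mul_assoc (star v), e2,
      ((Commute.one_right s).sub_right hcs).symm.eq, ← mul_assoc, ss]
    noncomm_ring

theorem divA_of_hasRW {F : Type u} [CStarAlgebra F] {q : centralSeq B ω →⋆ₐ[ℂ] F}
    (hq : AnnQuot E ω q) (h : HasRW F) : DivA E := by
  intro n
  obtain ⟨w, m, h1, h2⟩ := rw_div h n
  choose w' hw using fun k j => hq.surj (w k j)
  choose m' hm using fun j j' => hq.surj (m j j')
  choose W hW using fun k j => umk_surjective (ω := ω) (w' k j : Ultrapower B ω)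
  choose M hM using fun j j' => umk_surjective (ω := ω) (m' j j' : Ultrapower B ω)
  refine ⟨∑ k, ∑ j, ‖W k j‖ + ∑ j, ∑ j', ‖M j j'‖, fun S ε hε => ?_⟩
  have p1 : (0 : ℝ) ≤ ∑ k, ∑ j, ‖W k j‖ := by positivity
  have p2 : (0 : ℝ) ≤ ∑ j, ∑ j', ‖M j j'‖ := by positivity
  have hcen : ∀ (x : centralSeq B ω) (y : BoundedContinuousFunction ℕ B), umk ω y = x → ∀ b,
      ∀ᶠ i in (ω : Filter ℕ), ‖y i * b - b * y i‖ ≤ ε := fun x y hy b => by
    have := umk_mem_centralSeq.1 (hy ▸ x.2) b
    filter_upwards [this.eventually (ge_mem_nhds hε)] with i hi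
    rwa [norm_sub_rev]
  have hann : ∀ (x : centralSeq B ω) (y : BoundedContinuousFunction ℕ B), umk ω y = x →
      q x = 0 → ∀ b ∈ E.I, ∀ᶠ i in (ω : Filter ℕ), ‖b * y i‖ ≤ ε := fun x y hy h0 b hb => by
    have := (hq.ker x).1 h0 b hb
    rw [← hy, uconst_apply, ← map_mul, umk_eq_zero] at this
    exact this.eventually (ge_mem_nhds hε)
  have e1 : ∀ᶠ i in (ω : Filter ℕ), ∀ b ∈ S, (∀ k j, ‖W k j i * b - b * W k j i‖ ≤ ε) ∧
      ∀ j j', ‖M j j' i * b - b * M j j' i‖ ≤ ε :=
    S.eventually_all.2 fun b _ =>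
      (eventually_all.2 fun k => eventually_all.2 fun j => hcen _ _ (hW k j) b).and
        (eventually_all.2 fun j => eventually_all.2 fun j' => hcen _ _ (hM j j') b)
  have e2 : ∀ᶠ i in (ω : Filter ℕ), ∀ b ∈ S, b ∈ E.I →
      (∀ k j k' j', ‖b * (star (W k j i) * W k' j' i - if k = k' then M j j' i else 0)‖ ≤ ε) ∧
        ‖b * (∑ j, M j j i - 1)‖ ≤ ε := by
    refine S.eventually_all.2 fun b _ => ?_
    by_cases hb : b ∈ E.I
    swap
    · exact Eventually.of_forall fun _ h => absurd h hb
    have a1 : ∀ k j k' j', ∀ᶠ i in (ω : Filter ℕ),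
        ‖b * (star (W k j i) * W k' j' i - if k = k' then M j j' i else 0)‖ ≤ ε := by
      intro k j k' j'
      have := hann (star (w' k j) * w' k' j' - if k = k' then m' j j' else 0)
        (star (W k j) * W k' j' - if k = k' then M j j' else 0)
        (by split_ifs <;> simp [map_star, hW, hM])
        (by rw [map_sub, map_mul, map_star, hw, hw, h1]; split_ifs <;> simp [hm]) b hb
      refine this.mono fun i hi => ?_
      split_ifs at hi ⊢ <;> exact hi
    have a2 := hann (∑ j, m' j j - 1) (∑ j, M j j - 1) (by simp [map_sum, hM])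
      (by rw [map_sub, map_sum, map_one]; simp only [hm, h2, sub_self]) b hb
    filter_upwards [eventually_all.2 fun k => eventually_all.2 fun j => eventually_all.2 fun k' =>
      eventually_all.2 fun j' => a1 k j k' j', a2] with i hi hi' _
    exact ⟨hi, by simpa [BoundedContinuousFunction.sum_apply] using hi'⟩
  obtain ⟨i, hi1, hi2⟩ := (e1.and e2).exists
  refine ⟨fun k j => W k j i, fun j j' => M j j' i, fun k j => ?_, fun j j' => ?_, hi1, hi2⟩
  · refine ((W k j).norm_coe_le_norm i).trans (le_trans ?_ (le_add_of_nonneg_right p2))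
    exact (Finset.single_le_sum (f := fun j => ‖W k j‖) (fun _ _ => norm_nonneg _)
      (Finset.mem_univ j)).trans (Finset.single_le_sum (f := fun k => ∑ j, ‖W k j‖)
        (fun _ _ => by positivity) (Finset.mem_univ k))
  · refine ((M j j').norm_coe_le_norm i).trans (le_trans ?_ (le_add_of_nonneg_left p1))
    exact (Finset.single_le_sum (f := fun j' => ‖M j j'‖) (fun _ _ => norm_nonneg _)
      (Finset.mem_univ j')).trans (Finset.single_le_sum (f := fun j => ∑ j', ‖M j j'‖)
        (fun _ _ => by positivity) (Finset.mem_univ j))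

end Vale.Agent.P095
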