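import Vale.Agent.P095.SubBasic_a

/-! P095: excision of a state compatible with countably many automorphisms. See skel/P095/BLUEPRINT.md. -/

namespace Vale.Agent.P095

open Filter Topology Vale.Agent.P101 Vale.Agent.P101.F
open scoped ComplexOrder

universe u v w

variable {B : Type u} [CStarAlgebra B] {G : Type v} [Group G] {E : Env B G}
variable {ω : Ultrafilter ℕ}


theorem exc_step {c : B} (hc0 : 0 ≤ c) (hc : c ≠ 0) {y : B} (hy : star y = y) {η : ℝ}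
    (hη : 0 < η) : ∃ (r : B) (l : ℝ), 0 ≤ c * r ∧ ‖c * r‖ = 1 ∧
      ‖c * r * (y - (l : ℂ) • 1) * (c * r)‖ ≤ η := by
  have c1 := hc0.star_eq
  have hy' : IsSelfAdjoint y := hy
  have c2 : 0 ≤ c * c := by simpa only [c1] using star_mul_self_nonneg c
  have h1 : c * y * c ≤ ‖y‖ • (c * c) := by
    simpa only [c1] using CStarAlgebra.star_left_conjugate_le_norm_smul (a := c) hy'
  have h2 : BddBelow {t : ℝ | c * y * c ≤ t • (c * c)} := by
    refine ⟨-‖y‖, fun t (ht : c * y * c ≤ t • (c * c)) => le_of_not_gt fun k => hc ?_⟩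
    have h3 : c * -y * c ≤ ‖y‖ • (c * c) := by
      simpa only [c1, norm_neg] using CStarAlgebra.star_left_conjugate_le_norm_smul (a := c) hy'.neg
    have h4 := add_le_add ht h3
    rw [mul_neg, neg_mul, add_neg_cancel, ← add_smul] at h4
    have h5 := smul_nonneg (inv_nonneg.2 (by linarith : 0 ≤ -(t + ‖y‖))) h4
    rw [smul_smul, inv_neg, neg_mul, inv_mul_cancel₀ (by linarith), neg_smul, one_smul,
      neg_nonneg] at h5
    exact (CStarRing.star_mul_self_eq_zero_iff c).1 (by rw [c1, le_antisymm h5 c2])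
  obtain ⟨l, hl : c * y * c ≤ l • (c * c), h3⟩ :=
    exists_lt_of_csInf_lt (s := {t : ℝ | c * y * c ≤ t • (c * c)}) ⟨_, h1⟩
      (lt_add_of_pos_right _ hη)
  have h4 : ¬ c * y * c ≤ (l - η) • (c * c) := fun k => by linarith [csInf_le h2 k]
  obtain ⟨z, hz⟩ : ∃ z, z = c * y * c - (l - η) • (c * c) := ⟨_, rfl⟩
  have z1 : IsSelfAdjoint z := by
    rw [hz, IsSelfAdjoint]
    simp only [star_sub, star_mul, star_smul, star_trivial (l - η), c1, hy, mul_assoc]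
  have g0 := CFC.posPart_nonneg z
  have g1 := g0.star_eq
  have g2 : z⁺ * z * z⁺ = star z⁺ * z⁺ * z⁺ := by
    nth_rw 2 [← CFC.posPart_sub_negPart z z1]
    rw [mul_sub, CFC.posPart_mul_negPart, sub_zero, g1]
  have g3 : z⁺ ≠ 0 := fun k => h4 (by rwa [← sub_nonpos, ← hz, ← CFC.posPart_eq_zero_iff z z1])
  generalize z⁺ = g at g0 g1 g2 g3
  have e1 : star (c * g) * (y - (l : ℂ) • 1) * (c * g) =
      star g * (c * y * c - l • (c * c)) * g := by
    simp only [star_mul, c1, Complex.coe_smul, mul_sub, sub_mul, mul_smul_comm, smul_mul_assoc,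
      mul_one, one_mul, mul_assoc]
  have e2 : star (c * g) * (y - (l : ℂ) • 1) * (c * g) =
      star g * g * g - η • (star (c * g) * (c * g)) := by
    rw [e1, ← g2, hz]
    simp only [star_mul, c1, g1, mul_sub, sub_mul, mul_smul_comm, smul_mul_assoc, mul_assoc]
    module
  have v0 : c * g ≠ 0 := fun k => by
    rw [k, mul_zero, mul_zero, smul_zero, sub_zero] at e2
    obtain ⟨s, -, s1, s2⟩ := sb_sqrt g0
    have : s * g = 0 := (CStarRing.star_mul_self_eq_zero_iff _).1 (by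
      rw [e2, star_mul, s1, mul_assoc, ← mul_assoc s, s2, mul_assoc])
    refine g3 ((CStarRing.star_mul_self_eq_zero_iff _).1 ?_)
    rw [g1]
    nth_rw 1 [← s2]
    rw [mul_assoc, this, mul_zero]
  have n1 : ‖star (c * g) * (y - (l : ℂ) • 1) * (c * g)‖ ≤ η * (‖c * g‖ * ‖c * g‖) := by
    rw [← norm_neg, ← CStarRing.norm_star_mul_self, ← Real.norm_of_nonneg hη.le, ← norm_smul]
    refine CStarAlgebra.norm_le_norm_of_nonneg_of_le ?_ ?_
    · rw [e1, ← neg_mul, ← mul_neg, neg_sub]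
      exact star_left_conjugate_nonneg (sub_nonneg.2 hl) g
    · rw [e2, neg_sub]
      exact sub_le_self _ (star_left_conjugate_nonneg g0 g)
  have e3 : c * ((‖c * g‖ * ‖c * g‖)⁻¹ • (g * star (c * g))) =
      (‖c * g‖ * ‖c * g‖)⁻¹ • (c * g * star (c * g)) := by rw [mul_smul_comm, mul_assoc]
  refine ⟨(‖c * g‖ * ‖c * g‖)⁻¹ • (g * star (c * g)), l, ?_⟩
  rw [e3]
  generalize c * g = v at n1 v0
  have n0 : 0 < ‖v‖ := norm_pos_iff.2 v0
  refine ⟨smul_nonneg (by positivity) (mul_star_self_nonneg v), ?_, ?_⟩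
  · rw [norm_smul, CStarRing.norm_self_mul_star, Real.norm_of_nonneg (by positivity),
      inv_mul_cancel₀ (by positivity)]
  · have e4 : v * star v * (y - (l : ℂ) • 1) * (v * star v) =
        v * (star v * (y - (l : ℂ) • 1) * v) * star v := by simp only [mul_assoc]
    rw [smul_mul_assoc, smul_mul_assoc, mul_smul_comm, smul_smul, norm_smul, e4,
      Real.norm_of_nonneg (by positivity), ← mul_inv, inv_mul_le_iff₀ (by positivity)]
    refine norm_mul₃_le.trans ?_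
    rw [norm_star]
    calc _ ≤ ‖v‖ * (η * (‖v‖ * ‖v‖)) * ‖v‖ := by gcongr
      _ = _ := by ring

theorem exc_refine {v : B} (h0 : 0 ≤ v) (h1 : ‖v‖ = 1) : ∃ k c : B, ‖k‖ ≤ 2 ∧ k * v = v * k ∧
    0 ≤ v * k ∧ ‖v * k‖ = 1 ∧ 0 ≤ c ∧ c ≠ 0 ∧ v * k * c = c := by
  obtain ⟨g, hg⟩ : ∃ g : ℝ → ℝ, ∀ t, g t = (max t 2⁻¹)⁻¹ := ⟨_, fun _ => rfl⟩
  have hp : ∀ t : ℝ, 0 < max t 2⁻¹ := fun t => lt_max_of_lt_right (by norm_num)
  have hc : Continuous g := by
    rw [funext hg]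
    exact Continuous.inv₀ (by fun_prop) fun t => (hp t).ne'
  have hs := h0.isSelfAdjoint
  have e1 : v * cfc g v = cfc (fun t => t * g t) v := by rw [cfc_mul _ _ v, cfc_id' ℝ v]
  have e2 : v * cfc g v * cfc (fun t : ℝ => max (t - 2⁻¹) 0) v =
      cfc (fun t : ℝ => max (t - 2⁻¹) 0) v := by
    rw [e1, ← cfc_mul _ _ v]
    refine cfc_congr fun t _ => ?_
    rcases le_total t 2⁻¹ with k | k
    · simp only [max_eq_right (sub_nonpos.2 k), mul_zero]
    · simp only [hg, max_eq_left k, mul_inv_cancel₀ (k.trans_lt' (by norm_num)).ne', one_mul]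
  have e3 : cfc (fun t : ℝ => max (t - 2⁻¹) 0) v ≠ 0 := fun k => by
    have h2 : v - (2⁻¹ : ℝ) • (1 : B) ≤ cfc (fun t : ℝ => max (t - 2⁻¹) 0) v := by
      rw [← Algebra.algebraMap_eq_smul_one, ← cfc_const _ v]
      nth_rw 1 [← cfc_id' ℝ v]
      rw [← cfc_sub _ _ v]
      exact cfc_mono fun t _ => le_max_left _ _
    rw [k, sub_nonpos, ← Algebra.algebraMap_eq_smul_one,
      ← CStarAlgebra.norm_le_iff_le_algebraMap v (by norm_num) h0, h1] at h2
    norm_num at h2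
  have e4 : 0 ≤ v * cfc g v := e1 ▸ cfc_nonneg fun t ht =>
    mul_nonneg (spectrum_nonneg_of_nonneg h0 ht) (hg t ▸ (inv_pos.2 (hp t)).le)
  refine ⟨cfc g v, _, norm_cfc_le zero_le_two fun t _ => ?_, ((Commute.refl v).cfc_real g).eq, e4,
    le_antisymm (sb_norm_le_one e4 ?_) ?_, cfc_nonneg fun t _ => le_max_right _ _, e3, e2⟩
  · rw [hg, Real.norm_of_nonneg (inv_pos.2 (hp t)).le]
    exact inv_le_of_inv_le₀ two_pos (le_max_right _ _)
  · rw [e1]
    refine cfc_le_one _ _ fun t _ => ?_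
    rw [hg, mul_inv_le_iff₀ (hp t), one_mul]
    exact le_max_left _ _
  · refine le_of_mul_le_mul_right ?_ (norm_pos_iff.2 e3)
    rw [one_mul]
    exact (congrArg norm e2).ge.trans (norm_mul_le _ _)

theorem exc_chain (hI : ∃ a ∈ E.I, a ≠ 0) {T : Type*} [Countable T] [Nonempty T]
    (Q : T → ℝ → B → Prop) (hM : ∀ t ε ε' v, ε ≤ ε' → Q t ε v → Q t ε' v)
    (hC : ∀ t ε v k, k * v = v * k → ‖k‖ ≤ 2 → Q t ε v → Q t (4 * ε) (v * k))
    (hS : ∀ t ε, 0 < ε → ∀ c ∈ E.I, 0 ≤ c → c ≠ 0 → ∃ r, 0 ≤ c * r ∧ ‖c * r‖ = 1 ∧ Q t ε (c * r)) :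
    ∃ x : ℕ → B, (∀ n, x n ∈ E.I ∧ 0 ≤ x n ∧ ‖x n‖ = 1) ∧ (∀ n m, n < m → x n * x m = x m) ∧
      ∀ t ε, 0 < ε → ∀ᶠ n in atTop, Q t ε (x n) := by
  obtain ⟨e, he⟩ := exists_surjective_nat (T × ℕ)
  have h : ∀ (n : ℕ) (c : {c : B // c ∈ E.I ∧ 0 ≤ c ∧ c ≠ 0}), ∃ (r : B)
      (c' : {c : B // c ∈ E.I ∧ 0 ≤ c ∧ c ≠ 0}), 0 ≤ c.1 * r ∧ ‖c.1 * r‖ = 1 ∧
      c.1 * r * c'.1 = c'.1 ∧ Q (e n).1 (4 * (1 / ((e n).2 + 1))) (c.1 * r) := by
    intro n c
    obtain ⟨r, h1, h2, h3⟩ := hS (e n).1 _ (Nat.one_div_pos_of_nat (n := (e n).2)) c.1 c.2.1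
      c.2.2.1 c.2.2.2
    obtain ⟨k, c', k1, k2, k3, k4, k5, k6, k7⟩ := exc_refine h1 h2
    refine ⟨r * k, ⟨c', ?_, k5, k6⟩, ?_⟩
    · rw [← k7]
      exact E.mul_right (E.mul_right (E.mul_right c.2.1 _) _) _
    · rw [← mul_assoc]
      exact ⟨k3, k4, k7, hC _ _ _ _ k2 k1 h3⟩
  choose r C h1 h2 h3 h4 using h
  obtain ⟨a, ha, a0⟩ := hI
  let c : ℕ → {c : B // c ∈ E.I ∧ 0 ≤ c ∧ c ≠ 0} := fun n => Nat.rec
    ⟨star a * a, E.mul_left ha _, star_mul_self_nonneg a,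
      fun k => a0 ((CStarRing.star_mul_self_eq_zero_iff a).1 k)⟩ C n
  obtain ⟨x, hx⟩ : ∃ x : ℕ → B, ∀ n, x n = (c n).1 * r n (c n) := ⟨_, fun _ => rfl⟩
  have x0 : ∀ n, 0 ≤ x n := fun n => hx n ▸ h1 _ _
  have x1 : ∀ n, ‖x n‖ = 1 := fun n => hx n ▸ h2 _ _
  have x2 : ∀ n, x n * x (n + 1) = x (n + 1) := fun n => by
    rw [hx, hx, ← mul_assoc]
    exact congrArg (· * _) (h3 n (c n))
  have x3 : ∀ n m, n < m → x n * x m = x m := by
    intro n m hnm
    induction m, hnm using Nat.le_induction with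
    | base => exact x2 n
    | succ m _ ih => rw [← x2 m, ← mul_assoc, ih]
  refine ⟨x, fun n => ⟨hx n ▸ E.mul_right (c n).2.1 _, x0 n, x1 n⟩, x3, fun t ε hε => ?_⟩
  obtain ⟨m, hm⟩ := exists_nat_one_div_lt (K := ℝ) (ε := ε / 16) (by positivity)
  obtain ⟨n, hn⟩ := he (t, m)
  filter_upwards [eventually_gt_atTop n] with k hk
  have h5 := h4 n (c n)
  rw [← hx, hn] at h5
  have h6 : x k * x n = x n * x k := by
    rw [x3 n k hk, ← (x0 k).star_eq, ← (x0 n).star_eq, ← star_mul, x3 n k hk]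
  have h7 := hC _ _ _ (x k) h6 ((x1 k).trans_le one_le_two) h5
  rw [x3 n k hk] at h7
  exact hM _ _ _ _ (by linarith) h7

theorem exc_state {x : ℕ → B} (x0 : ∀ n, 0 ≤ x n) (x1 : ∀ n, ‖x n‖ = 1)
    (x2 : ∀ n m, n < m → x n * x m = x m) :
    ∃ φ : B →L[ℂ] ℂ, IsState φ ∧ ∀ n, φ (x n * x n) = 1 := by
  have : Nontrivial B := ⟨x 0, 0, norm_ne_zero_iff.1 (x1 0 ▸ one_ne_zero)⟩
  choose ψ h1 h2 using fun n => exists_isState (star_mul_self_nonneg (x n))
  have h3 : ∀ n, ψ n (x n * x n) = 1 := fun n => by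
    have := h2 n
    rwa [CStarRing.norm_star_mul_self, x1, (x0 n).star_eq, mul_one, Complex.ofReal_one] at this
  have h4 : ∀ a, ∃ z, Tendsto (fun n => ψ n a) (hyperfilter ℕ) (𝓝 z) := fun a => by
    obtain ⟨z, -, hz⟩ := (isCompact_closedBall (0 : ℂ) ‖a‖).ultrafilter_le_nhds'
      ((hyperfilter ℕ).map fun n => ψ n a) (Ultrafilter.mem_map.2 (univ_mem' fun n =>
        mem_closedBall_zero_iff.2 (((ψ n).le_opNorm a).trans
          (mul_le_of_le_one_left (norm_nonneg _) (h1 n).norm_le))))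
    exact ⟨z, hz⟩
  choose f hf using h4
  let φ : B →L[ℂ] ℂ := ContinuousLinearMap.ofTendstoOfBoundedRange f ψ (tendsto_pi_nhds.2 hf)
    (isBounded_iff_forall_norm_le.2 ⟨1, by
      rintro _ ⟨n, rfl⟩
      exact (h1 n).norm_le⟩)
  refine ⟨φ, ⟨tendsto_nhds_unique (hf 1) ?_, fun a => ?_⟩,
    fun n => tendsto_nhds_unique (hf _) ?_⟩
  · simpa only [(h1 _).one] using tendsto_const_nhds
  · exact ge_of_tendsto' (hf _) fun n => (h1 n).pos a
  · refine tendsto_const_nhds.congr' (Eventually.filter_mono Nat.hyperfilter_le_atTop ?_)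
    filter_upwards [eventually_gt_atTop n] with m hm
    have k := (h1 m).mul_eq (x0 m) (x1 m).le (h3 m)
    rw [← (k _).2, mul_assoc, x2 n m hm, x2 n m hm, ← mul_one (x m), (k _).1, (h1 m).one]

theorem exc_dense {d : ℕ → B} (hd : DenseRange d) {F : ℕ → B → B}
    (h1 : ∀ n a b, ‖F n a - F n b‖ ≤ 2 * ‖a - b‖)
    (h2 : ∀ k, Tendsto (fun n => F n (d k)) atTop (𝓝 0)) (a : B) :
    Tendsto (fun n => ‖F n a‖) atTop (𝓝 0) := by
  refine tendsto_zero_iff_norm_tendsto_zero.1 (NormedAddGroup.tendsto_nhds_zero.2 fun ε hε => ?_)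
  obtain ⟨k, hk⟩ := hd.exists_dist_lt a (ε := ε / 4) (by positivity)
  rw [dist_eq_norm] at hk
  filter_upwards [NormedAddGroup.tendsto_nhds_zero.1 (h2 k) _ (half_pos hε)] with n hn
  linarith [h1 n a (d k), norm_le_norm_add_norm_sub' (F n a) (F n (d k))]

theorem exists_excises [TopologicalSpace.SeparableSpace B] (hI : ∃ a ∈ E.I, a ≠ 0) {ι : Type*}
    [Countable ι] (σ : ι → B ≃⋆ₐ[ℂ] B) (hσ : ∀ i, Kish E (σ i)) :
    ∃ (φ : B →L[ℂ] ℂ) (x : ℕ → B), Excises E φ x ∧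
      ∀ i b, Tendsto (fun n => ‖x n * b * σ i (x n)‖) atTop (𝓝 0) := by
  obtain ⟨d, hd⟩ := TopologicalSpace.exists_dense_seq B
  let y : ℕ × Bool → B := fun k => if k.2 then realPart (d k.1) else imaginaryPart (d k.1)
  have hy : ∀ k, star (y k) = y k := fun k => by
    simp only [y]
    split_ifs
    exacts [(realPart _).2, (imaginaryPart _).2]
  have hn : ∀ i a, ‖σ i a‖ = ‖a‖ := fun i a => StarAlgEquiv.norm_map (σ i) a
  have hk : ∀ {k w a : B} {ε : ℝ}, ‖a‖ ≤ ε → ‖k‖ ≤ 2 → ‖w‖ ≤ 2 → ‖k * a * w‖ ≤ 4 * ε := by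
    intro k w a ε h1 h2 h3
    have := (norm_nonneg _).trans h1
    calc _ ≤ ‖k‖ * ‖a‖ * ‖w‖ := norm_mul₃_le
      _ ≤ 2 * ε * 2 := by gcongr
      _ = _ := by ring
  refine (exc_chain (E := E) hI (T := (ℕ × Bool) ⊕ (ι × ℕ))
    (Sum.elim (fun k ε v => ∃ l : ℝ, ‖v * (y k - (l : ℂ) • 1) * v‖ ≤ ε)
      fun p ε v => ‖v * d p.2 * σ p.1 v‖ ≤ ε) ?_ ?_ ?_).elim fun x ⟨x1, x2, x3⟩ => ?_
  · rintro (k | p) ε ε' v h
    · exact fun ⟨l, hl⟩ => ⟨l, hl.trans h⟩
    · exact fun hl => le_trans hl h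
  · rintro (k | p) ε v w h1 h2
    · refine fun ⟨l, hl⟩ => ⟨l, le_trans (le_of_eq ?_) (hk hl h2 h2)⟩
      nth_rw 1 [← h1]
      simp only [mul_assoc]
    · refine fun hl => le_trans (le_of_eq ?_) (hk hl h2 ((hn p.1 w).trans_le h2))
      nth_rw 1 [← h1]
      simp only [mul_assoc, map_mul]
  · rintro (k | p) ε hε c hc c0 c1
    · obtain ⟨r, l, h⟩ := exc_step c0 c1 (hy k) hε
      exact ⟨r, h.1, h.2.1, l, h.2.2⟩
    · obtain ⟨r, h1, h2⟩ := hσ p.1 c hc c0 c1 (d p.2) ε hε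
      refine ⟨r * star (c * r), ?_⟩
      rw [← mul_assoc]
      refine ⟨mul_star_self_nonneg _, by rw [CStarRing.norm_self_mul_star, h1, mul_one], ?_⟩
      have e : c * r * star (c * r) * d p.2 * σ p.1 (c * r * star (c * r)) =
          c * r * (star (c * r) * d p.2 * σ p.1 (c * r)) * σ p.1 (star (c * r)) := by
        rw [map_mul]
        simp only [mul_assoc]
      refine (congrArg norm e).trans_le (norm_mul₃_le.trans ?_)
      rwa [hn, norm_star, h1, one_mul, mul_one]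
  obtain ⟨φ, hφ, h1⟩ := exc_state (fun n => (x1 n).2.1) (fun n => (x1 n).2.2) x2
  have nx : ∀ n a, ‖x n * a * x n‖ ≤ ‖a‖ := fun n a => norm_mul₃_le.trans_eq (by
    rw [(x1 n).2.2, one_mul, mul_one])
  have nx' : ∀ n (c : ℂ), ‖c • (x n * x n)‖ ≤ ‖c‖ := fun n c => by
    rw [norm_smul]
    exact mul_le_of_le_one_right (norm_nonneg _) ((norm_mul_le _ _).trans_eq (by
      rw [(x1 n).2.2, one_mul]))
  have nφ : ∀ a, ‖φ a‖ ≤ ‖a‖ := fun a =>
    (φ.le_opNorm a).trans (mul_le_of_le_one_left (norm_nonneg _) hφ.norm_le)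
  have h2 : ∀ k, Tendsto (fun n => x n * y k * x n - φ (y k) • (x n * x n)) atTop (𝓝 0) := by
    intro k
    refine NormedAddGroup.tendsto_nhds_zero.2 fun ε hε => ?_
    filter_upwards [x3 (Sum.inl k) (ε / 3) (by positivity)] with n ⟨l, hl⟩
    have k1 := hφ.mul_eq (x1 n).2.1 (x1 n).2.2.le (h1 n)
    have k2 := (nφ _).trans hl
    rw [(k1 _).2, (k1 _).1, map_sub, map_smul, hφ.one, smul_eq_mul, mul_one] at k2
    have e : x n * y k * x n - φ (y k) • (x n * x n) =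
        x n * (y k - (l : ℂ) • 1) * x n - (φ (y k) - l) • (x n * x n) := by
      simp only [mul_sub, sub_mul, mul_smul_comm, smul_mul_assoc, mul_one, sub_smul]
      abel
    rw [e]
    linarith [norm_sub_le (x n * (y k - (l : ℂ) • 1) * x n) ((φ (y k) - l) • (x n * x n)),
      nx' n (φ (y k) - l)]
  refine ⟨φ, x, ⟨hφ, fun n => (x1 n).1, fun n => (x1 n).2.1, fun n => (x1 n).2.2,
    fun n => x2 _ _ n.lt_succ_self, exc_dense hd (fun n a b => ?_) fun k => ?_⟩,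
    fun i => exc_dense hd (fun n a b => ?_) fun k => ?_⟩
  · have e : x n * a * x n - φ a • (x n * x n) - (x n * b * x n - φ b • (x n * x n)) =
        x n * (a - b) * x n - φ (a - b) • (x n * x n) := by
      simp only [mul_sub, sub_mul, map_sub, sub_smul]
      abel
    rw [e]
    linarith [norm_sub_le (x n * (a - b) * x n) (φ (a - b) • (x n * x n)), nx' n (φ (a - b)),
      nx n (a - b), nφ (a - b)]
  · have h3 := (h2 (k, true)).add ((h2 (k, false)).const_smul Complex.I)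
    rw [smul_zero, add_zero] at h3
    refine h3.congr fun n => ?_
    have e : d k = y (k, true) + Complex.I • y (k, false) :=
      (realPart_add_I_smul_imaginaryPart _).symm
    rw [e]
    simp only [mul_add, add_mul, map_add, map_smul, mul_smul_comm, smul_mul_assoc, add_smul,
      smul_sub, smul_eq_mul, mul_smul]
    abel
  · rw [← sub_mul, ← mul_sub]
    refine norm_mul₃_le.trans ?_
    rw [hn, (x1 n).2.2]
    linarith [norm_nonneg (a - b)]
  · refine NormedAddGroup.tendsto_nhds_zero.2 fun ε hε => ?_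
    exact (x3 (Sum.inr (i, k)) (ε / 2) (half_pos hε)).mono fun n hn =>
      lt_of_le_of_lt hn (half_lt_self hε)

end Vale.Agent.P095
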