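import Vale.Agent.P095.Oprod

/-! P095: third order estimates for products of small rotations. See skel/P095/BLUEPRINT.md. -/

namespace Vale.Agent.P095

open Filter Topology Vale.Agent.P101 Vale.Agent.P101.F
open scoped ComplexOrder

universe u v w

variable {Q : Type u} [CStarAlgebra Q]

namespace Expand

theorem four_id {h h' : Q} (hh : h * h = 1) (hh' : h' * h' = 1) (c a : ℂ)
    (hca : c ^ 2 - a ^ 2 = 1) :
    (c • (1 : Q) + (-a) • h) * (c • (1 : Q) + (-a) • h') * (c • (1 : Q) + a • h) *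
        (c • (1 : Q) + a • h') - 1 =
      (c ^ 2 * a ^ 2) • (h * h' - h' * h) +
        ((c * a ^ 3) • (h * h' * h + h - h' - h' * h * h') + a ^ 4 • (h * h' * h * h' - 1)) := by
  simp only [mul_add, add_mul, smul_mul_assoc, mul_smul_comm, one_mul, mul_one, mul_assoc,
    smul_add, smul_sub, hh, hh']
  match_scalars
  · linear_combination (c ^ 2 - a ^ 2 + 1) * hca
  all_goals ring

theorem norm_sinI (s : ℝ) : ‖((Real.sin s : ℝ) : ℂ) * Complex.I‖ ≤ |s| := by
  rw [norm_mul, Complex.norm_I, mul_one, Complex.norm_real, Real.norm_eq_abs]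
  exact Real.abs_sin_le_abs

theorem norm_cos (s : ℝ) : ‖((Real.cos s : ℝ) : ℂ)‖ ≤ 1 := by
  rw [Complex.norm_real, Real.norm_eq_abs]
  exact Real.abs_cos_le_one s

theorem norm_apply_mul {τ : Q →L[ℂ] ℂ} (hτ : ‖τ‖ ≤ 1) {z : Q} (hz : ‖z‖ ≤ 1) (y : Q) :
    ‖τ (z * y)‖ ≤ ‖y‖ := by
  calc ‖τ (z * y)‖ ≤ ‖τ‖ * ‖z * y‖ := τ.le_opNorm _
    _ ≤ 1 * (1 * ‖y‖) :=
        mul_le_mul hτ ((norm_mul_le _ _).trans
          (mul_le_mul_of_nonneg_right hz (norm_nonneg _))) (norm_nonneg _) zero_le_one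
    _ = ‖y‖ := by ring

theorem norm_mul_le_one {x y : Q} (hx : ‖x‖ ≤ 1) (hy : ‖y‖ ≤ 1) : ‖x * y‖ ≤ 1 :=
  (norm_mul_le _ _).trans (mul_le_one₀ hx (norm_nonneg _) hy)

/-- first order term of the product of the `c + x` -/
noncomputable def E1 (c : ℂ) : List Q → Q
  | [] => 0
  | x :: l => c • E1 c l + c ^ l.length • x

/-- second order term of the product of the `c + x` -/
noncomputable def E2 (c : ℂ) : List Q → Q
  | [] => 0
  | x :: l => c • E2 c l + x * E1 c l

/-- remainder -/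
noncomputable def Rm (c : ℂ) (l : List Q) : Q :=
  (l.map fun x => c • (1 : Q) + x).prod - c ^ l.length • (1 : Q) - E1 c l - E2 c l

theorem Rm_cons (c : ℂ) (x : Q) (l : List Q) :
    Rm c (x :: l) = (c • (1 : Q) + x) * Rm c l + x * E2 c l := by
  simp only [Rm, E1, E2, List.map_cons, List.prod_cons, List.length_cons, mul_sub, add_mul,
    smul_mul_assoc, mul_smul_comm, one_mul, mul_one]
  module

theorem bounds {c : ℂ} (hc : ‖c‖ ≤ 1) {t : ℝ} (h0 : 0 ≤ t) (l : List Q)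
    (hl : ∀ x ∈ l, ‖x‖ ≤ t ∧ ‖c • (1 : Q) + x‖ ≤ 1) :
    ‖E1 c l‖ ≤ 2 ^ l.length * t ∧ ‖E2 c l‖ ≤ 2 ^ l.length * t ^ 2 ∧
      ‖Rm c l‖ ≤ 2 ^ l.length * t ^ 3 := by
  induction l with
  | nil =>
    refine ⟨by simpa [E1] using h0, by simpa [E2] using sq_nonneg t, ?_⟩
    simpa [Rm, E1, E2] using pow_nonneg h0 3
  | cons x l ih =>
    obtain ⟨i1, i2, i3⟩ := ih fun y hy => hl y (List.mem_cons_of_mem _ hy)
    obtain ⟨hx, hx'⟩ := hl x List.mem_cons_self
    have hs : ∀ (d : ℂ) (y : Q), ‖d‖ ≤ 1 → ‖d • y‖ ≤ ‖y‖ := fun d y hd => by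
      rw [norm_smul]
      exact mul_le_of_le_one_left (norm_nonneg _) hd
    have hm : ∀ (y : Q) (r : ℝ), ‖y‖ ≤ r → ‖x * y‖ ≤ t * r := fun y r hy =>
      (norm_mul_le _ _).trans (mul_le_mul hx hy (norm_nonneg _) h0)
    have hp : (1 : ℝ) ≤ 2 ^ l.length := one_le_pow₀ (by norm_num)
    rw [List.length_cons, pow_succ, Rm_cons]
    refine ⟨?_, ?_, ?_⟩
    · have a1 := hs c (E1 c l) hc
      have a2 := hs (c ^ l.length) x (by rw [norm_pow]; exact pow_le_one₀ (norm_nonneg _) hc)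
      have a3 := norm_add_le (c • E1 c l) (c ^ l.length • x)
      have a4 := mul_le_mul_of_nonneg_right hp h0
      simp only [E1]
      linarith
    · have a1 := hs c (E2 c l) hc
      have a2 := hm _ _ i1
      have a3 := norm_add_le (c • E2 c l) (x * E1 c l)
      simp only [E2]
      linarith
    · have a1 : ‖(c • (1 : Q) + x) * Rm c l‖ ≤ ‖Rm c l‖ :=
        (norm_mul_le _ _).trans (mul_le_of_le_one_left (norm_nonneg _) hx')
      have a2 := hm _ _ i2
      have a3 := norm_add_le ((c • (1 : Q) + x) * Rm c l) (x * E2 c l)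
      linarith

section Flip

variable {ι : Type*} (c : ℂ) (x : ι → Q) (f : ι → Prop) [DecidablePred f]

theorem E1_sub (ψ : Q →ₗ[ℂ] ℂ) (w : List ι) (h : ∀ p ∈ w, f p → ψ (x p) = 0) :
    ψ (E1 c (w.map fun p => if f p then -x p else x p)) = ψ (E1 c (w.map x)) := by
  induction w with
  | nil => rfl
  | cons p w ih =>
    have i1 := ih fun q hq => h q (List.mem_cons_of_mem _ hq)
    simp only [List.map_cons, E1, map_add, map_smul, i1, List.length_map]
    by_cases hp : f p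
    · rw [if_pos hp, map_neg, h p List.mem_cons_self hp, neg_zero]
    · rw [if_neg hp]

theorem E1_add (ψ : Q →ₗ[ℂ] ℂ) (w : List ι) (h : ∀ p ∈ w, ¬ f p → ψ (x p) = 0) :
    ψ (E1 c (w.map fun p => if f p then -x p else x p)) = -ψ (E1 c (w.map x)) := by
  induction w with
  | nil => simp [E1]
  | cons p w ih =>
    have i1 := ih fun q hq => h q (List.mem_cons_of_mem _ hq)
    simp only [List.map_cons, E1, map_add, map_smul, i1, List.length_map]
    by_cases hp : f p
    · rw [if_pos hp, map_neg]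
      simp only [smul_eq_mul]
      ring
    · rw [if_neg hp, h p List.mem_cons_self hp]
      simp only [smul_eq_mul]
      ring

theorem E2_eq (ψ : Q →ₗ[ℂ] ℂ) (w : List ι)
    (h : ∀ p ∈ w, ∀ p' ∈ w, f p → ¬ f p' → ψ (x p * x p') = 0 ∧ ψ (x p' * x p) = 0) :
    ψ (E2 c (w.map fun p => if f p then -x p else x p)) = ψ (E2 c (w.map x)) := by
  induction w with
  | nil => rfl
  | cons p w ih =>
    have i1 := ih fun q hq q' hq' =>
      h q (List.mem_cons_of_mem _ hq) q' (List.mem_cons_of_mem _ hq')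
    simp only [List.map_cons, E2, map_add, map_smul, i1]
    congr 1
    by_cases hp : f p
    · have i2 := E1_add c x f (ψ ∘ₗ LinearMap.mulLeft ℂ (x p)) w fun q hq hf =>
        (h p List.mem_cons_self q (List.mem_cons_of_mem _ hq) hp hf).1
      simp only [LinearMap.comp_apply, LinearMap.mulLeft_apply] at i2
      rw [if_pos hp, neg_mul, map_neg, i2, neg_neg]
    · have i2 := E1_sub c x f (ψ ∘ₗ LinearMap.mulLeft ℂ (x p)) w fun q hq hf =>
        (h q (List.mem_cons_of_mem _ hq) p List.mem_cons_self hf hp).2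
      simp only [LinearMap.comp_apply, LinearMap.mulLeft_apply] at i2
      rw [if_neg hp, i2]

end Flip

end Expand

theorem comm_est {τ : Q →L[ℂ] ℂ} (hτ : IsTr τ) {h h' z : Q} (hh : Symm h) (hh' : Symm h')
    (hz : ‖z‖ ≤ 1) (hc : Commute z h) {t : ℝ} (h0 : 0 ≤ t) (h1 : t ≤ 1) :
    ‖τ (z * (star (rot t h) * star (rot t h') * rot t h * rot t h' - 1))‖ ≤ 32 * t ^ 3 := by
  have hca : ((Real.cos t : ℝ) : ℂ) ^ 2 - (((Real.sin t : ℝ) : ℂ) * Complex.I) ^ 2 = 1 := by
    have e : ((Real.cos t : ℝ) : ℂ) ^ 2 + ((Real.sin t : ℝ) : ℂ) ^ 2 = 1 := by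
      exact_mod_cast Real.cos_sq_add_sin_sq t
    linear_combination e - ((Real.sin t : ℝ) : ℂ) ^ 2 * Complex.I_sq
  have hneg : ∀ y : Q, rot (-t) y = ((Real.cos t : ℝ) : ℂ) • (1 : Q) +
      (-(((Real.sin t : ℝ) : ℂ) * Complex.I)) • y := fun y => by
    rw [rot, Real.cos_neg, Real.sin_neg, Complex.ofReal_neg, neg_mul]
  have ha := Expand.norm_sinI t
  have hcn := Expand.norm_cos t
  rw [abs_of_nonneg h0] at ha
  rw [star_rot hh, star_rot hh', hneg, hneg, rot, rot, Expand.four_id hh.sq hh'.sq _ _ hca]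
  generalize ((Real.cos t : ℝ) : ℂ) = c at hcn
  generalize ((Real.sin t : ℝ) : ℂ) * Complex.I = a at ha
  have hz0 : τ (z * (h * h' - h' * h)) = 0 := by
    rw [mul_sub, map_sub, ← mul_assoc z h', hτ.trace (z * h') h, ← mul_assoc h, ← hc.eq,
      mul_assoc, sub_self]
  rw [mul_add, map_add, mul_smul_comm, map_smul, hz0, smul_zero, zero_add]
  refine (Expand.norm_apply_mul hτ.norm_le hz _).trans ?_
  have n1 := hh.norm_le
  have n2 := hh'.norm_le
  have n3 := Expand.norm_mul_le_one n1 n2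
  have n4 := Expand.norm_mul_le_one n3 n1
  have n5 := Expand.norm_mul_le_one (Expand.norm_mul_le_one n2 n1) n2
  have n6 := Expand.norm_mul_le_one n4 n2
  have n7 : ‖(1 : Q)‖ ≤ 1 := hh.sq ▸ Expand.norm_mul_le_one n1 n1
  have b1 : ‖h * h' * h + h - h' - h' * h * h'‖ ≤ 4 := by
    have a1 := norm_sub_le (h * h' * h + h - h') (h' * h * h')
    have a2 := norm_sub_le (h * h' * h + h) h'
    have a3 := norm_add_le (h * h' * h) h
    linarith
  have b2 : ‖h * h' * h * h' - 1‖ ≤ 2 := by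
    have a1 := norm_sub_le (h * h' * h * h') 1
    linarith
  have t3 : 0 ≤ t ^ 3 := pow_nonneg h0 3
  have c1 : ‖c * a ^ 3‖ ≤ t ^ 3 := by
    rw [norm_mul, norm_pow]
    exact (mul_le_of_le_one_left (by positivity) hcn).trans
      (pow_le_pow_left₀ (norm_nonneg _) ha 3)
  have c2 : ‖a ^ 4‖ ≤ t ^ 3 := by
    rw [norm_pow]
    exact (pow_le_pow_left₀ (norm_nonneg _) ha 4).trans
      (pow_le_pow_of_le_one h0 h1 (by norm_num))
  refine (norm_add_le _ _).trans ?_
  rw [norm_smul, norm_smul]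
  have d1 := mul_le_mul c1 b1 (norm_nonneg _) t3
  have d2 := mul_le_mul c2 b2 (norm_nonneg _) t3
  linarith

theorem flip_est {τ : Q →L[ℂ] ℂ} (hτ : ‖τ‖ ≤ 1) {z : Q} (hz : ‖z‖ ≤ 1) {ι : Type*} (w : List ι)
    (H : ι → Q) (s : ι → ℝ) (f : ι → Prop) [DecidablePred f] {t : ℝ} (h0 : 0 ≤ t) (h1 : t ≤ 1)
    (hH : ∀ p ∈ w, Symm (H p)) (hs : ∀ p ∈ w, s p = t ∨ s p = -t)
    (hc : ∀ p ∈ w, f p → τ (z * H p) = 0)
    (hc2 : ∀ p ∈ w, ∀ p' ∈ w, f p → ¬ f p' → τ (z * (H p * H p')) = 0 ∧ τ (z * (H p' * H p)) = 0) :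
    ‖τ (z * ((w.map fun p => rot (s p) (H p)).prod -
      (w.map fun p => rot (if f p then -s p else s p) (H p)).prod))‖ ≤
      2 * 2 ^ w.length * t ^ 3 := by
  have _ := h1
  set c : ℂ := ((Real.cos t : ℝ) : ℂ) with hcdef
  set x : ι → Q := fun p => (((Real.sin (s p) : ℝ) : ℂ) * Complex.I) • H p with hx
  set x' : ι → Q := fun p => if f p then -x p else x p with hx'
  have hcn : ‖c‖ ≤ 1 := Expand.norm_cos t
  have r1 : ∀ p ∈ w, rot (s p) (H p) = c • (1 : Q) + x p := fun p hp => by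
    rcases hs p hp with e | e
    · simp only [rot, hx, hcdef, e]
    · simp only [rot, hx, hcdef, e, Real.cos_neg]
  have r2 : ∀ p ∈ w, rot (if f p then -s p else s p) (H p) = c • (1 : Q) + x' p := fun p hp => by
    by_cases hf : f p
    · have e := r1 p hp
      simp only [hx', if_pos hf, rot, Real.cos_neg, Real.sin_neg, Complex.ofReal_neg, neg_mul,
        neg_smul] at e ⊢
      rw [add_right_cancel e]
    · simp only [hx', if_neg hf]
      exact r1 p hp
  have nx : ∀ p ∈ w, ‖x p‖ ≤ t := fun p hp => by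
    have e : |s p| = t := by
      rcases hs p hp with e | e
      · rw [e, abs_of_nonneg h0]
      · rw [e, abs_neg, abs_of_nonneg h0]
    simp only [hx]
    rw [norm_smul, ← e]
    exact (mul_le_of_le_one_right (norm_nonneg _) (hH p hp).norm_le).trans (Expand.norm_sinI _)
  have nx' : ∀ p ∈ w, ‖x' p‖ ≤ t := fun p hp => by
    simp only [hx']
    split_ifs
    · rw [norm_neg]; exact nx p hp
    · exact nx p hp
  have b1 := (Expand.bounds hcn h0 (w.map x) fun y hy => by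
    obtain ⟨p, hp, rfl⟩ := List.mem_map.1 hy
    exact ⟨nx p hp, r1 p hp ▸ norm_rot_le (hH p hp) _⟩).2.2
  have b2 := (Expand.bounds hcn h0 (w.map x') fun y hy => by
    obtain ⟨p, hp, rfl⟩ := List.mem_map.1 hy
    exact ⟨nx' p hp, r2 p hp ▸ norm_rot_le (hH p hp) _⟩).2.2
  rw [List.length_map] at b1 b2
  let ψ : Q →ₗ[ℂ] ℂ := τ.toLinearMap ∘ₗ LinearMap.mulLeft ℂ z
  have hψ : ∀ y, ψ y = τ (z * y) := fun y => rfl
  have e1 : ψ (Expand.E1 c (w.map x')) = ψ (Expand.E1 c (w.map x)) :=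
    Expand.E1_sub c x f ψ w fun p hp hf => by
      simp only [hx]
      rw [map_smul, hψ, hc p hp hf, smul_zero]
  have e2 : ψ (Expand.E2 c (w.map x')) = ψ (Expand.E2 c (w.map x)) :=
    Expand.E2_eq c x f ψ w fun p hp p' hp' hf hf' => by
      obtain ⟨u1, u2⟩ := hc2 p hp p' hp' hf hf'
      simp only [hx, smul_mul_assoc, mul_smul_comm, map_smul, hψ, u1, u2, smul_zero, and_self]
  have e3 : τ (z * ((w.map fun p => rot (s p) (H p)).prod -
      (w.map fun p => rot (if f p then -s p else s p) (H p)).prod)) =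
      τ (z * Expand.Rm c (w.map x)) - τ (z * Expand.Rm c (w.map x')) := by
    rw [List.map_congr_left r1, List.map_congr_left r2, ← hψ, ← hψ, ← hψ]
    simp only [Expand.Rm, map_sub, List.map_map, List.length_map, e1, e2, Function.comp_def]
    ring
  rw [e3]
  have a1 := norm_sub_le (τ (z * Expand.Rm c (w.map x))) (τ (z * Expand.Rm c (w.map x')))
  have a2 := Expand.norm_apply_mul hτ hz (Expand.Rm c (w.map x))
  have a3 := Expand.norm_apply_mul hτ hz (Expand.Rm c (w.map x'))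
  linarith

end Vale.Agent.P095
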