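import Vale.Agent.P095.Expand

/-! P095: commuting fields of Haar unitaries with a flip symmetry. See skel/P095/BLUEPRINT.md. -/

namespace Vale.Agent.P095

open Filter Topology Vale.Agent.P101 Vale.Agent.P101.F
open scoped ComplexOrder

universe u v w

variable {Q : Type u} [CStarAlgebra Q] {G : Type v} [Group G]
variable {α : G →* (Q ≃⋆ₐ[ℂ] Q)} {T : Set (Q →L[ℂ] ℂ)}

/-- layers indexed by `Fin L × Fin N` -/
structure FieldsLay (α : G →* (Q ≃⋆ₐ[ℂ] Q)) {L N : ℕ} (h k : Fin L × Fin N → Q) : Prop where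
  pair : ∀ i, Pair (h i) (k i)
  comm : ∀ i j, i ≠ j → ∀ x ∈ lay α (h i) (k i), ∀ y ∈ lay α (h j) (k j), Commute x y

/-- the union of the layers with second index `i` -/
def fieldsSup (α : G →* (Q ≃⋆ₐ[ℂ] Q)) {L N : ℕ} (h k : Fin L × Fin N → Q) (i : Fin N) : Set Q :=
  {x | ∃ l, x ∈ lay α (h (l, i)) (k (l, i))}

/-- the approximate fields -/
noncomputable def fieldsZ {L N : ℕ} (t : ℝ) (h : Fin L × Fin N → Q) (l : Fin L) : Q :=
  oprod fun i => rot t (h (l, i))

/-- the factor of a word in one layer -/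
noncomputable def fieldsW (α : G →* (Q ≃⋆ₐ[ℂ] Q)) {L N : ℕ} (t : ℝ) (h : Fin L × Fin N → Q)
    (w : List (G × Fin L × Bool)) (i : Fin N) : Q :=
  (w.map fun p => rot (if p.2.2 then t else -t) (α p.1 (h (p.2.1, i)))).prod

theorem fields_h_lay (a b : Q) (g : G) : α g a ∈ lay α a b := ⟨g, Or.inl rfl⟩

theorem fields_k_lay (a b : Q) (g : G) : α g b ∈ lay α a b := ⟨g, Or.inr rfl⟩

theorem fields_norm_prod {ι : Type*} (l : List ι) (f : ι → Q) (h : ∀ p ∈ l, ‖f p‖ ≤ 1) :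
    ‖(l.map f).prod‖ ≤ 1 := by
  induction l with
  | nil =>
    rw [List.map_nil, List.prod_nil]
    exact Symm.norm_le ⟨star_one Q, one_mul 1⟩
  | cons a l ih =>
    rw [List.map_cons, List.prod_cons]
    refine (norm_mul_le _ _).trans ?_
    exact mul_le_one₀ (h a List.mem_cons_self) (norm_nonneg _)
      (ih fun p hp => h p (List.mem_cons_of_mem _ hp))

theorem fields_act_Z {L N : ℕ} (t : ℝ) (h : Fin L × Fin N → Q) (g : G) (l : Fin L) :
    α g (fieldsZ t h l) = oprod fun i => rot t (α g (h (l, i))) := by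
  rw [fieldsZ, map_oprod]
  simp only [map_rot]

namespace FieldsLay

variable {L N : ℕ} {h k : Fin L × Fin N → Q} (H : FieldsLay α h k)
include H

theorem symm (g : G) (i : Fin L × Fin N) : Symm (α g (h i)) := (H.pair i).fst.act g

theorem sup_comm {i j : Fin N} (hij : i ≠ j) (g : G) (l : Fin L) {x : Q}
    (hx : x ∈ fieldsSup α h k i) : Commute (α g (h (l, j))) x := by
  obtain ⟨l', hx⟩ := hx
  exact H.comm (l, j) (l', i) (fun e => hij (congrArg Prod.snd e).symm) _ (fields_h_lay _ _ g) x hx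

theorem rot_comm {i j : Fin N} (hij : i ≠ j) (g g' : G) (l l' : Fin L) (s s' : ℝ) :
    Commute (rot s (α g (h (l, i)))) (rot s' (α g' (h (l', j)))) :=
  commute_rot (commute_rot (H.sup_comm hij g' l' ⟨l, fields_h_lay _ _ g⟩) s').symm s

theorem mem_unitary (t : ℝ) (l : Fin L) : fieldsZ t h l ∈ unitary Q :=
  oprod_mem_unitary fun i => rot_mem_unitary (H.pair (l, i)).fst t

theorem word_eq (t : ℝ) (w : List (G × Fin L × Bool)) :
    word α (fieldsZ t h) w = oprod (fieldsW α t h w) := by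
  have e := prod_oprod w (fun p i => rot (if p.2.2 then t else -t) (α p.1 (h (p.2.1, i))))
    fun p _ p' _ i j hij => H.rot_comm hij _ _ _ _ _ _
  refine Eq.trans ?_ e
  unfold word
  congr 1
  refine List.map_congr_left fun p _ => ?_
  rw [fields_act_Z]
  split_ifs
  · rfl
  · rw [star_oprod fun i j hij => H.rot_comm hij _ _ _ _ _ _]
    simp only [star_rot (H.symm _ _)]

theorem norm_W (t : ℝ) (w : List (G × Fin L × Bool)) (i : Fin N) : ‖fieldsW α t h w i‖ ≤ 1 :=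
  fields_norm_prod _ _ fun _ _ => norm_rot_le (H.symm _ _) _

theorem W_comm (t : ℝ) (w : List (G × Fin L × Bool)) {i j : Fin N} (hij : i ≠ j) {x : Q}
    (hx : x ∈ fieldsSup α h k i) : Commute (fieldsW α t h w j) x := by
  refine Commute.list_prod_left _ _ fun a ha => ?_
  obtain ⟨p, -, rfl⟩ := List.mem_map.1 ha
  exact commute_rot (H.sup_comm hij _ _ hx) _

theorem comm_word {τ : Q →L[ℂ] ℂ} (hτ : IsTr τ) {t : ℝ} (h0 : 0 ≤ t) (h1 : t ≤ 1) (g g' : G)
    (l l' : Fin L) : ‖τ (star (α g (fieldsZ t h l)) * star (α g' (fieldsZ t h l')) *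
      α g (fieldsZ t h l) * α g' (fieldsZ t h l') - 1)‖ ≤ N * (32 * t ^ 3) := by
  have e := H.word_eq t [(g, l, false), (g', l', false), (g, l, true), (g', l', true)]
  have e' : word α (fieldsZ t h) [(g, l, false), (g', l', false), (g, l, true), (g', l', true)] =
      star (α g (fieldsZ t h l)) * star (α g' (fieldsZ t h l')) *
      α g (fieldsZ t h l) * α g' (fieldsZ t h l') := by
    simp [word, mul_assoc]
  have n1 : ‖(1 : Q)‖ ≤ 1 := Symm.norm_le ⟨star_one Q, one_mul 1⟩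
  have b := hybrid τ hτ.trace (fieldsSup α h k)
    (fieldsW α t h [(g, l, false), (g', l', false), (g, l, true), (g', l', true)]) (fun _ => 1) 1
    (fun _ => 32 * t ^ 3) (H.norm_W t _) (fun _ => n1) n1 (fun _ x _ => Commute.one_left x)
    (fun i j hij x hx => ⟨H.W_comm t _ hij hx, Commute.one_left x⟩) (fun i z hz hc => by
      have c := comm_est hτ (H.symm g (l, i)) (H.symm g' (l', i)) hz
        (hc _ ⟨l, fields_h_lay _ _ g⟩) h0 h1
      have e2 : fieldsW α t h [(g, l, false), (g', l', false), (g, l, true), (g', l', true)] i =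
          star (rot t (α g (h (l, i)))) * star (rot t (α g' (h (l', i)))) *
            rot t (α g (h (l, i))) * rot t (α g' (h (l', i))) := by
        rw [star_rot (H.symm _ _), star_rot (H.symm _ _)]
        simp [fieldsW, mul_assoc]
      rw [e2]
      exact c)
  rw [oprod_one, one_mul, one_mul, ← e, e', ← map_sub] at b
  simpa using b

theorem haar {τ : Q →L[ℂ] ℂ} (hτ : IsTr τ) (t : ℝ) (l : Fin L) (n : ℕ) :
    ‖τ (fieldsZ t h l ^ n)‖ ≤ |Real.cos (n * t)| ^ N := by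
  have e : fieldsZ t h l ^ n = oprod fun i => rot (n * t) (α 1 (h (l, i))) := by
    rw [← act_one α (fieldsZ t h l), fields_act_Z,
      oprod_pow fun i j hij => H.rot_comm hij _ _ _ _ _ _]
    simp only [rot_pow (H.symm _ _)]
  have n1 : ‖(1 : Q)‖ ≤ 1 := Symm.norm_le ⟨star_one Q, one_mul 1⟩
  have n2 : ‖((Real.cos (n * t) : ℝ) : ℂ) • (1 : Q)‖ ≤ 1 := by
    rw [norm_smul, Complex.norm_real, Real.norm_eq_abs]
    exact mul_le_one₀ (Real.abs_cos_le_one _) (norm_nonneg _) n1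
  have b := hybrid τ hτ.trace (fieldsSup α h k) (fun i => rot (n * t) (α 1 (h (l, i))))
    (fun _ => ((Real.cos (n * t) : ℝ) : ℂ) • (1 : Q)) 1 (fun _ => 0)
    (fun i => norm_rot_le (H.symm _ _) _) (fun _ => n2) n1 (fun _ x _ => Commute.one_left x)
    (fun i j hij x hx => ⟨commute_rot (H.sup_comm hij _ _ hx) _,
      (Commute.one_left x).smul_left _⟩) (fun i z _ hc => by
      rw [rot, add_sub_cancel_left, mul_smul_comm, map_smul,
        center τ hτ.trace ((H.pair (l, i)).act 1) (hc _ ⟨l, fields_k_lay _ _ 1⟩), smul_zero,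
        norm_zero])
  rw [Finset.sum_const_zero, norm_le_zero_iff, sub_eq_zero, one_mul, one_mul, ← e,
    oprod_smul_one] at b
  rw [b]
  refine (hτ.norm_apply_le _).trans ?_
  rw [norm_smul, norm_pow, Complex.norm_real, Real.norm_eq_abs]
  exact mul_le_of_le_one_right (by positivity) n1

theorem flip {τ : Q →L[ℂ] ℂ} (hτ : IsTr τ) {t : ℝ} (h0 : 0 ≤ t) (h1 : t ≤ 1) {y : Q}
    (hy : ‖y‖ ≤ 1) (hyL : ∀ i, ∀ x ∈ fieldsSup α h k i, Commute y x)
    (w : List (G × Fin L × Bool)) (l : Fin L) :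
    ‖τ (y * word α (fieldsZ t h) w) - τ (y * word α (fieldsZ t h) (flipW l w))‖ ≤
      N * (2 * 2 ^ w.length * t ^ 3) := by
  have b := hybrid τ hτ.trace (fieldsSup α h k) (fieldsW α t h w) (fieldsW α t h (flipW l w)) y
    (fun _ => 2 * 2 ^ w.length * t ^ 3) (H.norm_W t _) (H.norm_W t _) hy hyL
    (fun i j hij x hx => ⟨H.W_comm t _ hij hx, H.W_comm t _ hij hx⟩) (fun i z hz hc => by
      have c := flip_est hτ.norm_le hz w (fun p => α p.1 (h (p.2.1, i)))
        (fun p => if p.2.2 then t else -t) (fun p => p.2.1 = l) h0 h1 (fun p _ => H.symm _ _)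
        (fun p _ => by split_ifs <;> simp)
        (fun p _ _ => center τ hτ.trace ((H.pair _).act p.1) (hc _ ⟨_, fields_k_lay _ _ _⟩))
        (fun p _ p' _ hp hp' => by
          have ne : (p'.2.1, i) ≠ (p.2.1, i) := fun e => hp' ((congrArg Prod.fst e).trans hp)
          have c1 := H.comm _ _ ne _ (fields_h_lay _ _ p'.1) _ (fields_h_lay _ _ p.1)
          have c2 := H.comm _ _ ne _ (fields_h_lay _ _ p'.1) _ (fields_k_lay _ _ p.1)
          have c3 := center τ hτ.trace ((H.pair _).act p.1)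
            ((hc _ ⟨_, fields_k_lay _ _ p.1⟩).mul_left c2)
          rw [mul_assoc] at c3
          exact ⟨c1.eq ▸ c3, c3⟩)
      have e2 : fieldsW α t h (flipW l w) i = (w.map fun p => rot (if p.2.1 = l then
          -(if p.2.2 then t else -t) else if p.2.2 then t else -t) (α p.1 (h (p.2.1, i)))).prod := by
        rw [fieldsW, flipW, List.map_map]
        congr 1
        refine List.map_congr_left fun p _ => ?_
        obtain ⟨g, l', b⟩ := p
        by_cases e : l' = l <;> cases b <;> simp [e]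
      rw [e2]
      exact c)
  rw [← H.word_eq, ← H.word_eq] at b
  simpa using b

end FieldsLay

theorem fields_nrm_comm {τ : Q →L[ℂ] ℂ} (hτ : IsTr τ) {U V : Q} (hU : U ∈ unitary Q)
    (hV : V ∈ unitary Q) {δ ε : ℝ} (h1 : ‖τ (star U * star V * U * V - 1)‖ ≤ δ)
    (h2 : ‖τ (star V * star U * V * U - 1)‖ ≤ δ) (hε : 0 ≤ ε) (h : 2 * δ ≤ ε ^ 2) :
    nrm τ (U * V - V * U) ≤ ε := by
  have a1 : star (U * V) * (U * V) = 1 := Unitary.star_mul_self_of_mem (mul_mem hU hV)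
  have a2 : star (V * U) * (V * U) = 1 := Unitary.star_mul_self_of_mem (mul_mem hV hU)
  have e : star (U * V - V * U) * (U * V - V * U) =
      -(star U * star V * U * V - 1) - (star V * star U * V * U - 1) := by
    rw [star_sub, sub_mul, mul_sub, mul_sub, a1, a2, star_mul, star_mul]
    simp only [mul_assoc]
    abel
  refine abs_le_of_sq_le_sq' ?_ hε |>.2
  rw [hτ.nrm_sq, e, map_sub, map_neg, Complex.sub_re, Complex.neg_re]
  have b1 := (abs_le.1 ((Complex.abs_re_le_norm _).trans h1)).1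
  have b2 := (abs_le.1 ((Complex.abs_re_le_norm _).trans h2)).1
  linarith

theorem fields_approx (hT : TSat α T) [Countable G] (S : Set Q) (hS : S.Countable) (L n₀ : ℕ)
    {ε : ℝ} (hε : 0 < ε) :
    ∃ Z : Fin L → Q, (∀ l, Z l ∈ unitary Q) ∧ (∀ g l, ∀ s ∈ S, Commute (α g (Z l)) s) ∧
      (∀ g g' l l', ∀ τ ∈ T, nrm τ (α g (Z l) * α g' (Z l') - α g' (Z l') * α g (Z l)) ≤ ε) ∧
      (∀ l, ∀ τ ∈ T, ∀ n : ℕ, 1 ≤ n → n ≤ n₀ → ‖τ (Z l ^ n)‖ ≤ ε) ∧
      ∀ y ∈ S, ∀ c : ℂ, ‖c • y‖ ≤ 1 → ∀ τ ∈ T, ∀ w l, w.length ≤ n₀ →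
        ‖τ (c • y * word α Z w) - τ (c • y * word α Z (flipW l w))‖ ≤ ε := by
  obtain ⟨η, h0, h1, h2⟩ : ∃ η : ℝ, 0 < η ∧ 64 * η ≤ ε ^ 2 ∧ 2 * 2 ^ n₀ * η ≤ ε := by
    refine ⟨min (ε ^ 2 / 64) (ε / (2 * 2 ^ n₀)), by positivity, ?_, ?_⟩
    · have := min_le_left (ε ^ 2 / 64) (ε / (2 * 2 ^ n₀))
      linarith
    · have := min_le_right (ε ^ 2 / 64) (ε / (2 * 2 ^ n₀))
      rwa [le_div_iff₀' (by positivity)] at this
  have h3 : η ≤ ε := by
    have : (1 : ℝ) ≤ 2 ^ n₀ := one_le_pow₀ (by norm_num)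
    nlinarith
  obtain ⟨t, N, t0, -, t1, -, tN, tc⟩ := exists_param n₀ h0
  obtain ⟨h, k, l1, l2, l3⟩ := hT.layers S hS (Fin L × Fin N)
  have H : FieldsLay α h k := ⟨l1, l3⟩
  have hu : ∀ g l, α g (fieldsZ t h l) ∈ unitary Q := fun g l => by
    rw [fields_act_Z]
    exact oprod_mem_unitary fun i => rot_mem_unitary (H.symm _ _) t
  refine ⟨fieldsZ t h, H.mem_unitary t, fun g l s hs => ?_, fun g g' l l' τ hτ => ?_,
    fun l τ hτ n n1 n2 => ?_, fun y hy c hc τ hτ w l hw => ?_⟩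
  · rw [fields_act_Z]
    exact commute_oprod fun i => commute_rot (l2 _ _ (fields_h_lay _ _ g) s hs) t
  · exact fields_nrm_comm (hT.tr τ hτ) (hu g l) (hu g' l') (H.comm_word (hT.tr τ hτ) t0.le t1 ..)
      (H.comm_word (hT.tr τ hτ) t0.le t1 ..) hε.le (by linarith)
  · exact (H.haar (hT.tr τ hτ) t l n).trans ((tc n n1 n2).1.trans h3)
  · refine (H.flip (hT.tr τ hτ) t0.le t1 hc (fun i x hx => ?_) w l).trans ?_
    · obtain ⟨l', hx⟩ := hx
      exact (l2 _ x hx y hy).symm.smul_left c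
    · have b1 : (2 : ℝ) ^ w.length ≤ 2 ^ n₀ := pow_le_pow_right₀ (by norm_num) hw
      have b2 : (2 : ℝ) * 2 ^ w.length * (N * t ^ 3) ≤ 2 * 2 ^ n₀ * η :=
        mul_le_mul (by linarith) tN (by positivity) (by positivity)
      linarith

theorem fields_nrm_zero (τ : Q →L[ℂ] ℂ) : nrm τ (0 : Q) = 0 := by simp [nrm]

theorem fields_normalise (y : Q) : ‖(((‖y‖ + 1)⁻¹ : ℝ) : ℂ) • y‖ ≤ 1 := by
  have h : 0 < ‖y‖ + 1 := by positivity
  rw [norm_smul, Complex.norm_real, Real.norm_eq_abs, abs_of_pos (inv_pos.2 h),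
    inv_mul_le_iff₀ h]
  linarith

theorem TSat.exists_fields (hT : TSat α T) [Countable G] (S : Set Q) (hS : S.Countable) (L : ℕ) :
    ∃ Z : Fin L → Q, (∀ l, Z l ∈ unitary Q) ∧ (∀ g l, ∀ s ∈ S, Commute (α g (Z l)) s) ∧
      (∀ g g' l l', Commute (α g (Z l)) (α g' (Z l'))) ∧
      (∀ l, ∀ τ ∈ T, ∀ n : ℕ, 1 ≤ n → τ (Z l ^ n) = 0) ∧
      ∀ y ∈ S, ∀ τ ∈ T, ∀ w l, τ (y * word α Z w) = τ (y * word α Z (flipW l w)) := by
  have := hS.to_subtype
  have dv : ∀ (g : G) (l : Fin L), Dfn (fun g => α g) fun Z : Fin L → Q => α g (Z l) :=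
    fun g l => (Dfn.var l).act g
  obtain ⟨Z, -, hN, hP⟩ := hT.sat2 (V := Fin L)
    (ι := (Fin L ⊕ Fin L) ⊕ (G × Fin L × S) ⊕ ((G × Fin L) × G × Fin L))
    (κ := (Fin L × ℕ) ⊕ (S × List (G × Fin L × Bool) × Fin L))
    (Sum.elim (Sum.elim (fun l Z => star (Z l) * Z l - 1) fun l Z => Z l * star (Z l) - 1)
      (Sum.elim (fun p Z => α p.1 (Z p.2.1) * p.2.2.1 - p.2.2.1 * α p.1 (Z p.2.1))
        fun p Z => α p.1.1 (Z p.1.2) * α p.2.1 (Z p.2.2) - α p.2.1 (Z p.2.2) * α p.1.1 (Z p.1.2)))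
    (Sum.elim (fun p Z => Z p.1 ^ (p.2 + 1))
      fun p Z => (((‖p.1.1‖ + 1)⁻¹ : ℝ) : ℂ) • p.1.1 * word α Z p.2.1 -
        (((‖p.1.1‖ + 1)⁻¹ : ℝ) : ℂ) • p.1.1 * word α Z (flipW p.2.2 p.2.1))
    (by
      rintro ((l | l) | p | p)
      · exact ((Dfn.var l).star.mul (Dfn.var l)).sub (Dfn.const 1)
      · exact ((Dfn.var l).mul (Dfn.var l).star).sub (Dfn.const 1)
      · exact ((dv _ _).mul (Dfn.const _)).sub ((Dfn.const _).mul (dv _ _))
      · exact ((dv _ _).mul (dv _ _)).sub ((dv _ _).mul (dv _ _)))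
    (by
      rintro (p | p)
      · exact (Dfn.var _).pow _
      · exact ((Dfn.const _).mul (Dfn.word _)).sub ((Dfn.const _).mul (Dfn.word _)))
    (by
      intro s t ε hε
      obtain ⟨n₀, hn⟩ : ∃ n₀ : ℕ, ∀ j ∈ t, Sum.elim (fun p : Fin L × ℕ => p.2 + 1)
          (fun p : S × List (G × Fin L × Bool) × Fin L => p.2.1.length) j ≤ n₀ :=
        ⟨_, fun j hj => Finset.le_sup hj⟩
      obtain ⟨Z, z1, z2, z3, z4, z5⟩ := fields_approx hT S hS L n₀ hε
      refine ⟨Z, fun l => ?_, ?_, ?_⟩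
      · rcases subsingleton_or_nontrivial Q with _ | _
        · rw [Subsingleton.elim (Z l) 0, norm_zero]
          exact zero_le_one
        · exact (CStarRing.norm_of_mem_unitary (z1 l)).le
      · rintro ((l | l) | p | p) - τ hτ
        · simp only [Sum.elim_inl]
          rw [Unitary.star_mul_self_of_mem (z1 l), sub_self, fields_nrm_zero]
          exact hε.le
        · simp only [Sum.elim_inl, Sum.elim_inr]
          rw [Unitary.mul_star_self_of_mem (z1 l), sub_self, fields_nrm_zero]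
          exact hε.le
        · simp only [Sum.elim_inl, Sum.elim_inr]
          rw [(z2 _ _ _ p.2.2.2).eq, sub_self, fields_nrm_zero]
          exact hε.le
        · exact z3 _ _ _ _ τ hτ
      · rintro (p | p) hp τ hτ
        · exact z4 _ τ hτ _ (Nat.le_add_left 1 _) (hn _ hp)
        · simp only [Sum.elim_inr]
          rw [map_sub]
          exact z5 _ p.1.2 _ (fields_normalise _) τ hτ _ _ (hn _ hp))
  refine ⟨Z, fun l => ⟨sub_eq_zero.1 (hN (.inl (.inl l))), sub_eq_zero.1 (hN (.inl (.inr l)))⟩,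
    fun g l s hs => sub_eq_zero.1 (hN (.inr (.inl (g, l, ⟨s, hs⟩)))),
    fun g g' l l' => sub_eq_zero.1 (hN (.inr (.inr ((g, l), g', l')))), fun l τ hτ n hn => ?_,
    fun y hy τ hτ w l => ?_⟩
  · obtain ⟨m, rfl⟩ := Nat.exists_eq_add_of_le' hn
    exact hP (.inl (l, m)) τ hτ
  · have h := hP (.inr (⟨y, hy⟩, w, l)) τ hτ
    simp only [Sum.elim_inr, smul_mul_assoc, map_sub, map_smul, sub_eq_zero] at h
    have h0 : (((‖y‖ + 1)⁻¹ : ℝ) : ℂ) ≠ 0 := by
      have : 0 < ‖y‖ + 1 := by positivity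
      exact_mod_cast (inv_pos.2 this).ne'
    exact mul_left_cancel₀ h0 h

end Vale.Agent.P095
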