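import Vale.Agent.P101.SDefs

/-!
Definitions used in the statement on equivariant Jiang-Su stability.
-/

namespace Vale.Agent.P095

open scoped MultiplierAlgebra Pointwise

/-- amenability of a discrete group: a left invariant finitely additive probability measure -/
def IsAmenable (G : Type*) [Group G] : Prop :=
  ∃ m : Set G → ℝ, (∀ s, 0 ≤ m s) ∧ m Set.univ = 1 ∧
    (∀ s t, Disjoint s t → m (s ∪ t) = m s + m t) ∧ ∀ (g : G) (s : Set G), m (g • s) = m s

/-- a nonzero C*-algebra without nontrivial closed two-sided ideals -/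
def IsSimple (A : Type*) [NonUnitalCStarAlgebra A] : Prop :=
  Nontrivial A ∧ ∀ I : TwoSidedIdeal A, IsClosed (I : Set A) → I = ⊥ ∨ I = ⊤

/-- complete positivity: all matrices `[φ (a i* a j)]` are positive -/
def IsCP {X Y : Type*} [NonUnitalCStarAlgebra X] [NonUnitalCStarAlgebra Y] (φ : X →L[ℂ] Y) : Prop :=
  ∀ (n : ℕ) (a : Fin n → X) (b : Fin n → Y),
    ∃ c : Y, ∑ i, ∑ j, star (b i) * φ (star (a i) * a j) * b j = star c * c

/-- the identity of `A` factors on `F` up to `ε` through `M` by completely positive contractions -/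
def Factors {A : Type*} [NonUnitalCStarAlgebra A] (M : Type*) [NonUnitalCStarAlgebra M]
    (F : Finset A) (ε : ℝ) : Prop :=
  ∃ (φ : A →L[ℂ] M) (ψ : M →L[ℂ] A), IsCP φ ∧ IsCP ψ ∧ ‖φ‖ ≤ 1 ∧ ‖ψ‖ ≤ 1 ∧
    ∀ a ∈ F, ‖ψ (φ a) - a‖ < ε

/-- nuclearity: the completely positive approximation property, `M_k = B(ℂ^k)` -/
def IsNuclear (A : Type*) [NonUnitalCStarAlgebra A] : Prop :=
  ∀ (F : Finset A) (ε : ℝ), 0 < ε → ∃ k : ℕ,
    Factors (EuclideanSpace ℂ (Fin k) →L[ℂ] EuclideanSpace ℂ (Fin k)) F ε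

/-- cocycle conjugacy; a multiplier `m` acts on `B` from the left by `m.fst` -/
def CocycleConjugate {G A B : Type*} [Group G] [NonUnitalCStarAlgebra A] [NonUnitalCStarAlgebra B]
    (α : G →* (A ≃⋆ₐ[ℂ] A)) (β : G →* (B ≃⋆ₐ[ℂ] B)) : Prop :=
  ∃ (Φ : A ≃⋆ₐ[ℂ] B) (u : G → 𝓜(ℂ, B)), (∀ g, star (u g) * u g = 1 ∧ u g * star (u g) = 1) ∧
    (∀ g h b, (u (g * h)).fst b = (u g).fst (β g ((u h).fst ((β g).symm b)))) ∧
    ∀ g a, (Φ (α g a) : 𝓜(ℂ, B)) = u g * (β g (Φ a) : 𝓜(ℂ, B)) * star (u g)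

/-- `j` identifies `B` with the closed linear span of the elements `τ a z` of `L`, and `t a z` is
the element of `B` that corresponds to `τ a z` -/
def IsClosedSpan {A Z B L : Type*} [NonUnitalCStarAlgebra B] [NonUnitalCStarAlgebra L]
    (j : B →⋆ₙₐ[ℂ] L) (t : A → Z → B) (τ : A → Z → L) : Prop :=
  Function.Injective j ∧ (∀ a z, j (t a z) = τ a z) ∧
    Dense (Submodule.span ℂ {b | ∃ a z, b = t a z} : Set B)

end Vale.Agent.P095
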