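import Vale.Agent.P095.Basic
import Vale.Agent.P095.SDefs

/-! P095: Folner sets from an invariant mean, Reiter vectors on coset spaces. See skel/P095/BLUEPRINT.md. -/

namespace Vale.Agent.P095

open Filter Topology Vale.Agent.P101 Vale.Agent.P101.F
open scoped ComplexOrder

universe u v w

variable {G : Type v} [Group G]

open scoped Pointwise in
theorem folner_grow [DecidableEq G] {K : Finset G} {ε : ℝ}
    (h : ∀ F : Finset G, F.Nonempty →
      ∃ g ∈ K, ε * F.card < ((F.filter fun x => g * x ∉ F).card : ℝ)) (hε : 0 < ε) (n : ℕ)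
    (F : Finset G) : (1 + ε) ^ n * F.card ≤ (((insert 1 K) ^ n * F : Finset G).card : ℝ) := by
  have step : ∀ F : Finset G, (1 + ε) * F.card ≤ ((insert 1 K * F : Finset G).card : ℝ) := by
    intro F
    rcases F.eq_empty_or_nonempty with rfl | hF
    · simp
    obtain ⟨g, hg, h1⟩ := h F hF
    have h2 : F ∪ (F.filter fun x => g * x ∉ F).image (g * ·) ⊆ insert 1 K * F := by
      intro y hy
      rcases Finset.mem_union.1 hy with hy | hy
      · exact Finset.mem_mul.2 ⟨1, Finset.mem_insert_self _ _, y, hy, one_mul y⟩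
      · obtain ⟨x, hx, rfl⟩ := Finset.mem_image.1 hy
        exact Finset.mul_mem_mul (Finset.mem_insert_of_mem hg) (Finset.mem_filter.1 hx).1
    have h3 : Disjoint F ((F.filter fun x => g * x ∉ F).image (g * ·)) := by
      rw [Finset.disjoint_right]
      intro y hy
      obtain ⟨x, hx, rfl⟩ := Finset.mem_image.1 hy
      exact (Finset.mem_filter.1 hx).2
    have h4 := Finset.card_le_card h2
    rw [Finset.card_union_of_disjoint h3,
      Finset.card_image_of_injective _ (mul_right_injective g)] at h4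
    have h5 : (F.card : ℝ) + ((F.filter fun x => g * x ∉ F).card : ℝ) ≤
        ((insert 1 K * F : Finset G).card : ℝ) := by exact_mod_cast h4
    linarith
  induction n with
  | zero => simp
  | succ n ih =>
    rw [pow_succ', pow_succ', mul_assoc, mul_assoc]
    exact (mul_le_mul_of_nonneg_left ih (by linarith)).trans (step _)

omit [Group G] in
theorem folner_add {m : Set G → ℝ} (h : ∀ s t, Disjoint s t → m (s ∪ t) = m s + m t) {ι : Type*}
    (A : ι → Set G) (hA : Pairwise fun i j => Disjoint (A i) (A j)) (s : Finset ι) :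
    m (⋃ i ∈ s, A i) = ∑ i ∈ s, m (A i) := by
  classical
  induction s using Finset.induction_on with
  | empty =>
    have := h ∅ ∅ disjoint_bot_left
    rw [Set.empty_union] at this
    simp only [Finset.notMem_empty, Set.iUnion_of_empty, Set.iUnion_empty, Finset.sum_empty]
    linarith
  | insert a s ha ih =>
    rw [Finset.set_biUnion_insert, Finset.sum_insert ha, h, ih]
    exact Set.disjoint_iUnion₂_right.2 fun i hi => hA fun e => ha (e ▸ hi)

theorem folner_sdiff [DecidableEq G] (F : Finset G) (g : G) :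
    (F.image (g * ·) \ F).card = (F.filter fun x => g * x ∉ F).card ∧
    (F \ F.image (g * ·)).card = (F.filter fun x => g * x ∉ F).card := by
  have h1 : (F.image (g * ·) \ F).card = (F.filter fun x => g * x ∉ F).card := by
    rw [Finset.sdiff_eq_filter, Finset.filter_image,
      Finset.card_image_of_injective _ (mul_right_injective g)]
  exact ⟨h1, (Finset.card_sdiff_comm
    (Finset.card_image_of_injective _ (mul_right_injective g))).symm.trans h1⟩

theorem folner_two [DecidableEq G] (hF : Folner G) (K : Finset G) {ε : ℝ} (hε : 0 < ε) :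
    ∃ F : Finset G, F.Nonempty ∧ ∀ g ∈ K,
      ((F.image (g * ·) \ F).card : ℝ) + (F \ F.image (g * ·)).card ≤ ε * F.card := by
  obtain ⟨F, h1, h2⟩ := hF K (ε / 2) (half_pos hε)
  refine ⟨F, h1, fun g hg => ?_⟩
  have h3 : ((F.filter fun x => g * x ∉ F).card : ℝ) ≤ ε / 2 * F.card := by
    refine le_of_eq_of_le ?_ (h2 g hg)
    congr 2
    ext x
    simp only [Finset.mem_filter]
  rw [(folner_sdiff F g).1, (folner_sdiff F g).2]
  linarith

theorem folner_sqrt {a b : ℝ} (ha : 0 ≤ a) (hb : 0 ≤ b) : (√a - √b) ^ 2 ≤ |a - b| := by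
  have h1 := Real.sqrt_nonneg a
  have h2 := Real.sqrt_nonneg b
  have h3 := Real.sq_sqrt ha
  have h4 := Real.sq_sqrt hb
  rcases le_total (√a) (√b) with h | h
  · refine le_trans ?_ (neg_le_abs _)
    nlinarith
  · refine le_trans ?_ (le_abs_self _)
    nlinarith

theorem folner_filter_le {α : Type*} [DecidableEq α] (A B : Finset α) (p : α → Prop)
    [DecidablePred p] :
    ((A.filter p).card : ℝ) - (B.filter p).card ≤ ((A \ B).filter p).card := by
  have h : A.filter p ⊆ (A \ B).filter p ∪ B.filter p := by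
    intro x hx
    rw [Finset.mem_filter] at hx
    by_cases h : x ∈ B <;> simp [hx.1, hx.2, h]
  have h1 := (Finset.card_le_card h).trans (Finset.card_union_le _ _)
  have h2 : ((A.filter p).card : ℝ) ≤ ((A \ B).filter p).card + (B.filter p).card := by
    exact_mod_cast h1
  linarith

open scoped Pointwise in
theorem folner_of_amenable (h : IsAmenable G) : Folner G := by
  classical
  obtain ⟨m, m0, m1, madd, minv⟩ := h
  intro K ε hε
  by_contra hc
  have hc' : ∀ F : Finset G, F.Nonempty →
      ∃ g ∈ K, ε * F.card < ((F.filter fun x => g * x ∉ F).card : ℝ) := by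
    intro F hF
    by_contra h'
    exact hc ⟨F, hF, fun g hg => not_lt.1 fun h'' => h' ⟨g, hg, h''⟩⟩
  obtain ⟨n, hn⟩ := pow_unbounded_of_one_lt (2 : ℝ) (by linarith : 1 < 1 + ε)
  set L : Finset G := (insert 1 K) ^ n with hL
  obtain ⟨f, hf, hft⟩ := (Finset.all_card_le_biUnion_card_iff_exists_injective
      (fun p : G × Bool => L.image (· * p.1))).1 fun s => by
    have h1 : s ⊆ s.image Prod.fst ×ˢ Finset.univ := fun p hp =>
      Finset.mem_product.2 ⟨Finset.mem_image_of_mem _ hp, Finset.mem_univ _⟩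
    have h2 := Finset.card_le_card h1
    rw [Finset.card_product, Finset.card_univ, Fintype.card_bool] at h2
    have h3 : L * s.image Prod.fst ⊆ s.biUnion fun p => L.image (· * p.1) := by
      intro y hy
      obtain ⟨k, hk, x, hx, rfl⟩ := Finset.mem_mul.1 hy
      obtain ⟨p, hp, rfl⟩ := Finset.mem_image.1 hx
      exact Finset.mem_biUnion.2 ⟨p, hp, Finset.mem_image_of_mem _ hk⟩
    have h4 := folner_grow hc' hε n (s.image Prod.fst)
    have h5 : ((s.image Prod.fst).card : ℝ) * 2 ≤ (L * s.image Prod.fst : Finset G).card := by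
      refine le_trans ?_ h4
      rw [mul_comm]
      exact mul_le_mul_of_nonneg_right hn.le (Nat.cast_nonneg _)
    have h6 : (s.image Prod.fst).card * 2 ≤ (L * s.image Prod.fst : Finset G).card := by
      exact_mod_cast h5
    exact h2.trans (h6.trans (Finset.card_le_card h3))
  let A : G × Bool → Set G := fun q => {x | f (x, q.2) = q.1 * x}
  have a1 : ∀ b, ∑ k ∈ L, m (A (k, b)) = 1 := fun b => by
    rw [← folner_add madd (fun k => A (k, b)) (fun k k' hk => Set.disjoint_left.2
      fun x h1 h2 => hk (mul_right_cancel (h1.symm.trans h2))), ← m1]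
    congr 1
    refine Set.eq_univ_of_forall fun x => ?_
    obtain ⟨k, hk, e⟩ := Finset.mem_image.1 (hft (x, b))
    exact Set.mem_biUnion hk e.symm
  have a2 := folner_add madd (fun q : G × Bool => q.1 • A q) (fun q q' hq => by
    refine Set.disjoint_left.2 ?_
    rintro _ ⟨x, hx, rfl⟩ ⟨x', hx', e⟩
    have e1 : f (x', q'.2) = f (x, q.2) := hx'.trans (e.trans hx.symm)
    obtain ⟨e2, e3⟩ := Prod.mk.inj (hf e1)
    subst e2
    exact hq (Prod.ext (mul_right_cancel (b := x') e.symm) e3.symm)) (L ×ˢ Finset.univ)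
  simp only [minv] at a2
  rw [Finset.sum_product_right] at a2
  simp only [a1, Finset.sum_const, Finset.card_univ, Fintype.card_bool] at a2
  have a3 := madd _ _ (disjoint_compl_right (a := ⋃ q ∈ L ×ˢ (Finset.univ : Finset Bool),
    q.1 • A q))
  rw [Set.union_compl_self, m1, a2] at a3
  have a4 := m0 (⋃ q ∈ L ×ˢ (Finset.univ : Finset Bool), q.1 • A q)ᶜ
  rw [two_smul] at a3
  linarith

theorem exists_reiter (hF : Folner G) (N : Subgroup G) (K : Finset G) {ε : ℝ} (hε : 0 < ε) :
    ∃ (C : Finset (G ⧸ N)) (ξ : G ⧸ N → ℝ), (∀ c, c ∉ C → ξ c = 0) ∧ ∑ c ∈ C, ξ c ^ 2 = 1 ∧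
      ∀ g ∈ K, ∀ C' : Finset (G ⧸ N), ∑ c ∈ C', (ξ (g⁻¹ • c) - ξ c) ^ 2 ≤ ε := by
  classical
  obtain ⟨F, h1, h2⟩ := folner_two hF K hε
  have hp : (0 : ℝ) < F.card := Nat.cast_pos.2 h1.card_pos
  refine ⟨F.image (↑), fun c => √(((F.filter fun x : G => (x : G ⧸ N) = c).card : ℝ) / F.card),
    fun c hc => ?_, ?_, fun g hg C' => ?_⟩
  · beta_reduce
    rw [Finset.filter_eq_empty_iff.2 fun x hx e => hc (Finset.mem_image.2 ⟨x, hx, e⟩)]
    simp
  · rw [Finset.sum_congr rfl fun c _ => Real.sq_sqrt (by positivity), ← Finset.sum_div,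
      ← Nat.cast_sum, ← Finset.card_eq_sum_card_image, div_self hp.ne']
  · have e : ∀ c : G ⧸ N, (F.filter fun x : G => (x : G ⧸ N) = g⁻¹ • c).card =
        ((F.image (g * ·)).filter fun x : G => (x : G ⧸ N) = c).card := fun c => by
      rw [Finset.filter_image, Finset.card_image_of_injective _ (mul_right_injective g)]
      congr 1
      refine Finset.filter_congr fun x _ => ?_
      rw [eq_inv_smul_iff]
      rfl
    have k : ∀ A : Finset G, ∑ c ∈ C', ((A.filter fun x : G => (x : G ⧸ N) = c).card : ℝ) ≤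
        A.card := fun A => by
      rw [← Nat.cast_sum, Finset.sum_card_fiberwise_eq_card_filter]
      exact Nat.cast_le.2 (Finset.card_filter_le _ _)
    refine (Finset.sum_le_sum (g := fun c =>
      ((((F.image (g * ·) \ F).filter fun x : G => (x : G ⧸ N) = c).card : ℝ) +
        ((F \ F.image (g * ·)).filter fun x : G => (x : G ⧸ N) = c).card) / F.card)
        fun c _ => ?_).trans ?_
    · refine (folner_sqrt (by positivity) (by positivity)).trans ?_
      rw [e, ← sub_div, abs_div, abs_of_pos hp]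
      refine div_le_div_of_nonneg_right (abs_le.2 ⟨?_, ?_⟩) hp.le
      · have := folner_filter_le F (F.image (g * ·)) fun x : G => (x : G ⧸ N) = c
        have := Nat.cast_nonneg (α := ℝ)
          ((F.image (g * ·) \ F).filter fun x : G => (x : G ⧸ N) = c).card
        linarith
      · have := folner_filter_le (F.image (g * ·)) F fun x : G => (x : G ⧸ N) = c
        have := Nat.cast_nonneg (α := ℝ)
          ((F \ F.image (g * ·)).filter fun x : G => (x : G ⧸ N) = c).card
        linarith
    · rw [← Finset.sum_div, Finset.sum_add_distrib, div_le_iff₀ hp]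
      exact (add_le_add (k _) (k _)).trans (h2 g hg)

/-- averages over Folner sets are almost invariant -/
theorem folner_avg (hF : Folner G) (K : Finset G) {ε : ℝ} (hε : 0 < ε) :
    ∃ F : Finset G, F.Nonempty ∧ ∀ (X : Type u) [NormedAddCommGroup X] [NormedSpace ℂ X]
      (x : G → X), (∀ g, ‖x g‖ ≤ 1) → ∀ s ∈ K,
        ‖((F.card : ℂ)⁻¹ • ∑ g ∈ F, x (s * g)) - (F.card : ℂ)⁻¹ • ∑ g ∈ F, x g‖ ≤ ε := by
  classical
  obtain ⟨F, h1, h2⟩ := folner_two hF K hε
  have hp : (0 : ℝ) < F.card := Nat.cast_pos.2 h1.card_pos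
  refine ⟨F, h1, fun X _ _ x hx s hs => ?_⟩
  have k : ∀ A : Finset G, ‖∑ g ∈ A, x g‖ ≤ A.card := fun A =>
    (norm_sum_le _ _).trans ((Finset.sum_le_card_nsmul _ _ 1 fun g _ => hx g).trans (by simp))
  rw [← smul_sub, ← Finset.sum_image (g := (s * ·)) (f := x) (mul_right_injective s).injOn,
    ← Finset.sum_sdiff_sub_sum_sdiff, norm_smul, norm_inv, Complex.norm_natCast,
    inv_mul_le_iff₀ hp, mul_comm]
  exact (norm_sub_le _ _).trans ((add_le_add (k _) (k _)).trans (h2 s hs))

end Vale.Agent.P095
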