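import Vale.Agent.P095.Basic

/-! P095: concentration for averages over translations of the cube. See skel/P095/BLUEPRINT.md. -/

namespace Vale.Agent.P095

open Filter Topology Vale.Agent.P101 Vale.Agent.P101.F
open scoped ComplexOrder

universe u v w

section Core

open Finset

variable {X Λ : Type} [Fintype X] [DecidableEq X] [Fintype Λ]

/-- functions of disjoint blocks of coordinates are independent -/
theorem hoeff_indep (p : X → Prop) [DecidablePred p] (a b : (X → Λ) → ℝ)
    (ha : ∀ r r', (∀ x, p x → r x = r' x) → a r = a r')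
    (hb : ∀ r r', (∀ x, ¬ p x → r x = r' x) → b r = b r') :
    (∑ r, a r * b r) * Fintype.card (X → Λ) = (∑ r, a r) * ∑ r, b r := by
  let mix : (X → Λ) × (X → Λ) → (X → Λ) × (X → Λ) := fun q =>
    (fun x => if p x then q.1 x else q.2 x, fun x => if p x then q.2 x else q.1 x)
  have hinv : Function.Involutive mix := fun q => by
    refine Prod.ext (funext fun x => ?_) (funext fun x => ?_) <;> by_cases h : p x <;> simp [mix, h]
  have h1 : (∑ r, a r) * ∑ r, b r = ∑ q : (X → Λ) × (X → Λ), a (mix q).1 * b (mix q).1 := by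
    rw [sum_mul_sum, ← Fintype.sum_prod_type']
    refine sum_congr rfl fun q _ => ?_
    rw [ha q.1 (mix q).1 fun x hx => by simp [mix, hx], hb q.2 (mix q).1 fun x hx => by simp [mix, hx]]
  rw [h1, hinv.bijective.sum_comp (fun q => a q.1 * b q.1), Fintype.sum_prod_type]
  simp only [sum_const, card_univ, nsmul_eq_mul, ← mul_sum]
  ring

theorem hoeff_prod [Nonempty Λ] {C : Type} [DecidableEq C] (cl : X → C) (g : C → (X → Λ) → ℝ)
    (a : C → ℝ) (hg : ∀ c r, 0 ≤ g c r) (ha : ∀ c, 0 ≤ a c)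
    (hloc : ∀ c r r', (∀ x, cl x = c → r x = r' x) → g c r = g c r')
    (hs : ∀ c, ∑ r, g c r ≤ a c * Fintype.card (X → Λ)) (S : Finset C) :
    ∑ r, ∏ c ∈ S, g c r ≤ (∏ c ∈ S, a c) * Fintype.card (X → Λ) := by
  have hN : (0 : ℝ) < Fintype.card (X → Λ) := by exact_mod_cast Fintype.card_pos
  induction S using Finset.induction_on with
  | empty => simp
  | insert c S hc ih =>
    simp only [prod_insert hc]
    have h1 := hoeff_indep (fun x => cl x = c) (g c) (fun r => ∏ c' ∈ S, g c' r) (hloc c)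
      (fun r r' h => prod_congr rfl fun c' hc' => hloc c' r r' fun x hx =>
        h x fun hx' => hc (by rw [← hx', hx]; exact hc'))
    refine le_of_mul_le_mul_right ?_ hN
    rw [h1]
    calc (∑ r, g c r) * ∑ r, ∏ c' ∈ S, g c' r
        ≤ (a c * Fintype.card (X → Λ)) * ((∏ c ∈ S, a c) * Fintype.card (X → Λ)) :=
          mul_le_mul (hs c) ih (sum_nonneg fun r _ => prod_nonneg fun c' _ => hg c' r)
            (mul_nonneg (ha c) hN.le)
      _ = _ := by ring

open Classical in
theorem hoeff_core [Nonempty Λ] {C : Type} [Fintype C] [DecidableEq C] (cl : X → C) {K : ℝ}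
    (hK : 0 < K)
    (hcl : ∀ c, ((univ.filter fun t => cl t = c).card : ℝ) ≤ K)
    (f : (X → Λ) → X → ℝ) (h0 : ∀ r t, 0 ≤ f r t) (h1 : ∀ r t, f r t ≤ 1)
    (hloc : ∀ r r' t, (∀ x, cl x = cl t → r x = r' x) → f r t = f r' t) {μ ε : ℝ}
    (hε : 0 < ε) (hε2 : ε ≤ 2) (hμ : ∀ t, ∑ r, f r t ≤ μ * Fintype.card (X → Λ)) :
    ((univ.filter fun r => (μ + ε) * Fintype.card X < ∑ t, f r t).card : ℝ) ≤
      Real.exp (-(ε ^ 2 / 4 * (Fintype.card X / K))) * Fintype.card (X → Λ) := by
  have hN : (0 : ℝ) < Fintype.card (X → Λ) := by exact_mod_cast Fintype.card_pos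
  obtain ⟨N, hNe⟩ : ∃ N : ℝ, N = Fintype.card (X → Λ) := ⟨_, rfl⟩
  obtain ⟨M, hMe⟩ : ∃ M : ℝ, M = Fintype.card X := ⟨_, rfl⟩
  rw [← hNe] at hN hμ
  rw [← hNe, ← hMe]
  let m : X → ℝ := fun t => (∑ r, f r t) / N
  have m0 : ∀ t, 0 ≤ m t := fun t => div_nonneg (sum_nonneg fun r _ => h0 r t) hN.le
  have m1 : ∀ t, m t ≤ 1 := fun t => by
    rw [div_le_one hN, hNe]
    simpa using sum_le_sum fun r (_ : r ∈ univ) => h1 r t
  have mμ : ∀ t, m t ≤ μ := fun t => (div_le_iff₀ hN).2 (hμ t)
  let k : C → ℝ := fun c => (univ.filter fun t => cl t = c).card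
  have k0 : ∀ c, 0 ≤ k c := fun c => Nat.cast_nonneg _
  have ksum : ∑ c, k c = M := by
    rw [hMe, ← card_univ, card_eq_sum_card_fiberwise (f := cl) (t := univ) (by simp)]
    simp [k]
  let Z : C → (X → Λ) → ℝ := fun c r => ∑ t ∈ univ.filter fun t => cl t = c, (f r t - m t)
  have Zabs : ∀ c r, |Z c r| ≤ k c := fun c r => by
    refine (abs_sum_le_sum_abs _ _).trans ?_
    have : ∀ t ∈ univ.filter fun t => cl t = c, |f r t - m t| ≤ 1 := fun t _ => by
      rw [abs_le]; constructor <;> linarith [h0 r t, h1 r t, m0 t, m1 t]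
    simpa [k] using sum_le_sum this
  have Zsum : ∀ c, ∑ r, Z c r = 0 := fun c => by
    rw [sum_comm]
    refine sum_eq_zero fun t _ => ?_
    rw [sum_sub_distrib, sum_const, card_univ, nsmul_eq_mul, ← hNe]
    simp only [m]
    field_simp
    ring
  obtain ⟨s, hs⟩ : ∃ s : ℝ, s = ε / (2 * K) := ⟨_, rfl⟩
  have s0 : 0 < s := by rw [hs]; positivity
  have sK : s * K = ε / 2 := by rw [hs]; field_simp
  have hE : ∀ c, ∑ r, Real.exp (s * Z c r) ≤ Real.exp (s ^ 2 * K * k c) * Fintype.card (X → Λ) :=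
    fun c => by
      have a1 : ∀ r, Real.exp (s * Z c r) ≤ Real.exp (s ^ 2 * K * k c) + s * Z c r := fun r => by
        have b1 : |s * Z c r| ≤ s * k c := by
          rw [abs_mul, abs_of_pos s0]; exact mul_le_mul_of_nonneg_left (Zabs c r) s0.le
        have b2 : s * k c ≤ s * K := mul_le_mul_of_nonneg_left (hcl c) s0.le
        have b3 := (abs_le.1 (Real.abs_exp_sub_one_sub_id_le (x := s * Z c r) (by linarith))).2
        have b4 : (s * Z c r) ^ 2 ≤ (s * k c) * (s * K) := by
          rw [← sq_abs, sq]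
          exact mul_le_mul b1 (b1.trans b2) (abs_nonneg _) (mul_nonneg s0.le (k0 c))
        have b5 := Real.add_one_le_exp (s ^ 2 * K * k c)
        nlinarith
      refine (sum_le_sum fun r _ => a1 r).trans ?_
      rw [sum_add_distrib, ← mul_sum, Zsum, sum_const, card_univ, nsmul_eq_mul]
      linarith
  have hP := hoeff_prod cl (fun c r => Real.exp (s * Z c r)) (fun c => Real.exp (s ^ 2 * K * k c))
    (fun _ _ => (Real.exp_pos _).le) (fun _ => (Real.exp_pos _).le)
    (fun c r r' h => by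
      have : Z c r = Z c r' := sum_congr rfl fun t ht => by
        rw [hloc r r' t fun x hx => h x (hx.trans (mem_filter.1 ht).2)]
      simp only [this]) hE univ
  simp only [← Real.exp_sum, ← mul_sum, ksum, ← hNe] at hP
  have hM : ∀ r ∈ univ.filter fun r => (μ + ε) * M < ∑ t, f r t,
      Real.exp (s * (ε * M)) ≤ Real.exp (s * ∑ c, Z c r) := fun r hr => by
    refine Real.exp_le_exp.2 (mul_le_mul_of_nonneg_left ?_ s0.le)
    have e1 : ∑ c, Z c r = ∑ t, f r t - ∑ t, m t := by
      rw [← sum_sub_distrib]; exact sum_fiberwise univ cl fun t => f r t - m t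
    have e2 : ∑ t, m t ≤ μ * M := by
      rw [hMe, mul_comm]
      simpa using sum_le_sum fun t (_ : t ∈ univ) => mμ t
    linarith [(mem_filter.1 hr).2]
  have h2 := (sum_le_sum hM).trans ((sum_le_sum_of_subset_of_nonneg (filter_subset _ _)
    fun r _ _ => (Real.exp_pos _).le).trans hP)
  rw [sum_const, nsmul_eq_mul] at h2
  have e3 : -(ε ^ 2 / 4 * (M / K)) = s ^ 2 * K * M - s * (ε * M) := by
    rw [hs]; field_simp; ring
  rw [e3, Real.exp_sub, div_mul_eq_mul_div, le_div_iff₀ (Real.exp_pos _)]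
  exact h2

end Core

/-- the sums of subsets of `W` -/
def hoeffSpan {L : ℕ} (W : Finset (Fin L → Bool)) : (W → Bool) →+ (Fin L → Bool) where
  toFun b := ∑ x : W, fun l => b x * x.1 l
  map_zero' := by
    refine Finset.sum_eq_zero fun x _ => funext fun l => ?_
    exact zero_mul _
  map_add' b b' := by
    rw [← Finset.sum_add_distrib]
    refine Finset.sum_congr rfl fun x _ => funext fun l => ?_
    exact add_mul _ _ _

theorem hoeff_mem_span {L : ℕ} (W : Finset (Fin L → Bool)) {x : Fin L → Bool} (hx : x ∈ W) :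
    x ∈ (hoeffSpan W).range := by
  refine ⟨Pi.single ⟨x, hx⟩ 1, ?_⟩
  change (∑ y : W, fun l => (Pi.single ⟨x, hx⟩ 1 : W → Bool) y * y.1 l) = x
  rw [Finset.sum_eq_single ⟨x, hx⟩]
  · funext l; rw [Pi.single_eq_same, one_mul]
  · intro y _ hy; funext l; rw [Pi.single_eq_of_ne hy]; exact zero_mul _
  · simp

open Classical in
/-- `f r t` depends only on the labels of `r` on the translate of `W` by `t` -/
theorem hoeff_cube {L : ℕ} {Λ : Type} [Fintype Λ] [Nonempty Λ] (W : Finset (Fin L → Bool))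
    (f : ((Fin L → Bool) → Λ) → (Fin L → Bool) → ℝ) (h0 : ∀ r t, 0 ≤ f r t) (h1 : ∀ r t, f r t ≤ 1)
    (hloc : ∀ r r' t, (∀ x ∈ W, r (xorB t x) = r' (xorB t x)) → f r t = f r' t) {μ ε : ℝ}
    (hε : 0 < ε) (hμ : ∀ t, ∑ r, f r t ≤ μ * Fintype.card ((Fin L → Bool) → Λ)) :
    ((Finset.univ.filter fun r => (μ + ε) * 2 ^ L < ∑ t, f r t).card : ℝ) ≤
      Real.exp (-(ε ^ 2 / 4 * (2 ^ L / 2 ^ W.card))) * Fintype.card ((Fin L → Bool) → Λ) := by
  have hX : (Fintype.card (Fin L → Bool) : ℝ) = 2 ^ L := by simp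
  rcases le_or_gt ε 2 with h2 | h2
  · have key := hoeff_core (X := Fin L → Bool) (Λ := Λ)
      (C := (Fin L → Bool) ⧸ (hoeffSpan W).range) QuotientAddGroup.mk (K := 2 ^ W.card)
      (by positivity) (fun c => by
        obtain ⟨t0, rfl⟩ := QuotientAddGroup.mk_surjective c
        have a1 : (Finset.univ.filter fun t : Fin L → Bool =>
            (QuotientAddGroup.mk t : (Fin L → Bool) ⧸ (hoeffSpan W).range) =
              QuotientAddGroup.mk t0) ⊆ Finset.univ.image fun b => t0 + hoeffSpan W b := by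
          intro t ht
          obtain ⟨b, hb⟩ := QuotientAddGroup.eq.1 (Finset.mem_filter.1 ht).2.symm
          exact Finset.mem_image.2 ⟨b, Finset.mem_univ _, by rw [hb]; abel⟩
        have a2 := (Finset.card_le_card a1).trans Finset.card_image_le
        simp only [Finset.card_univ, Fintype.card_fun, Fintype.card_bool, Fintype.card_coe] at a2
        exact_mod_cast a2) f h0 h1
      (fun r r' t h => hloc r r' t fun x hx => h _ (by
        refine (QuotientAddGroup.eq.2 ?_).symm
        have : -t + xorB t x = x := by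
          have e : xorB t x = x + t := rfl
          rw [e]; abel
        rw [this]; exact hoeff_mem_span W hx)) hε h2 hμ
    rw [hX] at key
    exact key
  · have hN : (0 : ℝ) < Fintype.card ((Fin L → Bool) → Λ) := by exact_mod_cast Fintype.card_pos
    have hμ0 : 0 ≤ μ := by
      have := (Finset.sum_nonneg fun r _ => h0 r 0).trans (hμ 0)
      exact nonneg_of_mul_nonneg_left this hN
    rw [Finset.filter_false_of_mem, Finset.card_empty, Nat.cast_zero]
    · positivity
    · intro r _
      have a1 : ∑ t, f r t ≤ 2 ^ L := by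
        simpa using Finset.sum_le_sum fun t (_ : t ∈ Finset.univ) => h1 r t
      have a2 : (0 : ℝ) < 2 ^ L := by positivity
      rw [not_lt]
      nlinarith

end Vale.Agent.P095
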