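import Vale.Agent.P095.MinHash
import Vale.Agent.P095.Hoeff

/-! P095: a stable colouring that is uniform on every orbit of translations. See skel/P095/BLUEPRINT.md. -/

namespace Vale.Agent.P095

open Filter Topology Vale.Agent.P101 Vale.Agent.P101.F
open scoped ComplexOrder

universe u v w

section Aux

open Finset

theorem theta_exists_L (n c : ℕ) {δ : ℝ} (hδ : 0 < δ) :
    ∃ L : ℕ, c * ((2 : ℝ) ^ L) ^ n * Real.exp (-(δ * 2 ^ L)) < 1 := by
  have h1 : Tendsto (fun L : ℕ => δ * (2 : ℝ) ^ L) atTop atTop :=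
    (tendsto_pow_atTop_atTop_of_one_lt one_lt_two).const_mul_atTop hδ
  have h2 := ((Real.tendsto_pow_mul_exp_neg_atTop_nhds_zero n).comp h1).const_mul (c / δ ^ n)
  rw [mul_zero] at h2
  obtain ⟨L, hL⟩ := (h2.eventually (gt_mem_nhds one_pos)).exists
  refine ⟨L, lt_of_eq_of_lt ?_ hL⟩
  simp only [Function.comp, mul_pow]
  field_simp

open Classical in
theorem theta_unif {X Λ Ω : Type} [Fintype X] [DecidableEq X] [Fintype Λ] [Fintype Ω]
    (s : (X → Λ) → X) (i : Ω) :
    (univ.filter fun r : X → Λ × Ω => (r (s fun x => (r x).1)).2 = i).card * Fintype.card Ω =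
      Fintype.card (X → Λ × Ω) := by
  have h1 : ∀ i j : Ω, (univ.filter fun r : X → Λ × Ω => (r (s fun x => (r x).1)).2 = i).card ≤
      (univ.filter fun r : X → Λ × Ω => (r (s fun x => (r x).1)).2 = j).card := fun i j => by
    refine card_le_card_of_injOn (fun r x => ((r x).1, Equiv.swap i j (r x).2)) ?_ ?_
    · intro r hr
      have := (mem_filter.1 (mem_coe.1 hr)).2
      refine mem_coe.2 (mem_filter.2 ⟨mem_univ _, ?_⟩)
      simp only [this, Equiv.swap_apply_left]
    · intro r _ r' _ h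
      funext x
      have := congrFun h x
      simp only [Prod.mk.injEq, EmbeddingLike.apply_eq_iff_eq] at this
      exact Prod.ext this.1 this.2
  rw [← card_univ (α := X → Λ × Ω), card_eq_sum_card_fiberwise
    (f := fun r : X → Λ × Ω => (r (s fun x => (r x).1)).2) (s := univ) (t := univ) (by simp),
    sum_congr rfl fun j _ => le_antisymm (h1 j i) (h1 i j), sum_const, card_univ, smul_eq_mul,
    mul_comm]

theorem theta_fst {X Λ Ω : Type} [Fintype X] [DecidableEq X] [Fintype Λ] [Fintype Ω]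
    (p : (X → Λ) → Prop) [DecidablePred p] :
    (univ.filter fun r : X → Λ × Ω => p fun x => (r x).1).card ≤
      (univ.filter p).card * Fintype.card (X → Ω) := by
  rw [← card_univ, ← card_product]
  refine card_le_card_of_injOn (fun r => (fun x => (r x).1, fun x => (r x).2)) ?_ ?_
  · intro r hr
    exact mem_coe.2 (mem_product.2 ⟨mem_filter.2 ⟨mem_univ _, (mem_filter.1 (mem_coe.1 hr)).2⟩,
      mem_univ _⟩)
  · intro r _ r' _ h
    funext x
    exact Prod.ext (congrFun (congrArg Prod.fst h) x) (congrFun (congrArg Prod.snd h) x)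

theorem theta_xor_inj {L : ℕ} (t : Fin L → Bool) : Function.Injective (xorB t) := fun x y h =>
  funext fun l => by
    have := congrFun h l
    simpa [xorB] using this

theorem theta_map_sub {X : Type} [DecidableEq X] {f : X → X} (hf : Function.Injective f)
    (A A' : Multiset X) : Multiset.card (A.map f - A'.map f) = Multiset.card (A - A') := by
  have : A.map f - A'.map f = (A - A').map f := by
    ext y
    by_cases hy : y ∈ Set.range f
    · obtain ⟨x, rfl⟩ := hy
      simp only [Multiset.count_sub, Multiset.count_map_eq_count' f _ hf]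
    · have h0 : ∀ B : Multiset X, (B.map f).count y = 0 := fun B =>
        Multiset.count_eq_zero.2 fun h => by
          obtain ⟨x, _, hx⟩ := Multiset.mem_map.1 h
          exact hy ⟨x, hx⟩
      simp only [Multiset.count_sub, h0]
  rw [this, Multiset.card_map]

theorem theta_ms {X : Type} {n : ℕ} {A : Multiset X} (h : Multiset.card A = n) :
    ∃ a : Fin n → X, A = (List.ofFn a : Multiset X) := by
  induction A using Quotient.inductionOn with
  | h l =>
    have hl : l.length = n := h
    subst hl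
    exact ⟨l.get, by rw [List.ofFn_get]; rfl⟩

open Classical in
theorem theta_hoeff {L : ℕ} {Λ : Type} [Fintype Λ] [Nonempty Λ] (W : Finset (Fin L → Bool))
    {k : ℕ} (hW : W.card ≤ k) (q : ((Fin L → Bool) → Λ) → (Fin L → Bool) → Prop)
    [∀ r t, Decidable (q r t)]
    (hloc : ∀ r r' t, (∀ x ∈ W, r (xorB t x) = r' (xorB t x)) → (q r t ↔ q r' t)) {μ ε : ℝ}
    (hε : 0 < ε) (hμ : ∀ t, ((univ.filter fun r => q r t).card : ℝ) ≤
      μ * Fintype.card ((Fin L → Bool) → Λ)) :
    ((univ.filter fun r => (μ + ε) * 2 ^ L < (univ.filter fun t => q r t).card).card : ℝ) ≤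
      Real.exp (-(ε ^ 2 / 4 / 2 ^ k * 2 ^ L)) * Fintype.card ((Fin L → Bool) → Λ) := by
  have key := hoeff_cube W (fun r t => if q r t then 1 else 0)
    (fun r t => by split_ifs <;> norm_num) (fun r t => by split_ifs <;> norm_num)
    (fun r r' t h => by simp only [hloc r r' t h]) hε (μ := μ)
    (fun t => by rw [sum_boole]; exact hμ t)
  simp only [sum_boole] at key
  refine key.trans (mul_le_mul_of_nonneg_right (Real.exp_le_exp.2 (neg_le_neg ?_))
    (Nat.cast_nonneg _))
  rw [div_mul_eq_mul_div, mul_div_assoc]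
  gcongr
  norm_num

end Aux

open Classical in
theorem exists_theta (n : ℕ) (hn : 0 < n) {ε : ℝ} (hε : 0 < ε) (Ω : Type) [Fintype Ω]
    [Nonempty Ω] : ∃ (L : ℕ) (Θ : Multiset (Fin L → Bool) → Ω),
      (∀ A, Multiset.card A = n → ∀ i : Ω,
        |((Finset.univ.filter fun t => Θ (A.map (xorB t)) = i).card : ℝ) / 2 ^ L -
          1 / Fintype.card Ω| ≤ ε) ∧
      ∀ A A', Multiset.card A = n → Multiset.card A' = n →
        ((Finset.univ.filter fun t => Θ (A.map (xorB t)) ≠ Θ (A'.map (xorB t))).card : ℝ) / 2 ^ L ≤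
          2 * Multiset.card (A - A') / n + ε := by
  have hε2 : 0 < ε / 2 := half_pos hε
  obtain ⟨L, hL⟩ := theta_exists_L (n + n) (Fintype.card Ω * 3)
    (δ := (ε / 2) ^ 2 / 4 / 2 ^ (n + n)) (by positivity)
  obtain ⟨Λ, _, _, σ, hσ1, hσ2, hσ3⟩ := exists_minhash n hn hε2 (Fin L → Bool)
  have hΩ : (0 : ℝ) < Fintype.card Ω := by exact_mod_cast Fintype.card_pos
  have hN : (0 : ℝ) < Fintype.card ((Fin L → Bool) → Λ × Ω) := by exact_mod_cast Fintype.card_pos
  have h2L : (0 : ℝ) < 2 ^ L := by positivity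
  let Θ : ((Fin L → Bool) → Λ × Ω) → Multiset (Fin L → Bool) → Ω :=
    fun r A => (r (σ (fun x => (r x).1) A)).2
  have hloc : ∀ (A : Multiset (Fin L → Bool)), Multiset.card A = n → ∀ r r' t,
      (∀ x ∈ A, r (xorB t x) = r' (xorB t x)) → Θ r (A.map (xorB t)) = Θ r' (A.map (xorB t)) := by
    intro A hA r r' t h
    have h' : ∀ y ∈ A.map (xorB t), r y = r' y := fun y hy => by
      obtain ⟨x, hx, rfl⟩ := Multiset.mem_map.1 hy
      exact h x hx
    simp only [Θ]
    rw [hσ2 (fun x => (r x).1) (fun x => (r' x).1) _ fun y hy => by rw [h' y hy],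
      h' _ (hσ1 _ _ (by rw [Multiset.card_map, hA]))]
  have hunif : ∀ (B : Multiset (Fin L → Bool)) (i : Ω),
      ((Finset.univ.filter fun r => Θ r B = i).card : ℝ) =
        1 / Fintype.card Ω * Fintype.card ((Fin L → Bool) → Λ × Ω) := fun B i => by
    rw [← theta_unif (fun l => σ l B) i]
    push_cast
    field_simp
    rfl
  let ms : (Fin n → Fin L → Bool) → Multiset (Fin L → Bool) := fun a => (List.ofFn a : Multiset _)
  have hms : ∀ a, Multiset.card (ms a) = n := fun a => by simp [ms]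
  have hW : ∀ a, (ms a).toFinset.card ≤ n := fun a => (Multiset.toFinset_card_le _).trans (hms a).le
  let B1 : (Fin n → Fin L → Bool) → Ω → Finset ((Fin L → Bool) → Λ × Ω) := fun a i =>
    Finset.univ.filter fun r => (1 / Fintype.card Ω + ε / 2) * (2 : ℝ) ^ L <
      (Finset.univ.filter fun t => Θ r ((ms a).map (xorB t)) = i).card
  let B2 : (Fin n → Fin L → Bool) → Ω → Finset ((Fin L → Bool) → Λ × Ω) := fun a i =>
    Finset.univ.filter fun r => (1 - 1 / Fintype.card Ω + ε / 2) * (2 : ℝ) ^ L <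
      (Finset.univ.filter fun t => ¬ Θ r ((ms a).map (xorB t)) = i).card
  let B3 : (Fin n → Fin L → Bool) → (Fin n → Fin L → Bool) → Finset ((Fin L → Bool) → Λ × Ω) :=
    fun a a' => Finset.univ.filter fun r =>
      (2 * Multiset.card (ms a - ms a') / n + ε / 2 + ε / 2) * (2 : ℝ) ^ L <
      (Finset.univ.filter fun t => Θ r ((ms a).map (xorB t)) ≠ Θ r ((ms a').map (xorB t))).card
  obtain ⟨E, hE⟩ : ∃ E, E = Real.exp (-((ε / 2) ^ 2 / 4 / 2 ^ (n + n) * 2 ^ L)) := ⟨_, rfl⟩
  rw [← hE] at hL
  have c1 : ∀ a i, ((B1 a i).card : ℝ) ≤ E * Fintype.card ((Fin L → Bool) → Λ × Ω) := fun a i => by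
    rw [hE]
    exact theta_hoeff (ms a).toFinset ((hW a).trans (Nat.le_add_right n n))
      (fun r t => Θ r ((ms a).map (xorB t)) = i)
      (fun r r' t h => by rw [hloc _ (hms a) r r' t fun x hx => h x (Multiset.mem_toFinset.2 hx)])
      hε2 fun t => (hunif _ i).le
  have c2 : ∀ a i, ((B2 a i).card : ℝ) ≤ E * Fintype.card ((Fin L → Bool) → Λ × Ω) := fun a i => by
    rw [hE]
    refine theta_hoeff (ms a).toFinset ((hW a).trans (Nat.le_add_right n n))
      (fun r t => ¬ Θ r ((ms a).map (xorB t)) = i)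
      (fun r r' t h => by rw [hloc _ (hms a) r r' t fun x hx => h x (Multiset.mem_toFinset.2 hx)])
      hε2 fun t => ?_
    have h1 := Finset.card_filter_add_card_filter_not (s := Finset.univ)
      (fun r => Θ r ((ms a).map (xorB t)) = i)
    have h2 := congrArg (Nat.cast : ℕ → ℝ) h1
    rw [Nat.cast_add, hunif, Finset.card_univ] at h2
    linarith
  have c3 : ∀ a a', ((B3 a a').card : ℝ) ≤ E * Fintype.card ((Fin L → Bool) → Λ × Ω) :=
    fun a a' => by
      rw [hE]
      refine theta_hoeff ((ms a).toFinset ∪ (ms a').toFinset)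
        ((Finset.card_union_le _ _).trans (Nat.add_le_add (hW a) (hW a')))
        (fun r t => Θ r ((ms a).map (xorB t)) ≠ Θ r ((ms a').map (xorB t)))
        (fun r r' t h => by
          rw [hloc _ (hms a) r r' t fun x hx =>
              h x (Finset.mem_union_left _ (Multiset.mem_toFinset.2 hx)),
            hloc _ (hms a') r r' t fun x hx =>
              h x (Finset.mem_union_right _ (Multiset.mem_toFinset.2 hx))])
        hε2 fun t => ?_
      have h1 := hσ3 ((ms a).map (xorB t)) ((ms a').map (xorB t))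
        (by rw [Multiset.card_map, hms]) (by rw [Multiset.card_map, hms])
      rw [theta_map_sub (theta_xor_inj t)] at h1
      have h2 := theta_fst (Ω := Ω) fun l : (Fin L → Bool) → Λ =>
        σ l ((ms a).map (xorB t)) ≠ σ l ((ms a').map (xorB t))
      have h3 : (Finset.univ.filter fun r => Θ r ((ms a).map (xorB t)) ≠
          Θ r ((ms a').map (xorB t))).card ≤
          (Finset.univ.filter fun r : (Fin L → Bool) → Λ × Ω =>
            σ (fun x => (r x).1) ((ms a).map (xorB t)) ≠
              σ (fun x => (r x).1) ((ms a').map (xorB t))).card :=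
        Finset.card_le_card fun r hr => Finset.mem_filter.2 ⟨Finset.mem_univ _, fun h =>
          (Finset.mem_filter.1 hr).2 (by simp only [Θ, h])⟩
      have h4 : (Fintype.card ((Fin L → Bool) → Λ × Ω) : ℝ) =
          Fintype.card ((Fin L → Bool) → Λ) * Fintype.card ((Fin L → Bool) → Ω) := by
        simp only [Fintype.card_fun, Fintype.card_prod, mul_pow, Nat.cast_mul]
      rw [h4, ← mul_assoc]
      refine le_trans ?_ (mul_le_mul_of_nonneg_right h1 (Nat.cast_nonneg _))
      exact_mod_cast h3.trans h2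
  let Bad : Finset ((Fin L → Bool) → Λ × Ω) :=
    Finset.univ.biUnion fun x : (Fin n → Fin L → Bool) × (Fin n → Fin L → Bool) × Ω =>
      B1 x.1 x.2.2 ∪ B2 x.1 x.2.2 ∪ B3 x.1 x.2.1
  have hBad : (Bad.card : ℝ) < Fintype.card ((Fin L → Bool) → Λ × Ω) := by
    have a1 : ∀ x : (Fin n → Fin L → Bool) × (Fin n → Fin L → Bool) × Ω,
        ((B1 x.1 x.2.2 ∪ B2 x.1 x.2.2 ∪ B3 x.1 x.2.1).card : ℝ) ≤
          3 * (E * Fintype.card ((Fin L → Bool) → Λ × Ω)) := fun x => by
      have b1 := (Finset.card_union_le (B1 x.1 x.2.2 ∪ B2 x.1 x.2.2) (B3 x.1 x.2.1)).trans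
        (Nat.add_le_add_right (Finset.card_union_le _ _) _)
      have b2 := (Nat.cast_le (α := ℝ)).2 b1
      push_cast at b2
      linarith [c1 x.1 x.2.2, c2 x.1 x.2.2, c3 x.1 x.2.1]
    refine lt_of_le_of_lt (Nat.cast_le.2 Finset.card_biUnion_le) ?_
    rw [Nat.cast_sum]
    refine lt_of_le_of_lt (Finset.sum_le_sum fun x _ => a1 x) ?_
    rw [Finset.sum_const, Finset.card_univ, nsmul_eq_mul]
    have a2 : (Fintype.card ((Fin n → Fin L → Bool) × (Fin n → Fin L → Bool) × Ω) : ℝ) =
        ((2 : ℝ) ^ L) ^ (n + n) * Fintype.card Ω := by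
      simp only [Fintype.card_prod, Fintype.card_fun, Fintype.card_bool, Fintype.card_fin]
      push_cast
      ring
    rw [a2]
    push_cast at hL
    nlinarith [mul_lt_mul_of_pos_right hL hN]
  obtain ⟨r, -, hr⟩ : ∃ r ∈ (Finset.univ : Finset ((Fin L → Bool) → Λ × Ω)), r ∉ Bad :=
    Finset.exists_mem_notMem_of_card_lt_card (by rw [Finset.card_univ]; exact_mod_cast hBad)
  simp only [Bad, Finset.mem_biUnion, Finset.mem_univ, true_and, not_exists, Finset.mem_union,
    not_or] at hr
  refine ⟨L, Θ r, fun A hA i => ?_, fun A A' hA hA' => ?_⟩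
  · obtain ⟨a, rfl⟩ := theta_ms hA
    have h1 := not_lt.1 fun h => (hr (a, a, i)).1.1 (Finset.mem_filter.2 ⟨Finset.mem_univ _, h⟩)
    have h2 := not_lt.1 fun h => (hr (a, a, i)).1.2 (Finset.mem_filter.2 ⟨Finset.mem_univ _, h⟩)
    have h3 := congrArg (Nat.cast : ℕ → ℝ) (Finset.card_filter_add_card_filter_not
      (s := Finset.univ) (fun t => Θ r ((ms a).map (xorB t)) = i))
    rw [Nat.cast_add, Finset.card_univ] at h3
    have h4 : (Fintype.card (Fin L → Bool) : ℝ) = 2 ^ L := by simp
    rw [h4] at h3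
    rw [abs_le, sub_le_iff_le_add, le_sub_iff_add_le, div_le_iff₀ h2L, le_div_iff₀ h2L]
    constructor <;> nlinarith
  · obtain ⟨a, rfl⟩ := theta_ms hA
    obtain ⟨a', rfl⟩ := theta_ms hA'
    have h1 := not_lt.1 fun h => (hr (a, a', Classical.arbitrary Ω)).2
      (Finset.mem_filter.2 ⟨Finset.mem_univ _, h⟩)
    rw [div_le_iff₀ h2L]
    refine h1.trans (le_of_eq ?_)
    ring

end Vale.Agent.P095
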