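import Vale.Agent.P095.Bits
import Vale.Agent.P095.BitsHom
import Vale.Agent.P095.Theta

/-! P095: invariant partitions of unity that divide all traces. See skel/P095/BLUEPRINT.md. -/

namespace Vale.Agent.P095

open Filter Topology Vale.Agent.P101 Vale.Agent.P101.F
open scoped ComplexOrder

universe u v w

variable {Q : Type u} [CStarAlgebra Q] {G : Type v} [Group G]
variable {α : G →* (Q ≃⋆ₐ[ℂ] Q)} {T : Set (Q →L[ℂ] ℂ)}

omit [Group G] in
theorem gamma_avg {L : ℕ} (P : C(G × Fin L → Bool, ℂ) →⋆ₐ[ℂ] Q) {τ : Q →L[ℂ] ℂ} (hτ : IsTr τ)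
    {y : Q} (h : ∀ t f, τ (y * P (ContinuousMap.comp f (flipX G t))) = τ (y * P f))
    (f : C(G × Fin L → Bool, ℂ)) (c : ℂ) {δ : ℝ} (hδ : 0 ≤ δ)
    (hf : ∀ x, ‖(∑ t, f (flipX G t x)) / 2 ^ L - c‖ ≤ δ) :
    ‖τ (y * P f) - c * τ y‖ ≤ ‖y‖ * δ := by
  have h1 : ‖((2 : ℂ) ^ L)⁻¹ • ∑ t, f.comp (flipX G t) - c • 1‖ ≤ δ :=
    (ContinuousMap.norm_le _ hδ).2 fun x => by
      simpa only [ContinuousMap.sub_apply, ContinuousMap.smul_apply, ContinuousMap.sum_apply,
        ContinuousMap.comp_apply, ContinuousMap.one_apply, smul_eq_mul, mul_one,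
        div_eq_inv_mul] using hf x
  have h2 : τ (y * P (((2 : ℂ) ^ L)⁻¹ • ∑ t, f.comp (flipX G t) - c • 1)) =
      τ (y * P f) - c * τ y := by
    simp only [map_sub, map_smul, map_sum, map_one, mul_sub, mul_smul_comm, Finset.mul_sum,
      mul_one, h, smul_eq_mul, Finset.sum_const, Finset.card_univ, Fintype.card_fun,
      Fintype.card_bool, Fintype.card_fin, nsmul_eq_mul, Nat.cast_pow, Nat.cast_ofNat]
    rw [inv_mul_cancel_left₀ (pow_ne_zero L two_ne_zero)]
  rw [← h2]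
  exact (hτ.norm_apply_le _).trans ((norm_mul_le _ _).trans (mul_le_mul_of_nonneg_left
    ((NonUnitalStarAlgHom.norm_apply_le P _).trans h1) (norm_nonneg y)))

theorem gamma_approx (hT : TSat α T) [Countable G] (hF : Folner G) (S : Set Q)
    (hS : S.Countable) (Ω : Type) [Fintype Ω] [Nonempty Ω] (K : Finset G) {ε : ℝ} (hε : 0 < ε) :
    ∃ p : Ω → Q, Part p ∧ (∀ i, ∀ s ∈ S, Commute (p i) s) ∧
      (∀ g ∈ K, ∀ i, ∀ τ ∈ T, nrm τ (α g (p i) - p i) ≤ ε) ∧
      ∀ i, ∀ y ∈ S, ∀ τ ∈ T, ‖τ (y * p i) - (Fintype.card Ω : ℂ)⁻¹ * τ y‖ ≤ ‖y‖ * ε := by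
  classical
  obtain ⟨δ, hδ, h1, h2⟩ : ∃ δ : ℝ, 0 < δ ∧ δ ≤ ε ∧ 3 * δ ≤ ε ^ 2 :=
    ⟨min ε (ε ^ 2 / 3), by positivity, min_le_left _ _, by linarith [min_le_right ε (ε ^ 2 / 3)]⟩
  obtain ⟨F, hF0, hF⟩ := hF K δ hδ
  have hn := hF0.card_pos
  obtain ⟨L, Θ, t1, t2⟩ := exists_theta F.card hn hδ Ω
  obtain ⟨b, b1, b2, b3, b4⟩ := hT.exists_bits (insert 1 S) (hS.insert 1) L
  obtain ⟨P, hP⟩ := exists_bitsHom (fun p : G × Fin L => α p.1 (b p.2))
    (fun p => (b1 p.2).act p.1) fun p q => b3 _ _ _ _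
  obtain ⟨f, hf⟩ : ∃ f : Ω → C(G × Fin L → Bool, ℂ),
      ∀ i x, f i x = if Θ (loc F x) = i then 1 else 0 :=
    ⟨fun i => ⟨_, continuous_of_local (F ×ˢ Finset.univ)
      (fun x => if Θ (loc F x) = i then (1 : ℂ) else 0) fun x y h => by
        rw [show loc F x = loc F y from Multiset.map_congr rfl fun g hg => funext fun l =>
          h (g, l) (Finset.mem_product.2 ⟨hg, Finset.mem_univ l⟩)]⟩, fun _ _ => rfl⟩
  have fl : ∀ y ∈ insert 1 S, ∀ τ ∈ T, ∀ t f,
      τ (y * P (ContinuousMap.comp f (flipX G t))) = τ (y * P f) := fun y hy τ hτ =>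
    bits_flip P τ y fun w l hw => by simpa only [hP] using b4 y hy τ hτ w l hw
  refine ⟨fun i => P (f i), ⟨fun i => ?_, fun i => ?_, fun i j hij => ?_, ?_⟩, fun i s hs =>
    bits_commute P (fun p => by rw [hP]; exact b2 _ _ s (Set.mem_insert_of_mem _ hs)) _,
    fun g hg i τ hτ => ?_, fun i y hy τ hτ => ?_⟩
  · rw [← map_star]
    refine congrArg P (ContinuousMap.ext fun x => ?_)
    rw [ContinuousMap.star_apply, hf]
    split_ifs <;> simp
  · rw [← map_mul]
    refine congrArg P (ContinuousMap.ext fun x => ?_)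
    rw [ContinuousMap.mul_apply, hf]
    split_ifs <;> simp
  · rw [← map_mul, ← map_zero P]
    refine congrArg P (ContinuousMap.ext fun x => ?_)
    rw [ContinuousMap.mul_apply, hf, hf]
    split_ifs with a1 a2
    · exact absurd (a1.symm.trans a2) hij
    all_goals simp
  · rw [← map_sum, ← map_one P]
    refine congrArg P (ContinuousMap.ext fun x => ?_)
    simp [hf]
  · rw [bits_shift α b P (fun g l => hP (g, l)), ← map_sub]
    generalize hD : (f i).comp (shiftG g) - f i = D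
    have h3 := gamma_avg P (hT.tr τ hτ) (fl 1 (Set.mem_insert _ _) τ hτ) (star D * D) 0
      (δ := 3 * δ) (by positivity) fun x => by
        have h4 := t2 _ _ (card_loc F x) (card_loc F (shiftG g x))
        have h5 : (Multiset.card (loc F x - loc F (shiftG g x)) : ℝ) ≤ δ * F.card :=
          (Nat.cast_le.2 (card_loc_sub F g x)).trans (hF g hg)
        have h6 : 2 * (Multiset.card (loc F x - loc F (shiftG g x)) : ℝ) / F.card ≤ 2 * δ := by
          rw [div_le_iff₀ (Nat.cast_pos.2 hn)]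
          linarith
        rw [sub_zero, norm_div, norm_pow, Complex.norm_two]
        refine (div_le_div_of_nonneg_right ((norm_sum_le _ _).trans ?_) (by positivity)).trans
          (h4.trans (by linarith))
        rw [Finset.card_filter, Nat.cast_sum]
        refine Finset.sum_le_sum fun t _ => ?_
        have e : D (flipX G t x) = f i (flipX G t (shiftG g x)) - f i (flipX G t x) := by
          rw [← hD]; rfl
        rw [ContinuousMap.mul_apply, ContinuousMap.star_apply, e, hf, hf, loc_flipX, loc_flipX]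
        split_ifs <;> simp_all
    rw [one_mul, zero_mul, sub_zero, map_mul, map_star] at h3
    refine abs_le_of_sq_le_sq' ?_ hε.le |>.2
    rw [(hT.tr τ hτ).nrm_sq]
    have h7 := mul_le_of_le_one_left (show 0 ≤ 3 * δ by positivity)
      (IsStarProjection.one Q).norm_le
    linarith [Complex.re_le_norm (τ (star (P D) * P D))]
  · refine gamma_avg P (hT.tr τ hτ) (fl y (Set.mem_insert_of_mem _ hy) τ hτ) _ _ hε.le fun x => ?_
    refine le_trans (le_of_eq ?_) ((t1 _ (card_loc F x) i).trans h1)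
    rw [← Real.norm_eq_abs, ← Complex.norm_real]
    refine congrArg norm ?_
    simp only [hf, loc_flipX, Finset.sum_boole]
    push_cast
    rw [one_div]

theorem TSat.exists_gamma (hT : TSat α T) [Countable G] (hF : Folner G) (S : Set Q)
    (hS : S.Countable) (Ω : Type) [Fintype Ω] [Nonempty Ω] :
    ∃ p : Ω → Q, Part p ∧ (∀ g i, α g (p i) = p i) ∧ (∀ i, ∀ s ∈ S, Commute (p i) s) ∧
      ∀ i, ∀ y ∈ S, ∀ τ ∈ T, τ (y * p i) = τ y / Fintype.card Ω := by
  classical
  have := hS.to_subtype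
  obtain ⟨p, -, h1, h2⟩ := hT.sat2 (V := Ω) (ι := G × Ω ⊕ Ω ⊕ Ω × Ω ⊕ Unit ⊕ Ω × S) (κ := Ω × S)
    (Sum.elim (fun a x => α a.1 (x a.2) - x a.2) <| Sum.elim (fun i x => star (x i) - x i) <|
      Sum.elim (fun a x => x a.1 * x a.2 - (if a.1 = a.2 then (1 : ℂ) else 0) • x a.1) <|
      Sum.elim (fun _ x => ∑ i, x i - 1) fun a x => x a.1 * a.2 - a.2 * x a.1)
    (fun a x => a.2 * x a.1 - (Fintype.card Ω : ℂ)⁻¹ • (a.2 : Q))
    (by
      rintro (a | i | a | _ | a)
      · exact ((Dfn.var a.2).act a.1).sub (.var _)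
      · exact (Dfn.var i).star.sub (.var _)
      · exact ((Dfn.var a.1).mul (.var _)).sub ((Dfn.var _).smul _)
      · exact (Dfn.sum _ fun i _ => .var i).sub (.const _)
      · exact ((Dfn.var a.1).mul (.const _)).sub ((Dfn.const _).mul (.var _)))
    (fun a => ((Dfn.const _).mul (.var a.1)).sub (.const _))
    fun s t ε hε => by
      have c0 : 0 ≤ ∑ a ∈ t, ‖(a.2 : Q)‖ := Finset.sum_nonneg fun _ _ => norm_nonneg _
      obtain ⟨p, p1, p2, p3, p4⟩ := gamma_approx hT hF S hS Ω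
        (s.image (Sum.elim Prod.fst fun _ => 1))
        (show 0 < ε / (∑ a ∈ t, ‖(a.2 : Q)‖ + 1) by positivity)
      have z : ∀ x : Q, x = 0 → ∀ τ ∈ T, nrm τ x ≤ ε := fun x hx τ hτ =>
        ((hT.tr τ hτ).nrm_le_norm x).trans (by rw [hx, norm_zero]; exact hε.le)
      refine ⟨p, p1.norm_le, ?_, fun a ha τ hτ => ?_⟩
      · rintro (a | i | a | _ | a) ha
        · exact fun τ hτ => (p3 a.1 (Finset.mem_image_of_mem _ ha) a.2 τ hτ).trans
            (div_le_self hε.le (by linarith))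
        · exact z _ (sub_eq_zero.2 (p1.sa i))
        · refine z _ (sub_eq_zero.2 ?_)
          split_ifs with h
          · rw [← h, one_smul, p1.sq]
          · rw [zero_smul, p1.orth _ _ h]
        · exact z _ (sub_eq_zero.2 p1.sum)
        · exact z _ (sub_eq_zero.2 (p2 a.1 _ a.2.2))
      · have h3 := Finset.single_le_sum (f := fun a : Ω × S => ‖(a.2 : Q)‖)
          (fun _ _ => norm_nonneg _) ha
        rw [map_sub, map_smul, smul_eq_mul]
        refine (p4 a.1 _ a.2.2 τ hτ).trans ?_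
        rw [mul_div_assoc', div_le_iff₀ (by positivity), mul_comm]
        exact mul_le_mul_of_nonneg_left (by linarith) hε.le
  have h3 : ∀ i j, p i * p j = (if i = j then (1 : ℂ) else 0) • p i := fun i j =>
    sub_eq_zero.1 (h1 (.inr (.inr (.inl (i, j)))))
  refine ⟨p, ⟨fun i => sub_eq_zero.1 (h1 (.inr (.inl i))), fun i => ?_, fun i j hij => ?_,
    sub_eq_zero.1 (h1 (.inr (.inr (.inr (.inl ())))))⟩, fun g i => sub_eq_zero.1 (h1 (.inl (g, i))),
    fun i s hs => sub_eq_zero.1 (h1 (.inr (.inr (.inr (.inr (i, ⟨s, hs⟩)))))),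
    fun i y hy τ hτ => ?_⟩
  · rw [h3, if_pos rfl, one_smul]
  · rw [h3, if_neg hij, zero_smul]
  · have h4 := h2 (i, ⟨y, hy⟩) τ hτ
    rw [map_sub, map_smul, smul_eq_mul, sub_eq_zero] at h4
    rw [div_eq_inv_mul]
    exact h4

end Vale.Agent.P095
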