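import Vale.Agent.P095.Basic

/-! P095: the ping-pong inequality. See skel/P095/BLUEPRINT.md. -/

namespace Vale.Agent.P095

open Filter Topology Vale.Agent.P101 Vale.Agent.P101.F
open scoped ComplexOrder Kronecker

universe u v w

section Aux

open Finset
open scoped Matrix

/-- a positive kernel restricted to the fibres of `f` and summed over `J` -/
noncomputable def pingBKer {ι J K Γ : Type} [Fintype J] [DecidableEq Γ] (B : Matrix K K ℂ) (f : J → ι → Γ)
    (κ : J → ι → K) (c : J → ι → ℝ) : Matrix ι ι ℂ :=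
  Matrix.of fun a b => ∑ i, ∑ j,
    if f i a = f j b then (c i a : ℂ) * c j b * B (κ i a) (κ j b) else 0

theorem pingB_ker {ι J K Γ : Type} [Fintype ι] [Fintype J] [DecidableEq Γ] {B : Matrix K K ℂ}
    (hB : B.PosSemidef) (f : J → ι → Γ) (κ : J → ι → K) (c : J → ι → ℝ) :
    (pingBKer B f κ c).PosSemidef := by
  classical
  have h1 := (hB.submatrix fun t : J × ι => κ t.1 t.2).hadamard
    ((Matrix.PosSemidef.one (n := Γ) (R := ℂ)).submatrix fun t : J × ι => f t.1 t.2)
  have h2 := h1.conjTranspose_mul_mul_same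
    (Matrix.of fun (t : J × ι) (b : ι) => if t.2 = b then (c t.1 b : ℂ) else 0)
  refine (congrArg Matrix.PosSemidef ?_).mp h2
  ext a b
  simp only [pingBKer, Matrix.mul_apply, Matrix.conjTranspose_apply, Matrix.of_apply,
    Fintype.sum_prod_type, Matrix.hadamard_apply, Matrix.submatrix_apply, Matrix.one_apply,
    apply_ite star, star_zero, ite_mul, zero_mul, mul_ite, mul_zero, sum_ite_eq', mem_univ,
    if_true, Complex.star_def, Complex.conj_ofReal, sum_mul, mul_one]
  rw [sum_comm]
  refine sum_congr rfl fun i _ => sum_congr rfl fun j _ => ?_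
  rw [sum_eq_single a (fun x _ hx => by simp [hx]) (by simp)]
  simp only [if_true]
  split_ifs
  · ring
  · rfl

theorem pingB_allones (R : ℕ) :
    (Matrix.of fun r s : Fin R => (if r = s then (R : ℂ) else 0) - 1).PosSemidef := by
  refine Matrix.PosSemidef.of_dotProduct_mulVec_nonneg ?_ fun x => ?_
  · ext r s
    simp only [Matrix.conjTranspose_apply, Matrix.of_apply, star_sub, star_one, apply_ite star,
      star_zero, star_natCast, eq_comm]
  · have e : star x ⬝ᵥ (Matrix.of fun r s : Fin R => (if r = s then (R : ℂ) else 0) - 1) *ᵥ x =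
        ((R * ∑ r, ‖x r‖ ^ 2 - ‖∑ r, x r‖ ^ 2 : ℝ) : ℂ) := by
      simp only [dotProduct, Matrix.mulVec, Matrix.of_apply, sub_mul, ite_mul, zero_mul, one_mul,
        sum_sub_distrib, sum_ite_eq, mem_univ, if_true, mul_sub, Pi.star_apply, ← sum_mul]
      push_cast
      rw [← Complex.conj_mul', map_sum, mul_sum univ _ (R : ℂ)]
      refine congrArg₂ (· - ·) (sum_congr rfl fun r _ => ?_) rfl
      rw [← Complex.conj_mul', Complex.star_def]; ring
    rw [e, Complex.zero_le_real, sub_nonneg]
    have h1 := pow_le_pow_left₀ (norm_nonneg _) (norm_sum_le univ x) 2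
    have h2 := sq_sum_le_card_mul_sum_sq (s := univ) (f := fun r => ‖x r‖)
    rw [card_univ, Fintype.card_fin] at h2
    exact h1.trans h2

theorem pingB_block {K T : Type} [Fintype K] [Fintype T] [DecidableEq T] (N : T → Matrix K K ℂ)
    (hN : ∀ t, (N t).PosSemidef) :
    (Matrix.of fun a b : K × T => if a.2 = b.2 then N a.2 a.1 b.1 else 0).PosSemidef := by
  have h := Matrix.posSemidef_sum (s := univ) fun t (_ : t ∈ univ) =>
    pingB_ker (ι := K × T) (J := Unit) (hN t) (fun _ _ => ()) (fun _ a => a.1)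
      (fun _ a => if a.2 = t then 1 else 0)
  refine (congrArg Matrix.PosSemidef ?_).mp h
  ext a b
  simp only [pingBKer, Matrix.sum_apply, Matrix.of_apply, univ_unique, sum_singleton, if_true]
  rw [sum_eq_single a.2]
  · by_cases hab : a.2 = b.2
    · simp [hab]
    · simp [hab, Ne.symm hab]
  · intro t _ ht
    simp [Ne.symm ht]
  · simp

end Aux

theorem ping_psd {Γ Y : Type} [Group Γ] [Fintype Y] [DecidableEq Y] {k m R : ℕ}
    {g : Fin m × Fin R → Γ} {Up Um : Fin m × Fin R → Set Γ} (hg : Ping g Up Um)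
    {Φ : Fin m → Fin m → Matrix (Fin k) (Fin k) ℂ} {Q : Matrix (Fin k) (Fin k) ℂ}
    (hQ0 : Q.PosSemidef) (hΦ : (blockM Φ).PosSemidef)
    (hQ : (blockM fun i j => (if i = j then Q else 0) - Φ i j).PosSemidef) {e : Y → Γ}
    (he : Function.Injective e) :
    (pingM g Φ e + (((R + 1 : ℕ) : ℂ) • Q - (2⁻¹ : ℂ) • ∑ i, Φ i i) ⊗ₖ
      (1 : Matrix (Fin R × Y) (Fin R × Y) ℂ)).PosSemidef := by
  classical
  let f : Fin m → Fin k × Fin R × Y → Γ := fun i a => g (i, a.2.1) * e a.2.2
  let χ : Fin m → Fin R × Y → ℝ := fun i t => if e t.2 ∈ Um (i, t.1) then 1 else 0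
  have h1 := pingB_ker hΦ f (fun i a => (i, a.1)) (fun i a => 1 + χ i a.2)
  have h2 := pingB_ker hQ f (fun i a => (i, a.1)) (fun i a => χ i a.2)
  have h3 := pingB_ker (hQ0.kronecker (pingB_allones R)) (fun i a => (i, f i a))
    (fun _ (a : Fin k × Fin R × Y) => (a.1, a.2.1)) (fun i a => χ i a.2)
  have hhalf : (0 : ℂ) ≤ 2⁻¹ := by positivity
  have h4 := pingB_block (K := Fin k) (T := Fin R × Y)
    (fun t => ((R + 1 : ℕ) : ℂ) • Q - ∑ i, (χ i t : ℂ) • ((R : ℂ) • Q + (2⁻¹ : ℂ) • Φ i i))
    (fun t => by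
      by_cases ht : ∃ i, e t.2 ∈ Um (i, t.1)
      · obtain ⟨i, hi⟩ := ht
        rw [Finset.sum_eq_single i]
        · have a1 := hQ.submatrix fun p : Fin k => (i, p)
          have a2 := (hQ0.smul hhalf).add (a1.smul hhalf)
          refine (congrArg Matrix.PosSemidef ?_).mp a2
          ext p q
          simp [χ, hi, blockM]
          ring
        · intro j _ hj
          have : e t.2 ∉ Um (j, t.1) := fun h =>
            Set.disjoint_left.1 (hg.disjm (j, t.1) (i, t.1) fun h' => hj (congrArg Prod.fst h')) h hi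
          simp [χ, this]
        · simp
      · rw [Finset.sum_eq_zero fun i _ => by simp [χ, not_exists.1 ht i], sub_zero]
        exact hQ0.smul (Nat.cast_nonneg _))
  refine (congrArg Matrix.PosSemidef ?_).mp ((((h1.smul hhalf).add h2).add h3).add h4)
  ext a b
  have key : ∀ i j, (if f i a = f j b then ((1 - χ i a.2 : ℝ) : ℂ) * (1 - χ j b.2 : ℝ) *
      Φ i j a.1 b.1 else 0) =
      if i = j then (if a.2 = b.2 then ((1 - χ i a.2 : ℝ) : ℂ) * Φ i i a.1 b.1 else 0) else 0 := by
    intro i j
    by_cases hi : e a.2.2 ∈ Um (i, a.2.1)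
    · simp [χ, hi]
    by_cases hf : f i a = f j b
    · by_cases hj : e b.2.2 ∈ Um (j, b.2.1)
      · have : ¬ (i = j ∧ a.2 = b.2) := fun h => hi (by rw [h.1, h.2]; exact hj)
        rw [← ite_and, if_neg this]
        simp [χ, hj]
      · have a1 : (i, a.2.1) = (j, b.2.1) := by
          by_contra hne
          have b1 := hg.maps _ _ hi
          have b2 := hg.maps _ _ hj
          exact Set.disjoint_left.1 (hg.disjp _ _ hne) b1 (by
            change f i a ∈ _
            rw [hf]; exact b2)
        have a2 : i = j := congrArg Prod.fst a1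
        have a3 : a.2 = b.2 := by
          refine Prod.ext (congrArg Prod.snd a1) (he ?_)
          have : g (i, a.2.1) * e a.2.2 = g (j, b.2.1) * e b.2.2 := hf
          rw [a1] at this
          exact mul_left_cancel this
        subst a2
        simp [χ, hj, hf, a3]
    · have : ¬ (i = j ∧ a.2 = b.2) := fun h => hf (by simp only [f, h.1, h.2])
      rw [← ite_and, if_neg this, if_neg hf]
  have key2 : ∀ i, (if f i a = f i b then (χ i a.2 : ℂ) * χ i b.2 *
      (Q a.1 b.1 * if a.2.1 = b.2.1 then (R : ℂ) else 0) else 0) =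
      if a.2 = b.2 then (χ i a.2 : ℂ) * (R * Q a.1 b.1) else 0 := by
    intro i
    by_cases hab : a.2 = b.2
    · have : f i a = f i b := by simp only [f, hab]
      by_cases hi : e b.2.2 ∈ Um (i, b.2.1) <;> simp [this, hab, χ, hi, mul_comm]
    · rw [if_neg hab]
      by_cases hf : f i a = f i b
      · have : a.2.1 ≠ b.2.1 := fun h => hab (Prod.ext h (he (by
          have : g (i, a.2.1) * e a.2.2 = g (i, b.2.1) * e b.2.2 := hf
          rw [h] at this
          exact mul_left_cancel this)))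
        simp [this]
      · rw [if_neg hf]
  have key3 : ∀ i j, (2⁻¹ : ℂ) * (if f i a = f j b then ((1 + χ i a.2 : ℝ) : ℂ) *
      (1 + χ j b.2 : ℝ) * Φ i j a.1 b.1 else 0) +
      (if f i a = f j b then (χ i a.2 : ℂ) * χ j b.2 *
        ((if i = j then Q else 0) - Φ i j) a.1 b.1 else 0) +
      (if (i, f i a) = (j, f j b) then (χ i a.2 : ℂ) * χ j b.2 *
        (Q a.1 b.1 * ((if a.2.1 = b.2.1 then (R : ℂ) else 0) - 1)) else 0) =
      (if f i a = f j b then Φ i j a.1 b.1 else 0) +
      if i = j then (if a.2 = b.2 then (χ i a.2 : ℂ) * (R * Q a.1 b.1) -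
        2⁻¹ * (((1 - χ i a.2 : ℝ) : ℂ) * Φ i i a.1 b.1) else 0) else 0 := by
    intro i j
    have k1 := key i j
    by_cases hij : i = j
    · subst hij
      have k2 := key2 i
      simp only [if_true, Prod.mk.injEq, true_and, Matrix.sub_apply] at k1 k2 ⊢
      by_cases hf : f i a = f i b <;> by_cases hab : a.2 = b.2 <;>
        simp only [if_pos, if_neg, hf, hab, not_false_eq_true] at k1 k2 ⊢ <;>
        push_cast at k1 k2 ⊢ <;> linear_combination k2 - 2⁻¹ * k1
    · simp only [hij, if_false, Prod.mk.injEq, false_and, Matrix.sub_apply, Matrix.zero_apply]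
        at k1 ⊢
      by_cases hf : f i a = f j b
      · simp only [if_pos hf] at k1 ⊢
        push_cast at k1 ⊢
        linear_combination - 2⁻¹ * k1
      · simp [if_neg hf]
  have key4 := Finset.sum_congr rfl fun i (_ : i ∈ Finset.univ) =>
    Finset.sum_congr rfl fun j (_ : j ∈ Finset.univ) => key3 i j
  simp only [Finset.sum_add_distrib, ← Finset.mul_sum, Finset.sum_ite_eq, Finset.mem_univ,
    if_true] at key4
  simp only [Matrix.add_apply, Matrix.smul_apply, pingBKer, pingM, Matrix.of_apply, blockM,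
    Matrix.kroneckerMap_apply, smul_eq_mul, Matrix.one_apply, Matrix.sub_apply, Matrix.sum_apply]
  simp only [Matrix.sub_apply] at key4
  rw [key4, add_assoc]
  congr 1
  by_cases hab : a.2 = b.2
  · simp only [hab, if_true, mul_one, Finset.mul_sum]
    rw [← sub_eq_zero]
    have : ∀ i, (χ i b.2 : ℂ) * (R * Q a.1 b.1) - 2⁻¹ * (((1 - χ i b.2 : ℝ) : ℂ) * Φ i i a.1 b.1) =
        (χ i b.2 : ℂ) * (R * Q a.1 b.1 + 2⁻¹ * Φ i i a.1 b.1) - 2⁻¹ * Φ i i a.1 b.1 := fun i => by
      push_cast; ring
    simp only [this, Finset.sum_sub_distrib]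
    ring
  · simp [hab]

end Vale.Agent.P095
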