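import Vale.Agent.P095.Basic

/-! P095: transfer of positivity to moments in finite quotients. See skel/P095/BLUEPRINT.md. -/

namespace Vale.Agent.P095

open Filter Topology Vale.Agent.P101 Vale.Agent.P101.F
open scoped ComplexOrder Kronecker Matrix

universe u v w

section Aux

open Finset

theorem pingC_gersh {I : Type} [Fintype I] [DecidableEq I] {X : Matrix I I ℂ} (hX : X.IsHermitian)
    {c : ℝ} (hc : ∀ a, ∑ b, ‖X a b‖ ≤ c) : ((c : ℂ) • (1 : Matrix I I ℂ) - X).PosSemidef := by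
  have hH : ((c : ℂ) • (1 : Matrix I I ℂ) - X).IsHermitian := by
    refine Matrix.IsHermitian.sub ?_ hX
    ext a b
    by_cases h : a = b <;> simp [h, eq_comm]
  refine Matrix.PosSemidef.of_dotProduct_mulVec_nonneg hH fun x => ?_
  refine Complex.nonneg_iff.2 ⟨?_, (hH.im_star_dotProduct_mulVec_self x).symm⟩
  have e1 : (star x ⬝ᵥ x).re = ∑ a, ‖x a‖ ^ 2 := by
    simp only [dotProduct, Pi.star_apply, Complex.re_sum, Complex.star_def, Complex.conj_mul',
      ← Complex.ofReal_pow, Complex.ofReal_re]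
  have e2 : (star x ⬝ᵥ X *ᵥ x).re ≤ ∑ a, ∑ b, ‖X a b‖ * (‖x a‖ * ‖x b‖) := by
    refine (Complex.re_le_norm _).trans ((norm_sum_le _ _).trans (sum_le_sum fun a _ => ?_))
    simp only [Matrix.mulVec, dotProduct, mul_sum]
    refine (norm_sum_le _ _).trans (sum_le_sum fun b _ => le_of_eq ?_)
    simp only [norm_mul, Pi.star_apply, norm_star]
    ring
  have e3 : ∑ a, ∑ b, ‖X a b‖ * ‖x a‖ ^ 2 ≤ c * ∑ a, ‖x a‖ ^ 2 := by
    rw [mul_sum]
    exact sum_le_sum fun a _ => by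
      rw [← sum_mul]; exact mul_le_mul_of_nonneg_right (hc a) (sq_nonneg _)
  have e4 : ∑ a, ∑ b, ‖X a b‖ * ‖x b‖ ^ 2 = ∑ a, ∑ b, ‖X a b‖ * ‖x a‖ ^ 2 := by
    rw [sum_comm]
    refine sum_congr rfl fun a _ => sum_congr rfl fun b _ => ?_
    rw [← hX.apply a b, norm_star]
  have e5 : 2 * ∑ a, ∑ b, ‖X a b‖ * (‖x a‖ * ‖x b‖) ≤
      ∑ a, ∑ b, ‖X a b‖ * ‖x a‖ ^ 2 + ∑ a, ∑ b, ‖X a b‖ * ‖x b‖ ^ 2 := by
    simp only [mul_sum, ← sum_add_distrib]
    refine sum_le_sum fun a _ => sum_le_sum fun b _ => ?_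
    nlinarith [mul_nonneg (norm_nonneg (X a b)) (sq_nonneg (‖x a‖ - ‖x b‖))]
  rw [Matrix.sub_mulVec, dotProduct_sub, Matrix.smul_mulVec, Matrix.one_mulVec, dotProduct_smul,
    Complex.sub_re, smul_eq_mul, Complex.re_ofReal_mul, e1]
  linarith

theorem pingC_diag {I : Type} [Fintype I] [DecidableEq I] {X : Matrix I I ℂ} (hX : X.PosSemidef)
    {C : ℝ} (hC : 0 < C) (hc : (((2 * C : ℝ) : ℂ) • (1 : Matrix I I ℂ) - X).PosSemidef) (n : ℕ)
    (a : I) : (((1 - ((C⁻¹ : ℝ) : ℂ) • X) ^ (2 * n)) a a).re ≤ 1 := by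
  have hT : (1 - ((C⁻¹ : ℝ) : ℂ) • X)ᴴ = 1 - ((C⁻¹ : ℝ) : ℂ) • X := by
    rw [Matrix.conjTranspose_sub, Matrix.conjTranspose_one, Matrix.conjTranspose_smul, hX.1.eq,
      Complex.star_def, Complex.conj_ofReal]
  have h1 : (1 - (1 - ((C⁻¹ : ℝ) : ℂ) • X) * (1 - ((C⁻¹ : ℝ) : ℂ) • X)).PosSemidef := by
    have a1 := (hc.conjTranspose_mul_mul_same X).add
      (hX.conjTranspose_mul_mul_same (((2 * C : ℝ) : ℂ) • (1 : Matrix I I ℂ) - X))
    rw [hX.1.eq, hc.1.eq] at a1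
    have a2 := a1.smul (a := (((2 * C ^ 3)⁻¹ : ℝ) : ℂ)) (Complex.zero_le_real.2 (by positivity))
    refine (congrArg Matrix.PosSemidef ?_).mp a2
    have hC' : (C : ℂ) ≠ 0 := by exact_mod_cast hC.ne'
    simp only [Matrix.mul_sub, Matrix.sub_mul, Matrix.mul_smul, Matrix.smul_mul, Matrix.mul_one,
      Matrix.one_mul, Matrix.mul_assoc]
    push_cast
    match_scalars <;> field_simp <;> ring
  obtain ⟨T, hTe⟩ : ∃ T, T = 1 - ((C⁻¹ : ℝ) : ℂ) • X := ⟨_, rfl⟩
  rw [← hTe] at hT h1 ⊢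
  have h2 : (1 - T ^ (2 * n)).PosSemidef := by
    induction n with
    | zero => simpa using Matrix.PosSemidef.zero
    | succ n ih =>
      have a1 := h1.add (ih.conjTranspose_mul_mul_same T)
      rw [hT] at a1
      refine (congrArg Matrix.PosSemidef ?_).mp a1
      rw [show 2 * (n + 1) = 1 + 2 * n + 1 by ring, pow_add, pow_add, pow_one]
      noncomm_ring
  have h3 := (Complex.nonneg_iff.1 (h2.diag_nonneg (i := a))).1
  rw [Matrix.sub_apply, Matrix.one_apply_eq, Complex.sub_re, Complex.one_re] at h3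
  linarith

/-- powers of two matrices that look alike near a point -/
theorem pingC_local {I I' : Type} [Fintype I] [DecidableEq I] [Fintype I'] [DecidableEq I']
    (T : Matrix I I ℂ) (T' : Matrix I' I' ℂ) (φ : I → I') (hφ : Function.Injective φ)
    (B : ℕ → I → Prop) (N : ℕ) (h1 : ∀ a b, T' (φ a) (φ b) = T a b)
    (h2 : ∀ j < N, ∀ b, B j b → ∀ w, T' w (φ b) ≠ 0 → ∃ a, φ a = w ∧ B (j + 1) a) {u : I}
    (hu : B 0 u) : ∀ j ≤ N, (∀ a, (T' ^ j) (φ a) (φ u) = (T ^ j) a u) ∧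
      ∀ w, (T' ^ j) w (φ u) ≠ 0 → ∃ a, φ a = w ∧ B j a := by
  intro j
  induction j with
  | zero =>
    refine fun _ => ⟨fun a => ?_, fun w hw => ⟨u, ?_, hu⟩⟩
    · simp only [pow_zero, Matrix.one_apply, hφ.eq_iff]
    · by_contra hne
      exact hw (by rw [pow_zero, Matrix.one_apply_ne (Ne.symm hne)])
  | succ j ih =>
    intro hj
    obtain ⟨ih1, ih2⟩ := ih (by omega)
    refine ⟨fun a => ?_, fun w hw => ?_⟩
    · rw [pow_succ', pow_succ', Matrix.mul_apply, Matrix.mul_apply]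
      refine (Fintype.sum_of_injective φ hφ _ _ (fun w hw => ?_) fun b => ?_).symm
      · by_contra hne
        obtain ⟨b, hb, -⟩ := ih2 w (right_ne_zero_of_mul hne)
        exact hw ⟨b, hb⟩
      · rw [h1, ih1]
    · rw [pow_succ', Matrix.mul_apply] at hw
      obtain ⟨w', -, hw'⟩ := exists_ne_zero_of_sum_ne_zero hw
      obtain ⟨b, rfl, hb⟩ := ih2 w' (right_ne_zero_of_mul hw')
      exact h2 j (by omega) b hb w (left_ne_zero_of_mul hw')

variable {Γ Y : Type} [Group Γ] {k m R : ℕ}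

theorem pingC_herm [DecidableEq Y] (g : Fin m × Fin R → Γ)
    {Φ : Fin m → Fin m → Matrix (Fin k) (Fin k) ℂ} {A : Matrix (Fin k) (Fin k) ℂ}
    (hΦ : ∀ i j, (Φ i j)ᴴ = Φ j i) (hA : A.IsHermitian) (e : Y → Γ) :
    (pingM g Φ e + A ⊗ₖ (1 : Matrix (Fin R × Y) (Fin R × Y) ℂ)).IsHermitian := by
  refine Matrix.IsHermitian.add ?_ ?_
  · ext a b
    simp only [pingM, Matrix.conjTranspose_apply, Matrix.of_apply, star_sum, apply_ite star,
      star_zero]
    rw [sum_comm]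
    refine sum_congr rfl fun i _ => sum_congr rfl fun j _ => ?_
    rw [← hΦ j i, Matrix.conjTranspose_apply]
    classical
    exact if_congr eq_comm rfl rfl
  · rw [Matrix.IsHermitian, Matrix.conjTranspose_kronecker, hA.eq, Matrix.conjTranspose_one]

theorem pingC_row [Fintype Y] [DecidableEq Y] (g : Fin m × Fin R → Γ)
    (Φ : Fin m → Fin m → Matrix (Fin k) (Fin k) ℂ) (A : Matrix (Fin k) (Fin k) ℂ) {e : Y → Γ}
    (he : Function.Injective e) (a : Fin k × Fin R × Y) :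
    ∑ b, ‖(pingM g Φ e + A ⊗ₖ (1 : Matrix (Fin R × Y) (Fin R × Y) ℂ)) a b‖ ≤
      R * ∑ p, ∑ q, ∑ i, ∑ j, ‖Φ i j p q‖ + ∑ p, ∑ q, ‖A p q‖ := by
  classical
  refine (sum_le_sum fun b _ => norm_add_le _ _).trans ?_
  rw [sum_add_distrib]
  refine add_le_add ?_ ?_
  · have h1 : ∀ (q : Fin k) (r : Fin R), ∑ y, ‖pingM g Φ e a (q, r, y)‖ ≤
        ∑ i, ∑ j, ‖Φ i j a.1 q‖ := fun q r => by
      have a1 : ∀ y, ‖pingM g Φ e a (q, r, y)‖ ≤ ∑ i, ∑ j,
          if g (i, a.2.1) * e a.2.2 = g (j, r) * e y then ‖Φ i j a.1 q‖ else 0 := fun y => by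
        rw [pingM, Matrix.of_apply]
        refine (norm_sum_le _ _).trans (sum_le_sum fun i _ => (norm_sum_le _ _).trans
          (sum_le_sum fun j _ => le_of_eq ?_))
        split_ifs <;> simp
      refine (sum_le_sum fun y _ => a1 y).trans ?_
      rw [sum_comm]
      refine sum_le_sum fun i _ => ?_
      rw [sum_comm]
      refine sum_le_sum fun j _ => ?_
      rw [← sum_filter, sum_const, nsmul_eq_mul]
      refine mul_le_of_le_one_left (norm_nonneg _) (Nat.cast_le_one.2 (card_le_one.2 ?_))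
      intro y hy y' hy'
      exact he (mul_left_cancel ((mem_filter.1 hy).2.symm.trans (mem_filter.1 hy').2))
    rw [Fintype.sum_prod_type]
    calc ∑ q, ∑ t : Fin R × Y, ‖pingM g Φ e a (q, t)‖
        ≤ ∑ q, ∑ _r : Fin R, ∑ i, ∑ j, ‖Φ i j a.1 q‖ := sum_le_sum fun q _ => by
          rw [Fintype.sum_prod_type]; exact sum_le_sum fun r _ => h1 q r
      _ = R * ∑ q, ∑ i, ∑ j, ‖Φ i j a.1 q‖ := by
          simp only [sum_const, card_univ, Fintype.card_fin, nsmul_eq_mul, ← mul_sum]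
      _ ≤ _ := mul_le_mul_of_nonneg_left (single_le_sum
          (f := fun p => ∑ q, ∑ i, ∑ j, ‖Φ i j p q‖) (fun _ _ => by positivity) (mem_univ _))
          (Nat.cast_nonneg _)
  · rw [Fintype.sum_prod_type]
    refine le_trans (sum_le_sum fun q _ => le_of_eq ?_) (single_le_sum
      (f := fun p => ∑ q, ‖A p q‖) (fun _ _ => by positivity) (mem_univ a.1))
    rw [sum_eq_single a.2 (fun t _ ht => by simp [Matrix.one_apply_ne (Ne.symm ht)]) (by simp)]
    simp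

end Aux

open Classical in
theorem ping_moment {Γ : Type} [Group Γ] (hΓ : ResFin Γ) {k m R : ℕ} (g : Fin m × Fin R → Γ)
    (Φ : Fin m → Fin m → Matrix (Fin k) (Fin k) ℂ) (A : Matrix (Fin k) (Fin k) ℂ)
    (hΦ : ∀ i j, (Φ i j)ᴴ = Φ j i) (hA : A.IsHermitian)
    (h : ∀ (Y : Type) [Fintype Y] (e : Y → Γ), Function.Injective e →
      (pingM g Φ e + A ⊗ₖ (1 : Matrix (Fin R × Y) (Fin R × Y) ℂ)).PosSemidef) :
    ∃ C : ℝ, 0 < C ∧ ∀ n : ℕ, ∃ (Δ : Type) (_ : Group Δ) (_ : Fintype Δ) (π : Γ →* Δ),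
      (pingM (fun j => π (g j)) Φ (id : Δ → Δ) +
        A ⊗ₖ (1 : Matrix (Fin R × Δ) (Fin R × Δ) ℂ)).IsHermitian ∧
      (Matrix.trace ((1 - ((C⁻¹ : ℝ) : ℂ) • (pingM (fun j => π (g j)) Φ (id : Δ → Δ) +
        A ⊗ₖ (1 : Matrix (Fin R × Δ) (Fin R × Δ) ℂ))) ^ (2 * n))).re ≤
        (k : ℝ) * R * Fintype.card Δ := by
  have hh : ∀ (Y : Type) [Fintype Y] [DecidableEq Y] (e : Y → Γ), Function.Injective e →
      (pingM g Φ e + A ⊗ₖ (1 : Matrix (Fin R × Y) (Fin R × Y) ℂ)).PosSemidef := by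
    intro Y _ inst e he
    obtain rfl : inst = fun a b => Classical.propDecidable (a = b) := Subsingleton.elim _ _
    exact h Y e he
  obtain ⟨c, hc⟩ : ∃ c : ℝ, c = R * ∑ p, ∑ q, ∑ i, ∑ j, ‖Φ i j p q‖ + ∑ p, ∑ q, ‖A p q‖ :=
    ⟨_, rfl⟩
  have hc0 : 0 ≤ c := by rw [hc]; positivity
  refine ⟨c + 1, by linarith, fun n => ?_⟩
  let S : Finset Γ := insert 1 (Finset.univ.image fun t : (Fin m × Fin R) × (Fin m × Fin R) =>
    (g t.1)⁻¹ * g t.2)
  obtain ⟨B, hB0, hB⟩ : ∃ B : ℕ → Finset Γ, 1 ∈ B 0 ∧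
      ∀ j, ∀ s ∈ S, ∀ y ∈ B j, s * y ∈ B (j + 1) :=
    ⟨fun j => Nat.rec {1} (fun _ s => Finset.image₂ (· * ·) S s) j, Finset.mem_singleton_self 1,
      fun j s hs y hy => Finset.mem_image₂_of_mem hs hy⟩
  have hmono : Monotone B := monotone_nat_of_le_succ fun j y hy => by
    simpa using hB j 1 (Finset.mem_insert_self _ _) y hy
  obtain ⟨Δ, _, _, π, hπ⟩ := hΓ (B (2 * n) ∪ Finset.image₂ (fun a y => g a * y) Finset.univ
    (B (2 * n)))
  refine ⟨Δ, inferInstance, inferInstance, π, pingC_herm _ hΦ hA _, ?_⟩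
  have hY := hh ↥(B (2 * n)) (fun x => x.1) Subtype.val_injective
  have hG := pingC_gersh hY.1 (c := 2 * (c + 1)) fun a =>
    (pingC_row g Φ A Subtype.val_injective a).trans (by linarith)
  have hD := pingC_diag hY (by linarith) hG n
  have hπ1 : ∀ y y' : B (2 * n), π y = π y' → y = y' := fun y y' hy =>
    Subtype.ext (hπ (Finset.mem_coe.2 (Finset.mem_union_left _ y.2))
      (Finset.mem_coe.2 (Finset.mem_union_left _ y'.2)) hy)
  have hπ2 : ∀ a a' (y y' : B (2 * n)) (δ : Δ), π (g a) * (π y * δ) = π (g a') * (π y' * δ) ↔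
      g a * y = g a' * y' := fun a a' y y' δ => by
    rw [← mul_assoc, ← mul_assoc, mul_left_inj, ← map_mul, ← map_mul]
    exact ⟨fun hy => hπ (Finset.mem_coe.2 (Finset.mem_union_right _
      (Finset.mem_image₂_of_mem (Finset.mem_univ a) y.2))) (Finset.mem_coe.2
      (Finset.mem_union_right _ (Finset.mem_image₂_of_mem (Finset.mem_univ a') y'.2))) hy,
      fun hy => by rw [hy]⟩
  have h1B : (1 : Γ) ∈ B (2 * n) := hmono (Nat.zero_le _) hB0
  have key : ∀ w : Fin k × Fin R × Δ, (((1 - (((c + 1)⁻¹ : ℝ) : ℂ) •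
      (pingM (fun j => π (g j)) Φ (id : Δ → Δ) +
        A ⊗ₖ (1 : Matrix (Fin R × Δ) (Fin R × Δ) ℂ))) ^ (2 * n)) w w).re ≤ 1 := by
    rintro ⟨p, r, δ⟩
    let φ : Fin k × Fin R × B (2 * n) → Fin k × Fin R × Δ := fun a => (a.1, a.2.1, π a.2.2 * δ)
    have hφ2 : ∀ a b, (φ a).2 = (φ b).2 ↔ a.2 = b.2 := fun a b =>
      ⟨fun hab => Prod.ext (Prod.mk.inj hab).1
        (hπ1 _ _ (mul_right_cancel (Prod.mk.inj hab).2)), fun hab => by simp only [φ, hab]⟩
    have hφ : Function.Injective φ := fun a b hab =>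
      Prod.ext (Prod.mk.inj hab).1 ((hφ2 a b).1 (congrArg Prod.snd hab))
    have hl := (pingC_local (1 - (((c + 1)⁻¹ : ℝ) : ℂ) • (pingM g Φ (fun x : B (2 * n) => x.1) +
        A ⊗ₖ (1 : Matrix (Fin R × B (2 * n)) (Fin R × B (2 * n)) ℂ)))
      (1 - (((c + 1)⁻¹ : ℝ) : ℂ) • (pingM (fun j => π (g j)) Φ (id : Δ → Δ) +
        A ⊗ₖ (1 : Matrix (Fin R × Δ) (Fin R × Δ) ℂ))) φ hφ (fun j a => a.2.2.1 ∈ B j) (2 * n)
      (fun a b => by
        simp only [Matrix.sub_apply, Matrix.smul_apply, Matrix.add_apply, Matrix.one_apply,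
          Matrix.kroneckerMap_apply, hφ.eq_iff, hφ2, pingM, Matrix.of_apply]
        simp only [φ, id, hπ2])
      (fun j hj b hb w hw => by
        have a1 : ∃ s ∈ S, w.2.2 = π s * (π b.2.2 * δ) := by
          by_contra hne
          simp only [not_exists, not_and] at hne
          have a2 : w.2 ≠ (φ b).2 := fun hw2 => hne 1 (Finset.mem_insert_self _ _) (by
            rw [map_one, one_mul]; exact congrArg Prod.snd hw2)
          have a3 : w ≠ φ b := fun hw2 => a2 (congrArg Prod.snd hw2)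
          have a4 : pingM (fun j => π (g j)) Φ (id : Δ → Δ) w (φ b) = 0 := by
            rw [pingM, Matrix.of_apply]
            refine Finset.sum_eq_zero fun i _ => Finset.sum_eq_zero fun j' _ => if_neg fun hq => ?_
            refine hne ((g (i, w.2.1))⁻¹ * g (j', b.2.1)) (Finset.mem_insert_of_mem
              (Finset.mem_image.2 ⟨((i, w.2.1), (j', b.2.1)), Finset.mem_univ _, rfl⟩)) ?_
            rw [map_mul, map_inv, mul_assoc, eq_inv_mul_iff_mul_eq]
            exact hq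
          refine hw ?_
          rw [Matrix.sub_apply, Matrix.smul_apply, Matrix.add_apply, a4, Matrix.one_apply_ne a3,
            Matrix.kroneckerMap_apply, Matrix.one_apply_ne a2]
          simp
        obtain ⟨s, hs, hws⟩ := a1
        refine ⟨(w.1, w.2.1, ⟨s * b.2.2, hmono (by omega) (hB j s hs _ hb)⟩), ?_, hB j s hs _ hb⟩
        refine Prod.ext rfl (Prod.ext rfl ?_)
        rw [hws, ← mul_assoc, ← map_mul])
      (u := (p, r, ⟨1, h1B⟩)) hB0 (2 * n) le_rfl).1 (p, r, ⟨1, h1B⟩)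
    have e : φ (p, r, ⟨1, h1B⟩) = (p, r, δ) := by simp only [φ, map_one, one_mul]
    rw [e] at hl
    rw [hl]
    exact hD _
  rw [Matrix.trace, Complex.re_sum]
  refine (Finset.sum_le_sum fun w _ => key w).trans (le_of_eq ?_)
  simp [mul_assoc]

end Vale.Agent.P095
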