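import Vale.Agent.P095.PingA
import Vale.Agent.P095.PingB
import Vale.Agent.P095.PingC
import Vale.Agent.P095.Compress

/-! P095: finite matrices that behave like free ones. See skel/P095/BLUEPRINT.md. -/

namespace Vale.Agent.P095

open Filter Topology Vale.Agent.P101 Vale.Agent.P101.F
open scoped ComplexOrder Kronecker Matrix

universe u v w

namespace HFin

variable {Δ : Type} [Group Δ] [Fintype Δ] [DecidableEq Δ] {R : ℕ}

/-- the row of translation matrices -/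
def W0 (g : Fin R → Δ) : Matrix Δ (Fin R × Δ) ℂ :=
  Matrix.of fun z a => if z = g a.1 * a.2 then 1 else 0

theorem W0_gram (g g' : Fin R → Δ) (a b : Fin R × Δ) :
    ((W0 g)ᴴ * W0 g') a b = if g a.1 * a.2 = g' b.1 * b.2 then 1 else 0 := by
  simp only [Matrix.mul_apply, Matrix.conjTranspose_apply, W0, Matrix.of_apply]
  rw [Finset.sum_eq_single (g a.1 * a.2)]
  · simp
  · intro z _ hz
    rw [if_neg hz, star_zero, zero_mul]
  · intro h
    exact absurd (Finset.mem_univ _) h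

theorem W0_mul (g : Fin R → Δ) : W0 g * (W0 g)ᴴ = (R : ℂ) • (1 : Matrix Δ Δ ℂ) := by
  ext z z'
  simp only [Matrix.mul_apply, Matrix.conjTranspose_apply, W0, Matrix.of_apply,
    Fintype.sum_prod_type, Matrix.smul_apply, Matrix.one_apply]
  have h : ∀ r : Fin R, ∑ x : Δ, (if z = g r * x then (1 : ℂ) else 0) *
      star (if z' = g r * x then (1 : ℂ) else 0) = if z = z' then 1 else 0 := by
    intro r
    rw [Finset.sum_eq_single ((g r)⁻¹ * z)]
    · rw [mul_inv_cancel_left, if_pos rfl, one_mul]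
      by_cases hz : z = z'
      · rw [if_pos hz, if_pos hz.symm, star_one]
      · rw [if_neg hz, if_neg (Ne.symm hz), star_zero]
    · intro x _ hx
      rw [if_neg, zero_mul]
      intro h1
      exact hx (by rw [h1, inv_mul_cancel_left])
    · intro h1
      exact absurd (Finset.mem_univ _) h1
  simp only [h, Finset.sum_const, Finset.card_univ, Fintype.card_fin, nsmul_eq_mul, smul_eq_mul]

theorem psd_of_mul {X Y : Type} [Fintype X] [Fintype Y] [DecidableEq X] [DecidableEq Y]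
    (W : Matrix X Y ℂ) {n : ℕ} (hn : 0 < n) (h : W * Wᴴ = (n : ℂ) • (1 : Matrix X X ℂ)) :
    ((n : ℂ) • (1 : Matrix Y Y ℂ) - Wᴴ * W).PosSemidef := by
  have hn' : (n : ℂ) ≠ 0 := Nat.cast_ne_zero.2 hn.ne'
  have hP : (Wᴴ * W) * (Wᴴ * W) = (n : ℂ) • (Wᴴ * W) := by
    rw [Matrix.mul_assoc, ← Matrix.mul_assoc W, h, Matrix.smul_mul, Matrix.one_mul,
      Matrix.mul_smul]
  have e : (n : ℂ) • (1 : Matrix Y Y ℂ) - Wᴴ * W = (n : ℂ)⁻¹ •
      (((n : ℂ) • (1 : Matrix Y Y ℂ) - Wᴴ * W)ᴴ * ((n : ℂ) • (1 : Matrix Y Y ℂ) - Wᴴ * W)) := by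
    rw [Matrix.conjTranspose_sub, Matrix.conjTranspose_smul, Matrix.conjTranspose_one,
      Matrix.conjTranspose_mul, Matrix.conjTranspose_conjTranspose, star_natCast]
    simp only [sub_mul, mul_sub, smul_mul_assoc, mul_smul_comm, one_mul, mul_one, hP]
    match_scalars <;> field_simp
    ring
  rw [e]
  refine (Matrix.posSemidef_conjTranspose_mul_self _).smul ?_
  exact inv_nonneg.2 (Nat.cast_nonneg n)

theorem pingM_eq {k m : ℕ} (g : Fin m × Fin R → Δ)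
    (Φ : Fin m → Fin m → Matrix (Fin k) (Fin k) ℂ) :
    pingM g Φ (id : Δ → Δ) =
      ∑ i, ∑ j, Φ i j ⊗ₖ ((W0 fun r => g (i, r))ᴴ * W0 fun r => g (j, r)) := by
  ext a b
  simp only [pingM, Matrix.of_apply, Matrix.sum_apply, Matrix.kroneckerMap_apply, W0_gram, id]
  refine Finset.sum_congr rfl fun i _ => Finset.sum_congr rfl fun j _ => ?_
  split_ifs <;> simp

theorem conj_kron {k : ℕ} {Y Z : Type} [Fintype Y] (U : Matrix Y Z ℂ)
    (P : Matrix (Fin k) (Fin k) ℂ) (X : Matrix Y Y ℂ) :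
    ((1 : Matrix (Fin k) (Fin k) ℂ) ⊗ₖ U)ᴴ * (P ⊗ₖ X) * ((1 : Matrix (Fin k) (Fin k) ℂ) ⊗ₖ U) =
      P ⊗ₖ (Uᴴ * X * U) := by
  rw [Matrix.conjTranspose_kronecker, Matrix.conjTranspose_one, ← Matrix.mul_kronecker_mul,
    ← Matrix.mul_kronecker_mul, Matrix.one_mul, Matrix.mul_one]

theorem gram_sub {X X' Y Z : Type} [Fintype X] [Fintype X'] [Fintype Y] (e : X' ≃ X)
    (V V' : Matrix X Y ℂ) (U : Matrix Y Z ℂ) :
    ((V * U).submatrix e id)ᴴ * (V' * U).submatrix e id = Uᴴ * (Vᴴ * V') * U := by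
  rw [Matrix.conjTranspose_submatrix, Matrix.submatrix_mul_equiv, Matrix.submatrix_id_id,
    Matrix.conjTranspose_mul]
  simp only [Matrix.mul_assoc]

end HFin

theorem hfin {k m : ℕ} (R : ℕ) {Φ : Fin m → Fin m → Matrix (Fin k) (Fin k) ℂ}
    {Q : Matrix (Fin k) (Fin k) ℂ} (hQ0 : Q.PosSemidef) (hΦ : (blockM Φ).PosSemidef)
    (hQ : (blockM fun i j => (if i = j then Q else 0) - Φ i j).PosSemidef) {η : ℝ} (hη : 0 < η) :
    ∃ (D D' : ℕ) (W : Fin m → Matrix (Fin D) (Fin D') ℂ), 0 < D ∧ R * D ≤ D' ∧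
      (∀ i, (((R + 1 : ℕ) : ℂ) • (1 : Matrix (Fin D') (Fin D') ℂ) - (W i)ᴴ * W i).PosSemidef) ∧
      (∑ i, ∑ j, Φ i j ⊗ₖ ((W i)ᴴ * W j) +
        (((R + 2 : ℕ) : ℂ) • Q + (η : ℂ) • 1 - (2⁻¹ : ℂ) • ∑ i, Φ i i) ⊗ₖ
          (1 : Matrix (Fin D') (Fin D') ℂ)).PosSemidef := by
  classical
  obtain ⟨Γ, _, g, Up, Um, hg, hΓ⟩ := exists_ping (Fin m × Fin (R + 1))
  have hΦ' : ∀ i j, (Φ i j)ᴴ = Φ j i := fun i j => by
    ext p q
    exact congrFun (congrFun hΦ.isHermitian.eq (j, p)) (i, q)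
  set A : Matrix (Fin k) (Fin k) ℂ := ((R + 2 : ℕ) : ℂ) • Q - (2⁻¹ : ℂ) • ∑ i, Φ i i with hAdef
  have hA : A.IsHermitian := by
    rw [Matrix.IsHermitian, hAdef, Matrix.conjTranspose_sub, Matrix.conjTranspose_smul,
      Matrix.conjTranspose_smul, Matrix.conjTranspose_sum, hQ0.isHermitian.eq, star_natCast]
    simp only [hΦ', star_inv₀, star_ofNat]
  obtain ⟨C, hC, hn⟩ := ping_moment hΓ g Φ A hΦ' hA fun Y _ e he => ping_psd hg hQ0 hΦ hQ he
  have h1 : 1 < 1 + η / C := lt_add_of_pos_right _ (div_pos hη hC)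
  obtain ⟨n, hn1⟩ := pow_unbounded_of_one_lt ((k : ℝ) * k * (R + 1 : ℕ)) h1
  have hn2 : (k : ℝ) * k * (R + 1 : ℕ) ≤ (1 + η / C) ^ (2 * n) :=
    hn1.le.trans (pow_le_pow_right₀ h1.le (by omega))
  obtain ⟨Δ, _, _, π, hX, htr⟩ := hn n
  obtain ⟨D', U, hU, hcard, hpsd⟩ := compress_psd hX hC hη n htr
  let V : Fin m → Matrix Δ (Fin (R + 1) × Δ) ℂ := fun i => HFin.W0 fun r => π (g (i, r))
  refine ⟨Fintype.card Δ, D', fun i => (V i * U).submatrix (Fintype.equivFin Δ).symm id,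
    Fintype.card_pos, ?_, fun i => ?_, ?_⟩
  · have hp : (0 : ℝ) < (1 + η / C) ^ (2 * n) := by positivity
    have h2 : (k : ℝ) * (k * (R + 1 : ℕ) * Fintype.card Δ) / (1 + η / C) ^ (2 * n) ≤
        Fintype.card Δ := by
      rw [div_le_iff₀ hp]
      have h3 := mul_le_mul_of_nonneg_left hn2 (Nat.cast_nonneg (α := ℝ) (Fintype.card Δ))
      linarith
    rw [Fintype.card_prod, Fintype.card_fin] at hcard
    push_cast at hcard h2
    have h3 : (R : ℝ) * Fintype.card Δ ≤ D' := by linarith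
    exact_mod_cast h3
  · have h2 :=
      (HFin.psd_of_mul (V i) (Nat.succ_pos R) (HFin.W0_mul _)).conjTranspose_mul_mul_same U
    rw [Matrix.mul_sub, Matrix.sub_mul, Matrix.mul_smul, Matrix.mul_one, Matrix.smul_mul, hU] at h2
    rw [HFin.gram_sub]
    exact h2
  · rw [HFin.pingM_eq, ← Matrix.one_kronecker_one (m := Fin k) (n := Fin (R + 1) × Δ),
      ← Matrix.smul_kronecker, add_assoc, ← Matrix.add_kronecker, Matrix.mul_add, Matrix.add_mul,
      HFin.conj_kron, Matrix.mul_one, hU] at hpsd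
    simp only [Matrix.mul_sum, Matrix.sum_mul, HFin.conj_kron] at hpsd
    simp only [HFin.gram_sub]
    have e : ((R + 2 : ℕ) : ℂ) • Q + (η : ℂ) • (1 : Matrix (Fin k) (Fin k) ℂ) -
        (2⁻¹ : ℂ) • ∑ i, Φ i i = A + (η : ℂ) • 1 := by
      rw [hAdef]
      abel
    rw [e]
    exact hpsd

end Vale.Agent.P095
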