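import Vale.Agent.P095.Prints
import Vale.Agent.P095.NonAt
import Vale.Agent.P095.BitsHom

/-! P095: a pair together with hash bits. See skel/P095/BLUEPRINT.md. -/

namespace Vale.Agent.P095

open Filter Topology Vale.Agent.P101 Vale.Agent.P101.F
open scoped ComplexOrder

universe u v w

variable {Q : Type u} [CStarAlgebra Q] {G : Type v} [Group G]
variable {α : G →* (Q ≃⋆ₐ[ℂ] Q)} {T : Set (Q →L[ℂ] ℂ)}

theorem hash_grid {M : ℕ} (hM : 0 < M) {a a' : ℝ} (ha : |a| ≤ 1) (ha' : |a'| ≤ 1)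
    (h : ∀ j : Fin (4 * M + 1), 0 ≤ (a - (((j : ℕ) : ℝ) / (2 * M) - 1)) *
      (a' - (((j : ℕ) : ℝ) / (2 * M) - 1))) : |a - a'| ≤ 1 / (2 * M) := by
  have hM' : (0 : ℝ) < 2 * M := by positivity
  have key : ∀ x y : ℝ, |x| ≤ 1 → |y| ≤ 1 → (∀ j : Fin (4 * M + 1),
      0 ≤ (x - (((j : ℕ) : ℝ) / (2 * M) - 1)) * (y - (((j : ℕ) : ℝ) / (2 * M) - 1))) →
      y - x ≤ 1 / (2 * M) := by
    intro x y hx hy hxy
    by_contra hlt
    rw [not_le] at hlt
    have hx' := abs_le.1 hx
    have hy' := abs_le.1 hy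
    have h0 : 0 ≤ (x + 1) * (2 * M) := mul_nonneg (by linarith) hM'.le
    have h1 := Nat.lt_floor_add_one ((x + 1) * (2 * M))
    have h2 := Nat.floor_le h0
    set n := ⌊(x + 1) * (2 * M)⌋₊ with hn
    have h3 : x < ((n + 1 : ℕ) : ℝ) / (2 * M) - 1 := by
      rw [lt_sub_iff_add_lt, lt_div_iff₀ hM']; push_cast; exact h1
    have h4 : ((n + 1 : ℕ) : ℝ) / (2 * M) - 1 < y := by
      have : ((n + 1 : ℕ) : ℝ) / (2 * M) ≤ x + 1 + 1 / (2 * M) := by
        rw [div_le_iff₀ hM', add_mul (x + 1), one_div_mul_cancel hM'.ne']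
        push_cast; linarith
      linarith
    have h5 : n + 1 < 4 * M + 1 := by
      have h6 : ((n + 1 : ℕ) : ℝ) / (2 * M) < 2 := by linarith
      rw [div_lt_iff₀ hM'] at h6
      have h7 : ((n + 1 : ℕ) : ℝ) < ((4 * M + 1 : ℕ) : ℝ) := by push_cast at h6 ⊢; linarith
      exact_mod_cast h7
    have h8 := hxy ⟨n + 1, h5⟩
    simp only at h8
    nlinarith
  refine abs_le.2 ⟨?_, key a' a ha' ha fun j => by rw [mul_comm]; exact h j⟩
  linarith [key a a' ha ha' h]

theorem hash_norm_one {a : ℂ} (h : star a * a = 1) : ‖a‖ = 1 := by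
  have h1 := congrArg norm h
  rw [norm_mul, norm_star, norm_one] at h1
  nlinarith [norm_nonneg a]

/-- the two phases -/
noncomputable def hashPh (s : Bool) : ℂ := if s then 1 else -Complex.I

/-- the grid -/
noncomputable def hashGr (M : ℕ) (j : Fin (4 * M + 1)) : ℝ := ((j : ℕ) : ℝ) / (2 * M) - 1

theorem hash_ph_unit (s : Bool) : star (hashPh s) * hashPh s = 1 := by
  cases s <;> simp [hashPh]

theorem hash_cx {M : ℕ} (hM : 0 < M) {a a' : ℂ} (ha : star a * a = 1) (ha' : star a' * a' = 1)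
    (h : ∀ s j, 0 ≤ ((hashPh s * a).re - hashGr M j) * ((hashPh s * a').re - hashGr M j)) :
    ‖a * star a' - 1‖ ≤ 1 / M := by
  have n1 := hash_norm_one ha
  have n2 := hash_norm_one ha'
  have e : a * star a' - 1 = (a - a') * star a' := by rw [← ha']; ring
  have h1 := hash_grid hM (a := a.re) (a' := a'.re) ((Complex.abs_re_le_norm a).trans n1.le)
    ((Complex.abs_re_le_norm a').trans n2.le) fun j => by simpa [hashPh, hashGr] using h true j
  have h2 := hash_grid hM (a := a.im) (a' := a'.im) ((Complex.abs_im_le_norm a).trans n1.le)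
    ((Complex.abs_im_le_norm a').trans n2.le) fun j => by simpa [hashPh, hashGr] using h false j
  have h3 := Complex.norm_le_abs_re_add_abs_im (a - a')
  rw [Complex.sub_re, Complex.sub_im] at h3
  have h4 : 1 / (2 * (M : ℝ)) + 1 / (2 * M) = 1 / M := by field_simp; ring
  rw [e, norm_mul, norm_star, n2, mul_one]
  linarith

theorem hash_sign {σ : ℂ} {x y : ℝ} (hσ : σ * σ = 1) (hx : 0 ≤ σ * x) (hy : 0 ≤ σ * y) :
    0 ≤ x * y := by
  have h1 := mul_nonneg hx hy
  have e : σ * x * (σ * y) = ((x * y : ℝ) : ℂ) := by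
    push_cast; linear_combination (x * y : ℂ) * hσ
  rw [e] at h1
  exact_mod_cast h1

theorem hash_char {D : Type*} [Ring D] [StarRing D] [Algebra ℂ D] [StarModule ℂ D]
    (χ : D →⋆ₐ[ℂ] ℂ) {M L : ℕ} (hM : 0 < M) {z z' : D} {u v : Fin L → D} (hz : star z * z = 1)
    (hz' : star z' * z' = 1) (hu : ∀ l, u l * u l = 1) (hv : ∀ l, v l * v l = 1)
    (h : ∀ s j, ∃ l,
      0 ≤ χ (u l * ((2⁻¹ : ℂ) • (hashPh s • z + star (hashPh s • z)) -
        ((hashGr M j : ℝ) : ℂ) • (1 : D))) ∧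
      0 ≤ χ (v l * ((2⁻¹ : ℂ) • (hashPh s • z' + star (hashPh s • z')) -
        ((hashGr M j : ℝ) : ℂ) • (1 : D)))) :
    ‖χ ((z * star z' - 1) * (List.ofFn fun l => (2⁻¹ : ℂ) • (1 + u l * v l)).prod)‖ ≤ 1 / M := by
  have hu' : ∀ l, χ (u l) * χ (u l) = 1 := fun l => by rw [← map_mul, hu, map_one]
  have hv' : ∀ l, χ (v l) * χ (v l) = 1 := fun l => by rw [← map_mul, hv, map_one]
  have hp : χ (List.ofFn fun l => (2⁻¹ : ℂ) • (1 + u l * v l)).prod =
      ∏ l, (2⁻¹ : ℂ) * (1 + χ (u l) * χ (v l)) := by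
    rw [map_list_prod, List.map_ofFn, List.prod_ofFn]
    refine Finset.prod_congr rfl fun l _ => ?_
    simp [mul_add]
  rw [map_mul, hp]
  by_cases hall : ∀ l, χ (u l) = χ (v l)
  · have h1 : ∏ l, (2⁻¹ : ℂ) * (1 + χ (u l) * χ (v l)) = 1 :=
      Finset.prod_eq_one fun l _ => by rw [hall l, hv' l]; norm_num
    rw [h1, mul_one, map_sub, map_mul, map_star, map_one]
    refine hash_cx hM (by rw [← map_star, ← map_mul, hz, map_one])
      (by rw [← map_star, ← map_mul, hz', map_one]) fun s j => ?_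
    obtain ⟨l, h2, h3⟩ := h s j
    have e : ∀ w : D, χ ((2⁻¹ : ℂ) • (hashPh s • w + star (hashPh s • w)) -
        ((hashGr M j : ℝ) : ℂ) • (1 : D)) = (((hashPh s * χ w).re - hashGr M j : ℝ) : ℂ) := by
      intro w
      rw [map_sub, map_smul, map_add, map_star, map_smul, map_smul, map_one, smul_eq_mul,
        smul_eq_mul, smul_eq_mul, Complex.ofReal_sub, Complex.re_eq_add_conj, mul_one]
      rw [Complex.star_def]
      ring
    rw [map_mul, e] at h2 h3
    rw [hall l] at h2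
    exact hash_sign (hv' l) h2 h3
  · obtain ⟨l, hl⟩ := not_forall.1 hall
    have h1 : (χ (u l) - χ (v l)) * (1 + χ (u l) * χ (v l)) = 0 := by
      linear_combination χ (v l) * hu' l - χ (u l) * hv' l
    have h2 := (mul_eq_zero.1 h1).resolve_left (sub_ne_zero.2 hl)
    rw [Finset.prod_eq_zero (Finset.mem_univ l) (by rw [h2, mul_zero]), mul_zero, norm_zero]
    positivity

theorem hash_star_comm {u s : Q} (hu : u ∈ unitary Q) (h : Commute u s) : Commute (star u) s := by
  have h1 := Unitary.star_mul_self_of_mem hu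
  have h2 := Unitary.mul_star_self_of_mem hu
  calc star u * s = star u * s * (u * star u) := by rw [h2, mul_one]
    _ = star u * (s * u) * star u := by simp only [mul_assoc]
    _ = star u * (u * s) * star u := by rw [h.eq]
    _ = s * star u := by rw [← mul_assoc, h1, one_mul]

theorem hash_act_unit {u : Q} (hu : u ∈ unitary Q) (g : G) : α g u ∈ unitary Q := by
  rw [Unitary.mem_iff]
  constructor
  · rw [← map_star, ← map_mul, Unitary.star_mul_self_of_mem hu, map_one]
  · rw [← map_star, ← map_mul, Unitary.mul_star_self_of_mem hu, map_one]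

theorem hash_smul_unit {u : Q} (hu : u ∈ unitary Q) (s : Bool) : hashPh s • u ∈ unitary Q := by
  have h := hash_ph_unit s
  rw [Unitary.mem_iff]
  constructor
  · rw [star_smul, smul_mul_smul_comm, Unitary.star_mul_self_of_mem hu, h, one_smul]
  · rw [star_smul, smul_mul_smul_comm, Unitary.mul_star_self_of_mem hu, mul_comm, h, one_smul]

/-- the self-adjoint elements whose signs are the hash bits -/
noncomputable def hashY (M : ℕ) (s : Bool) (j : Fin (4 * M + 1)) (z : Q) : Q :=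
  rePart (hashPh s • z) - ((hashGr M j : ℝ) : ℂ) • (1 : Q)

theorem hashY_sa (M : ℕ) (s : Bool) (j : Fin (4 * M + 1)) (z : Q) :
    star (hashY M s j z) = hashY M s j z := by
  simp [hashY, rePart, add_comm]

theorem hashY_act (M : ℕ) (s : Bool) (j : Fin (4 * M + 1)) (z : Q) (g : G) :
    α g (hashY M s j z) = hashY M s j (α g z) := by
  simp only [hashY, rePart, map_sub, map_smul, map_add, map_star, map_one]

theorem hashY_comm (M : ℕ) (s : Bool) (j : Fin (4 * M + 1)) {z y : Q} (hz : z ∈ unitary Q)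
    (h : Commute z y) : Commute (hashY M s j z) y := by
  have h1 := hash_star_comm (hash_smul_unit hz s) (h.smul_left _)
  exact (((h.smul_left _).add_left h1).smul_left _).sub_left ((Commute.one_left y).smul_left _)

theorem hash_list_fix {l : List Q} {p : Q} (h : ∀ x ∈ l, x * p = p) : l.prod * p = p := by
  induction l with
  | nil => simp
  | cons a l ih =>
    rw [List.prod_cons, mul_assoc, ih fun x hx => h x (List.mem_cons_of_mem _ hx),
      h a List.mem_cons_self]

/-- the projection on which all bits agree -/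
noncomputable def hashE {L : ℕ} (u v : Fin L → Q) : Q :=
  oprod fun l => (2⁻¹ : ℂ) • (1 + u l * v l)

theorem hashE_comm {L : ℕ} {u v : Fin L → Q} {y : Q} (hu : ∀ l, Commute (u l) y)
    (hv : ∀ l, Commute (v l) y) : Commute (hashE u v) y :=
  commute_oprod fun l => ((Commute.one_left y).add_left ((hu l).mul_left (hv l))).smul_left _

theorem hashE_norm {L : ℕ} {u v : Fin L → Q} (hu : ∀ l, Symm (u l)) (hv : ∀ l, Symm (v l)) :
    ‖hashE u v‖ ≤ 1 := by
  refine norm_oprod_le fun l => ?_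
  have h1 : ‖(1 : Q)‖ ≤ 1 := Symm.norm_le ⟨star_one _, one_mul _⟩
  have h2 : ‖u l * v l‖ ≤ 1 := (norm_mul_le _ _).trans
    (mul_le_one₀ (hu l).norm_le (norm_nonneg _) (hv l).norm_le)
  have h3 := norm_add_le (1 : Q) (u l * v l)
  rw [norm_smul, norm_inv, Complex.norm_ofNat]
  linarith

theorem hashE_fix {L : ℕ} {u v : Fin L → Q} (hu : ∀ l, Symm (u l)) {p : Q}
    (h : ∀ l, u l * p = v l * p) : hashE u v * p = p := by
  refine hash_list_fix fun x hx => ?_
  obtain ⟨l, rfl⟩ := List.mem_ofFn.1 hx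
  rw [smul_mul_assoc, add_mul, one_mul, mul_assoc, ← h l, ← mul_assoc, (hu l).sq, one_mul,
    ← two_smul ℂ, smul_smul]
  norm_num

theorem hashE_sq {L : ℕ} {u v : Fin L → Q} (hu : ∀ l, Symm (u l)) (hv : ∀ l, Symm (v l))
    (huu : ∀ l l', Commute (u l) (u l')) (huv : ∀ l l', Commute (u l) (v l'))
    (hvv : ∀ l l', Commute (v l) (v l')) : hashE u v * hashE u v = hashE u v := by
  unfold hashE
  rw [oprod_mul]
  · congr 1
    funext l
    have e : u l * v l * (u l * v l) = 1 := by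
      rw [mul_assoc, ← mul_assoc (v l), ← (huv l l).eq, mul_assoc, (hv l).sq, mul_one, (hu l).sq]
    rw [smul_mul_smul_comm, add_mul, mul_add, mul_add, e, one_mul, one_mul, mul_one,
      add_comm (u l * v l) 1, ← two_smul ℂ, smul_smul]
    norm_num
  · intro i j _
    refine Commute.smul_left (Commute.smul_right ?_ _) _
    refine (Commute.one_left _).add_left ((Commute.one_right _).add_right ?_)
    exact ((huu i j).mul_right (huv i j)).mul_left ((huv j i).symm.mul_right (hvv i j))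

theorem hashE_close {M L : ℕ} (hM : 0 < M) {z z' : Q} {u v : Fin L → Q} (hz : z ∈ unitary Q)
    (hz' : z' ∈ unitary Q) (hu : ∀ l, Symm (u l)) (hv : ∀ l, Symm (v l))
    (hc : ∀ x ∈ ({z, z'} ∪ (Set.range u ∪ Set.range v) : Set Q),
      ∀ y ∈ ({z, z'} ∪ (Set.range u ∪ Set.range v) : Set Q), Commute x y)
    (h : ∀ s j, ∃ l, 0 ≤ u l * hashY M s j z ∧ 0 ≤ v l * hashY M s j z') :
    ‖(z * star z' - 1) * hashE u v‖ ≤ 1 / M := by
  obtain ⟨D, hS, -, -, hN, hP⟩ := exists_comm_sub ({z, z'} ∪ (Set.range u ∪ Set.range v) : Set Q)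
    fun x hx y hy => ⟨hc x hx y hy, by
      have h1 := hc x hx y hy
      rcases hy with (rfl | rfl) | ⟨l, rfl⟩ | ⟨l, rfl⟩
      · exact (hash_star_comm hz h1.symm).symm
      · exact (hash_star_comm hz' h1.symm).symm
      · rwa [(hu l).sa]
      · rwa [(hv l).sa]⟩
  let zD : D := ⟨z, hS (Or.inl (Or.inl rfl))⟩
  let zD' : D := ⟨z', hS (Or.inl (Or.inr rfl))⟩
  let uD : Fin L → D := fun l => ⟨u l, hS (Or.inr (Or.inl ⟨l, rfl⟩))⟩
  let vD : Fin L → D := fun l => ⟨v l, hS (Or.inr (Or.inr ⟨l, rfl⟩))⟩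
  have e : (((zD * star zD' - 1) * (List.ofFn fun l => (2⁻¹ : ℂ) • (1 + uD l * vD l)).prod : D) :
      Q) = (z * star z' - 1) * hashE u v := by
    have := map_list_prod D.subtype (List.ofFn fun l => (2⁻¹ : ℂ) • (1 + uD l * vD l))
    rw [List.map_ofFn] at this
    exact congrArg (fun x => (z * star z' - 1) * x) this
  rw [← e]
  refine hN _ _ (by positivity) fun χ => ?_
  refine hash_char χ hM (Subtype.ext (Unitary.star_mul_self_of_mem hz))
    (Subtype.ext (Unitary.star_mul_self_of_mem hz')) (fun l => Subtype.ext (hu l).sq)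
    (fun l => Subtype.ext (hv l).sq) fun s j => ?_
  obtain ⟨l, h1, h2⟩ := h s j
  exact ⟨l, (hP _).1 h1 χ, (hP _).1 h2 χ⟩

theorem hash_fejer {τ : Q →L[ℂ] ℂ} (hτ : IsTr τ) {d W e : Q} (hd : star d = d) (hd2 : ‖d‖ ≤ 2)
    (hW : W ∈ unitary Q) (h0 : ∀ n : ℕ, 1 ≤ n → τ (d ^ 2 * W ^ n) = 0) {M : ℕ} (hM : 0 < M)
    (hc : Commute W e) (hde : Commute e d) (he : ‖e‖ ≤ 1) (he' : e * e = e)
    (hW' : ‖(W - 1) * e‖ ≤ 1 / M) : nrm τ (d * e) ^ 2 ≤ 16 / M := by
  let ν : Q →L[ℂ] ℂ := τ.comp (ContinuousLinearMap.mulLeftRight ℂ Q d d)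
  have hν : ∀ x, ν x = τ (d * x * d) := fun x => rfl
  have e1 : ∀ x, ν (star x * x) = τ (star (x * d) * (x * d)) := fun x => by
    rw [hν, star_mul, hd]; simp only [mul_assoc]
  have h1 := fejer ν (fun x => by rw [e1]; exact hτ.pos _) hW (fun n hn => by
    rw [hν, hτ.trace, ← mul_assoc, ← sq]; exact h0 n hn) hM hc he he' hW'
  have h2 : (ν 1).re ≤ 4 := by
    have h3 := e1 1
    rw [star_one, one_mul, one_mul] at h3
    rw [h3, ← hτ.nrm_sq]
    have h4 := (hτ.nrm_le_norm d).trans hd2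
    nlinarith [nrm_nonneg τ d]
  rw [← hde.eq, hτ.nrm_sq, ← e1]
  refine h1.trans (div_le_div_of_nonneg_right (by linarith) (Nat.cast_nonneg M))

theorem TSat.exists_hash (hT : TSat α T) [Countable G] (hF : Folner G) :
    ∃ h : Bool → Q, Pair (h true) (h false) ∧ ∀ ε : ℝ, 0 < ε → ∃ (L : ℕ) (e : Fin L → Q),
      (∀ l, Symm (e l)) ∧ (∀ g g' l l', Commute (α g (e l)) (α g' (e l'))) ∧
      (∀ g g' l b, Commute (α g (e l)) (α g' (h b))) ∧
      ∀ g g' b, ∀ τ ∈ T, ∀ p : Q, star p = p → ‖p‖ ≤ 1 →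
        (∀ l, p * α g (e l) = p * α g' (e l)) → nrm τ ((α g (h b) - α g' (h b)) * p) ≤ ε := by
  obtain ⟨h, Z, hp, hZ, hc, h0, hpr⟩ := hT.exists_prints hF
  refine ⟨h, hp, fun ε hε => ?_⟩
  obtain ⟨M, hM⟩ := exists_nat_gt (16 / ε ^ 2)
  have hM0 : 0 < M := by
    have : (0 : ℝ) < M := lt_trans (by positivity) hM
    exact_mod_cast this
  have hex : ∀ i : Bool × Bool × Fin (4 * M + 1), ∃ b, Symm b ∧
      0 ≤ b * hashY M i.2.1 i.2.2 (Z i.1) ∧ Approx T b (hashY M i.2.1 i.2.2 (Z i.1)) := fun i =>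
    hT.exists_sgn (hashY_sa _ _ _ _) (nonAt_rePart hT.tr (hash_smul_unit (hZ i.1) i.2.1)
      (fun τ hτ n hn => by rw [smul_pow, map_smul, h0 _ τ hτ n hn, smul_zero]) _)
  choose e he1 he2 he3 using hex
  have hcom : ∀ g i s, Commute (α g (Z i.1)) s → Commute (α g (e i)) s := fun g i s hs =>
    hT.commute_act (hashY_sa _ _ _ _) (he3 i) g (by
      rw [hashY_act]; exact hashY_comm _ _ _ (hash_act_unit (hZ _) g) hs)
  have heZ : ∀ g g' i b, Commute (α g (e i)) (α g' (Z b)) := fun g g' i b =>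
    hcom g i _ (hc g g' _ b).1
  have heh : ∀ g g' i b, Commute (α g (e i)) (α g' (h b)) := fun g g' i b =>
    hcom g i _ (hc g g' _ b).2
  have hee : ∀ g g' i i', Commute (α g (e i)) (α g' (e i')) := fun g g' i i' =>
    hcom g i _ (heZ g' g i' _).symm
  let φ := Fintype.equivFin (Bool × Bool × Fin (4 * M + 1))
  refine ⟨_, fun l => e (φ.symm l), fun l => he1 _, fun g g' l l' => hee _ _ _ _,
    fun g g' l b => heh _ _ _ _, fun g g' b τ hτ p hp1 hp2 hpe => ?_⟩
  have hsh : Symm (h b) := by cases b; exacts [hp.snd, hp.fst]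
  have htr := hT.tr τ hτ
  have hu : ∀ l, Symm (α g (e (φ.symm l))) := fun l => (he1 _).act g
  have hv : ∀ l, Symm (α g' (e (φ.symm l))) := fun l => (he1 _).act g'
  have hfix : hashE (fun l => α g (e (φ.symm l))) (fun l => α g' (e (φ.symm l))) * p = p := by
    refine hashE_fix hu fun l => ?_
    have := congrArg star (hpe l)
    rwa [star_mul, star_mul, hp1, (hu l).sa, (hv l).sa] at this
  have hZg := hash_act_unit (α := α) (hZ b) g
  have hZg' := hash_act_unit (α := α) (hZ b) g'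
  have hEZ : ∀ k, Commute (hashE (fun l => α g (e (φ.symm l))) (fun l => α g' (e (φ.symm l))))
      (α k (Z b)) := fun k => hashE_comm (fun l => heZ _ _ _ _) (fun l => heZ _ _ _ _)
  have hclose := hashE_close hM0 hZg hZg' hu hv (by
      rintro x ((rfl | rfl) | ⟨l, rfl⟩ | ⟨l, rfl⟩) y ((rfl | rfl) | ⟨l', rfl⟩ | ⟨l', rfl⟩) <;>
        first
        | exact (hc _ _ _ _).1
        | exact heZ _ _ _ _
        | exact (heZ _ _ _ _).symm
        | exact hee _ _ _ _) fun s j => by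
    refine ⟨φ (b, s, j), ?_, ?_⟩
    · rw [Equiv.symm_apply_apply, ← hashY_act, ← map_mul]
      exact map_nonneg' (α g : Q →⋆ₐ[ℂ] Q) (he2 (b, s, j))
    · rw [Equiv.symm_apply_apply, ← hashY_act, ← map_mul]
      exact map_nonneg' (α g' : Q →⋆ₐ[ℂ] Q) (he2 (b, s, j))
  have hest := hash_fejer htr (d := α g (h b) - α g' (h b))
    (by rw [star_sub, (hsh.act g).sa, (hsh.act g').sa])
    ((norm_sub_le _ _).trans (by linarith [(hsh.act (α := α) g).norm_le,
      (hsh.act (α := α) g').norm_le]))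
    (mul_mem hZg (Unitary.star_mem hZg')) (fun n hn => by
      rw [(hash_star_comm hZg' (hc g' g b b).1).symm.mul_pow]; exact hpr b g g' τ hτ n hn) hM0
    ((hEZ g).symm.mul_left (hash_star_comm hZg' (hEZ g').symm))
    (hashE_comm (fun l => (heh _ _ _ _).sub_right (heh _ _ _ _))
      (fun l => (heh _ _ _ _).sub_right (heh _ _ _ _)))
    (hashE_norm hu hv)
    (hashE_sq hu hv (fun l l' => hee _ _ _ _) (fun l l' => hee _ _ _ _) (fun l l' => hee _ _ _ _))
    hclose
  rw [← hfix, ← mul_assoc]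
  refine (htr.nrm_mul_right _ _).trans ((mul_le_of_le_one_right (nrm_nonneg _ _) hp2).trans ?_)
  refine (pow_le_pow_iff_left₀ (nrm_nonneg _ _) hε.le two_ne_zero).1 (hest.trans ?_)
  have hM1 : (0 : ℝ) < M := by exact_mod_cast hM0
  rw [div_lt_iff₀ (by positivity)] at hM
  rw [div_le_iff₀ hM1]
  linarith

end Vale.Agent.P095
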