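import Vale.Agent.P095.Tools

/-! P095: approximate inverse square roots. -/

namespace Vale.Agent.P095

open Filter Topology Vale.Agent.P101 Vale.Agent.P101.F
open scoped ComplexOrder

universe u

variable {B : Type u} [CStarAlgebra B]

theorem sb_norm_le_one {a : B} (h0 : 0 ≤ a) (h1 : a ≤ 1) : ‖a‖ ≤ 1 :=
  (CStarAlgebra.norm_le_one_iff_of_nonneg a h0).2 h1

theorem sb_norm_le_of_sq {a : B} (h : star a * a ≤ 1) : ‖a‖ ≤ 1 := by
  have := sb_norm_le_one (star_mul_self_nonneg a) h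
  rw [CStarRing.norm_star_mul_self] at this
  nlinarith [norm_nonneg a]

theorem sb_sqrt {a : B} (ha : 0 ≤ a) : ∃ s : B, 0 ≤ s ∧ star s = s ∧ s * s = a :=
  ⟨CFC.sqrt a, CFC.sqrt_nonneg a, (CFC.sqrt_nonneg a).star_eq, CFC.sqrt_mul_sqrt_self a⟩

theorem sb_inv_sqrt {r : B} (hr : 0 ≤ r) {δ : ℝ} (hδ : 0 < δ) :
    ∃ k : B, star k = k ∧ k * r = r * k ∧ k * r * k + δ • (k * k) = 1 := by
  obtain ⟨g, hg⟩ : ∃ g : ℝ → ℝ, g = fun t => (√(max t 0 + δ))⁻¹ := ⟨_, rfl⟩
  have hp : ∀ t : ℝ, 0 < max t 0 + δ := fun t => add_pos_of_nonneg_of_pos (le_max_right _ _) hδ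
  have hc : Continuous g := by
    rw [hg]
    exact Continuous.inv₀ (by fun_prop) fun t => (Real.sqrt_pos.2 (hp t)).ne'
  have hs := hr.isSelfAdjoint
  refine ⟨cfc g r, (cfc_predicate g r : IsSelfAdjoint _).star_eq,
    ((Commute.refl r).cfc_real g).eq, ?_⟩
  have h1 : cfc g r * r * cfc g r + δ • (cfc g r * cfc g r) =
      cfc (fun t => g t * t * g t + δ * (g t * g t)) r := by
    rw [cfc_add r _ _, cfc_const_mul _ _ r, cfc_mul _ _ r, cfc_mul _ _ r, cfc_mul _ _ r,
      cfc_id' ℝ r]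
  rw [h1, ← cfc_const_one ℝ r]
  refine cfc_congr fun t ht => ?_
  have h2 : max t 0 = t := max_eq_left (spectrum_nonneg_of_nonneg hr ht)
  have h3 : g t * g t = (t + δ)⁻¹ := by
    simp only [hg]
    rw [← mul_inv, Real.mul_self_sqrt (hp t).le, h2]
  have h4 := (hp t).ne'
  rw [h2] at h4
  rw [mul_right_comm, h3]
  field_simp

theorem sb_dom {r : B} (hr : 0 ≤ r) {δ : ℝ} (hδ : 0 < δ) :
    ∃ k : B, star k = k ∧ k * r = r * k ∧ k * r * k + δ • (k * k) = 1 ∧ k * r * k ≤ 1 ∧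
      ∀ w, star w * w ≤ r →
        ‖w * k‖ ≤ 1 ∧ ‖star (k * star w) * r * (k * star w) - w * star w‖ ≤ δ := by
  obtain ⟨k, k1, k2, k3⟩ := sb_inv_sqrt hr hδ
  have h0 : 0 ≤ k * k := by simpa only [k1] using star_mul_self_nonneg k
  have h1 : k * r * k ≤ 1 := k3 ▸ le_add_of_nonneg_right (smul_nonneg hδ.le h0)
  refine ⟨k, k1, k2, k3, h1, fun w hw => ?_⟩
  have h2 : ‖w * k‖ ≤ 1 := by
    refine sb_norm_le_of_sq (le_trans ?_ h1)
    simpa only [star_mul, k1, mul_assoc] using star_left_conjugate_le_conjugate hw k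
  refine ⟨h2, ?_⟩
  have h3 : star (k * star w) * r * (k * star w) - w * star w = -δ • (w * k * star (w * k)) := by
    have : k * r * k = 1 - δ • (k * k) := eq_sub_of_add_eq k3
    calc _ = w * (k * r * k) * star w - w * star w := by
          simp only [star_mul, star_star, k1, mul_assoc]
      _ = _ := by
          rw [this]
          simp only [star_mul, k1, mul_sub, sub_mul, mul_one, mul_smul_comm, smul_mul_assoc,
            mul_assoc, neg_smul]
          abel
  rw [h3, norm_smul, norm_neg, Real.norm_of_nonneg hδ.le, CStarRing.norm_self_mul_star]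
  exact mul_le_of_le_one_right hδ.le (mul_le_one₀ h2 (norm_nonneg _) h2)

theorem sb_unit_of_le {a w b : B} (h : w * star w ≤ b) (hb : a * b = b) : a * w = w := by
  have h1 := star_right_conjugate_le_conjugate h (1 - a)
  rw [sub_mul 1 a b, one_mul, hb, sub_self, zero_mul] at h1
  have h2 : (1 - a) * w * star ((1 - a) * w) = 0 := by
    refine le_antisymm ?_ (mul_star_self_nonneg _)
    simpa only [star_mul, mul_assoc] using h1
  have h3 := CStarRing.mul_star_self_eq_zero_iff _ |>.1 h2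
  rw [sub_mul, one_mul, sub_eq_zero] at h3
  exact h3.symm

theorem sb_le_smul_one {x : B} (hx : star x = x) {γ : ℝ} (h : ‖x‖ ≤ γ) : x ≤ γ • (1 : B) := by
  have h1 := IsSelfAdjoint.le_algebraMap_norm_self (a := x) hx
  rw [Algebra.algebraMap_eq_smul_one] at h1
  exact h1.trans (smul_le_smul_of_nonneg_right h zero_le_one)

end Vale.Agent.P095
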