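import Vale.Agent.P095.Mat
import Vale.Agent.P095.SubBasic_a

/-! P095: basic facts on Cuntz subequivalence. See skel/P095/BLUEPRINT.md. -/

namespace Vale.Agent.P095

open Filter Topology Vale.Agent.P101 Vale.Agent.P101.F
open scoped ComplexOrder

universe u v w

variable {B : Type u} [CStarAlgebra B] {G : Type v} [Group G] {E : Env B G}
variable {ω : Ultrafilter ℕ}


theorem cut_nonneg (ε : ℝ) (x : B) : 0 ≤ cut ε x := cfc_nonneg fun _ _ => le_max_right _ _

theorem norm_sub_cut {ε : ℝ} (hε : 0 ≤ ε) {x : B} (hx : 0 ≤ x) : ‖x - cut ε x‖ ≤ ε := by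
  have hs := hx.isSelfAdjoint
  have h : x - cut ε x = cfc (fun t : ℝ => t - max (t - ε) 0) x := by
    rw [cfc_sub _ _ x, cfc_id' ℝ x, cut]
  rw [h]
  refine norm_cfc_le hε fun t ht => ?_
  have := spectrum_nonneg_of_nonneg hx ht
  rw [Real.norm_eq_abs, abs_le]
  constructor
  · rcases le_total (t - ε) 0 with k | k
    · rw [max_eq_right k]
      linarith
    · rw [max_eq_left k]
      linarith
  · linarith [le_max_left (t - ε) 0]

theorem cut_mem {ε : ℝ} (hε : 0 ≤ ε) {x : B} (hx : 0 ≤ x) (hI : x ∈ E.I) : cut ε x ∈ E.I := 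
  E.cfc_mem hI hx.isSelfAdjoint.star_eq (by fun_prop) (by simpa using hε)

theorem sb_sum_conj {ι κ : Type*} [Fintype ι] [Fintype κ] (s : ι → κ → B) (a b : κ → B) (z : B) :
    ∑ p, star (∑ k, s p k * a k) * z * (∑ k, s p k * b k) =
      ∑ k, ∑ k', star (a k) * (∑ p, star (s p k) * z * s p k') * b k' := by
  simp only [star_sum, star_mul, Finset.sum_mul, Finset.mul_sum, mul_assoc]
  rw [Finset.sum_comm, Finset.sum_congr rfl fun _ _ => Finset.sum_comm, Finset.sum_comm]

theorem Sub.trans {m n l : ℕ} {x y z : B} (h : Sub m x n y) (h' : Sub n y l z) :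
    Sub m x l z := by
  intro ε hε
  obtain ⟨t, ht⟩ := h (ε / 2) (by positivity)
  obtain ⟨K, hK⟩ : ∃ K : ℝ, K = ∑ i, ∑ k, ‖t k i‖ := ⟨_, rfl⟩
  have K1 : ∀ i, ∑ k, ‖t k i‖ ≤ K := fun i => hK ▸ Finset.single_le_sum
    (f := fun i => ∑ k, ‖t k i‖) (fun _ _ => by positivity) (Finset.mem_univ i)
  have K0 : 0 ≤ K := by
    rw [hK]
    positivity
  obtain ⟨s, hs⟩ := h' (ε / 2 / (K ^ 2 + 1)) (by positivity)
  refine ⟨fun p i => ∑ k, s p k * t k i, fun i j => ?_⟩
  have e : (∑ p, star (∑ k, s p k * t k i) * z * (∑ k, s p k * t k j) - if i = j then x else 0) =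
      ∑ k, ∑ k', star (t k i) * (∑ p, star (s p k) * z * s p k' - if k = k' then y else 0) *
        t k' j + (∑ k, star (t k i) * y * t k j - if i = j then x else 0) := by
    simp only [mul_sub, sub_mul, Finset.sum_sub_distrib, mul_ite, ite_mul, mul_zero, zero_mul,
      Finset.sum_ite_eq, Finset.mem_univ, if_true, sub_add_sub_cancel]
    rw [sb_sum_conj]
  rw [e]
  refine (norm_add_le _ _).trans ((add_le_add ?_ (ht i j)).trans_eq (add_halves ε))
  calc _ ≤ ∑ k, ∑ k', ‖t k i‖ * (ε / 2 / (K ^ 2 + 1)) * ‖t k' j‖ := by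
        refine norm_sum_le_of_le _ fun k _ => norm_sum_le_of_le _ fun k' _ =>
          norm_mul₃_le.trans ?_
        rw [norm_star]
        gcongr
        exact hs k k'
    _ = (∑ k, ‖t k i‖) * (ε / 2 / (K ^ 2 + 1)) * ∑ k', ‖t k' j‖ := by
        rw [Finset.sum_mul, Finset.sum_mul_sum]
    _ ≤ K * (ε / 2 / (K ^ 2 + 1)) * K := by
        gcongr
        exacts [K1 i, K1 j]
    _ ≤ ε / 2 := by
        rw [mul_right_comm, ← mul_div_assoc, div_le_iff₀ (by positivity)]
        nlinarith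

theorem sb_mk {ι κ : Type} [Fintype κ] [DecidableEq ι] {m n : ℕ} {x y : B} {g : Fin m → ι}
    (hg : Function.Injective g) {e : κ → Fin n} (he : Function.Injective e)
    (h : ∀ ε : ℝ, 0 < ε → ∃ t : κ → ι → B, ∀ i j,
      ‖∑ k, star (t k i) * y * t k j - if i = j then x else 0‖ ≤ ε) : Sub m x n y := by
  intro ε hε
  obtain ⟨t, ht⟩ := h ε hε
  refine ⟨Function.extend e (fun k i => t k (g i)) 0, fun i j => ?_⟩
  rw [← Fintype.sum_of_injective e he (fun k => star (t k (g i)) * y * t k (g j)) _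
    (fun k hk => by
      rw [Function.extend_apply' _ _ _ hk]
      exact mul_zero _)
    fun k => by rw [he.extend_apply]]
  simpa only [hg.eq_iff] using ht (g i) (g j)

theorem Sub.mono {m n m' n' : ℕ} {x y : B} (h : Sub m x n y) (hm : m' ≤ m) (hn : n ≤ n') :
    Sub m' x n' y := 
  sb_mk (Fin.castLE_injective hm) (Fin.castLE_injective hn) h

theorem Sub.amp {m n : ℕ} {x y : B} (h : Sub m x n y) (D : ℕ) : Sub (D * m) x (D * n) y := by
  refine sb_mk (finProdFinEquiv (m := D) (n := m)).symm.injective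
    (finProdFinEquiv (m := D) (n := n)).injective fun ε hε => ?_
  obtain ⟨t, ht⟩ := h ε hε
  refine ⟨fun k i => if k.1 = i.1 then t k.2 i.2 else 0, fun i j => ?_⟩
  rw [Fintype.sum_prod_type, Finset.sum_eq_single i.1
    (fun d _ hd => by simp only [if_neg hd, star_zero, zero_mul, Finset.sum_const_zero]) (by simp)]
  by_cases e : i.1 = j.1
  · simpa only [e, if_true, Prod.ext_iff, true_and] using ht i.2 j.2
  · simpa only [e, if_false, mul_zero, Finset.sum_const_zero, Prod.ext_iff, false_and, sub_zero,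
      norm_zero] using hε.le

theorem exists_conj_of_le {p r : B} (hp : 0 ≤ p) (h : p ≤ r) {ε : ℝ} (hε : 0 < ε) :
    ∃ s : B, ‖star s * r * s - p‖ ≤ ε := by
  obtain ⟨w, -, w1, w2⟩ := sb_sqrt hp
  obtain ⟨k, -, -, -, -, hk⟩ := sb_dom (hp.trans h) hε
  refine ⟨k * star w, ?_⟩
  simpa only [w1, w2] using (hk w (by rwa [w1, w2])).2

theorem sb_conj {X : Type u} [CStarAlgebra X] (a c : X) {ε : ℝ} (hε : 0 < ε) :
    ∃ s : X, ‖star s * (star c * c + star a * a) * s - star a * a‖ ≤ ε :=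
  exists_conj_of_le (star_mul_self_nonneg a) (le_add_of_nonneg_left (star_mul_self_nonneg c)) hε

theorem sb_mat {D : ℕ} (a : B) (c : Fin D → Fin D → B) {ε : ℝ} (hε : 0 < ε) :
    ∃ S : Fin D → Fin D → B, ∀ i j, ‖∑ r, ∑ s, star (S r i) * (∑ p, star (c p r) * c p s +
      if r = s then star a * a else 0) * S s j - if i = j then star a * a else 0‖ ≤ ε := by
  let A : CStarMatrix (Fin D) (Fin D) B := CStarMatrix.ofMatrix (Matrix.diagonal fun _ => a)
  let C : CStarMatrix (Fin D) (Fin D) B := CStarMatrix.ofMatrix c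
  obtain ⟨S, hS⟩ := sb_conj A C hε
  have hA : ∀ i j, (star A * A) i j = if i = j then star a * a else 0 := by
    intro i j
    have e : ∀ i j, A i j = if i = j then a else 0 := fun _ _ => rfl
    rw [CStarMatrix.mul_apply, Finset.sum_eq_single i (fun k _ hk => ?_) (by simp)]
    · rw [CStarMatrix.star_apply, e, e, if_pos rfl, mul_ite, mul_zero]
    · rw [CStarMatrix.star_apply, e, if_neg hk, star_zero, zero_mul]
  refine ⟨fun i j => S i j, fun i j => le_trans (le_of_eq ?_)
    ((CStarMatrix.norm_entry_le_norm (i := i) (j := j)).trans hS)⟩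
  rw [CStarMatrix.sub_apply, hA, CStarMatrix.mul_apply, Finset.sum_comm]
  congr 2
  refine Finset.sum_congr rfl fun s _ => ?_
  rw [CStarMatrix.mul_apply, Finset.sum_mul]
  refine Finset.sum_congr rfl fun r _ => ?_
  rw [CStarMatrix.add_apply, hA]
  rfl

theorem sub_of_mpos {D D' : ℕ} (T : Fin D → Fin D' → B) {y b : B} (hb : 0 ≤ b) {γ : ℝ}
    (hγ : 0 ≤ γ) (h : MPos fun r s => ∑ z, star (T z r) * y * T z s +
      if r = s then (γ : ℂ) • (1 : B) - b else 0) (hy : 0 ≤ y) : Sub D' (cut γ b) D y := by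
  intro ε hε
  obtain ⟨R, hR⟩ := h.exists_factor
  have hs := hb.isSelfAdjoint
  obtain ⟨k, k1, k2, k3, k4, -⟩ := sb_dom (cut_nonneg γ b) (half_pos hε)
  obtain ⟨q, q1, q2⟩ : ∃ q : B, star q = q ∧
      q * (b - (γ : ℂ) • (1 : B)) * q = cut γ b * cut γ b := by
    refine ⟨cfc (fun t : ℝ => √(max (t - γ) 0)) b, (cfc_predicate _ b : IsSelfAdjoint _).star_eq,
      ?_⟩
    have e : b - (γ : ℂ) • (1 : B) = cfc (fun t : ℝ => t - γ) b := by
      rw [cfc_sub _ _ b, cfc_id' ℝ b, cfc_const γ b, Algebra.algebraMap_eq_smul_one,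
        Complex.coe_smul]
    rw [e, cut, ← cfc_mul _ _ b, ← cfc_mul _ _ b, ← cfc_mul _ _ b]
    refine cfc_congr fun t _ => ?_
    rw [mul_right_comm, Real.mul_self_sqrt (le_max_right _ _)]
    rcases le_total (t - γ) 0 with e | e
    · rw [max_eq_right e, zero_mul, zero_mul]
    · rw [max_eq_left e]
  have z1 : star (cut γ b) = cut γ b := (cut_nonneg γ b).star_eq
  have z0 := cut_nonneg γ b
  generalize cut γ b = z at k2 k3 k4 q2 z1 z0
  have p1 : ‖star (z * k) * (z * k) - z‖ ≤ ε / 2 := by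
    have e1 : k * z * k = 1 - (ε / 2) • (k * k) := eq_sub_of_add_eq k3
    have e2 : star (z * k) * (z * k) - z = -(ε / 2) • (k * z * k) := by
      rw [star_mul, k1, z1, k2, mul_assoc, ← mul_assoc k, e1, mul_sub, mul_one, mul_smul_comm,
        mul_assoc, neg_smul]
      abel
    have e3 : 0 ≤ k * z * k := by simpa only [k1] using star_left_conjugate_nonneg z0 k
    rw [e2, norm_smul, norm_neg, Real.norm_of_nonneg (half_pos hε).le]
    exact mul_le_of_le_one_right (half_pos hε).le (sb_norm_le_one e3 k4)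
  have p2 : star (q * k) * (b - (γ : ℂ) • (1 : B)) * (q * k) = star (z * k) * (z * k) := by
    calc _ = k * (q * (b - (γ : ℂ) • (1 : B)) * q) * k := by simp only [star_mul, k1, q1, mul_assoc]
      _ = _ := by simp only [q2, star_mul, k1, z1, mul_assoc]
  obtain ⟨S, hS⟩ := sb_mat (z * k) (fun s i => R s i * (q * k)) (half_pos hε)
  refine ⟨fun p i => ∑ r, T p r * (q * k * S r i), fun i j => ?_⟩
  have e : ∀ r s, star (q * k) * (∑ p, star (T p r) * y * T p s) * (q * k) =
      ∑ p, star (R p r * (q * k)) * (R p s * (q * k)) +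
        if r = s then star (z * k) * (z * k) else 0 := by
    intro r s
    have e1 : ∑ p, star (T p r) * y * T p s = ∑ p, star (R p r) * R p s +
        if r = s then b - (γ : ℂ) • (1 : B) else 0 := by
      rw [← hR r s]
      split_ifs
      · abel
      · simp
    rw [e1, mul_add, add_mul, mul_ite, ite_mul, p2, mul_zero, zero_mul, Finset.mul_sum,
      Finset.sum_mul]
    simp only [star_mul, mul_assoc]
  rw [sb_sum_conj]
  have e' : ∑ r, ∑ s, star (q * k * S r i) * (∑ p, star (T p r) * y * T p s) * (q * k * S s j) =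
      ∑ r, ∑ s, star (S r i) * (∑ p, star (R p r * (q * k)) * (R p s * (q * k)) +
        if r = s then star (z * k) * (z * k) else 0) * S s j := by
    refine Finset.sum_congr rfl fun r _ => Finset.sum_congr rfl fun s _ => ?_
    rw [← e, star_mul (q * k)]
    simp only [mul_assoc]
  rw [e']
  refine (norm_sub_le_norm_sub_add_norm_sub _ (if i = j then star (z * k) * (z * k) else 0)
    _).trans ((add_le_add (hS i j) ?_).trans_eq (add_halves ε))
  split_ifs
  · exact p1
  · simpa using (half_pos hε).le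

theorem sub_of_close {n : ℕ} (t : Fin n → B) {x y : B} (hx : 0 ≤ x) (hy : 0 ≤ y) {γ : ℝ}
    (h : ‖x - ∑ k, star (t k) * y * t k‖ ≤ γ) : Sub 1 (cut γ x) n y := by
  have hr : 0 ≤ ∑ k, star (t k) * y * t k :=
    Finset.sum_nonneg fun k _ => star_left_conjugate_nonneg hy _
  have h1 := sb_le_smul_one (hx.isSelfAdjoint.sub hr.isSelfAdjoint).star_eq h
  refine sub_of_mpos (fun k _ => t k) hx ((norm_nonneg _).trans h) (fun v => ?_) hy
  simp only [Fin.sum_univ_one, if_true, Complex.coe_smul]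
  refine star_left_conjugate_nonneg ((sub_nonneg.2 h1).trans_eq ?_) _
  abel

theorem simp_approx (hs : Simp E) {x y : B} (hx : 0 ≤ x) (hxI : x ∈ E.I) (hy : 0 ≤ y)
    (hyI : y ∈ E.I) (h0 : y ≠ 0) {ε : ℝ} (hε : 0 < ε) :
    ∃ (n : ℕ) (t : Fin n → B), 0 < n ∧ ‖x - ∑ k, star (t k) * y * t k‖ ≤ ε := by
  obtain ⟨s, -, s1, s2⟩ := sb_sqrt hx
  have hs' : s ∈ E.I := E.mem_of_star_mul (by rwa [s1, s2])
  have hc : ContinuousAt (fun w : B => star w * w) s := by fun_prop
  obtain ⟨δ, hδ, h1⟩ := Metric.continuousAt_iff.1 hc (ε / 2) (half_pos hε)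
  obtain ⟨w, hw, h2⟩ := Metric.mem_closure_iff.1 (hs y hyI h0 s hs') δ hδ
  have h3 := h1 (dist_comm s w ▸ h2)
  rw [s1, s2, dist_eq_norm] at h3
  obtain ⟨n, f, g, rfl⟩ := Submodule.mem_span_set'.1 hw
  choose u v huv using fun i => (g i).2
  obtain ⟨C, hC, h4⟩ := ffull_le Finset.univ (fun i => f i • u i) fun i => y * v i
  have e : ∑ i, f i • u i * (y * v i) = ∑ i, f i • (g i : B) :=
    Finset.sum_congr rfl fun i _ => by rw [huv i, smul_mul_assoc, mul_assoc]
  rw [e] at h4
  have h5 : C • ∑ i, star (y * v i) * (y * v i) ≤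
      ∑ i, star (√(C * ‖y‖) • v i) * y * (√(C * ‖y‖) • v i) := by
    rw [Finset.smul_sum]
    refine Finset.sum_le_sum fun i _ => ?_
    obtain ⟨q, -, q1, q2⟩ := sb_sqrt hy
    have k1 := CStarAlgebra.star_left_conjugate_le_norm_smul (a := q * v i) (b := y)
      hy.isSelfAdjoint
    have k2 : star (q * v i) * y * (q * v i) = star (y * v i) * (y * v i) := by
      simp only [← q2, star_mul, q1, mul_assoc]
    have k3 : star (q * v i) * (q * v i) = star (v i) * y * v i := by
      simp only [← q2, star_mul, q1, mul_assoc]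
    rw [k2, k3] at k1
    rw [star_smul, star_trivial √_, smul_mul_assoc, smul_mul_assoc, mul_smul_comm, smul_smul,
      Real.mul_self_sqrt (by positivity), mul_smul]
    exact smul_le_smul_of_nonneg_left k1 hC
  obtain ⟨r, hr⟩ := exists_conj_of_le (star_mul_self_nonneg _) (h4.trans h5) (half_pos hε)
  refine ⟨n + 1, Fin.cons 0 fun i => √(C * ‖y‖) • v i * r, n.succ_pos, ?_⟩
  simp only [Fin.sum_univ_succ, Fin.cons_zero, Fin.cons_succ, mul_zero, zero_add]
  rw [norm_sub_rev] at h3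
  refine (norm_sub_le_norm_sub_add_norm_sub _ _ _).trans
    ((add_le_add h3.le ?_).trans_eq (add_halves ε))
  rw [norm_sub_rev]
  refine le_trans (le_of_eq ?_) hr
  simp only [Finset.mul_sum, Finset.sum_mul, star_mul, mul_assoc]

theorem sub_tri (hs : Simp E) {a a' a'' : B} (ht : Tri E a a' a'') {y : B} (hy : 0 ≤ y)
    (hyI : y ∈ E.I) (h0 : y ≠ 0) : ∃ M : ℕ, 0 < M ∧ Sub 1 a' M y := by
  obtain ⟨n, t, hn, h⟩ := simp_approx hs ht.pos.2.2 ht.mem.2.2 hy hyI h0 one_half_pos
  obtain ⟨s, -, s1, s2⟩ := sb_sqrt ht.pos.2.1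
  have h1 : a'' * s = s := sb_unit_of_le (by rw [s1, s2]) ht.mul'
  have hr : 0 ≤ ∑ k, star (t k) * y * t k :=
    Finset.sum_nonneg fun k _ => star_left_conjugate_nonneg hy _
  have h2 := star_left_conjugate_le_conjugate
    (sb_le_smul_one (ht.pos.2.2.isSelfAdjoint.sub hr.isSelfAdjoint).star_eq h) s
  rw [mul_sub, sub_mul, mul_assoc, h1, mul_smul_comm, smul_mul_assoc, mul_one, s1, s2] at h2
  have h3 : (1 / 2 : ℝ) • a' ≤ s * (∑ k, star (t k) * y * t k) * s := by
    rw [← sub_nonneg] at h2 ⊢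
    refine h2.trans_eq ?_
    module
  refine ⟨n, hn, fun ε hε => ?_⟩
  obtain ⟨r, hr⟩ := exists_conj_of_le (smul_nonneg one_half_pos.le ht.pos.2.1) h3 (half_pos hε)
  refine ⟨fun k _ => t k * s * (√2 • r), fun i j => ?_⟩
  have e : ∑ k, star (t k * s * (√2 • r)) * y * (t k * s * (√2 • r)) - a' =
      (2 : ℝ) • (star r * (s * (∑ k, star (t k) * y * t k) * s) * r - (1 / 2 : ℝ) • a') := by
    simp only [star_mul, s1, star_smul, star_trivial, smul_mul_assoc, mul_smul_comm, smul_smul,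
      Real.mul_self_sqrt zero_le_two, smul_sub, Finset.mul_sum, Finset.sum_mul, Finset.smul_sum,
      mul_assoc]
    norm_num
  rw [if_pos (Subsingleton.elim i j), e, norm_smul, Real.norm_two]
  linarith

end Vale.Agent.P095
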