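import Vale.Agent.P095.HFin
import Vale.Agent.P095.SubBasic

/-! P095: small traces give Cuntz comparison with multiplicities. See skel/P095/BLUEPRINT.md. -/

namespace Vale.Agent.P095

open Filter Topology Vale.Agent.P101 Vale.Agent.P101.F
open scoped ComplexOrder

universe u v w

variable {B : Type u} [CStarAlgebra B] {G : Type v} [Group G] {E : Env B G}
variable {ω : Ultrafilter ℕ}


open scoped Matrix Kronecker

theorem Hg_kraus {k l : ℕ} (c : Fin l → Fin k → B) :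
    ∃ K : Matrix (Fin k) (Fin k) ℂ →ₗ[ℂ] B, (∀ M, K M = kraus c M) ∧ ∀ M, K Mᴴ = star (K M) :=
  ⟨{ toFun := kraus c
     map_add' := fun M N => by simp [kraus, add_smul, Finset.sum_add_distrib]
     map_smul' := fun t M => by simp [kraus, Finset.smul_sum, smul_smul] }, fun _ => rfl,
    fun M => by
      change kraus c Mᴴ = star (kraus c M)
      simp only [kraus, star_sum, star_smul, star_mul, star_star, Matrix.conjTranspose_apply]
      exact Finset.sum_congr rfl fun _ _ => Finset.sum_comm⟩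

theorem Hg_congr {ι : Type*} [Fintype ι] {M N : ι → ι → B} (h : MPos M)
    (e : ∀ r s, M r s = N r s) : MPos N := (funext fun r => funext (e r) : M = N) ▸ h

theorem Hg_entry {m D D' : ℕ} (W : Fin m → Matrix (Fin D) (Fin D') ℂ) (M : Fin m → Fin m → B)
    (r s : Fin D') : ∑ i, ∑ j, ((W i)ᴴ * W j) r s • M i j =
      ∑ z, ∑ i, ∑ j, (star (W i z r) * W j z s) • M i j := by
  rw [Finset.sum_comm (γ := Fin D)]
  refine Finset.sum_congr rfl fun i _ => ?_
  rw [Finset.sum_comm (γ := Fin D)]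
  simp only [Matrix.mul_apply, Matrix.conjTranspose_apply, Finset.sum_smul]

theorem Hg_sum {ι κ : Type*} [Fintype ι] [Fintype κ] {M : κ → ι → ι → B} (h : ∀ z, MPos (M z)) :
    MPos fun r s => ∑ z, M z r s := fun v => by
  refine (Finset.sum_nonneg fun z (_ : z ∈ Finset.univ) => h z v).trans_eq ?_
  rw [Finset.sum_comm]
  refine Finset.sum_congr rfl fun r _ => ?_
  rw [Finset.sum_comm]
  simp only [Finset.mul_sum, Finset.sum_mul]

theorem Hg_conj {m D D' : ℕ} (W : Fin m → Matrix (Fin D) (Fin D') ℂ) {M : Fin m → Fin m → B}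
    (hM : MPos M) : MPos fun r s => ∑ i, ∑ j, ((W i)ᴴ * W j) r s • M i j := by
  obtain ⟨T, hT⟩ := hM.exists_factor
  simp only [Hg_entry]
  refine Hg_sum fun z => ?_
  refine Hg_congr (mpos_of_factor fun t r => ∑ i, W i z r • T t i) fun r s => ?_
  simp only [hT, star_sum, star_smul, Finset.sum_mul_sum, Finset.smul_sum, smul_mul_smul_comm]
  rw [Finset.sum_comm]
  exact Finset.sum_congr rfl fun _ _ => Finset.sum_comm

theorem Hg_row {m : ℕ} {a' : B} (ha0 : 0 ≤ a') {y : Fin m → B} (hy : ∀ i, y i ∈ her a') {δ : ℝ}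
    (h : ‖∑ i, y i * star (y i)‖ ≤ δ) :
    MPos fun i j => (if i = j then (δ : ℂ) • (a' * a') else 0) - star (y i) * y j := fun v => by
  have h1 := row_cs y fun i => a' * v i
  have h2 : (0 : B) ≤ ∑ i, star (a' * v i) * (a' * v i) :=
    Finset.sum_nonneg fun i _ => star_mul_self_nonneg _
  have h3 := sub_nonneg.2 (h1.trans (smul_le_smul_of_nonneg_right h h2))
  refine h3.trans_eq ?_
  have h4 : ∀ i, y i * (a' * v i) = y i * v i := fun i => by rw [← mul_assoc, (hy i).2]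
  simp only [h4, mul_sub, sub_mul, Finset.sum_sub_distrib, mul_ite, ite_mul, mul_zero, zero_mul,
    Finset.sum_ite_eq, Finset.mem_univ, if_true, star_sum, Finset.sum_mul_sum, star_mul,
    ha0.isSelfAdjoint.star_eq, Finset.smul_sum, mul_smul_comm, smul_mul_assoc, mul_assoc,
    Complex.coe_smul]

theorem hg (hn : CPAP E) {a' : B} (ha : a' ∈ E.I) (ha0 : 0 ≤ a') (ha1 : ‖a'‖ ≤ 1) (R : ℕ)
    {ε δ : ℝ} (hδ : 0 ≤ δ) (hε : 2 * (R + 2) * δ < ε) {b : B} (hb : 0 ≤ b)
    (h : ∀ η : ℝ, 0 < η → ∃ (m : ℕ) (y : Fin m → B), (∀ i, y i ∈ her a') ∧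
      ‖∑ i, y i * star (y i)‖ ≤ δ ∧ ‖b - ∑ i, star (y i) * y i‖ ≤ η) :
    ∃ D : ℕ, 0 < D ∧ Sub (R * D) (cut ε b) D a' := by
  classical
  have := E.two
  have hγ : 0 < ε - 2 * (R + 2) * δ := sub_pos.2 hε
  have hε0 : 0 ≤ ε := le_trans (by positivity) hε.le
  obtain ⟨m, y, hy, hyδ, hyb⟩ := h ((ε - 2 * (R + 2) * δ) / 3) (by positivity)
  obtain ⟨e, he, heC⟩ : ∃ e : ℝ, 0 < e ∧
      (m + 2 * (R + 2) + 2 * m * m * (R + 1)) * e ≤ (ε - 2 * (R + 2) * δ) / 3 :=
    ⟨(ε - 2 * (R + 2) * δ) / 3 / (m + 2 * (R + 2) + 2 * m * m * (R + 1)), by positivity,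
      (mul_div_cancel₀ _ (by positivity)).le⟩
  have hyI : ∀ i j, star (y i) * y j ∈ E.I := fun i j =>
    E.I.mul_mem_left _ ((hy j).2 ▸ E.I.mul_mem_left _ ha)
  have haI : (δ : ℂ) • (a' * a') ∈ E.I := by
    rw [← smul_mul_assoc]
    exact E.I.mul_mem_left _ ha
  obtain ⟨k, l, φ, c, -, hφ, hF⟩ := hn (insert ((δ : ℂ) • (a' * a'))
    (Finset.univ.image fun p : Fin m × Fin m => star (y p.1) * y p.2)) e (by
      intro a ha
      rcases Finset.mem_insert.1 ha with rfl | ha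
      · exact haI
      · obtain ⟨p, -, rfl⟩ := Finset.mem_image.1 ha
        exact hyI _ _) he
  obtain ⟨K, hK, hKs⟩ := Hg_kraus c
  simp only [← hK] at hF
  have hF1 := hF _ (Finset.mem_insert_self _ _)
  have hF2 : ∀ i j, ‖K (φ (star (y i) * y j)) - star (y i) * y j‖ ≤ e := fun i j =>
    hF _ (Finset.mem_insert_of_mem (Finset.mem_image.2 ⟨(i, j), Finset.mem_univ _, rfl⟩))
  obtain ⟨η, hη, hηC⟩ : ∃ η : ℝ, 0 < η ∧ 2 * η * ‖K 1‖ ≤ (ε - 2 * (R + 2) * δ) / 3 := by
    refine ⟨(ε - 2 * (R + 2) * δ) / 6 / (‖K 1‖ + 1), by positivity, ?_⟩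
    rw [mul_div_assoc', div_mul_eq_mul_div, div_le_iff₀ (by positivity)]
    nlinarith [norm_nonneg (K 1)]
  have haa : (0 : B) ≤ (δ : ℂ) • (a' * a') := by
    rw [Complex.coe_smul]
    exact smul_nonneg hδ ha0.isSelfAdjoint.mul_self_nonneg
  have hQ0 : (φ ((δ : ℂ) • (a' * a'))).PosSemidef :=
    (cp_mpos (m := 1) φ hφ (N := fun _ _ => (δ : ℂ) • (a' * a'))
      (fun v => by simpa using star_left_conjugate_nonneg haa (v 0))
      fun _ _ => haI).submatrix fun p => (0, p)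
  have hΦ : (blockM fun i j => φ (star (y i) * y j)).PosSemidef :=
    cp_mpos φ hφ (by simpa using mpos_of_factor fun _ : Unit => y) hyI
  have hQ := cp_mpos φ hφ (Hg_row ha0 hy hyδ) fun i j =>
    E.I.sub_mem (by split_ifs; exacts [haI, E.I.zero_mem]) (hyI i j)
  simp only [map_sub, apply_ite φ, map_zero] at hQ
  obtain ⟨D, D', W, hD, hDD, hW, hX⟩ := hfin R hQ0 hΦ hQ hη
  have hΦs : ∀ i j, (φ (star (y i) * y j))ᴴ = φ (star (y j) * y i) := fun i j => by
    ext p q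
    exact hΦ.isHermitian.apply (j, p) (i, q)
  have m1 := kraus_mpos c hX
  have m2 := Hg_conj W (mpos_small (e := fun i j => star (y i) * y j - K (φ (star (y i) * y j)))
    (ε := e) (fun i j => by rw [star_sub, ← hKs, hΦs, star_mul, star_star])
    fun i j => by rw [norm_sub_rev]; exact hF2 i j)
  have m3 := Hg_sum fun i => mpos_scalar (hW i) (x := ((m * e : ℝ) : ℂ) • (1 : B)) (by
    rw [Complex.coe_smul]
    exact smul_nonneg (by positivity) zero_le_one)
  obtain ⟨x, hx⟩ : ∃ x : B, x = (b - ∑ i, star (y i) * y i) -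
      ∑ i, (K (φ (star (y i) * y i)) - star (y i) * y i) +
      ((2 * (R + 2) : ℝ) : ℂ) • K (φ ((δ : ℂ) • (a' * a'))) + ((2 * η : ℝ) : ℂ) • K 1 := ⟨_, rfl⟩
  have hxs : IsSelfAdjoint x := by
    rw [IsSelfAdjoint, hx]
    simp only [star_add, star_sub, star_sum, star_smul, star_mul, star_star, ← hKs, hΦs,
      hb.isSelfAdjoint.star_eq, hQ0.isHermitian.eq, Matrix.conjTranspose_one,
      Complex.star_def, Complex.conj_ofReal]
  have hxn : ‖x‖ ≤ ε - 2 * m * m * (R + 1) * e := by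
    have n1 : ‖∑ i, (K (φ (star (y i) * y i)) - star (y i) * y i)‖ ≤ m * e :=
      (norm_sum_le_of_le _ fun i _ => hF2 i i).trans_eq (by simp)
    have n2 : ‖(δ : ℂ) • (a' * a')‖ ≤ δ := by
      rw [norm_smul, Complex.norm_of_nonneg hδ]
      exact mul_le_of_le_one_right hδ ((norm_mul_le _ _).trans (mul_le_one₀ ha1 (norm_nonneg _) ha1))
    have n3 : ‖K (φ ((δ : ℂ) • (a' * a')))‖ ≤ e + δ :=
      (norm_le_norm_sub_add _ _).trans (add_le_add hF1 n2)
    have n4 : ‖x‖ ≤ ‖b - ∑ i, star (y i) * y i‖ +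
        ‖∑ i, (K (φ (star (y i) * y i)) - star (y i) * y i)‖ +
        2 * (R + 2) * ‖K (φ ((δ : ℂ) • (a' * a')))‖ + 2 * η * ‖K 1‖ := by
      rw [hx]
      refine (norm_add_le_of_le (norm_add_le_of_le (norm_sub_le _ _) le_rfl) le_rfl).trans_eq ?_
      rw [norm_smul, norm_smul, Complex.norm_of_nonneg (by positivity),
        Complex.norm_of_nonneg (by positivity)]
    have n5 := mul_le_mul_of_nonneg_left n3 (show (0 : ℝ) ≤ 2 * (R + 2) by positivity)
    nlinarith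
  have m4 := mpos_diag (ι := Fin D')
    (x := ((ε - 2 * m * m * (R + 1) * e : ℝ) : ℂ) • (1 : B) - x) (by
      rw [sub_nonneg, Complex.coe_smul]
      refine hxs.le_algebraMap_norm_self.trans ?_
      rw [Algebra.algebraMap_eq_smul_one]
      exact smul_le_smul_of_nonneg_right hxn zero_le_one)
  refine ⟨D, hD, (sub_of_mpos (fun z r => ((√2 : ℝ) : ℂ) • ∑ i, W i z r • y i) hb hε0 ?_ ha0).mono
    hDD le_rfl⟩
  have m5 := (m1.add m2).add m3
  refine Hg_congr ((m5.add m5).add m4) fun r s => ?_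
  have e1 : ∑ z, star (((√2 : ℝ) : ℂ) • ∑ i, W i z r • y i) * a' *
      (((√2 : ℝ) : ℂ) • ∑ i, W i z s • y i) =
        (2 : ℂ) • ∑ i, ∑ j, ((W i)ᴴ * W j) r s • (star (y i) * y j) := by
    rw [Hg_entry, Finset.smul_sum]
    refine Finset.sum_congr rfl fun z _ => ?_
    have e2 : a' * ∑ i, W i z s • y i = ∑ i, W i z s • y i := by
      simp only [Finset.mul_sum, mul_smul_comm, (hy _).1]
    have e3 : ((√2 : ℝ) : ℂ) * (√2 : ℝ) = 2 := by
      rw [← Complex.ofReal_mul, Real.mul_self_sqrt zero_le_two, Complex.ofReal_ofNat]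
    rw [mul_assoc, mul_smul_comm _ a', e2, star_smul, smul_mul_smul_comm, Complex.star_def,
      Complex.conj_ofReal, e3]
    simp only [star_sum, star_smul, Finset.sum_mul_sum, smul_mul_smul_comm, Complex.star_def]
  have e4 : (Matrix.of fun p q => (∑ i, ∑ j, φ (star (y i) * y j) ⊗ₖ ((W i)ᴴ * W j) +
      (((R + 2 : ℕ) : ℂ) • φ ((δ : ℂ) • (a' * a')) + (η : ℂ) • 1 -
        (2⁻¹ : ℂ) • ∑ i, φ (star (y i) * y i)) ⊗ₖ (1 : Matrix (Fin D') (Fin D') ℂ) :
          Matrix (Fin k × Fin D') (Fin k × Fin D') ℂ) (p, r) (q, s)) =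
      ∑ i, ∑ j, ((W i)ᴴ * W j) r s • φ (star (y i) * y j) +
        (1 : Matrix (Fin D') (Fin D') ℂ) r s • (((R + 2 : ℕ) : ℂ) • φ ((δ : ℂ) • (a' * a')) +
          (η : ℂ) • 1 - (2⁻¹ : ℂ) • ∑ i, φ (star (y i) * y i)) := by
    ext p q
    simp only [Matrix.of_apply, Matrix.add_apply, Matrix.sum_apply, Matrix.kronecker_apply,
      Matrix.smul_apply, smul_eq_mul, mul_comm]
  rw [e1, e4, ← hK, hx]
  generalize φ ((δ : ℂ) • (a' * a')) = Q
  simp only [map_add, map_sub, map_sum, map_smul, smul_add, smul_sub, Finset.sum_add_distrib,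
    Finset.sum_sub_distrib, smul_ite, smul_zero, Finset.sum_ite_eq, Finset.mem_univ, if_true,
    Matrix.sub_apply, Matrix.smul_apply, sub_smul, Fintype.card_fin, Matrix.one_apply,
    Finset.sum_const, Finset.card_univ]
  split_ifs
  · push_cast
    module
  · push_cast
    module

end Vale.Agent.P095
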