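import Vale.Agent.P095.Tools

/-! P095: one-sided intertwining with a cocycle. See skel/P095/BLUEPRINT.md. -/

namespace Vale.Agent.P095

open Filter Topology Vale.Agent.P101 Vale.Agent.P101.F
open scoped ComplexOrder

universe u v w

variable {B : Type u} [CStarAlgebra B] {G : Type v} [Group G] {E : Env B G}
variable {ω : Ultrafilter ℕ}

section Aux

variable {Z D : Type*} [CStarAlgebra Z] [CStarAlgebra D]

lemma inter_cauchy (f : ℕ → D) (m : ℕ) (h : ∀ n, m ≤ n → ‖f (n + 1) - f n‖ ≤ (1 / 2 : ℝ) ^ n) :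
    CauchySeq f := by
  rw [Metric.cauchySeq_iff']
  intro ε hε
  obtain ⟨k, hk, hk'⟩ := exists_half_pow_lt (show 0 < ε / 2 by positivity) m
  refine ⟨k, fun n hn => ?_⟩
  have := inter_tail' f k (fun j hj => h j (hk.trans hj)) n hn
  rw [dist_eq_norm]
  linarith

lemma inter_theta_mem (X : Tens E Z D) {a : B} (ha : a ∈ E.I) : X.θ a ∈ tensI E X.θ X.β :=
  subset_closure (Submodule.subset_span ⟨a, ha, 1, by simp⟩)

lemma inter_dense [TopologicalSpace.SeparableSpace B] [TopologicalSpace.SeparableSpace Z]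
    (X : Tens E Z D) : ∃ d : ℕ → D, (∀ n, d n ∈ tensI E X.θ X.β) ∧
      ∀ y ∈ tensI E X.θ X.β, y ∈ closure (Set.range d) := by
  have hθ : Continuous X.θ := map_continuous X.θ
  have hβ : Continuous X.β := map_continuous X.β
  have h0 : TopologicalSpace.IsSeparable (Set.range fun p : B × Z => X.θ p.1 * X.β p.2) :=
    TopologicalSpace.isSeparable_range ((hθ.comp continuous_fst).mul (hβ.comp continuous_snd))
  have h1 : TopologicalSpace.IsSeparable {d : D | ∃ a ∈ E.I, ∃ z, d = X.θ a * X.β z} :=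
    h0.mono fun d ⟨a, _, z, e⟩ => ⟨(a, z), e.symm⟩
  have h2 : TopologicalSpace.IsSeparable (tensI E X.θ X.β) := (h1.span (R := ℂ)).closure
  obtain ⟨s, hs, hc, hd⟩ := h2.exists_countable_dense_subset
  have hne : s.Nonempty := closure_nonempty_iff.1 ⟨_, hd (inter_theta_mem X E.I.zero_mem)⟩
  obtain ⟨a, rfl⟩ := hc.exists_eq_range hne
  exact ⟨a, fun n => hs ⟨n, rfl⟩, fun b hb => hd hb⟩

lemma inter_unit (σ : D ≃⋆ₐ[ℂ] D) {v : D} (hv : v ∈ unitary D) : σ v ∈ unitary D :=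
  ⟨by rw [← map_star, ← map_mul, hv.1, map_one], by rw [← map_star, ← map_mul, hv.2, map_one]⟩

lemma inter_step2 (X : Tens E Z D) (h : X.Key) (a : ℕ → B) (b : ℕ → D)
    (hb : ∀ n, b n ∈ tensI E X.θ X.β) (g : ℕ → G) (n : ℕ) (s : unitary D × Finset B) :
    ∃ t : unitary D × Finset B, s.2 ⊆ t.2 ∧ a n ∈ t.2 ∧
      (∀ x ∈ s.2, ‖(t.1 : D) * X.θ x * star (t.1 : D) - (s.1 : D) * X.θ x * star (s.1 : D)‖ ≤
        (1 / 2 : ℝ) ^ n) ∧
      (∀ j ≤ n, ∃ x ∈ t.2, x ∈ E.I ∧
        ‖b j - (t.1 : D) * X.θ x * star (t.1 : D)‖ ≤ (1 / 2 : ℝ) ^ n) ∧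
      ∀ j ≤ n, ‖(t.1 : D) * star (X.δ (g j) t.1) - (s.1 : D) * star (X.δ (g j) s.1)‖ ≤
        (1 / 2 : ℝ) ^ n := by
  classical
  obtain ⟨w, F⟩ := s
  obtain ⟨v, hv, h1, h4, h2⟩ := h F ((Finset.range (n + 1)).image fun j => star (w : D) * b j * w)
    ((Finset.range (n + 1)).image g) ((1 / 2 : ℝ) ^ n) (fun d hd => by
      obtain ⟨j, -, rfl⟩ := Finset.mem_image.1 hd
      exact (X.ideal _ (X.ideal _ (hb j) _).1 _).2) (by positivity)
  have h3 : ∀ j, ∃ x, j ≤ n → x ∈ E.I ∧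
      ‖star v * (star (w : D) * b j * w) * v - X.θ x‖ ≤ (1 / 2 : ℝ) ^ n := by
    intro j
    by_cases hj : j ≤ n
    · obtain ⟨x, hx⟩ := h2 _ (Finset.mem_image_of_mem _
        (Finset.mem_range.2 (Nat.lt_succ_of_le hj)))
      exact ⟨x, fun _ => hx⟩
    · exact ⟨0, fun h => absurd h hj⟩
  choose c hc using h3
  have hvv : v * star v = 1 := hv.2
  have hww : (w : D) * star (w : D) = 1 := w.2.2
  refine ⟨(w * ⟨v, hv⟩, insert (a n) (F ∪ (Finset.range (n + 1)).image c)), ?_, ?_, ?_, ?_, ?_⟩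
  · exact Finset.subset_union_left.trans (Finset.subset_insert _ _)
  · exact Finset.mem_insert_self _ _
  · intro x hx
    have e : (w : D) * v * X.θ x * star ((w : D) * v) - (w : D) * X.θ x * star (w : D) =
        ((w : D) * (v * X.θ x - X.θ x * v)) * star ((w : D) * v) := by
      rw [star_mul]
      have : (w : D) * X.θ x * star (w : D) = (w : D) * X.θ x * (v * star v) * star (w : D) := by
        rw [hvv, mul_one]
      rw [this]
      noncomm_ring
    change ‖(w : D) * v * X.θ x * star ((w : D) * v) - (w : D) * X.θ x * star (w : D)‖ ≤ _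
    rw [e, CStarRing.norm_mul_mem_unitary _ (Unitary.star_mem (mul_mem w.2 hv)),
      CStarRing.norm_coe_unitary_mul]
    exact h1 x hx
  · intro j hj
    refine ⟨c j, Finset.mem_insert_of_mem (Finset.mem_union_right _
      (Finset.mem_image_of_mem _ (Finset.mem_range.2 (Nat.lt_succ_of_le hj)))), (hc j hj).1, ?_⟩
    have e : b j - (w : D) * v * X.θ (c j) * star ((w : D) * v) =
        ((w : D) * v) * (star v * (star (w : D) * b j * w) * v - X.θ (c j)) *
          star ((w : D) * v) := by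
      have : b j = ((w : D) * (v * star v) * star (w : D)) * b j *
          ((w : D) * (v * star v) * star (w : D)) := by
        rw [hvv, mul_one, hww, one_mul, mul_one]
      rw [star_mul]
      conv_lhs => rw [this]
      noncomm_ring
    change ‖b j - (w : D) * v * X.θ (c j) * star ((w : D) * v)‖ ≤ _
    rw [e]
    exact (norm_conj_unitary (w * ⟨v, hv⟩) _).trans_le (hc j hj).2
  · intro j hj
    have hu := inter_unit (X.δ (g j)) hv
    have huu : X.δ (g j) v * star (X.δ (g j) v) = 1 := hu.2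
    have e : (w : D) * v * star (X.δ (g j) ((w : D) * v)) - (w : D) * star (X.δ (g j) w) =
        -(((w : D) * (X.δ (g j) v - v)) * star (X.δ (g j) ((w : D) * v))) := by
      rw [map_mul, star_mul]
      have : (w : D) * star (X.δ (g j) w) =
          (w : D) * (X.δ (g j) v * star (X.δ (g j) v)) * star (X.δ (g j) w) := by
        rw [huu, mul_one]
      rw [this]
      noncomm_ring
    change ‖(w : D) * v * star (X.δ (g j) ((w : D) * v)) - (w : D) * star (X.δ (g j) w)‖ ≤ _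
    rw [e, norm_neg, CStarRing.norm_mul_mem_unitary _
      (Unitary.star_mem (inter_unit _ (mul_mem w.2 hv))), CStarRing.norm_coe_unitary_mul]
    exact h4 _ (Finset.mem_image_of_mem _ (Finset.mem_range.2 (Nat.lt_succ_of_le hj)))

end Aux

theorem conj_of_key [TopologicalSpace.SeparableSpace B] [Countable G] {Z D : Type*}
    [CStarAlgebra Z] [TopologicalSpace.SeparableSpace Z] [CStarAlgebra D] (X : Tens E Z D)
    (h : X.Key) : X.Conj := by
  obtain ⟨a, ha⟩ := TopologicalSpace.exists_dense_seq B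
  obtain ⟨b, hb, hbd⟩ := inter_dense X
  obtain ⟨g, hg⟩ := exists_surjective_nat G
  choose st hst using inter_step2 X h a b hb g
  let s : ℕ → unitary D × Finset B := fun n => Nat.rec (1, ∅) (fun k t => st k t) n
  let w : ℕ → D := fun n => (s n).1
  have hw : ∀ n, w n ∈ unitary D := fun n => (s n).1.2
  let F : ℕ → Finset B := fun n => (s n).2
  let φ : ℕ → B →⋆ₐ[ℂ] D := fun n =>
    ((Unitary.conjStarAlgAut ℂ D (s n).1 : D ≃⋆ₐ[ℂ] D) : D →⋆ₐ[ℂ] D).comp X.θ
  have hφ : ∀ n x, φ n x = w n * X.θ x * star (w n) := fun _ _ => rfl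
  have hF : Monotone F := monotone_nat_of_le_succ fun n => (hst n (s n)).1
  have haF : ∀ n, a n ∈ F (n + 1) := fun n => (hst n (s n)).2.1
  have h1 : ∀ n, ∀ x ∈ F n, ‖φ (n + 1) x - φ n x‖ ≤ (1 / 2 : ℝ) ^ n :=
    fun n x hx => (hst n (s n)).2.2.1 x hx
  have h2 : ∀ n, ∀ j ≤ n, ∃ x ∈ F (n + 1), x ∈ E.I ∧ ‖b j - φ (n + 1) x‖ ≤ (1 / 2 : ℝ) ^ n :=
    fun n j hj => (hst n (s n)).2.2.2.1 j hj
  have h3 : ∀ n, ∀ j ≤ n, ‖w (n + 1) * star (X.δ (g j) (w (n + 1))) -
      w n * star (X.δ (g j) (w n))‖ ≤ (1 / 2 : ℝ) ^ n :=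
    fun n j hj => (hst n (s n)).2.2.2.2 j hj
  have hn0 : ∀ n x, ‖φ n x‖ = ‖X.θ x‖ := fun n x => norm_conj_unitary (s n).1 _
  have hn : ∀ n x, ‖φ n x‖ ≤ ‖x‖ := fun n x => NonUnitalStarAlgHom.norm_apply_le (φ n) x
  clear_value φ F w
  clear hst s st
  have ht : ∀ m, ∀ x ∈ F m, ∀ n, m ≤ n → ‖φ n x - φ m x‖ ≤ 2 * (1 / 2 : ℝ) ^ m :=
    fun m x hx n hmn => inter_tail' (fun n => φ n x) m (fun k hk => h1 k x (hF hk hx)) n hmn
  have hc : ∀ x, CauchySeq fun n => φ n x := by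
    intro x
    rw [Metric.cauchySeq_iff']
    intro ε hε
    obtain ⟨j, hj⟩ := ha.exists_dist_lt x (show 0 < ε / 4 by positivity)
    obtain ⟨m, hm, hm'⟩ := exists_half_pow_lt (show 0 < ε / 4 by positivity) (j + 1)
    refine ⟨m, fun n hmn => ?_⟩
    have e1 := ht m (a j) (hF hm (haF j)) n hmn
    have e2 : φ n x - φ m x =
        φ n (x - a j) + (φ n (a j) - φ m (a j)) - φ m (x - a j) := by
      simp only [map_sub]; abel
    rw [dist_eq_norm] at hj
    rw [dist_eq_norm, e2]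
    have e3 := norm_sub_le (φ n (x - a j) + (φ n (a j) - φ m (a j))) (φ m (x - a j))
    have e4 := norm_add_le (φ n (x - a j)) (φ n (a j) - φ m (a j))
    have e5 := hn n (x - a j)
    have e6 := hn m (x - a j)
    linarith
  choose ψ hψ using fun x => cauchySeq_tendsto_of_complete (hc x)
  obtain ⟨Ψ, hΨ⟩ : ∃ Ψ : B →⋆ₐ[ℂ] D, ∀ x, Tendsto (fun n => φ n x) atTop (𝓝 (Ψ x)) :=
    ⟨limHom φ ψ hψ, hψ⟩
  have hu0 : ∀ γ : G, CauchySeq fun n => w n * star (X.δ γ (w n)) := fun γ => by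
    obtain ⟨j, rfl⟩ := hg γ
    exact inter_cauchy _ j fun n hn => h3 n j hn
  choose u hu using fun γ => cauchySeq_tendsto_of_complete (hu0 γ)
  have hδ : ∀ γ, Continuous (X.δ γ) := fun γ => (StarAlgEquiv.isometry (X.δ γ)).continuous
  have hnorm : ∀ x ∈ E.I, ‖Ψ x‖ = ‖x‖ := fun x hx =>
    tendsto_nhds_unique (hΨ x).norm (by simp only [hn0, X.iso x hx]; exact tendsto_const_nhds)
  refine ⟨Ψ, u, hnorm, Set.Subset.antisymm ?_ ?_, fun γ => ?_, fun γ γ' => ?_, fun γ x => ?_⟩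
  · rintro _ ⟨x, hx, rfl⟩
    refine isClosed_closure.mem_of_tendsto (hΨ x) (Eventually.of_forall fun n => ?_)
    rw [hφ]
    exact (X.ideal _ (X.ideal _ (inter_theta_mem X hx) _).1 _).2
  · have := E.closed.completeSpace_coe
    have hiso : Isometry fun x : (E.I : Set B) => Ψ x := Isometry.of_dist_eq fun x y => by
      rw [Subtype.dist_eq, dist_eq_norm, dist_eq_norm, ← map_sub]
      exact hnorm _ (E.I.sub_mem x.2 y.2)
    have hcl : IsClosed (Ψ '' (E.I : Set B)) := by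
      rw [Set.image_eq_range]
      exact hiso.isClosedEmbedding.isClosed_range
    intro y hy
    rw [← hcl.closure_eq, Metric.mem_closure_iff]
    intro ε hε
    obtain ⟨_, ⟨j, rfl⟩, hj⟩ := Metric.mem_closure_iff.1 (hbd y hy) (ε / 3) (by positivity)
    obtain ⟨m, hm, hm'⟩ := exists_half_pow_lt (show 0 < ε / 3 by positivity) j
    obtain ⟨x, hx, hxI, hx'⟩ := h2 m j hm
    have e1 : ‖Ψ x - φ (m + 1) x‖ ≤ 2 * (1 / 2 : ℝ) ^ (m + 1) :=
      le_of_tendsto ((hΨ x).sub_const _).norm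
        ((eventually_ge_atTop (m + 1)).mono fun n hn => ht (m + 1) x hx n hn)
    refine ⟨Ψ x, ⟨x, hxI, rfl⟩, ?_⟩
    rw [dist_eq_norm] at hj ⊢
    have e2 : y - Ψ x = (y - b j) + (b j - φ (m + 1) x) - (Ψ x - φ (m + 1) x) := by abel
    have e3 := norm_sub_le ((y - b j) + (b j - φ (m + 1) x)) (Ψ x - φ (m + 1) x)
    have e4 := norm_add_le (y - b j) (b j - φ (m + 1) x)
    rw [pow_succ] at e1
    rw [e2]
    linarith
  · have k : ∀ n, w n * star (X.δ γ (w n)) ∈ unitary D := fun n =>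
      mul_mem (hw n) (Unitary.star_mem (inter_unit _ (hw n)))
    constructor
    · refine tendsto_nhds_unique ((hu γ).star.mul (hu γ)) ?_
      simp only [fun n => (k n).1]
      exact tendsto_const_nhds
    · refine tendsto_nhds_unique ((hu γ).mul (hu γ).star) ?_
      simp only [fun n => (k n).2]
      exact tendsto_const_nhds
  · refine tendsto_nhds_unique (hu (γ * γ')) ?_
    refine ((hu γ).mul (((hδ γ).tendsto _).comp (hu γ'))).congr fun n => ?_
    have k : star (X.δ γ (w n)) * X.δ γ (w n) = 1 := (inter_unit _ (hw n)).1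
    simp only [Function.comp_apply, map_mul, map_star, StarAlgEquiv.mul_apply]
    rw [mul_assoc, ← mul_assoc (star (X.δ γ (w n))), k, one_mul]
  · refine tendsto_nhds_unique (hΨ (E.α γ x)) ?_
    refine (((hu γ).mul (((hδ γ).tendsto _).comp (hΨ x))).mul (hu γ).star).congr fun n => ?_
    have k : star (X.δ γ (w n)) * X.δ γ (w n) = 1 := (inter_unit _ (hw n)).1
    simp only [Function.comp_apply, hφ, map_mul, map_star, star_mul, star_star, X.δθ]
    calc w n * star (X.δ γ (w n)) * (X.δ γ (w n) * X.θ (E.α γ x) * star (X.δ γ (w n))) *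
          (X.δ γ (w n) * star (w n))
        = w n * (star (X.δ γ (w n)) * X.δ γ (w n)) * X.θ (E.α γ x) *
          (star (X.δ γ (w n)) * X.δ γ (w n)) * star (w n) := by noncomm_ring
      _ = _ := by rw [k, mul_one, mul_one]

end Vale.Agent.P095
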