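import Vale.Agent.P095.Basic

/-! P095: min-wise hashing of multisets. See skel/P095/BLUEPRINT.md. -/

namespace Vale.Agent.P095

open Filter Topology Vale.Agent.P101 Vale.Agent.P101.F
open scoped ComplexOrder

universe u v w

section Core

open Finset

variable {P : Type} [Fintype P] [DecidableEq P] {R : ℕ}

/-- a point of `U` with the least label -/
noncomputable def minhashSel [Nonempty P] (l : P → Fin R) (U : Finset P) : P :=
  Classical.epsilon fun p => p ∈ U ∧ ∀ q ∈ U, l p ≤ l q

omit [Fintype P] [DecidableEq P] in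
theorem minhash_sel_spec [Nonempty P] (l : P → Fin R) {U : Finset P} (hU : U.Nonempty) :
    minhashSel l U ∈ U ∧ ∀ q ∈ U, l (minhashSel l U) ≤ l q :=
  Classical.epsilon_spec (p := fun p => p ∈ U ∧ ∀ q ∈ U, l p ≤ l q) (exists_min_image U l hU)

omit [Fintype P] [DecidableEq P] in
theorem minhash_sel_congr [Nonempty P] {l l' : P → Fin R} {U : Finset P}
    (h : ∀ p ∈ U, l p = l' p) : minhashSel l U = minhashSel l' U := by
  unfold minhashSel
  refine congrArg Classical.epsilon (funext fun p => propext ⟨?_, ?_⟩)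
  · rintro ⟨h1, h2⟩
    exact ⟨h1, fun q hq => by rw [← h p h1, ← h q hq]; exact h2 q hq⟩
  · rintro ⟨h1, h2⟩
    exact ⟨h1, fun q hq => by rw [h p h1, h q hq]; exact h2 q hq⟩

/-- labellings for which `p` is the strict minimum on `U` -/
def minhashM (R : ℕ) (U : Finset P) (p : P) : Finset (P → Fin R) :=
  univ.filter fun l => ∀ q ∈ U, q ≠ p → l p < l q

theorem minhash_M_le {U : Finset P} {p p' : P} (hp : p ∈ U) :
    (minhashM R U p).card ≤ (minhashM R U p').card ∨ p' ∉ U := by
  by_cases hp' : p' ∈ U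
  · left
    refine card_le_card_of_injOn (fun l => l ∘ Equiv.swap p p') ?_ ?_
    · intro l hl
      simp only [minhashM, coe_filter, mem_univ, true_and, Set.mem_ofPred_eq] at hl ⊢
      intro q hq hqp
      simp only [Function.comp, Equiv.swap_apply_right]
      by_cases h : q = p
      · subst h
        rw [Equiv.swap_apply_left]
        exact hl p' hp' hqp.symm
      · rw [Equiv.swap_apply_of_ne_of_ne h hqp]
        exact hl q hq h
    · intro l _ l' _ h
      exact (Equiv.swap p p').surjective.injective_comp_right h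
  · exact Or.inr hp'

theorem minhash_M_card {U : Finset P} {p : P} (hp : p ∈ U) :
    (minhashM R U p).card * U.card ≤ Fintype.card (P → Fin R) := by
  have h1 : (U.biUnion (minhashM R U)).card = ∑ q ∈ U, (minhashM R U q).card := by
    refine card_biUnion fun a ha b hb hab => ?_
    refine disjoint_left.2 fun l h1 h2 => ?_
    simp only [minhashM, mem_filter, mem_univ, true_and] at h1 h2
    exact lt_asymm (h1 b hb hab.symm) (h2 a ha hab)
  have h2 : (minhashM R U p).card * U.card ≤ ∑ q ∈ U, (minhashM R U q).card := by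
    rw [mul_comm, ← smul_eq_mul, ← sum_const]
    exact sum_le_sum fun q hq => (minhash_M_le hp).resolve_right (not_not.2 hq)
  rw [← h1] at h2
  exact h2.trans (card_le_univ _)

theorem minhash_tie {p q : P} (h : p ≠ q) :
    (univ.filter fun l : P → Fin R => l p = l q).card * R ≤ Fintype.card (P → Fin R) := by
  have h1 : ((univ.filter fun l : P → Fin R => l p = l q) ×ˢ (univ : Finset (Fin R))).card ≤
      (univ : Finset (P → Fin R)).card := by
    refine card_le_card_of_injOn (fun x => Function.update x.1 p x.2) (fun _ _ => by simp) ?_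
    rintro ⟨l, c⟩ h1 ⟨l', c'⟩ h2 h3
    simp only [coe_product, coe_filter, mem_univ, true_and, Set.mem_prod, Set.mem_ofPred_eq] at h1 h2
    have h4 : ∀ x, x ≠ p → l x = l' x := fun x hx => by
      simpa [Function.update_of_ne hx] using congrFun h3 x
    have h5 : c = c' := by simpa using congrFun h3 p
    refine Prod.ext (funext fun x => ?_) h5
    by_cases hx : x = p
    · subst hx
      exact h1.1.trans ((h4 q h.symm).trans h2.1.symm)
    · exact h4 x hx
  simpa using h1

open Classical in
theorem minhash_core [Nonempty P] (hR : 0 < R) {n d : ℕ} (hn : 0 < n) {U V : Finset P}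
    (hU : U.card = n) (hV : V.card = n) (hd : (U \ V).card ≤ d) :
    ((univ.filter fun l : P → Fin R => minhashSel l U ≠ minhashSel l V).card : ℝ) ≤
      (2 * d / n + 4 * n ^ 2 / R) * Fintype.card (P → Fin R) := by
  have hU0 : U.Nonempty := card_pos.1 (hU ▸ hn)
  have hV0 : V.Nonempty := card_pos.1 (hV ▸ hn)
  have hn' : (0 : ℝ) < n := by exact_mod_cast hn
  have hR' : (0 : ℝ) < R := by exact_mod_cast hR
  obtain ⟨N, hN⟩ : ∃ N : ℝ, N = Fintype.card (P → Fin R) := ⟨_, rfl⟩
  have hN0 : 0 ≤ N := hN ▸ Nat.cast_nonneg _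
  have hsub : (univ.filter fun l : P → Fin R => minhashSel l U ≠ minhashSel l V) ⊆
      ((U \ V) ∪ (V \ U)).biUnion (minhashM R (U ∪ V)) ∪
        (U ∪ V).offDiag.biUnion fun x => univ.filter fun l : P → Fin R => l x.1 = l x.2 := by
    intro l hl
    have hl' := (mem_filter.1 hl).2
    by_contra hc
    simp only [mem_union, mem_biUnion, not_or, not_exists, not_and] at hc
    obtain ⟨p, hp, hmin⟩ := exists_min_image (U ∪ V) l (hU0.mono subset_union_left)
    have hM : ∀ q ∈ U ∪ V, q ≠ p → l p < l q := fun q hq hqp =>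
      lt_of_le_of_ne (hmin q hq) fun h => hc.2 (p, q) (mem_offDiag.2 ⟨hp, hq, hqp.symm⟩)
        (mem_filter.2 ⟨mem_univ _, h⟩)
    have hM' : l ∈ minhashM R (U ∪ V) p := mem_filter.2 ⟨mem_univ _, hM⟩
    have hpU : p ∈ U := by
      by_contra h
      exact hc.1 p (Or.inr (mem_sdiff.2 ⟨(mem_union.1 hp).resolve_left h, h⟩)) hM'
    have hpV : p ∈ V := by
      by_contra h
      exact hc.1 p (Or.inl (mem_sdiff.2 ⟨hpU, h⟩)) hM'
    have e1 : minhashSel l U = p := by
      by_contra h
      have := minhash_sel_spec l hU0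
      exact absurd (this.2 p hpU) (not_le.2 (hM _ (mem_union_left _ this.1) h))
    have e2 : minhashSel l V = p := by
      by_contra h
      have := minhash_sel_spec l hV0
      exact absurd (this.2 p hpV) (not_le.2 (hM _ (mem_union_right _ this.1) h))
    exact hl' (e1.trans e2.symm)
  have hW1 : n ≤ (U ∪ V).card := hU ▸ card_le_card subset_union_left
  have hW2 : (U ∪ V).card ≤ 2 * n := (card_union_le _ _).trans (by omega)
  have a1 : ∀ p ∈ (U \ V) ∪ (V \ U), ((minhashM R (U ∪ V) p).card : ℝ) ≤ N / n := fun p hp => by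
    have hp' : p ∈ U ∪ V := by
      rcases mem_union.1 hp with h | h
      · exact mem_union_left _ (mem_sdiff.1 h).1
      · exact mem_union_right _ (mem_sdiff.1 h).1
    rw [le_div_iff₀ hn', hN]
    exact_mod_cast (Nat.mul_le_mul_left _ hW1).trans (minhash_M_card hp')
  have a2 : ∀ x ∈ (U ∪ V).offDiag,
      ((univ.filter fun l : P → Fin R => l x.1 = l x.2).card : ℝ) ≤ N / R := fun x hx => by
    rw [le_div_iff₀ hR', hN]
    exact_mod_cast minhash_tie (mem_offDiag.1 hx).2.2
  have c1 : (((U \ V) ∪ (V \ U)).card : ℝ) ≤ 2 * d := by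
    have h1 := card_union_le (U \ V) (V \ U)
    have h2 : (V \ U).card = (U \ V).card := card_sdiff_comm (hV.trans hU.symm)
    exact_mod_cast (show ((U \ V) ∪ (V \ U)).card ≤ 2 * d by omega)
  have c2 : ((U ∪ V).offDiag.card : ℝ) ≤ 4 * n ^ 2 := by
    have h1 : (U ∪ V).offDiag.card ≤ (2 * n) * (2 * n) := by
      rw [offDiag_card]
      exact (Nat.sub_le _ _).trans (Nat.mul_le_mul hW2 hW2)
    exact_mod_cast (show (U ∪ V).offDiag.card ≤ 4 * n ^ 2 by nlinarith)
  have b1 : ((((U \ V) ∪ (V \ U)).biUnion (minhashM R (U ∪ V))).card : ℝ) ≤ 2 * d * (N / n) := by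
    refine (Nat.cast_le.2 card_biUnion_le).trans ?_
    push_cast
    refine (sum_le_sum a1).trans ?_
    rw [sum_const, nsmul_eq_mul]
    exact mul_le_mul_of_nonneg_right c1 (by positivity)
  have b2 : (((U ∪ V).offDiag.biUnion fun x => univ.filter fun l : P → Fin R =>
      l x.1 = l x.2).card : ℝ) ≤ 4 * n ^ 2 * (N / R) := by
    refine (Nat.cast_le.2 card_biUnion_le).trans ?_
    push_cast
    refine (sum_le_sum a2).trans ?_
    rw [sum_const, nsmul_eq_mul]
    exact mul_le_mul_of_nonneg_right c2 (by positivity)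
  have b3 := (Nat.cast_le (α := ℝ)).2 ((card_le_card hsub).trans (card_union_le _ _))
  push_cast at b3
  rw [← hN]
  calc _ ≤ 2 * d * (N / n) + 4 * n ^ 2 * (N / R) := by linarith
    _ = _ := by ring

variable {X : Type} [Fintype X] [DecidableEq X]

/-- the points of a multiset, with their multiplicities made distinct -/
def minhashU (n : ℕ) (A : Multiset X) : Finset (X × Fin n) :=
  univ.filter fun p => p.2.val < A.count p.1

theorem minhash_U_mem {n : ℕ} {A : Multiset X} {p : X × Fin n} (hp : p ∈ minhashU n A) :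
    p.1 ∈ A := Multiset.count_pos.1 (lt_of_le_of_lt (Nat.zero_le _) (mem_filter.1 hp).2)

theorem minhash_sum_count (A : Multiset X) : ∑ x, A.count x = Multiset.card A :=
  Multiset.sum_count_eq_card fun _ _ => mem_univ _

theorem minhash_U_card {n : ℕ} {A : Multiset X} (h : Multiset.card A = n) :
    (minhashU n A).card = n := by
  rw [card_eq_sum_card_fiberwise (f := Prod.fst) (t := univ) (by simp)]
  conv_rhs => rw [← h, ← minhash_sum_count]
  refine sum_congr rfl fun x _ => ?_
  have hx : A.count x ≤ n := h ▸ Multiset.count_le_card x A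
  rw [← card_range (A.count x)]
  refine card_bij (fun p _ => p.2.val) ?_ ?_ ?_
  · intro p hp
    have h1 := mem_filter.1 hp
    rw [mem_range, ← h1.2]
    exact (mem_filter.1 h1.1).2
  · intro p hp q hq hpq
    exact Prod.ext ((mem_filter.1 hp).2.trans (mem_filter.1 hq).2.symm) (Fin.ext hpq)
  · intro k hk
    have hk' := mem_range.1 hk
    exact ⟨(x, ⟨k, lt_of_lt_of_le hk' hx⟩),
      mem_filter.2 ⟨mem_filter.2 ⟨mem_univ _, hk'⟩, rfl⟩, rfl⟩

theorem minhash_U_sdiff (n : ℕ) (A A' : Multiset X) :
    (minhashU n A \ minhashU n A').card ≤ Multiset.card (A - A') := by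
  rw [card_eq_sum_card_fiberwise (f := Prod.fst) (t := univ) (by simp), ← minhash_sum_count]
  refine sum_le_sum fun x _ => ?_
  rw [Multiset.count_sub, ← Nat.card_Ico]
  refine card_le_card_of_injOn (fun p => p.2.val) ?_ ?_
  · intro p hp
    have h1 := mem_filter.1 (mem_coe.1 hp)
    have h2 := mem_sdiff.1 h1.1
    have h3 := (mem_filter.1 h2.1).2
    have h4 : ¬ p.2.val < A'.count p.1 := fun h => h2.2 (mem_filter.2 ⟨mem_univ _, h⟩)
    rw [h1.2] at h3 h4
    exact mem_coe.2 (mem_Ico.2 ⟨not_lt.1 h4, h3⟩)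
  · intro p hp q hq hpq
    exact Prod.ext ((mem_filter.1 (mem_coe.1 hp)).2.trans (mem_filter.1 (mem_coe.1 hq)).2.symm)
      (Fin.ext hpq)

end Core

open Classical in
theorem exists_minhash (n : ℕ) (hn : 0 < n) {ε : ℝ} (hε : 0 < ε) (X : Type) [Fintype X]
    [DecidableEq X] [Nonempty X] :
    ∃ (Λ : Type) (_ : Fintype Λ) (_ : Nonempty Λ) (σ : (X → Λ) → Multiset X → X),
      (∀ r A, Multiset.card A = n → σ r A ∈ A) ∧
      (∀ r r' A, (∀ x ∈ A, r x = r' x) → σ r A = σ r' A) ∧
      ∀ A A' : Multiset X, Multiset.card A = n → Multiset.card A' = n →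
        ((Finset.univ.filter fun r : X → Λ => σ r A ≠ σ r A').card : ℝ) ≤
          (2 * Multiset.card (A - A') / n + ε) * Fintype.card (X → Λ) := by
  obtain ⟨R, hR⟩ := exists_nat_gt (4 * (n : ℝ) ^ 2 / ε)
  have hR0 : (0 : ℝ) < R := lt_of_le_of_lt (by positivity) hR
  have hR1 : 0 < R := by exact_mod_cast hR0
  have : Nonempty (Fin n) := ⟨⟨0, hn⟩⟩
  have : Nonempty (Fin R) := ⟨⟨0, hR1⟩⟩
  refine ⟨Fin n → Fin R, inferInstance, inferInstance,
    fun r A => (minhashSel (Function.uncurry r) (minhashU n A)).1, fun r A hA => ?_,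
    fun r r' A h => ?_, fun A A' hA hA' => ?_⟩
  · exact minhash_U_mem (minhash_sel_spec _ (Finset.card_pos.1 (by
      rw [minhash_U_card hA]; exact hn))).1
  · refine congrArg Prod.fst (minhash_sel_congr fun p hp => ?_)
    exact congrFun (h p.1 (minhash_U_mem hp)) p.2
  · have key := minhash_core hR1 hn (minhash_U_card hA) (minhash_U_card hA')
      (minhash_U_sdiff n A A')
    have e1 : Fintype.card (X × Fin n → Fin R) = Fintype.card (X → Fin n → Fin R) :=
      Fintype.card_congr (Equiv.curry X (Fin n) (Fin R))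
    rw [e1] at key
    have h1 : 4 * (n : ℝ) ^ 2 / R ≤ ε := by
      rw [div_le_iff₀ hR0]
      rw [div_lt_iff₀ hε] at hR
      linarith
    refine le_trans (Nat.cast_le.2 ?_) (key.trans
      (mul_le_mul_of_nonneg_right (by linarith) (Nat.cast_nonneg _)))
    refine Finset.card_le_card_of_injOn Function.uncurry ?_ ?_
    · intro r hr
      exact Finset.mem_coe.2 (Finset.mem_filter.2 ⟨Finset.mem_univ _, fun h =>
        (Finset.mem_filter.1 (Finset.mem_coe.1 hr)).2 (congrArg Prod.fst h)⟩)
    · intro r _ r' _ h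
      exact Function.uncurry_injective h

end Vale.Agent.P095
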