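import Vale.Agent.P095.Hash
import Vale.Agent.P095.MinHash

/-! P095: the invariant copy of `M_2`. See skel/P095/BLUEPRINT.md. -/

namespace Vale.Agent.P095

open Filter Topology Vale.Agent.P101 Vale.Agent.P101.F
open scoped ComplexOrder

universe u v w

variable {Q : Type u} [CStarAlgebra Q] {G : Type v} [Group G]
variable {α : G →* (Q ≃⋆ₐ[ℂ] Q)} {T : Set (Q →L[ℂ] ℂ)}


namespace InvPairAux

/-- A partition commuting with the range of `P` glues copies of `P`. -/
theorem exists_psi {A : Type*} [Ring A] [Algebra ℂ A] [StarRing A] {Ω : Type} [Fintype Ω]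
    {p : Ω → Q} (hp : Part p) (P : A →⋆ₐ[ℂ] Q) (hc : ∀ r f, Commute (p r) (P f)) :
    ∃ Ψ : (Ω → A) →⋆ₐ[ℂ] Q, ∀ f, Ψ f = ∑ r, p r * P (f r) :=
  ⟨{ toFun := fun f => ∑ r, p r * P (f r)
     map_one' := by simp [hp.sum]
     map_mul' := fun f g => by
       rw [hp.sum_mul_sum _ _ fun i j => hc i (f j)]
       simp
     map_zero' := by simp
     map_add' := fun f g => by simp [mul_add, Finset.sum_add_distrib]
     commutes' := fun c => by
       simp only [Pi.algebraMap_apply, AlgHomClass.commutes, ← Finset.sum_mul, hp.sum, one_mul]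
     map_star' := fun f => by
       rw [star_sum]
       refine Finset.sum_congr rfl fun r _ => ?_
       rw [star_mul, hp.sa, ← map_star, ← (hc r _).eq]
       rfl }, fun _ => rfl⟩

theorem split {A : Type*} [CommRing A] [Algebra ℂ A] [StarRing A] (Ψ : A →⋆ₐ[ℂ] Q) {n : ℕ}
    {u u' : Fin n → A} (hu : ∑ i, u i = 1) (hu' : ∑ i, u' i = 1) (gd : A) (a a' : Fin n → Q) :
    ∑ j, Ψ (u' j) * a' j - ∑ i, Ψ (u i) * a i =
      ∑ i, ∑ j, Ψ (gd * u i * u' j) * (a' j - a i) +
        Ψ (1 - gd) * (∑ j, Ψ (u' j) * a' j - ∑ i, Ψ (u i) * a i) := by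
  have h1 : ∑ i, ∑ j, Ψ (gd * u i * u' j) * a' j = Ψ gd * ∑ j, Ψ (u' j) * a' j := by
    rw [Finset.sum_comm, Finset.mul_sum]
    refine Finset.sum_congr rfl fun j _ => ?_
    rw [← Finset.sum_mul, ← map_sum, ← Finset.sum_mul, ← Finset.mul_sum, hu, mul_one, map_mul,
      mul_assoc]
  have h2 : ∑ i, ∑ j, Ψ (gd * u i * u' j) * a i = Ψ gd * ∑ i, Ψ (u i) * a i := by
    rw [Finset.mul_sum]
    refine Finset.sum_congr rfl fun i _ => ?_
    rw [← Finset.sum_mul, ← map_sum, ← Finset.mul_sum, hu', mul_one, map_mul, mul_assoc]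
  simp only [mul_sub, Finset.sum_sub_distrib, h1, h2, map_sub, map_one, sub_mul, one_mul]
  abel

open Classical in
/-- The selection and the indicator functions. -/
theorem exists_sel {L : ℕ} {Ω : Type} (F : Finset G) (hn : 0 < F.card)
    (σ : Ω → Multiset (Fin L → Bool) → Fin L → Bool)
    (hσ : ∀ r A, Multiset.card A = F.card → σ r A ∈ A) :
    ∃ (φ : Fin F.card → G) (sel : Ω → (G × Fin L → Bool) → Fin F.card)
      (u : Fin F.card → Ω → C(G × Fin L → Bool, ℂ)) (gd : G → Ω → C(G × Fin L → Bool, ℂ)),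
      (∀ r x l, x (φ (sel r x), l) = σ r (loc F x) l) ∧
      (∀ i r x, u i r x = if sel r x = i then 1 else 0) ∧
      ∀ s r x, gd s r x = if σ r (loc F x) = σ r (loc F (shiftG s x)) then 1 else 0 := by
  have : Nonempty (Fin F.card) := ⟨⟨0, hn⟩⟩
  let φ : Fin F.card → G := fun i => F.equivFin.symm i
  have hloc : ∀ x y : G × Fin L → Bool, (∀ i ∈ F ×ˢ Finset.univ, x i = y i) → loc F x = loc F y :=
    fun x y h => Multiset.map_congr rfl fun g hg => funext fun l =>
      h (g, l) (Finset.mem_product.2 ⟨hg, Finset.mem_univ _⟩)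
  let sel : Ω → (G × Fin L → Bool) → Fin F.card := fun r x =>
    Classical.epsilon fun i => (fun l => x (φ i, l)) = σ r (loc F x)
  have h1 : ∀ r x, (fun l => x (φ (sel r x), l)) = σ r (loc F x) := fun r x => by
    refine Classical.epsilon_spec (p := fun i => (fun l => x (φ i, l)) = σ r (loc F x)) ?_
    obtain ⟨g, hg, e⟩ := Multiset.mem_map.1 (hσ r _ (card_loc F x))
    refine ⟨F.equivFin ⟨g, hg⟩, ?_⟩
    refine Eq.trans ?_ e
    simp only [φ, Equiv.symm_apply_apply]
  have h2 : ∀ r x y, (∀ i ∈ F ×ˢ Finset.univ, x i = y i) → sel r x = sel r y := fun r x y h => by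
    refine congrArg Classical.epsilon (funext fun i => ?_)
    rw [hloc x y h, funext fun l =>
      h (φ i, l) (Finset.mem_product.2 ⟨(F.equivFin.symm i).2, Finset.mem_univ _⟩)]
  have h3 : ∀ r, Continuous fun x => σ r (loc F x) := fun r =>
    continuous_of_local (F ×ˢ Finset.univ) _ fun x y h => by rw [hloc x y h]
  exact ⟨φ, sel, fun i r => ⟨fun x => if sel r x = i then 1 else 0,
      continuous_of_local (F ×ˢ Finset.univ) _ fun x y h => by rw [h2 r x y h]⟩,
    fun s r => ⟨fun x => if σ r (loc F x) = σ r (loc F (shiftG s x)) then 1 else 0,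
      (continuous_of_discreteTopology (f := fun p : (Fin L → Bool) × (Fin L → Bool) =>
        if p.1 = p.2 then (1 : ℂ) else 0)).comp
          ((h3 r).prodMk ((h3 r).comp (shiftG s).continuous))⟩,
    fun r x l => congrFun (h1 r x) l, fun _ _ _ => rfl, fun _ _ _ => rfl⟩

theorem part_map {A : Type*} [Ring A] [Algebra ℂ A] [StarRing A] (Ψ : A →⋆ₐ[ℂ] Q) {n : ℕ}
    {u : Fin n → A} (h1 : ∀ i, star (u i) = u i) (h2 : ∀ i, u i * u i = u i)
    (h3 : ∀ i j, i ≠ j → u i * u j = 0) (h4 : ∑ i, u i = 1) : Part fun i => Ψ (u i) :=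
  ⟨fun i => by rw [← map_star, h1], fun i => by rw [← map_mul, h2],
    fun i j h => by rw [← map_mul, h3 i j h, map_zero], by rw [← map_sum, h4, map_one]⟩

theorem symm_of_pair {h : Bool → Q} (hp : Pair (h true) (h false)) : ∀ b, Symm (h b)
  | true => hp.fst
  | false => hp.snd

theorem approx (hT : TSat α T) [Countable G] (hF : Folner G) (K : Finset G) {ε : ℝ} (hε : 0 < ε) :
    ∃ H : Bool → Q, Pair (H true) (H false) ∧
      ∀ s ∈ K, ∀ b, ∀ τ ∈ T, nrm τ (α s (H b) - H b) ≤ ε := by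
  classical
  obtain ⟨h, hp, hh⟩ := hT.exists_hash hF
  obtain ⟨F, hF0, hFK⟩ := hF K (ε ^ 2 / 64) (by positivity)
  have hn : 0 < F.card := hF0.card_pos
  have hn' : (0 : ℝ) < F.card := by exact_mod_cast hn
  obtain ⟨L, e, he, hee, heh, hhash⟩ := hh (ε / (2 * F.card ^ 2)) (by positivity)
  obtain ⟨Λ, _, _, σ, hσ, -, hσ'⟩ :=
    exists_minhash F.card hn (ε := ε ^ 2 / 32) (by positivity) (Fin L → Bool)
  obtain ⟨P, hP⟩ := exists_bitsHom (fun p : G × Fin L => α p.1 (e p.2)) (fun p => (he _).act _)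
    fun _ _ => hee _ _ _ _
  obtain ⟨φ, sel, u, gd, hsel, hu, hgd⟩ := exists_sel F hn σ hσ
  obtain ⟨p, hpp, hpα, hpc, hpτ⟩ := hT.exists_gamma hF
    ((Set.range fun q : G × Fin L => α q.1 (e q.2)) ∪ (Set.range fun q : G × Bool => α q.1 (h q.2)) ∪
      Set.range fun q : G × ((Fin L → Bool) → Λ) => P (1 - gd q.1 q.2))
    (((Set.countable_range _).union (Set.countable_range _)).union (Set.countable_range _))
    ((Fin L → Bool) → Λ)
  have hpP : ∀ r f, Commute (p r) (P f) := fun r f => (bits_commute P (fun q => by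
    rw [hP]
    exact (hpc r _ (.inl (.inl ⟨q, rfl⟩))).symm) f).symm
  obtain ⟨Ψ, hΨ⟩ := exists_psi hpp P hpP
  have hΨh : ∀ f g b, Commute (Ψ f) (α g (h b)) := fun f g b => by
    rw [hΨ]
    refine Commute.sum_left _ _ _ fun r _ => Commute.mul_left (hpc r _ (.inl (.inr ⟨(g, b), rfl⟩)))
      (bits_commute P (fun q => ?_) _)
    rw [hP]
    exact heh _ _ _ _
  have hΨe : ∀ g l, Ψ (fun _ => sgn (g, l)) = α g (e l) := fun g l => by
    rw [hΨ, ← Finset.sum_mul, hpp.sum, one_mul, hP]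
  have hΨα : ∀ s f, α s (Ψ f) = Ψ fun r => (f r).comp (shiftG s) := fun s f => by
    simp only [hΨ, map_sum, map_mul, hpα, bits_shift α e P fun g l => hP (g, l)]
  have hu1 : ∑ i, u i = 1 := by
    ext r x
    simp [hu]
  have hpart : Part fun i => Ψ (u i) := part_map Ψ
    (fun i => by
      ext r x
      simp [hu])
    (fun i => by
      ext r x
      simp [hu])
    (fun i j hij => by
      ext r x
      simp only [Pi.mul_apply, ContinuousMap.mul_apply, hu, Pi.zero_apply, ContinuousMap.zero_apply]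
      split_ifs with h1 h2
      · exact absurd (h1.symm.trans h2) hij
      all_goals simp) hu1
  have hpair : Pair (∑ i, Ψ (u i) * α (φ i) (h true)) (∑ i, Ψ (u i) * α (φ i) (h false)) :=
    hpart.pair (fun i => hp.act _) fun i j => ⟨hΨh _ _ _, hΨh _ _ _⟩
  refine ⟨fun b => ∑ i, Ψ (u i) * α (φ i) (h b), hpair, fun s hs b τ hτ => ?_⟩
  have ht := hT.tr τ hτ
  have hn1 : ‖∑ i, Ψ (u i) * α (φ i) (h b)‖ ≤ 1 :=
    (symm_of_pair (h := fun b => ∑ i, Ψ (u i) * α (φ i) (h b)) hpair b).norm_le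
  have hn2 : ‖α s (∑ i, Ψ (u i) * α (φ i) (h b)) - ∑ i, Ψ (u i) * α (φ i) (h b)‖ ≤ 2 := by
    refine (norm_sub_le _ _).trans ?_
    rw [act_norm]
    linarith
  have e1 : α s (∑ i, Ψ (u i) * α (φ i) (h b)) =
      ∑ j, Ψ (fun r => (u j r).comp (shiftG s)) * α (s * φ j) (h b) := by
    simp only [map_sum, map_mul α, map_mul (α s), hΨα]
    rfl
  have hu2 : (∑ j, fun r => (u j r).comp (shiftG s)) = 1 := by
    ext r x
    simp [hu]
  have b1 : ∀ i j, nrm τ (Ψ (gd s * u i * fun r => (u j r).comp (shiftG s)) *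
      (α (s * φ j) (h b) - α (φ i) (h b))) ≤ ε / (2 * F.card ^ 2) := fun i j => by
    have hE : IsStarProjection (Ψ (gd s * u i * fun r => (u j r).comp (shiftG s))) := by
      constructor
      · rw [IsIdempotentElem, ← map_mul]
        refine congrArg Ψ ?_
        ext r x
        simp only [Pi.mul_apply, ContinuousMap.mul_apply, ContinuousMap.comp_apply, hu, hgd]
        split_ifs <;> simp
      · rw [IsSelfAdjoint, ← map_star]
        refine congrArg Ψ ?_
        ext r x
        simp only [Pi.star_apply, ContinuousMap.star_apply, Pi.mul_apply, ContinuousMap.mul_apply,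
          ContinuousMap.comp_apply, hu, hgd]
        split_ifs <;> simp
    rw [((hΨh _ _ _).sub_right (hΨh _ _ _)).eq]
    refine hhash _ _ b τ hτ _ hE.isSelfAdjoint.star_eq hE.norm_le fun l => ?_
    rw [← hΨe, ← hΨe, ← map_mul, ← map_mul]
    refine congrArg Ψ ?_
    ext r x
    simp only [Pi.mul_apply, ContinuousMap.mul_apply, ContinuousMap.comp_apply, hu, hgd]
    split_ifs with h1 h2 h3
    · have h4 : x (s * φ j, l) = x (φ i, l) := by
        rw [← h2, ← h3, hsel r x l, h1, ← hsel r (shiftG s x) l]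
        rfl
      simp only [sgn, ContinuousMap.coe_mk, h4]
    all_goals simp
  have b2 : nrm τ (Ψ (1 - gd s)) ≤ ε / 4 := by
    have hc : (0 : ℝ) < Fintype.card ((Fin L → Bool) → Λ) := by exact_mod_cast Fintype.card_pos
    have c1 : star (Ψ (1 - gd s)) * Ψ (1 - gd s) = Ψ (1 - gd s) := by
      rw [← map_star, ← map_mul]
      refine congrArg Ψ ?_
      ext r x
      simp only [Pi.star_apply, ContinuousMap.star_apply, Pi.mul_apply, ContinuousMap.mul_apply,
        Pi.sub_apply, ContinuousMap.sub_apply, Pi.one_apply, ContinuousMap.one_apply, hgd]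
      split_ifs <;> simp
    have c2 : τ (Ψ (1 - gd s)) =
        τ (P ((Fintype.card ((Fin L → Bool) → Λ) : ℂ)⁻¹ • ∑ r, (1 - gd s r))) := by
      rw [hΨ, map_sum, map_smul, map_smul, map_sum, map_sum, smul_eq_mul, Finset.mul_sum]
      refine Finset.sum_congr rfl fun r _ => ?_
      rw [ht.trace, inv_mul_eq_div]
      exact hpτ r _ (.inr ⟨(s, r), rfl⟩) τ hτ
    have c3 : ‖(Fintype.card ((Fin L → Bool) → Λ) : ℂ)⁻¹ • ∑ r, (1 - gd s r)‖ ≤ ε ^ 2 / 16 := by
      refine (ContinuousMap.norm_le _ (by positivity)).2 fun x => ?_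
      have d1 : (∑ r, (1 - gd s r)) x = ((Finset.univ.filter fun r =>
          σ r (loc F x) ≠ σ r (loc F (shiftG s x))).card : ℂ) := by
        rw [Finset.card_filter, ContinuousMap.coe_sum, Finset.sum_apply, Nat.cast_sum]
        refine Finset.sum_congr rfl fun r _ => ?_
        rw [ContinuousMap.sub_apply, hgd]
        by_cases h0 : σ r (loc F x) = σ r (loc F (shiftG s x)) <;> simp [h0]
      have d2 := hσ' _ _ (card_loc F x) (card_loc F (shiftG s x))
      have d3 : (Multiset.card (loc F x - loc F (shiftG s x)) : ℝ) ≤ ε ^ 2 / 64 * F.card :=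
        le_trans (by exact_mod_cast card_loc_sub F s x) (hFK s hs)
      have d4 : 2 * (Multiset.card (loc F x - loc F (shiftG s x)) : ℝ) / F.card ≤ ε ^ 2 / 32 := by
        rw [div_le_iff₀ hn']
        linarith
      rw [ContinuousMap.smul_apply, d1, smul_eq_mul, norm_mul, norm_inv, Complex.norm_natCast,
        Complex.norm_natCast, inv_mul_le_iff₀ hc]
      nlinarith
    refine le_of_sq_le_sq ?_ (by positivity)
    rw [ht.nrm_sq, c1, c2]
    refine (Complex.re_le_norm _).trans ((ht.norm_apply_le _).trans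
      ((NonUnitalStarAlgHom.norm_apply_le P _).trans (c3.trans_eq (by ring))))
  rw [e1] at hn2 ⊢
  rw [split Ψ hu1 hu2 (gd s)]
  refine (ht.nrm_add_le _ _).trans ?_
  have b3 := (ht.nrm_sum_le Finset.univ _).trans (Finset.sum_le_sum fun i (_ : i ∈ Finset.univ) =>
    (ht.nrm_sum_le Finset.univ _).trans (Finset.sum_le_sum fun j (_ : j ∈ Finset.univ) => b1 i j))
  have b4 := (ht.nrm_mul_right _ _).trans (mul_le_mul b2 hn2 (norm_nonneg _) (by positivity))
  simp only [Finset.sum_const, Finset.card_univ, Fintype.card_fin, nsmul_eq_mul] at b3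
  have b5 : (F.card : ℝ) * (F.card * (ε / (2 * F.card ^ 2))) = ε / 2 := by field_simp
  linarith

end InvPairAux

theorem TSat.exists_invariant_pair (hT : TSat α T) [Countable G] (hF : Folner G) :
    ∃ h k : Q, Pair h k ∧ ∀ g, α g h = h ∧ α g k = k := by
  classical
  have h0 : ∀ τ : Q →L[ℂ] ℂ, nrm τ 0 = 0 := fun τ => by simp [nrm]
  obtain ⟨x, -, hx, -⟩ := hT.sat2 (V := Bool) (ι := (G × Bool) ⊕ Bool ⊕ Bool ⊕ Unit) (κ := Empty)
    (Sum.elim (fun q x => α q.1 (x q.2) - x q.2) (Sum.elim (fun b x => star (x b) - x b)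
      (Sum.elim (fun b x => x b * x b - 1) fun _ x => x true * x false + x false * x true)))
    (fun j => j.elim)
    (by
      rintro (q | b | b | _)
      · exact (Dfn.act q.1 (.var q.2)).sub (.var q.2)
      · exact (Dfn.star (.var b)).sub (.var b)
      · exact (Dfn.mul (.var b) (.var b)).sub (.const 1)
      · exact (Dfn.mul (.var true) (.var false)).add (.mul (.var false) (.var true)))
    (fun j => j.elim)
    (fun s _ ε hε => by
      obtain ⟨H, hH, h⟩ := InvPairAux.approx hT hF (s.image (Sum.elim Prod.fst fun _ => 1)) hε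
      refine ⟨H, fun b => (InvPairAux.symm_of_pair hH b).norm_le, ?_, fun j => j.elim⟩
      rintro (q | b | b | _) hi τ hτ
      · exact h q.1 (Finset.mem_image_of_mem _ hi) q.2 τ hτ
      · simp only [Sum.elim_inr, Sum.elim_inl, (InvPairAux.symm_of_pair hH b).sa, sub_self, h0,
          hε.le]
      · simp only [Sum.elim_inr, Sum.elim_inl, (InvPairAux.symm_of_pair hH b).sq, sub_self, h0,
          hε.le]
      · simp only [Sum.elim_inr, hH.anti, neg_add_cancel, h0, hε.le])
  have hs : ∀ b, Symm (x b) := fun b =>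
    ⟨sub_eq_zero.1 (hx (.inr (.inl b))), sub_eq_zero.1 (hx (.inr (.inr (.inl b))))⟩
  exact ⟨x true, x false, ⟨hs _, hs _, eq_neg_of_add_eq_zero_left (hx (.inr (.inr (.inr ()))))⟩,
    fun g => ⟨sub_eq_zero.1 (hx (.inl (g, true))), sub_eq_zero.1 (hx (.inl (g, false)))⟩⟩

end Vale.Agent.P095
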