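import Vale.Agent.P095.LimTr

/-! P095: the quotient of the central sequence algebra by the trace kernel. See skel/P095/BLUEPRINT.md. -/

namespace Vale.Agent.P095

open Filter Topology Vale.Agent.P101 Vale.Agent.P101.F
open scoped ComplexOrder

universe u v w

variable {B : Type u} [CStarAlgebra B] {G : Type v} [Group G] {E : Env B G}
variable {ω : Ultrafilter ℕ}


theorem kappa_ev {P : ℕ → ℕ → Prop} (h : ∀ k, ∀ᶠ n in (ω : Filter ℕ), ∃ k', k ≤ k' ∧ P k' n)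
    (m : ℕ) {ε : ℝ} (hε : 0 < ε) :
    ∀ᶠ n in (ω : Filter ℕ), ∃ k' : ℕ, m ≤ k' ∧ 1 / ((k' : ℝ) + 1) < ε ∧ P k' n := by
  obtain ⟨k, hk⟩ := exists_nat_one_div_lt hε
  filter_upwards [h (max k m)] with n ⟨k', h1, h2⟩
  exact ⟨k', (le_max_right _ _).trans h1,
    (Nat.one_div_le_one_div ((le_max_left _ _).trans h1)).trans_lt hk, h2⟩

theorem kappa_copy [Countable G] (hω : (ω : Filter ℕ) ≤ cofinite) {a a' a'' : B}
    (ht : Tri E a a' a'') (hc : CopyA E a a') {S : Set (Ultrapower B ω)} (hS : S.Countable) :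
    ∃ h k : Ultrapower B ω, star h = h ∧ star k = k ∧ (∀ s ∈ S, Commute h s ∧ Commute k s) ∧
      IsNeg E ω a a' (h * h - 1) ∧ IsNeg E ω a a' (k * k - 1) ∧
      IsNeg E ω a a' (h * k + k * h) := by
  classical
  obtain ⟨u, hu⟩ := Set.countable_iff_exists_subset_range.1 hS
  choose t ht' using fun j => umk_surjective (u j)
  obtain ⟨e, he⟩ := Countable.exists_injective_nat G
  have : Nonempty {p : B × B // star p.1 = p.1 ∧ star p.2 = p.2 ∧ ‖p.1‖ ≤ 2 ∧ ‖p.2‖ ≤ 2} :=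
    ⟨⟨0, by simp⟩⟩
  obtain ⟨w, hw⟩ := diag_seq hω (fun k n
      (p : {p : B × B // star p.1 = p.1 ∧ star p.2 = p.2 ∧ ‖p.1‖ ≤ 2 ∧ ‖p.2‖ ≤ 2}) =>
      (∀ j ≤ k, ‖p.1.1 * t j n - t j n * p.1.1‖ ≤ 1 / ((k : ℝ) + 1) ∧
        ‖p.1.2 * t j n - t j n * p.1.2‖ ≤ 1 / ((k : ℝ) + 1)) ∧
      ∀ g, e g ≤ k → ∀ ρ ∈ trSet (E.α g a) (E.α g a'),
        ∀ w ∈ [p.1.1 * p.1.1 - 1, p.1.2 * p.1.2 - 1, p.1.1 * p.1.2 + p.1.2 * p.1.1],
          (ρ (star w * w)).re ≤ 1 / ((k : ℝ) + 1)) fun k => Eventually.of_forall fun n => by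
    have hf : {g | e g ≤ k}.Finite := (Set.finite_Iic k).preimage he.injOn
    obtain ⟨x, y, h1, h2, h3, h4, h5, h6⟩ := hc ((Finset.range (k + 1)).image fun j => t j n)
      hf.toFinset _ (Nat.one_div_pos_of_nat (n := k))
    exact ⟨⟨(x, y), h1, h2, h3, h4⟩, fun j hj => h5 _ (Finset.mem_image_of_mem _
      (Finset.mem_range.2 (Nat.lt_succ_of_le hj))), fun g hg => h6 g (hf.mem_toFinset.2 hg)⟩
  obtain ⟨H, hH⟩ := exists_bcf (fun n => (w n).1.1) 2 fun n => (w n).2.2.2.1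
  obtain ⟨K, hK⟩ := exists_bcf (fun n => (w n).1.2) 2 fun n => (w n).2.2.2.2
  simp only [← hH, ← hK] at hw
  have hneg : ∀ W : BoundedContinuousFunction ℕ B,
      (∀ n, W n ∈ [H n * H n - 1, K n * K n - 1, H n * K n + K n * H n]) →
      IsNeg E ω a a' (umk ω W) := fun W hW g ρ hρ => by
    have h0 := (ht.act g).lim_pos hρ (umk ω W)
    obtain ⟨r, hr, h1⟩ := hρ
    have h2 : (ρ (star (umk ω W) * umk ω W)).re ≤ 0 := le_of_forall_pos_le_add fun ε hε => by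
      rw [← map_star, ← map_mul, zero_add]
      refine le_of_tendsto ((Complex.continuous_re.tendsto _).comp (h1 _)) ?_
      filter_upwards [kappa_ev hw (e g) hε] with n ⟨k, h3, h4, h5⟩
      exact (h5.2 g h3 _ (hr n) _ (hW n)).trans h4.le
    exact Complex.ext (le_antisymm h2 h0.1) h0.2.symm
  refine ⟨umk ω H, umk ω K, ?_, ?_, fun s hs => ?_, ?_, ?_, ?_⟩
  · rw [← map_star]
    exact congrArg _ (BoundedContinuousFunction.ext fun n => by
      rw [BoundedContinuousFunction.star_apply, hH, (w n).2.1])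
  · rw [← map_star]
    exact congrArg _ (BoundedContinuousFunction.ext fun n => by
      rw [BoundedContinuousFunction.star_apply, hK, (w n).2.2.1])
  · obtain ⟨j, rfl⟩ := hu hs
    rw [← ht' j, commute_iff_eq, commute_iff_eq]
    simp only [← map_mul, umk_eq_iff, Metric.tendsto_nhds, dist_zero_right, norm_norm]
    constructor
    · intro ε hε
      filter_upwards [kappa_ev hw j hε] with n ⟨k, h3, h4, h5⟩
      exact (h5.1 j h3).1.trans_lt h4
    · intro ε hε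
      filter_upwards [kappa_ev hw j hε] with n ⟨k, h3, h4, h5⟩
      exact (h5.1 j h3).2.trans_lt h4
  · simpa only [map_sub, map_mul, map_one] using hneg (H * H - 1) fun n => .head _
  · simpa only [map_sub, map_mul, map_one] using hneg (K * K - 1) fun n => .tail _ (.head _)
  · simpa only [map_add, map_mul] using hneg (H * K + K * H) fun n => .tail _ (.tail _ (.head _))

theorem kappa_dfn {Q : Type u} [CStarAlgebra Q] {q : centralSeq B ω →⋆ₐ[ℂ] Q}
    (hq : Function.Surjective q) {α : G → Q → Q}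
    (hα : ∀ g (x y : centralSeq B ω), (y : Ultrapower B ω) = uact E ω g x → q y = α g (q x))
    {V : Type} {P : (V → Q) → Q} (hP : Dfn α P) :
    ∃ P' : (V → Ultrapower B ω) → Ultrapower B ω, Dfn (fun g => uact E ω g) P' ∧
      ∀ x : V → centralSeq B ω, ∃ z : centralSeq B ω,
        (z : Ultrapower B ω) = P' (fun i => x i) ∧ q z = P fun i => q (x i) := by
  induction hP with
  | const c =>
    obtain ⟨z, rfl⟩ := hq c
    exact ⟨fun _ => z, .const _, fun _ => ⟨z, rfl, rfl⟩⟩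
  | var i => exact ⟨fun x => x i, .var i, fun x => ⟨x i, rfl, rfl⟩⟩
  | act g _ ih =>
    obtain ⟨P', h1, h2⟩ := ih
    refine ⟨_, h1.act g, fun x => ?_⟩
    obtain ⟨z, h3, h4⟩ := h2 x
    refine ⟨⟨uact E ω g z, uact_mem z.2 g⟩, congrArg (uact E ω g) h3, ?_⟩
    beta_reduce
    rw [← h4]
    exact hα g _ _ rfl
  | star _ ih =>
    obtain ⟨P', h1, h2⟩ := ih
    refine ⟨_, h1.star, fun x => ?_⟩
    obtain ⟨z, h3, h4⟩ := h2 x
    refine ⟨Star.star z, congrArg Star.star h3, ?_⟩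
    beta_reduce
    rw [← h4, map_star]
  | add _ _ ih ih' =>
    obtain ⟨P', h1, h2⟩ := ih
    obtain ⟨R', h1', h2'⟩ := ih'
    refine ⟨_, h1.add h1', fun x => ?_⟩
    obtain ⟨z, h3, h4⟩ := h2 x
    obtain ⟨z', h3', h4'⟩ := h2' x
    refine ⟨z + z', congrArg₂ (· + ·) h3 h3', ?_⟩
    beta_reduce
    rw [← h4, ← h4', map_add]
  | mul _ _ ih ih' =>
    obtain ⟨P', h1, h2⟩ := ih
    obtain ⟨R', h1', h2'⟩ := ih'
    refine ⟨_, h1.mul h1', fun x => ?_⟩
    obtain ⟨z, h3, h4⟩ := h2 x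
    obtain ⟨z', h3', h4'⟩ := h2' x
    refine ⟨z * z', congrArg₂ (· * ·) h3 h3', ?_⟩
    beta_reduce
    rw [← h4, ← h4', map_mul]

theorem kappa_act {X Q : Type u} [CStarAlgebra X] [CStarAlgebra Q] {q : X →⋆ₐ[ℂ] Q}
    (hq : Function.Surjective q) (γ : G → (X →⋆ₐ[ℂ] X)) (h1 : ∀ x, γ 1 x = x)
    (hm : ∀ g h x, γ (g * h) x = γ g (γ h x)) (hk : ∀ g x, q x = 0 → q (γ g x) = 0) :
    ∃ α : G →* (Q ≃⋆ₐ[ℂ] Q), ∀ g x, α g (q x) = q (γ g x) := by
  choose β hβ using fun g => exists_hom_lift q hq (q.comp (γ g)) (hk g)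
  have hβ' : ∀ g x, β g (q x) = q (γ g x) := hβ
  have h2 : ∀ g h y, β g (β h y) = β (g * h) y := fun g h y => by
    obtain ⟨x, rfl⟩ := hq y
    rw [hβ', hβ', hβ', hm]
  have h3 : ∀ y, β 1 y = y := fun y => by
    obtain ⟨x, rfl⟩ := hq y
    rw [hβ', h1]
  have h4 : ∀ g h, g * h = 1 → (β g).comp (β h) = StarAlgHom.id ℂ Q := fun g h e =>
    StarAlgHom.ext fun y => (h2 g h y).trans (by rw [e]; exact h3 y)
  exact ⟨MonoidHom.mk' (fun g => StarAlgEquiv.ofStarAlgHom (β g) (β g⁻¹)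
    (h4 _ _ (inv_mul_cancel g)) (h4 _ _ (mul_inv_cancel g)))
    fun g h => StarAlgEquiv.ext fun y => (h2 g h y).symm, hβ'⟩

theorem exists_kappa [TopologicalSpace.SeparableSpace B] [Countable G]
    (hω : (ω : Filter ℕ) ≤ cofinite) {a a' a'' : B} (ht : Tri E a a' a'') (hc : CopyA E a a') :
    ∃ (Q : Type u) (_ : CStarAlgebra Q) (q : centralSeq B ω →⋆ₐ[ℂ] Q)
      (α : G →* (Q ≃⋆ₐ[ℂ] Q)) (T : Set (Q →L[ℂ] ℂ)), Function.Surjective q ∧
      (∀ x : centralSeq B ω, q x = 0 ↔ IsNeg E ω a a' x) ∧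
      (∀ g (x y : centralSeq B ω), (y : Ultrapower B ω) = uact E ω g x → q y = α g (q x)) ∧
      TSat α T := by
  let J : Ideal (centralSeq B ω) :=
    { carrier := {x | IsNeg E ω a a' (x : Ultrapower B ω)}
      add_mem' := fun hx hy => IsNeg.add ht hx hy
      zero_mem' := fun g ρ _ => by simp
      smul_mem' := fun y _ hx => IsNeg.mul_left ht hx y }
  have : J.IsTwoSided := ⟨fun {x} y hx => IsNeg.mul_right ht hx x.2 y.2⟩
  obtain ⟨Q, _, q, hq, hk, -⟩ := exists_quot J (isClosed_isNeg.preimage continuous_subtype_val)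
  have hk' : ∀ x : centralSeq B ω, q x = 0 ↔ IsNeg E ω a a' x := hk
  obtain ⟨α, hα⟩ := kappa_act hq (fun g => ((uact E ω g).comp (centralSeq B ω).subtype).codRestrict
    (centralSeq B ω) fun x => uact_mem x.2 g) (fun x => Subtype.ext (uact_one _))
    (fun g h x => Subtype.ext (uact_mul g h _)) fun g x hx => (hk' _).2 (((hk' x).1 hx).act g)
  have hα' : ∀ g (x y : centralSeq B ω), (y : Ultrapower B ω) = uact E ω g x →
      q y = α g (q x) := fun g x y h => by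
    rw [hα]
    exact congrArg q (Subtype.ext h)
  have hT : ∀ g ρ, IsLim ω (trSet (E.α g a) (E.α g a')) ρ →
      ∃ τ : Q →L[ℂ] ℂ, IsTr τ ∧ ∀ x : centralSeq B ω, τ (q x) = ρ x := fun g ρ hρ =>
    (ht.act g).isTr_of_lift hρ q hq fun x hx => ((hk' x).1 hx).apply_eq_zero ht g hρ
  refine ⟨Q, inferInstance, q, α, {τ | IsTr τ ∧ ∃ g ρ, IsLim ω (trSet (E.α g a) (E.α g a')) ρ ∧
    ∀ x : centralSeq B ω, τ (q x) = ρ x}, hq, hk', hα', fun τ h => h.1, ?_, fun x hx => ?_,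
    fun V _ P c hP h => ?_, fun S hS => ?_⟩
  · rintro τ ⟨-, g₀, ρ, h1, h2⟩ g
    obtain ⟨ρ', h3, h4⟩ := isLim_act g₀ g h1
    obtain ⟨τ', h5, h6⟩ := hT _ ρ' h3
    refine ⟨τ', ⟨h5, _, ρ', h3, h6⟩, fun x => ?_⟩
    obtain ⟨x, rfl⟩ := hq x
    rw [h6, h4, hα, h2]
    rfl
  · obtain ⟨x, rfl⟩ := hq x
    refine (hk' x).2 fun g ρ hρ => ?_
    obtain ⟨τ, h1, h2⟩ := hT g ρ hρ
    have h3 := hx τ ⟨h1, g, ρ, hρ, h2⟩
    rwa [← map_star, ← map_mul, h2] at h3
  · choose P' h1 h2 using fun k => kappa_dfn (E := E) hq hα' (hP k)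
    obtain ⟨x, h3, -, h4⟩ := satC (E := E) hω (V := V) (ι := ℕ × G) (κ := Empty) (fun j => j.elim)
      (fun p => P' p.1) (fun p => trSet (E.α p.2 a) (E.α p.2 a')) (fun p => c p.1)
      (fun j => j.elim) (fun p => h1 p.1) (fun p r hr => (ht.act p.2).trSet_norm hr)
      fun _ s ε hε => by
        obtain ⟨y, h3, h4⟩ := h (s.sup Prod.fst + 1) ε hε
        choose x hx hx' using fun i => exists_lift_norm q hq (y i)
        refine ⟨fun i => x i, fun i => ⟨(x i).2, (hx' i).trans (h3 i)⟩, fun j => j.elim,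
          fun p hp ρ hρ => ?_⟩
        obtain ⟨τ, h5, h6⟩ := hT _ ρ hρ
        obtain ⟨z, h7, h8⟩ := h2 p.1 x
        rw [← h7, ← h6, h8]
        simp only [hx]
        exact h4 _ (Nat.lt_succ_of_le (Finset.le_sup (f := Prod.fst) hp)) τ ⟨h5, _, ρ, hρ, h6⟩
    refine ⟨fun i => q ⟨x i, (h3 i).1⟩, fun i =>
      (NonUnitalStarAlgHom.norm_apply_le q _).trans (h3 i).2, ?_⟩
    rintro k τ ⟨-, g, ρ, hρ, h5⟩
    obtain ⟨z, h7, h8⟩ := h2 k fun i => ⟨x i, (h3 i).1⟩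
    rw [← h8, h5, h7]
    exact h4 (k, g) ρ hρ
  · obtain ⟨b, hb⟩ := TopologicalSpace.exists_dense_seq B
    choose l hl using hq
    obtain ⟨h, k, h1, h2, h3, h4, h5, h6⟩ := kappa_copy hω ht hc
      ((hS.image fun s => (l s : Ultrapower B ω)).union (Set.countable_range fun j => uconst ω (b j)))
    have hcen : ∀ x : Ultrapower B ω, (∀ j, Commute x (uconst ω (b j))) → x ∈ centralSeq B ω :=
      fun x hx => mem_centralSeq.2 fun y => by
        have hc := reind_cont (uconst ω : B →⋆ₐ[ℂ] Ultrapower B ω)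
        exact hb.induction_on (p := fun y => uconst ω y * x = x * uconst ω y) y
          (isClosed_eq (by fun_prop) (by fun_prop)) fun j => (hx j).symm
    have hh := hcen h fun j => (h3 _ (.inr ⟨j, rfl⟩)).1
    have hk := hcen k fun j => (h3 _ (.inr ⟨j, rfl⟩)).2
    have hsym : ∀ x : centralSeq B ω, star (x : Ultrapower B ω) = x →
        IsNeg E ω a a' ((x : Ultrapower B ω) * x - 1) → Symm (q x) := fun x e1 e2 => by
      refine ⟨?_, ?_⟩
      · rw [← map_star]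
        exact congrArg q (Subtype.ext e1)
      · have := (hk' (x * x - 1)).2 e2
        rwa [map_sub, map_mul, map_one, sub_eq_zero] at this
    refine ⟨q ⟨h, hh⟩, q ⟨k, hk⟩, ⟨hsym _ h1 h4, hsym _ h2 h5, ?_⟩, fun s hs => ?_⟩
    · have := (hk' (⟨h, hh⟩ * ⟨k, hk⟩ + ⟨k, hk⟩ * ⟨h, hh⟩)).2 h6
      rwa [map_add, map_mul, map_mul, add_eq_zero_iff_eq_neg] at this
    · obtain ⟨e1, e2⟩ := h3 _ (.inl ⟨s, hs, rfl⟩)
      rw [← hl s]
      have e3 : Commute (⟨h, hh⟩ : centralSeq B ω) (l s) := Subtype.ext e1.eq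
      have e4 : Commute (⟨k, hk⟩ : centralSeq B ω) (l s) := Subtype.ext e2.eq
      exact ⟨e3.map q, e4.map q⟩

end Vale.Agent.P095
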