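import Vale.Agent.P095.Commut
import Vale.Agent.P095.Ann

/-! P095: the unitaries for the intertwining argument. See skel/P095/BLUEPRINT.md. -/

namespace Vale.Agent.P095

open Filter Topology Vale.Agent.P101 Vale.Agent.P101.F
open scoped ComplexOrder Matrix.Norms.L2Operator

universe u v w

variable {B : Type u} [CStarAlgebra B] {G : Type v} [Group G] {E : Env B G}
variable {ω : Ultrafilter ℕ}

theorem key_cen {C : Type w} [CStarAlgebra C] {p q : ℕ} (hp : 0 < p) (hq : 0 < q)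
    (α β : dimDrop p q →⋆ₐ[ℂ] C) (hc : ∀ f g, Commute (α f) (β g)) (X : Set C)
    (hX : ∀ x ∈ X, ∀ f, Commute x (α f) ∧ Commute x (β f))
    (W : C(unitInterval, Matrix (Fin p × Fin q) (Fin p × Fin q) ℂ))
    (hW : ∀ t, W t ∈ unitary (Matrix (Fin p × Fin q) (Fin p × Fin q) ℂ)) (hW0 : W 0 = 1) :
    ∃ u ∈ unitary C, (∀ x ∈ X, Commute u x) ∧ ∀ (g : dimDrop p q) (ε : ℝ),
      (∀ t, ‖g.1 t - W t * g.1 0 * star (W t)‖ ≤ ε) → ‖star u * β g * u - α g‖ ≤ 4 * ε := by
  have hC : IsClosed (StarSubalgebra.centralizer ℂ X : Set C) := isClosed_centralizer _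
  have k : ∀ φ : dimDrop p q →⋆ₐ[ℂ] C, (∀ x ∈ X, ∀ f, Commute x (φ f)) →
      ∀ f, φ f ∈ StarSubalgebra.centralizer ℂ X := fun φ h f =>
    (StarSubalgebra.mem_centralizer_iff ℂ).2 fun x hx => ⟨h x hx f, by
      simpa only [map_star, star_star] using (h x hx (star f)).star_star.eq⟩
  let := StarSubalgebra.cstarAlgebra (StarSubalgebra.centralizer ℂ X)
  obtain ⟨u, hu, h⟩ := half_flip hp hq (α.codRestrict _ (k α fun x hx f => (hX x hx f).1))
    (β.codRestrict _ (k β fun x hx f => (hX x hx f).2)) (fun f g => Subtype.ext (hc f g)) W hW hW0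
  exact ⟨u, map_mem_unitary (StarSubalgebra.subtype _) hu,
    fun x hx => (((StarSubalgebra.mem_centralizer_iff ℂ).1 u.2 x hx).1).symm, h⟩

/-- a half flip that is connected to the unit -/
theorem half_flip_joined {C : Type w} [CStarAlgebra C] {p q : ℕ} (hp : 2 ≤ p) (hq : 2 ≤ q)
    (γ : Fin 4 → (dimDrop p q →⋆ₐ[ℂ] C)) (hc : ∀ i j, i ≠ j → ∀ f g, Commute (γ i f) (γ j g))
    (W : C(unitInterval, Matrix (Fin p × Fin q) (Fin p × Fin q) ℂ))
    (hW : ∀ t, W t ∈ unitary (Matrix (Fin p × Fin q) (Fin p × Fin q) ℂ)) (hW0 : W 0 = 1) :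
    ∃ u ∈ unitary C, InvJoined u ∧ ∀ (g : dimDrop p q) (ε : ℝ),
      (∀ t, ‖g.1 t - W t * g.1 0 * star (W t)‖ ≤ ε) → ‖star u * γ 0 g * u - γ 1 g‖ ≤ 12 * ε := by
  obtain ⟨u, hu, cu, eu⟩ := key_cen (by omega) (by omega) (γ 1) (γ 0) (hc 1 0 (by decide))
    (Set.range (γ 2) ∪ Set.range (γ 3)) (by
      rintro _ (⟨f, rfl⟩ | ⟨f, rfl⟩) g <;> exact ⟨hc _ _ (by decide) _ _, hc _ _ (by decide) _ _⟩)
    W hW hW0
  obtain ⟨s, hs, cs, es⟩ := key_cen (by omega) (by omega) (γ 2) (γ 0) (hc 2 0 (by decide))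
    (Set.range (γ 3)) (by
      rintro _ ⟨f, rfl⟩ g
      exact ⟨hc _ _ (by decide) _ _, hc _ _ (by decide) _ _⟩) W hW hW0
  have cu' : ∀ (i : Fin 4) f, (∀ f, Commute u (γ i f)) → Commute (star u) (γ i f) :=
    fun i f h => by simpa only [map_star, star_star] using (h (star f)).star_star
  have hu' := Unitary.star_mem hu
  have hs' := Unitary.star_mem hs
  refine ⟨_, mul_mem (mul_mem (mul_mem hs hu') hs') (Unitary.star_mem hu'),
    commutator_joined hp hq (γ 3) hs hu' (fun f => cs _ ⟨f, rfl⟩)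
      fun f => cu' 3 f fun f => cu _ (Or.inr ⟨f, rfl⟩), fun g ε hg => ?_⟩
  have h1 := norm_conj_sub_le (mul_mem (mul_mem hu' hs') hu) (es g ε hg)
  have h2 := norm_conj_sub_le (mul_mem hs' hu) (es g ε hg)
  have h3 := eu g ε hg
  have e1 : star (star u * star s * u) * γ 2 g * (star u * star s * u) =
      star (star s * u) * γ 2 g * (star s * u) := by
    have : u * γ 2 g * star u = γ 2 g := by
      rw [(cu _ (Or.inl ⟨g, rfl⟩)).eq, mul_assoc, hu.2, mul_one]
    calc _ = star (star s * u) * (u * γ 2 g * star u) * (star s * u) := by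
          simp only [star_mul, star_star, mul_assoc]
      _ = _ := by rw [this]
  have e2 : star (star s * u) * (star s * γ 0 g * s) * (star s * u) = star u * γ 0 g * u := by
    calc _ = star u * (s * star s) * γ 0 g * (s * star s) * u := by
          simp only [star_mul, star_star, mul_assoc]
      _ = _ := by rw [hs.2, mul_one, mul_one]
  rw [e1] at h1
  rw [e2, norm_sub_rev] at h2
  have e3 : star (s * star u * star s * star (star u)) * γ 0 g * (s * star u * star s * star (star u))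
      = star (star u * star s * u) * (star s * γ 0 g * s) * (star u * star s * u) := by
    simp only [star_mul, star_star, mul_assoc]
  rw [e3]
  refine (norm_sub_le_norm_sub_add_norm_sub _ _ _).trans
    ((add_le_add h1 ((norm_sub_le_norm_sub_add_norm_sub _ _ _).trans (add_le_add h2 h3))).trans
      (le_of_eq (by ring)))

section Core

variable {Z : Type*} {D : Type w} [CStarAlgebra Z] [CStarAlgebra D] (X : Tens E Z D)

/-- invariant sequences that commute with the first factor -/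
noncomputable def keyC (ω : Ultrafilter ℕ) : StarSubalgebra ℂ (Ultrapower D ω) :=
  StarSubalgebra.centralizer ℂ (Set.range fun a => uconst ω (X.θ a)) ⊓
    ⨅ g, StarAlgHom.equalizer (umap ω (X.δ g : D →⋆ₐ[ℂ] D)) (StarAlgHom.id ℂ _)

theorem key_mem {x : Ultrapower D ω} : x ∈ keyC X ω ↔
    (∀ a, uconst ω (X.θ a) * x = x * uconst ω (X.θ a)) ∧
      ∀ g, umap ω (X.δ g : D →⋆ₐ[ℂ] D) x = x := by
  simp only [keyC, StarSubalgebra.mem_inf, StarSubalgebra.mem_iInf, StarAlgHom.mem_equalizer,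
    StarSubalgebra.mem_centralizer_iff, Set.forall_mem_range]
  exact and_congr ⟨fun h a => (h a).1, fun h a => ⟨h a, by simpa only [map_star] using h (star a)⟩⟩
    Iff.rfl

instance key_closed : IsClosed (keyC X ω : Set (Ultrapower D ω)) := by
  have : (keyC X ω : Set (Ultrapower D ω)) =
      (⋂ a, {x | uconst ω (X.θ a) * x = x * uconst ω (X.θ a)}) ∩
        ⋂ g, {x | umap ω (X.δ g : D →⋆ₐ[ℂ] D) x = x} := by
    ext x
    simp [key_mem]
  rw [this]
  exact (isClosed_iInter fun a => isClosed_eq (by fun_prop) (by fun_prop)).inter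
    (isClosed_iInter fun g => isClosed_eq (reind_cont _) continuous_id)

noncomputable instance key_cstar : CStarAlgebra (keyC X ω) := StarSubalgebra.cstarAlgebra _

theorem key_quot (ω : Ultrafilter ℕ) : ∃ (Q : Type w) (_ : CStarAlgebra Q)
    (π : keyC X ω →⋆ₐ[ℂ] Q), Function.Surjective π ∧
      (∀ x : keyC X ω, (∀ a ∈ E.I, uconst ω (X.θ a) * x = 0) → π x = 0) ∧
      ∀ a ∈ E.I, ∀ x : keyC X ω, ‖uconst ω (X.θ a) * x‖ ≤ ‖a‖ * ‖π x‖ := by
  let J : Ideal (keyC X ω) :=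
    { carrier := {x | ∀ a ∈ E.I, uconst ω (X.θ a) * x = 0}
      zero_mem' := fun a _ => mul_zero _
      add_mem' := fun {x y} hx hy a ha => by
        rw [AddMemClass.coe_add, mul_add, hx a ha, hy a ha, add_zero]
      smul_mem' := fun c x hx a ha => by
        rw [smul_eq_mul, MulMemClass.coe_mul, ← mul_assoc, ((key_mem X).1 c.2).1, mul_assoc,
          hx a ha, mul_zero] }
  have : J.IsTwoSided := ⟨fun {x} c hx a ha => by
    rw [MulMemClass.coe_mul, ← mul_assoc, hx a ha, zero_mul]⟩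
  have hJ : IsClosed (J : Set (keyC X ω)) := by
    change IsClosed {x : keyC X ω | ∀ a ∈ E.I, uconst ω (X.θ a) * x = 0}
    simp only [Set.ofPred_forall]
    exact isClosed_iInter fun a => isClosed_iInter fun _ =>
      isClosed_eq (by fun_prop) continuous_const
  obtain ⟨Q, _, π, h1, h2, -⟩ := exists_quot J hJ
  refine ⟨Q, inferInstance, π, h1, fun x hx => (h2 x).2 hx, fun a ha x => ?_⟩
  obtain ⟨y, hy, hy'⟩ := exists_lift_norm π h1 (π x)
  have h3 := (h2 (x - y)).1 (by rw [map_sub, hy, sub_self]) a ha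
  rw [AddSubgroupClass.coe_sub, mul_sub, sub_eq_zero] at h3
  rw [h3]
  exact (norm_mul_le _ _).trans (mul_le_mul ((NonUnitalStarAlgHom.norm_apply_le (uconst (A := D) ω)
    _).trans (NonUnitalStarAlgHom.norm_apply_le X.θ a)) hy' (norm_nonneg _) (norm_nonneg _))

theorem key_comm (y : Ultrapower B ω) (z : Z) : Commute (umap ω X.θ y) (uconst ω (X.β z)) := by
  obtain ⟨y, rfl⟩ := umk_surjective y
  rw [Commute, SemiconjBy, umap_umk, uconst_apply, ← map_mul, ← map_mul]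
  congr 1
  ext n
  exact (X.comm _ _).eq

/-- the first factor acts on invariant central sequences -/
noncomputable def keyL (ω : Ultrafilter ℕ) : cenG E ω →⋆ₐ[ℂ] keyC X ω :=
  ((umap ω X.θ).comp (cenG E ω).subtype).codRestrict _ fun y => (key_mem X).2 ⟨fun a => by
    have := congrArg (umap ω X.θ) (mem_centralSeq.1 (mem_cenG.1 y.2).1 a)
    rw [map_mul, map_mul] at this
    exact this, fun g => by
    refine Eq.trans ?_ (congrArg (umap ω X.θ) ((mem_cenG.1 y.2).2 g))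
    obtain ⟨x, hx⟩ := umk_surjective y.1
    change umap ω _ (umap ω X.θ y.1) = _
    rw [← hx, uact, umap_umk, umap_umk, umap_umk, umap_umk]
    congr 1
    ext n
    exact X.δθ g _⟩

/-- the second factor as constant sequences -/
noncomputable def keyR (ω : Ultrafilter ℕ) : Z →⋆ₐ[ℂ] keyC X ω :=
  ((uconst ω).comp X.β).codRestrict _ fun z => (key_mem X).2
    ⟨fun a => ((X.comm a z).map (uconst ω)).eq, fun g => congrArg (uconst ω) (X.δβ g z)⟩

theorem key_core (hZ : IsJiangSu Z) {F : Type u} [CStarAlgebra F] {q : cenG E ω →⋆ₐ[ℂ] F}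
    (hq : AnnQuot E ω q) (hF : ∀ p p' : ℕ, 2 ≤ p → 2 ≤ p' → Nat.Coprime p p' →
      ∃ γ : Fin 3 → (dimDrop p p' →⋆ₐ[ℂ] F), ∀ i j, i ≠ j → ∀ f g, Commute (γ i f) (γ j g))
    (S : Finset B) (T : Finset Z) (K : Finset G) {η : ℝ} (hη : 0 < η) :
    ∃ v ∈ unitary D, (∀ a ∈ S, ‖v * X.θ a - X.θ a * v‖ ≤ η) ∧ (∀ g ∈ K, ‖X.δ g v - v‖ ≤ η) ∧
      ∀ a ∈ S, a ∈ E.I → ∀ z ∈ T, ∃ a' ∈ E.I,
        ‖star v * (X.θ a * X.β z) * v - X.θ a'‖ ≤ η * (‖a‖ + 1) := by
  classical
  obtain ⟨p, p', ι, hp, -, hd, hφ⟩ := hZ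
  have h1 : ∀ z : Z, ∀ᶠ m in atTop, ∃ f, ‖z - ι m f‖ ≤ η / 2 := by
    intro z
    obtain ⟨y, hy, hzy⟩ := Metric.mem_closure_iff.1 (hd z) (η / 2) (by positivity)
    obtain ⟨m, f, rfl⟩ := Set.mem_iUnion.1 hy
    filter_upwards [eventually_gt_atTop m] with n hn
    obtain ⟨φ, h, -⟩ := hφ m n hn
    exact ⟨φ f, by rw [h, ← dist_eq_norm]; exact hzy.le⟩
  obtain ⟨m, hm⟩ := ((T.eventually_all).2 fun z _ => h1 z).exists
  choose! f hf using hm
  obtain ⟨δ, hδ, hW⟩ := exists_path_of_diag (T.image f) (show 0 < η / 24 by positivity)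
  obtain ⟨k, hk⟩ := exists_pow_lt_of_lt_one hδ (show (1 / 2 : ℝ) < 1 by norm_num)
  obtain ⟨φ, hφ1, hφ2⟩ := hφ m (m + k + 1) (by omega)
  obtain ⟨W, hW1, hW0, hW2⟩ := hW _ _ φ (hφ2.mono (by
    rw [show m + k + 1 - m = k + 1 by omega, pow_succ]
    have : (0 : ℝ) < (1 / 2) ^ k := by positivity
    linarith))
  obtain ⟨hp2, hq2, hpq⟩ := hp (m + k + 1)
  obtain ⟨γ, hγ⟩ := hF _ _ hp2 hq2 hpq
  obtain ⟨Q, _, π, hπ1, hπ2, hπ3⟩ := key_quot X ω
  obtain ⟨Φ, hΦ⟩ := exists_hom_lift q hq.surj (π.comp (keyL X ω)) fun x hx =>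
    hπ2 _ fun a ha => by
      have := congrArg (umap ω X.θ) ((hq.ker x).1 hx a ha)
      rw [map_mul, map_zero] at this
      exact this
  have hc : ∀ y z, Commute (Φ y) (π (keyR X ω z)) := fun y z => by
    obtain ⟨y, rfl⟩ := hq.surj y
    rw [hΦ]
    exact Commute.map (Subtype.ext (key_comm X y.1 z).eq) π
  obtain ⟨u, hu, hj, hest⟩ := half_flip_joined hp2 hq2
    (Fin.cons (π.comp ((keyR X ω).comp (ι (m + k + 1)))) fun i => Φ.comp (γ i))
    (fun i j => Fin.cases (Fin.cases (fun h => absurd rfl h) (fun j _ f g => (hc _ _).symm) j)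
      (fun i => Fin.cases (fun _ f g => hc _ _)
        (fun j h f g => (hγ i j (fun e => h (congrArg _ e)) f g).map Φ) j) i) W hW1 hW0
  obtain ⟨U, hU, rfl⟩ := exists_lift_unitary π hπ1 hu hj
  obtain ⟨x, hx, hxu⟩ := exists_unitary_lift (map_mem_unitary (keyC X ω).subtype hU)
  change _ = U.1 at hx
  have e1 : ∀ a, ∀ᶠ n in (ω : Filter ℕ), ‖x n * X.θ a - X.θ a * x n‖ ≤ η := by
    intro a
    have := (((key_mem X).1 U.2).1 a).symm
    rw [← hx, uconst_apply, ← map_mul, ← map_mul, umk_eq_iff] at this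
    exact this.eventually (ge_mem_nhds hη)
  have e2 : ∀ g, ∀ᶠ n in (ω : Filter ℕ), ‖X.δ g (x n) - x n‖ ≤ η := by
    intro g
    have := ((key_mem X).1 U.2).2 g
    rw [← hx, umap_umk, umk_eq_iff] at this
    exact this.eventually (ge_mem_nhds hη)
  have e3 : ∀ a ∈ S, ∀ z ∈ T, ∀ᶠ n in (ω : Filter ℕ), a ∈ E.I → ∃ a' ∈ E.I,
      ‖star (x n) * (X.θ a * X.β z) * x n - X.θ a'‖ ≤ η * (‖a‖ + 1) := by
    intro a _ z hz
    by_cases ha : a ∈ E.I
    swap
    · exact Eventually.of_forall fun n h => absurd h ha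
    have h2 := hest (φ (f z)) (η / 24) (hW2 _ (Finset.mem_image_of_mem f hz))
    obtain ⟨y, hy⟩ := hq.surj (γ 0 (φ (f z)))
    obtain ⟨y', hy'⟩ := umk_surjective y.1
    have h3 : ‖π (star U * keyR X ω (ι m (f z)) * U - keyL X ω y)‖ ≤ 12 * (η / 24) := by
      rw [map_sub, map_mul, map_mul, map_star, ← hφ1]
      refine le_trans (le_of_eq ?_) h2
      congr 2
      exact (hΦ y).symm.trans (congrArg Φ hy)
    have h4 : ‖umk ω (star x * constSeq D (X.θ a * X.β (ι m (f z))) * x -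
        seqMap X.θ (constSeq B a * y'))‖ ≤ ‖a‖ * (12 * (η / 24)) := by
      refine le_trans (le_of_eq ?_)
        ((hπ3 a ha _).trans (mul_le_mul_of_nonneg_left h3 (norm_nonneg _)))
      rw [map_sub, map_mul, map_mul, map_star, hx, ← umap_umk, map_mul (umk ω), hy',
        ← uconst_apply, ← uconst_apply, map_mul, map_mul, umap_uconst, ← mul_assoc,
        ← ((key_mem X).1 (star_mem U.2)).1 a, mul_assoc, mul_assoc, ← mul_sub, ← mul_assoc]
      rfl
    filter_upwards [(tendsto_norm_umk _).eventually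
      (gt_mem_nhds (show _ < ‖a‖ * (η / 2) + η from h4.trans_lt (by linarith)))] with n hn _
    refine ⟨a * y' n, E.mul_right ha _, ?_⟩
    have h5 : ‖X.θ a * X.β z - X.θ a * X.β (ι m (f z))‖ ≤ ‖a‖ * (η / 2) := by
      rw [← mul_sub]
      exact (norm_mul_le _ _).trans (mul_le_mul (NonUnitalStarAlgHom.norm_apply_le X.θ a)
        (norm_map_sub_le X.β (hf z hz)) (norm_nonneg _) (norm_nonneg _))
    calc _ ≤ _ := norm_sub_le_norm_sub_add_norm_sub _ _ _
      _ ≤ ‖a‖ * (η / 2) + (‖a‖ * (η / 2) + η) := add_le_add (norm_conj_sub_le (hxu n) h5) hn.le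
      _ = _ := by ring
  obtain ⟨n, ⟨hn1, hn2⟩, hn3⟩ := ((((S.eventually_all).2 fun a _ => e1 a).and
    ((K.eventually_all).2 fun g _ => e2 g)).and ((S.eventually_all).2 fun a ha =>
      (T.eventually_all).2 (e3 a ha))).exists
  exact ⟨x n, hxu n, hn1, hn2, fun a ha ha' z hz => hn3 a ha z hz ha'⟩

end Core

theorem key_unitary {Z D : Type*} [CStarAlgebra Z] [CStarAlgebra D] (X : Tens E Z D)
    (hZ : IsJiangSu Z) {F : Type u} [CStarAlgebra F] {q : cenG E ω →⋆ₐ[ℂ] F} (hq : AnnQuot E ω q)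
    (hF : ∀ p p' : ℕ, 2 ≤ p → 2 ≤ p' → Nat.Coprime p p' →
      ∃ γ : Fin 3 → (dimDrop p p' →⋆ₐ[ℂ] F), ∀ i j, i ≠ j → ∀ f g, Commute (γ i f) (γ j g)) :
    X.Key := by
  classical
  choose v hv hv1 hv2 hv3 using fun i : Finset B × Finset Z × Finset G × ℕ =>
    key_core X hZ hq hF i.1 i.2.1 i.2.2.1 (Nat.one_div_pos_of_nat (α := ℝ) (n := i.2.2.2))
  have small : ∀ ε > 0, ∀ᶠ i : Finset B × Finset Z × Finset G × ℕ in atTop,
      1 / ((i.2.2.2 : ℝ) + 1) ≤ ε := by
    intro ε hε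
    obtain ⟨n, hn⟩ := exists_nat_one_div_lt hε
    filter_upwards [eventually_ge_atTop ((∅ : Finset B), (∅ : Finset Z), (∅ : Finset G), n)]
      with i hi
    exact (Nat.one_div_le_one_div hi.2.2.2).trans hn.le
  have c3 : ∀ b ∈ Submodule.span ℂ {d : D | ∃ a ∈ E.I, ∃ z, d = X.θ a * X.β z}, ∀ ε > 0,
      ∀ᶠ i in atTop, ∃ a ∈ E.I, ‖star (v i) * b * v i - X.θ a‖ ≤ ε := by
    intro b hb
    induction hb using Submodule.span_induction with
    | mem b hb =>
      obtain ⟨a, ha, z, rfl⟩ := hb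
      intro ε hε
      have hK : 0 < ‖a‖ + 1 := by positivity
      filter_upwards [small _ (div_pos hε hK),
        eventually_ge_atTop (({a} : Finset B), ({z} : Finset Z), (∅ : Finset G), 0)] with i h1 h2
      obtain ⟨a', h3, h4⟩ := hv3 i a (h2.1 (Finset.mem_singleton_self a)) ha z
        (h2.2.1 (Finset.mem_singleton_self z))
      exact ⟨a', h3, h4.trans ((le_div_iff₀ hK).1 h1)⟩
    | zero => exact fun ε hε => Eventually.of_forall fun i => ⟨0, zero_mem _, by simpa using hε.le⟩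
    | add b b' _ _ h h' =>
      intro ε hε
      filter_upwards [h _ (half_pos hε), h' _ (half_pos hε)] with i ⟨a, ha, h1⟩ ⟨a', ha', h2⟩
      refine ⟨a + a', add_mem ha ha', ?_⟩
      rw [show star (v i) * (b + b') * v i - X.θ (a + a') = (star (v i) * b * v i - X.θ a) +
        (star (v i) * b' * v i - X.θ a') by rw [map_add]; noncomm_ring]
      exact (norm_add_le _ _).trans (by linarith)
    | smul c b _ h =>
      intro ε hε
      have hK : 0 < ‖c‖ + 1 := by positivity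
      filter_upwards [h _ (div_pos hε hK)] with i ⟨a, ha, h1⟩
      refine ⟨c • a, E.smul_mem ha c, ?_⟩
      rw [map_smul, mul_smul_comm, smul_mul_assoc, ← smul_sub, norm_smul]
      refine (mul_le_mul_of_nonneg_left h1 (norm_nonneg c)).trans ?_
      rw [← mul_div_assoc, div_le_iff₀ hK]
      nlinarith
  intro S T K η hT hη
  have c4 : ∀ b ∈ T, ∀ᶠ i in atTop, ∃ a ∈ E.I, ‖star (v i) * b * v i - X.θ a‖ ≤ η := by
    intro b hb
    obtain ⟨b', hb', hbb⟩ := Metric.mem_closure_iff.1 (hT b hb) _ (half_pos hη)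
    filter_upwards [c3 b' hb' _ (half_pos hη)] with i ⟨a, ha, h1⟩
    refine ⟨a, ha, ?_⟩
    rw [dist_eq_norm] at hbb
    have h2 := norm_conj_sub_le (hv i) hbb.le
    exact (norm_sub_le_norm_sub_add_norm_sub _ _ _).trans (by linarith)
  obtain ⟨i, ⟨h1, h2⟩, h3⟩ := (((small η hη).and
    (eventually_ge_atTop (S, (∅ : Finset Z), K, 0))).and ((T.eventually_all).2 c4)).exists
  exact ⟨v i, hv i, fun a ha => (hv1 i a (h2.1 ha)).trans h1,
    fun g hg => (hv2 i g (h2.2.2.1 hg)).trans h1, h3⟩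

end Vale.Agent.P095
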