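import Vale.Agent.P095.SatU
import Vale.Agent.P095.Folner

/-! P095: characters vanish on the trace kernel. See skel/P095/BLUEPRINT.md. -/

namespace Vale.Agent.P095

open Filter Topology Vale.Agent.P101 Vale.Agent.P101.F
open scoped ComplexOrder

universe u v w

variable {B : Type u} [CStarAlgebra B] {G : Type v} [Group G] {E : Env B G}
variable {ω : Ultrafilter ℕ}

section Abs

variable {X : Type*} [CStarAlgebra X] {ι : Type*}

theorem kills_orth (C : Finset ι) (a : ι → ℝ) {y y' : ι → X}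
    (h : ∀ c c', c ≠ c' → star (y c) * y' c' = 0) :
    star (∑ c ∈ C, (a c : ℂ) • y c) * ∑ c ∈ C, (a c : ℂ) • y' c =
      ∑ c ∈ C, ((a c ^ 2 : ℝ) : ℂ) • (star (y c) * y' c) := by
  rw [star_sum, Finset.sum_mul]
  refine Finset.sum_congr rfl fun c hc => ?_
  rw [Finset.mul_sum, Finset.sum_eq_single_of_mem c hc fun c' _ hne => by
    rw [star_smul, smul_mul_smul_comm, h c c' hne.symm, smul_zero]]
  rw [star_smul, smul_mul_smul_comm]
  congr 1
  simp [sq]

theorem kills_norm (C : Finset ι) (a : ι → ℝ) {y : ι → X}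
    (h : ∀ c c', c ≠ c' → star (y c) * y c' = 0) (hy : ∀ c, ‖y c‖ ≤ 2) {η : ℝ} (hη : 0 ≤ η)
    (ha : ∑ c ∈ C, a c ^ 2 ≤ η ^ 2) : ‖∑ c ∈ C, (a c : ℂ) • y c‖ ≤ 2 * η := by
  refine abs_le_of_sq_le_sq' ?_ (by positivity) |>.2
  rw [sq, ← CStarRing.norm_star_mul_self, kills_orth C a h]
  refine (norm_sum_le _ _).trans ?_
  calc _ ≤ ∑ c ∈ C, a c ^ 2 * 4 := Finset.sum_le_sum fun c _ => by
        rw [norm_smul, Complex.norm_real, Real.norm_of_nonneg (sq_nonneg _),
          CStarRing.norm_star_mul_self]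
        exact mul_le_mul_of_nonneg_left (by nlinarith [hy c, norm_nonneg (y c)]) (sq_nonneg _)
    _ ≤ _ := by rw [← Finset.sum_mul]; linarith

theorem kills_avg {F : Finset ι} (hF : F.Nonempty) {z : ι → X} {y : X} {η : ℝ}
    (h : ∀ g ∈ F, ‖z g - y‖ ≤ η) : ‖(F.card : ℂ)⁻¹ • ∑ g ∈ F, z g - y‖ ≤ η := by
  have h0 : (0 : ℝ) < F.card := by exact_mod_cast hF.card_pos
  have h1 : (F.card : ℂ)⁻¹ • ∑ g ∈ F, z g - y = (F.card : ℂ)⁻¹ • ∑ g ∈ F, (z g - y) := by
    rw [Finset.sum_sub_distrib, Finset.sum_const, smul_sub, ← Nat.cast_smul_eq_nsmul ℂ, smul_smul,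
      inv_mul_cancel₀ (by exact_mod_cast hF.card_pos.ne'), one_smul]
  rw [h1, norm_smul, norm_inv, Complex.norm_natCast, inv_mul_le_iff₀ h0]
  refine (norm_sum_le _ _).trans ((Finset.sum_le_sum h).trans_eq ?_)
  rw [Finset.sum_const, nsmul_eq_mul]

/-- approximate solutions by Reiter sums -/
theorem kills_approx {Z F : Type*} [CStarAlgebra Z] [CStarAlgebra F] (hF : Folner G)
    (q : Z →⋆ₐ[ℂ] F) (β : G → Z →⋆ₐ[ℂ] Z) (N : Subgroup G) (t : G → ι → Z) (p : ι → ι → F)
    (h0 : ∀ g h i, β g (t h i) = t (g * h) i)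
    (h1 : ∀ g h, g⁻¹ * h ∈ N → ∀ i, q (t g i) = q (t h i))
    (h2 : ∀ g h, g⁻¹ * h ∉ N → ∀ i j, star (t g i) * t h j = 0)
    (h3 : ∀ g i j, q (star (t g i) * t g j) = p i j) (h4 : ∀ g i, ‖t g i‖ ≤ 2) (K : Finset G)
    {ε : ℝ} (hε : 0 < ε) : ∃ x : ι → Z, (∀ i, ‖x i‖ ≤ 1) ∧
      (∀ g ∈ K, ∀ i, ‖β g (x i) - x i‖ ≤ ε) ∧
      ∀ i j, ‖q (star (x i) * x j) - (4⁻¹ : ℂ) • p i j‖ ≤ ε := by
  classical
  obtain ⟨Fo, hne, hFo⟩ := folner_avg hF K hε
  obtain ⟨C, ξ, hξ0, hξ1, hξ⟩ := exists_reiter hF N Fo (ε := (ε / 2) ^ 2) (by positivity)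
  have ho : ∀ g (c c' : G ⧸ N), c ≠ c' → ∀ i j, star (t (g * c.out) i) * t (g * c'.out) j = 0 :=
    fun g c c' hc => h2 _ _ fun h => hc (by
      rw [mul_inv_rev, mul_assoc, inv_mul_cancel_left, ← QuotientGroup.eq] at h
      simpa using h)
  set S : G → ι → Z := fun g i => (2⁻¹ : ℂ) • ∑ c ∈ C, (ξ c : ℂ) • t (g * c.out) i with hS
  have hS1 : ∀ g i, ‖S g i‖ ≤ 1 := fun g i => by
    have := kills_norm C ξ (fun c c' hc => ho g c c' hc i i) (fun c => h4 _ i) zero_le_one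
      (by rw [hξ1, one_pow])
    simp only [hS, norm_smul, norm_inv, Complex.norm_ofNat]
    linarith
  have hS2 : ∀ k g i, β k (S g i) = S (k * g) i := fun k g i => by
    simp only [hS, map_smul, map_sum, h0, mul_assoc]
  have hS3 : ∀ i j, q (star (S 1 i) * S 1 j) = (4⁻¹ : ℂ) • p i j := fun i j => by
    simp only [hS]
    rw [star_smul, smul_mul_smul_comm, kills_orth C ξ fun c c' hc => ho 1 c c' hc i j, map_smul,
      map_sum]
    simp only [map_smul, h3]
    rw [← Finset.sum_smul, ← Complex.ofReal_sum, hξ1, Complex.ofReal_one, one_smul]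
    congr 1
    simp only [star_inv₀, star_ofNat]
    norm_num
  have hq : ∀ z : Z, ‖q z‖ ≤ ‖z‖ := fun z => NonUnitalStarAlgHom.norm_apply_le q z
  have hS4 : ∀ g ∈ Fo, ∀ i, ‖q (S g i) - q (S 1 i)‖ ≤ ε / 2 := fun g hg i => by
    have e1 : ∑ c ∈ C, (ξ c : ℂ) • q (t (g * c.out) i) =
        ∑ c ∈ C ∪ C.image (g • ·), (ξ (g⁻¹ • c) : ℂ) • q (t (1 * c.out) i) := by
      rw [← Finset.sum_subset Finset.subset_union_right fun c _ hc => by
          rw [hξ0 _ fun h => hc (Finset.mem_image.2 ⟨_, h, smul_inv_smul g c⟩)]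
          simp,
        Finset.sum_image fun c _ c' _ h => smul_left_cancel g h]
      refine Finset.sum_congr rfl fun c _ => ?_
      rw [inv_smul_smul, h1 _ _ (QuotientGroup.eq.1 ?_)]
      rw [one_mul, QuotientGroup.out_eq', ← smul_eq_mul, ← MulAction.Quotient.smul_mk,
        QuotientGroup.out_eq']
    have e2 : ∑ c ∈ C, (ξ c : ℂ) • q (t (1 * c.out) i) =
        ∑ c ∈ C ∪ C.image (g • ·), (ξ c : ℂ) • q (t (1 * c.out) i) :=
      Finset.sum_subset Finset.subset_union_left fun c _ hc => by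
        rw [hξ0 _ hc]
        simp
    have e3 := kills_norm (C ∪ C.image (g • ·)) (fun c => ξ (g⁻¹ • c) - ξ c)
      (y := fun c => q (t (1 * c.out) i))
      (fun c c' hc => by rw [← map_star, ← map_mul, ho 1 c c' hc, map_zero])
      (fun c => (hq _).trans (h4 _ i)) (half_pos hε).le (hξ g hg _)
    simp only [hS, map_smul, map_sum]
    rw [e1, e2, ← smul_sub, ← Finset.sum_sub_distrib, norm_smul, norm_inv, Complex.norm_ofNat]
    simp only [Complex.ofReal_sub, sub_smul] at e3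
    linarith
  have hx1 : ∀ i, ‖(Fo.card : ℂ)⁻¹ • ∑ g ∈ Fo, S g i‖ ≤ 1 := fun i => by
    simpa only [sub_zero] using kills_avg hne (z := fun g => S g i) (y := 0)
      fun g _ => by simpa only [sub_zero] using hS1 g i
  have hx2 : ∀ i, ‖q ((Fo.card : ℂ)⁻¹ • ∑ g ∈ Fo, S g i) - q (S 1 i)‖ ≤ ε / 2 := fun i => by
    rw [map_smul, map_sum]
    exact kills_avg hne fun g hg => hS4 g hg i
  refine ⟨fun i => (Fo.card : ℂ)⁻¹ • ∑ g ∈ Fo, S g i, hx1, fun k hk i => ?_, fun i j => ?_⟩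
  · have := hFo Z (fun g => S g i) (fun g => hS1 g i) k hk
    simpa only [map_smul, map_sum, hS2] using this
  · have a1 := (hq _).trans (hx1 j)
    have a2 := (hq _).trans (hS1 1 i)
    have a3 := hx2 i
    have a4 := hx2 j
    rw [← hS3, map_mul, map_mul, map_star, map_star]
    generalize q ((Fo.card : ℂ)⁻¹ • ∑ g ∈ Fo, S g i) = u at *
    generalize q ((Fo.card : ℂ)⁻¹ • ∑ g ∈ Fo, S g j) = u' at *
    generalize q (S 1 i) = y at *
    generalize q (S 1 j) = y' at *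
    have e : star u * u' - star y * y' = star (u - y) * u' + star y * (u' - y') := by
      rw [star_sub]
      noncomm_ring
    rw [e]
    refine (norm_add_le _ _).trans ?_
    have b1 := norm_mul_le (star (u - y)) u'
    have b2 := norm_mul_le (star y) (u' - y')
    rw [norm_star] at b1 b2
    nlinarith [mul_le_mul a3 a1 (norm_nonneg _) (half_pos hε).le,
      mul_le_mul a2 a4 (norm_nonneg _) zero_le_one]

end Abs

theorem kills_approx' (hF : Folner G) {f : Ultrapower B ω} (hf : f ∈ cenG E ω)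
    {s : Fin 2 → Ultrapower B ω} (hs1 : ∀ i, s i ∈ centralSeq B ω ∧ ‖s i‖ ≤ 2)
    (hs2 : ∀ i j, IsAnn E ω (star (s i) * s j - if i = j then f * f else 0))
    (hs3 : ∀ g, ¬ Triv E ω g → ∀ i j, star (s i) * uact E ω g (s j) = 0) (K : Finset G)
    {ε : ℝ} (hε : 0 < ε) : ∃ x : Fin 2 → Ultrapower B ω,
      (∀ i, x i ∈ centralSeq B ω ∧ ‖x i‖ ≤ 1) ∧ (∀ g ∈ K, ∀ i, ‖uact E ω g (x i) - x i‖ ≤ ε) ∧
      ∀ a ∈ E.I, ∀ i j, ‖uconst ω a * (star (x i) * x j -
        if i = j then (4⁻¹ : ℂ) • (f * f) else 0)‖ ≤ ‖a‖ * ε := by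
  obtain ⟨N, hN⟩ := exists_trivSubgroup E ω
  obtain ⟨F, _, q, hq⟩ := exists_annQuot E ω (centralSeq B ω) (isClosed_centralSeq B ω) le_rfl
  obtain ⟨hf1, hf2⟩ := mem_cenG.1 hf
  let β : G → centralSeq B ω →⋆ₐ[ℂ] centralSeq B ω := fun g =>
    ((uact E ω g).comp (centralSeq B ω).subtype).codRestrict _ fun x => uact_mem x.2 g
  let t : G → Fin 2 → centralSeq B ω := fun g i => ⟨uact E ω g (s i), uact_mem (hs1 i).1 g⟩
  let f' : centralSeq B ω := ⟨f, hf1⟩
  have hh : ∀ g h (z : Ultrapower B ω), uact E ω g (uact E ω (g⁻¹ * h) z) = uact E ω h z :=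
    fun g h z => by rw [← uact_mul, mul_inv_cancel_left]
  have hc : ∀ (i j : Fin 2) (z : centralSeq B ω),
      ((if i = j then z else 0 : centralSeq B ω) : Ultrapower B ω) =
        if i = j then (z : Ultrapower B ω) else 0 := fun i j z => by split_ifs <;> rfl
  obtain ⟨x, a1, a2, a3⟩ := kills_approx hF q β N t (fun i j => q (if i = j then f' * f' else 0))
    (fun g h i => Subtype.ext (uact_mul g h (s i)).symm)
    (fun g h hgh i => by
      rw [eq_comm, ← sub_eq_zero, ← map_sub, hq.ker]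
      have := ((hN _).1 hgh _ (hs1 i).1).act g
      rwa [map_sub, hh] at this)
    (fun g h hgh i j => Subtype.ext (by
      have := congrArg (uact E ω g) (hs3 _ (fun h' => hgh ((hN _).2 h')) i j)
      rwa [map_mul, map_star, hh, map_zero] at this))
    (fun g i j => by
      rw [← sub_eq_zero, ← map_sub, hq.ker]
      have := (hs2 i j).act g
      rw [map_sub, map_mul, map_star, apply_ite (uact E ω g), map_mul, hf2, map_zero] at this
      rwa [AddSubgroupClass.coe_sub, hc])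
    (fun g i => (norm_uact g (s i)).trans_le (hs1 i).2) K hε
  refine ⟨fun i => x i, fun i => ⟨(x i).2, a1 i⟩, a2, fun a ha i j => ?_⟩
  have e := hq.norm_mul_le (isClosed_centralSeq B ω) ha
    (star (x i) * x j - if i = j then (4⁻¹ : ℂ) • (f' * f') else 0)
  rw [AddSubgroupClass.coe_sub, hc] at e
  refine e.trans (mul_le_mul_of_nonneg_left ?_ (norm_nonneg a))
  have := a3 i j
  rwa [← map_smul, smul_ite, smul_zero, ← map_sub] at this

theorem char_kills [TopologicalSpace.SeparableSpace B] [Countable G]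
    (hω : (ω : Filter ℕ) ≤ cofinite) (hF : Folner G) {a a' : B} (hS : SIU E ω a a')
    (χ : cenG E ω →⋆ₐ[ℂ] ℂ) (hχ : ∀ x : cenG E ω, IsAnn E ω x → χ x = 0) (f : cenG E ω)
    (hf : star f = f) (h1 : ‖(f : Ultrapower B ω)‖ ≤ 1) (hN : IsNeg E ω a a' f) :
    χ f = 0 := by
  classical
  obtain ⟨s, hs1, hs2, hs3⟩ := hS f (cenG_le f.2) (congrArg Subtype.val hf) h1 hN
  obtain ⟨b, hb1, hb2⟩ := E.exists_dense
  let c : Fin 2 → Fin 2 → Ultrapower B ω := fun i j =>
    if i = j then (4⁻¹ : ℂ) • ((f : Ultrapower B ω) * f) else 0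
  obtain ⟨x, hx1, hx2, -⟩ := satC (E := E) hω (V := Fin 2) (ι := Empty)
    (κ := (G × Fin 2) ⊕ (ℕ × Fin 2 × Fin 2))
    (Sum.elim (fun p x => uact E ω p.1 (x p.2) + -1 * x p.2)
      fun p x => uconst ω (b p.1) * (star (x p.2.1) * x p.2.2 + -c p.2.1 p.2.2))
    Empty.elim Empty.elim Empty.elim (by
      rintro (p | p)
      · exact .add (.act _ (.var _)) (.mul (.const _) (.var _))
      · exact .mul (.const _) (.add (.mul (.star (.var _)) (.var _)) (.const _)))
    (fun k => k.elim) (fun k => k.elim) fun t _ ε hε => by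
      obtain ⟨M, hM⟩ := Finset.exists_le (insert 1 (t.toRight.image fun p => ‖b p.1‖))
      have hM1 : 1 ≤ M := hM _ (Finset.mem_insert_self _ _)
      obtain ⟨x, a1, a2, a3⟩ := kills_approx' hF f.2 hs1 hs2 hs3 (t.toLeft.image Prod.fst)
        (ε := ε / M) (by positivity)
      refine ⟨x, a1, ?_, fun k => k.elim⟩
      rintro (p | p) hp
      · have := a2 p.1 (Finset.mem_image_of_mem _ (Finset.mem_toLeft.2 hp)) p.2
        rw [Sum.elim_inl, neg_one_mul, ← sub_eq_add_neg]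
        exact this.trans (div_le_self hε.le hM1)
      · rw [Sum.elim_inr, ← sub_eq_add_neg]
        refine (a3 _ (hb1 p.1) _ _).trans ?_
        have := hM _ (Finset.mem_insert_of_mem
          (Finset.mem_image_of_mem (fun p => ‖b p.1‖) (Finset.mem_toRight.2 hp)))
        rw [mul_div_assoc', div_le_iff₀ (by linarith), mul_comm]
        exact mul_le_mul_of_nonneg_left this hε.le
  let y : Fin 2 → cenG E ω := fun i => ⟨x i, mem_cenG.2 ⟨(hx1 i).1, fun g => by
    have := hx2 (Sum.inl (g, i))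
    rwa [Sum.elim_inl, neg_one_mul, ← sub_eq_add_neg, sub_eq_zero] at this⟩⟩
  have key : ∀ i j, star (χ (y i)) * χ (y j) = if i = j then 4⁻¹ * (χ f * χ f) else 0 := by
    intro i j
    have h2 := hχ (star (y i) * y j - if i = j then (4⁻¹ : ℂ) • (f * f) else 0)
      (isAnn_of_dense hb2 fun n => by
        have := hx2 (Sum.inr (n, i, j))
        rw [Sum.elim_inr, ← sub_eq_add_neg] at this
        rw [← this, AddSubgroupClass.coe_sub]
        dsimp only [c]
        split_ifs <;> rfl)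
    rwa [map_sub, map_mul, map_star, apply_ite χ, map_smul, map_mul, map_zero, sub_eq_zero,
      smul_eq_mul] at h2
  have h00 := key 0 0
  have h11 := key 1 1
  have h01 := key 0 1
  rw [if_pos rfl] at h00 h11
  rw [if_neg (by decide)] at h01
  have h3 : 4⁻¹ * (χ f * χ f) = 0 := by
    rcases mul_eq_zero.1 h01 with h | h
    · rw [← h00, h, zero_mul]
    · rw [← h11, h, mul_zero]
  simpa using h3

end Vale.Agent.P095
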