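import Vale.Agent.P095.Excise
import Vale.Agent.P095.Ann

/-! P095: the condition of Kishimoto for automorphisms that move central sequences. See skel/P095/BLUEPRINT.md. -/

namespace Vale.Agent.P095

open Filter Topology Vale.Agent.P101 Vale.Agent.P101.F
open scoped ComplexOrder

universe u v w

variable {B : Type u} [CStarAlgebra B] {G : Type v} [Group G] {E : Env B G}
variable {ω : Ultrafilter ℕ}

section Small

variable {F : Type u} [CStarAlgebra F]

theorem kish_sa (σ : F →⋆ₐ[ℂ] F) (h : ∃ y, σ y ≠ y) : ∃ y, star y = y ∧ σ y ≠ y := by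
  by_contra h'
  push Not at h'
  obtain ⟨y, hy⟩ := h
  apply hy
  rw [← realPart_add_I_smul_imaginaryPart y, map_add, map_smul, h' _ (realPart y).2,
    h' _ (imaginaryPart y).2]

theorem kish_pos {u : F} (h : u ≠ 0) : ∃ d : ℝ, 0 < d ∧
    (¬ u - (d : ℂ) • (1 : F) ≤ 0 ∨ ¬ -u - (d : ℂ) • (1 : F) ≤ 0) := by
  have h0 : 0 < ‖u‖ := norm_pos_iff.2 h
  refine ⟨‖u‖ / 4, by positivity, ?_⟩
  by_contra h'
  push Not at h'
  obtain ⟨h1, h2⟩ := h'
  set e : F := ((‖u‖ / 4 : ℝ) : ℂ) • (1 : F) with he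
  have : Nontrivial F := nontrivial_of_ne u 0 h
  have h3 : ‖e‖ = ‖u‖ / 4 := by
    rw [he, norm_smul, norm_one, mul_one, Complex.norm_real, Real.norm_of_nonneg (by positivity)]
  have h4 : 0 ≤ u + e := by
    rw [← neg_nonpos]
    convert h2 using 1
    abel
  have h5 : u + e ≤ e + e := by
    rw [sub_nonpos] at h1
    gcongr
  have h6 := CStarAlgebra.norm_le_norm_of_nonneg_of_le h4 h5
  have h7 := norm_add_le e e
  have h8 := norm_sub_le (u + e) e
  rw [add_sub_cancel_right] at h8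
  linarith

theorem kish_le_one {x : F} (hx : star x = x) (h : ‖x‖ ≤ 1) : 0 ≤ 1 - x * x := by
  have h0 : 0 ≤ x * x := by
    have := star_mul_self_nonneg x
    rwa [hx] at this
  rw [sub_nonneg, ← CStarAlgebra.norm_le_one_iff_of_nonneg _ h0]
  exact (norm_mul_le _ _).trans (mul_le_one₀ h (norm_nonneg _) h)

theorem kish_aux (σ : F →⋆ₐ[ℂ] F) {y : F} (hy : star y = y) {d : ℝ} (hd : 0 < d)
    (h : ¬ σ y - y - (d : ℂ) • (1 : F) ≤ 0) : ∃ x : F, 0 ≤ x ∧ ‖x‖ = 1 ∧ ‖x * σ x‖ < 1 := by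
  set u : F := σ y - y - (d : ℂ) • (1 : F) with hu
  have hus : IsSelfAdjoint u := by
    rw [IsSelfAdjoint, hu, star_sub, star_sub, ← map_star, hy, star_smul, star_one]
    simp
  have hc0 : 0 ≤ u⁺ := CFC.posPart_nonneg u
  have hc : u⁺ ≠ 0 := fun h0 => h ((CFC.posPart_eq_zero_iff u hus).1 h0)
  obtain ⟨r, l, hx0, hx1, hx2⟩ := exc_step hc0 hc hy (show 0 < d / 3 by positivity)
  have hpos : 0 ≤ u⁺ * r * u * (u⁺ * r) := by
    have h1 : u⁺ * r = star r * u⁺ := by
      rw [← hx0.isSelfAdjoint.star_eq, star_mul, hc0.isSelfAdjoint.star_eq]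
    have h2 : u⁺ * u = u⁺ * u⁺ := by
      conv_lhs => rw [← CFC.posPart_sub_negPart u hus]
      rw [CFC.posPart_sub_negPart u hus]
      nth_rewrite 2 [← CFC.posPart_sub_negPart u hus]
      rw [mul_sub, CFC.posPart_mul_negPart, sub_zero]
    have h3 : u⁺ * r * u * (u⁺ * r) = star (u⁺ * r) * u⁺ * (u⁺ * r) := by
      rw [hx0.isSelfAdjoint.star_eq]
      nth_rewrite 1 [h1]
      nth_rewrite 2 [h1]
      rw [mul_assoc (star r), h2, ← mul_assoc (star r)]
    rw [h3]
    exact star_left_conjugate_nonneg hc0 _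
  set x := u⁺ * r
  refine ⟨x, hx0, hx1, ?_⟩
  by_contra h1
  rw [not_lt] at h1
  have : Nontrivial F := nontrivial_of_ne _ _ hc
  have hs : star x = x := hx0.isSelfAdjoint.star_eq
  have hσ0 : 0 ≤ σ x := map_nonneg σ hx0
  have hσs : star (σ x) = σ x := hσ0.isSelfAdjoint.star_eq
  have hσ1 : ‖σ x‖ ≤ 1 := (NonUnitalStarAlgHom.norm_apply_le σ x).trans hx1.le
  have h2 : ‖x * σ x‖ = 1 := le_antisymm ((norm_mul_le _ _).trans
    (mul_le_one₀ hx1.le (norm_nonneg _) hσ1)) h1
  obtain ⟨ψ, hψ, h3⟩ := exists_isState (mul_star_self_nonneg (x * σ x))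
  rw [CStarRing.norm_self_mul_star, h2, star_mul, hs, hσs] at h3
  have h4 : ψ (x * x) = 1 := by
    have h5 := hψ.nonneg (kish_le_one hs hx1.le)
    have h6 := hψ.nonneg (star_left_conjugate_nonneg (kish_le_one hσs hσ1) x)
    rw [hs, show x * (1 - σ x * σ x) * x = x * x - x * σ x * (σ x * x) by noncomm_ring,
      map_sub, h3] at h6
    rw [map_sub, hψ.one] at h5
    exact le_antisymm (sub_nonneg.1 h5) (by simpa using sub_nonneg.1 h6)
  have hm := hψ.mul_eq hx0 hx1.le h4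
  have hc1 : ∀ b, ψ (x * b * x) = ψ b := fun b => by rw [(hm _).2, (hm _).1]
  have h5 : ψ (σ x * σ x) = 1 := by
    rw [← hc1, show x * (σ x * σ x) * x = x * σ x * (σ x * x) by noncomm_ring, h3]
    simp
  have hm' := hψ.mul_eq hσ0 hσ1 h5
  have hc2 : ∀ b, ψ (σ x * b * σ x) = ψ b := fun b => by rw [(hm' _).2, (hm' _).1]
  have hb : ∀ b, ‖ψ b‖ ≤ ‖b‖ := fun b =>
    (ψ.le_opNorm b).trans (mul_le_of_le_one_left (norm_nonneg _) hψ.norm_le)
  have h6 : ‖ψ (y - (l : ℂ) • 1)‖ ≤ d / 3 := by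
    rw [← hc1]
    exact (hb _).trans hx2
  have h7 : ‖ψ (σ y - (l : ℂ) • 1)‖ ≤ d / 3 := by
    rw [← hc2]
    refine (hb _).trans (le_trans (le_of_eq ?_)
      ((NonUnitalStarAlgHom.norm_apply_le σ _).trans hx2))
    simp only [map_mul, map_sub, map_smul, map_one]
  have h8 := hψ.nonneg hpos
  rw [hc1, show u = σ y - (l : ℂ) • 1 - (y - (l : ℂ) • 1) - (d : ℂ) • (1 : F) by
    rw [hu]; abel, map_sub, map_sub, map_smul ψ (d : ℂ), hψ.one] at h8
  have h9 := (Complex.le_def.1 h8).1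
  simp only [Complex.zero_re, Complex.sub_re, smul_eq_mul, mul_one, Complex.ofReal_re] at h9
  have h10 := (Complex.re_le_norm _).trans h7
  have h11 := (abs_le.1 ((Complex.abs_re_le_norm _).trans h6)).1
  linarith

end Small

theorem exists_small_prod {F : Type u} [CStarAlgebra F] (σ : F →⋆ₐ[ℂ] F) (h : ∃ y, σ y ≠ y) :
    ∃ x : F, 0 ≤ x ∧ ‖x‖ = 1 ∧ ‖x * σ x‖ < 1 := by
  obtain ⟨y, hy, h⟩ := kish_sa σ h
  obtain ⟨d, hd, h | h⟩ := kish_pos (sub_ne_zero.2 h)
  · exact kish_aux σ hy hd h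
  · refine kish_aux σ (y := -y) (by rw [star_neg, hy]) hd ?_
    rwa [map_neg, neg_sub_neg, ← neg_sub (σ y)]

theorem kish_of_not_triv (hs : Simp E) {g : G} (h : ¬ Triv E ω g) : Kish E (E.α g) := by
  obtain ⟨F, _, q, hq⟩ := exists_annQuot E ω (centralSeq B ω) (isClosed_centralSeq B ω) le_rfl
  let A : centralSeq B ω →⋆ₐ[ℂ] centralSeq B ω :=
    ((uact E ω g).comp (centralSeq B ω).subtype).codRestrict _ fun x => uact_mem x.2 g
  obtain ⟨σ, hσ⟩ := exists_hom_lift q hq.surj (q.comp A) fun x hx =>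
    (hq.ker _).2 (((hq.ker x).1 hx).act g)
  have hne : ∃ y, σ y ≠ y := by
    by_contra h'
    push Not at h'
    refine h fun x hx => ?_
    have : q (A ⟨x, hx⟩ - ⟨x, hx⟩) = 0 := by
      rw [map_sub, sub_eq_zero]
      exact (hσ _).symm.trans (h' _)
    exact (hq.ker _).1 this
  obtain ⟨x, hx0, hx1, hθ⟩ := exists_small_prod σ hne
  obtain ⟨z, rfl⟩ := hq.surj x
  obtain ⟨ζ, hζ⟩ := umk_surjective (ω := ω) (z : Ultrapower B ω)
  set θ := ‖q z * σ (q z)‖ with hθ'
  intro c hc _ hc0 a ε hε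
  by_contra hcon
  push Not at hcon
  have key : ∀ (k : ℕ) (r : B),
      ε * ‖c * r‖ ^ 2 ≤ θ ^ k * ‖star (c * r) * a * E.α g (c * r)‖ := by
    intro k
    induction k with
    | zero =>
      intro r
      rw [pow_zero, one_mul]
      rcases (norm_nonneg (c * r)).eq_or_lt with h0 | h0
      · rw [← h0]
        simp
      have h1 : ‖((‖c * r‖⁻¹ : ℝ) : ℂ)‖ = ‖c * r‖⁻¹ := by simp
      have h2 := hcon (((‖c * r‖⁻¹ : ℝ) : ℂ) • r) (by
        rw [mul_smul_comm, norm_smul, h1, inv_mul_cancel₀ h0.ne'])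
      rw [mul_smul_comm, star_smul, map_smul, smul_mul_assoc, smul_mul_smul_comm, norm_smul,
        norm_mul, norm_star, h1, ← mul_inv, ← div_eq_inv_mul, lt_div_iff₀ (by positivity),
        ← sq] at h2
      exact h2.le
    | succ k ih =>
      intro r
      have hv : c * r ∈ E.I := E.mul_right hc r
      obtain ⟨v, hv'⟩ : ∃ v, v = c * r := ⟨_, rfl⟩
      rw [← hv'] at hv ⊢
      have t1 := tendsto_norm_umk (ω := ω) (constSeq B v * ζ)
      have t2 := tendsto_norm_umk (ω := ω) (star (constSeq B v * ζ) * constSeq B a *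
        seqMap (E.α g : B →⋆ₐ[ℂ] B) (constSeq B v * ζ))
      have e1 : ‖umk ω (constSeq B v * ζ)‖ = ‖v‖ := by
        rw [map_mul, hζ, ← uconst_apply,
          hq.norm_mul_eq (isClosed_centralSeq B ω) le_rfl hs hv z, hx1, mul_one]
      have e2 : umk ω (star (constSeq B v * ζ) * constSeq B a *
          seqMap (E.α g : B →⋆ₐ[ℂ] B) (constSeq B v * ζ)) =
          uconst ω (star v * a * E.α g v) * (star z * A z : centralSeq B ω) := by
        have e3 := mem_centralSeq.1 (star z).2 (star v * a * E.α g v)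
        rw [map_mul, map_mul, map_star, ← umap_umk, map_mul, hζ, ← uconst_apply, ← uconst_apply,
          MulMemClass.coe_mul, ← mul_assoc, e3, map_mul, umap_uconst, map_mul, map_mul, map_star,
          star_mul]
        simp only [mul_assoc]
        rfl
      have e4 := hq.norm_mul_le (isClosed_centralSeq B ω)
        (E.mul_left (E.inv g v hv) (star v * a)) (star z * A z)
      have e5 : ‖q (star z * A z)‖ = θ := by
        rw [map_mul, map_star, hx0.isSelfAdjoint.star_eq, hθ', hσ]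
        rfl
      rw [← e2, e5] at e4
      rw [e1] at t1
      have h1 := le_of_tendsto_of_tendsto' ((t1.pow 2).const_mul ε) (t2.const_mul (θ ^ k))
        fun n => by
          have := ih (r * ζ n)
          rw [← mul_assoc c, ← hv'] at this
          exact this
      refine h1.trans ?_
      rw [pow_succ, mul_assoc (θ ^ k), mul_comm θ]
      exact mul_le_mul_of_nonneg_left e4 (by positivity)
  have t := (tendsto_pow_atTop_nhds_zero_of_lt_one (norm_nonneg _) hθ).mul_const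
    ‖star (c * 1) * a * E.α g (c * 1)‖
  have h1 := ge_of_tendsto' t fun k => key k 1
  rw [zero_mul, mul_one] at h1
  have h2 : 0 < ε * ‖c‖ ^ 2 := by positivity
  linarith

end Vale.Agent.P095
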