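import Vale.Agent.P095.SatU

/-! P095: limit traces and the trace kernel. See skel/P095/BLUEPRINT.md. -/

namespace Vale.Agent.P095

open Filter Topology Vale.Agent.P101 Vale.Agent.P101.F
open scoped ComplexOrder

universe u v w

variable {B : Type u} [CStarAlgebra B] {G : Type v} [Group G] {E : Env B G}
variable {ω : Ultrafilter ℕ}


section Pos

variable {X : Type u} [CStarAlgebra X] {r : X →L[ℂ] ℂ}

theorem limTr_nonneg (h : ∀ x, 0 ≤ r (star x * x)) {a : X} (ha : 0 ≤ a) : 0 ≤ r a := by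
  obtain ⟨x, rfl⟩ := CStarAlgebra.nonneg_iff_eq_star_mul_self.1 ha
  exact h x

theorem limTr_cs (h : ∀ x, 0 ≤ r (star x * x)) (x y : X) :
    ‖r (star x * y)‖ ≤ √(r (star x * x)).re * √(r (star y * y)).re :=
  norm_inner_le_norm (𝕜 := ℂ)
    ((PositiveLinearMap.mk₀ r.toLinearMap fun _ hx => limTr_nonneg h hx).toPreGNS x)
    ((PositiveLinearMap.mk₀ r.toLinearMap fun _ hx => limTr_nonneg h hx).toPreGNS y)

theorem limTr_left (h : ∀ x, 0 ≤ r (star x * x)) {x : X} (hx : r (star x * x) = 0) (y : X) :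
    r (star x * y) = 0 := by
  have := limTr_cs h x y
  rwa [hx, Complex.zero_re, Real.sqrt_zero, zero_mul, norm_le_zero_iff] at this

theorem limTr_right (h : ∀ x, 0 ≤ r (star x * x)) {x : X} (hx : r (star x * x) = 0) (y : X) :
    r (y * x) = 0 := by
  have := limTr_cs h (star y) x
  rwa [hx, Complex.zero_re, Real.sqrt_zero, mul_zero, norm_le_zero_iff, star_star] at this

theorem limTr_norm (h : ∀ x, 0 ≤ r (star x * x)) (h1 : (r 1).re ≤ 1) : ‖r‖ ≤ 1 := by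
  refine r.opNorm_le_bound zero_le_one fun x => ?_
  have h2 := limTr_cs h 1 x
  rw [star_one, one_mul, one_mul] at h2
  have h3 := limTr_nonneg h (sub_nonneg.2 (CStarAlgebra.star_mul_le_algebraMap_norm_sq (a := x)))
  rw [map_sub, sub_nonneg, Algebra.algebraMap_eq_smul_one, ← Complex.coe_smul, map_smul,
    smul_eq_mul] at h3
  have h4 := h3.1
  rw [Complex.re_ofReal_mul] at h4
  refine h2.trans (mul_le_mul (Real.sqrt_le_one.2 h1) ?_ (Real.sqrt_nonneg _) zero_le_one)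
  exact Real.sqrt_le_iff.2 ⟨norm_nonneg _, h4.trans (mul_le_of_le_one_right (sq_nonneg _) h1)⟩

/-- a homomorphism as a bounded operator -/
noncomputable def limTr_clm {Y : Type u} [CStarAlgebra Y] (σ : X →⋆ₐ[ℂ] Y) : X →L[ℂ] Y :=
  ⟨σ.toAlgHom.toLinearMap, reind_cont σ⟩

end Pos

theorem limTr_sqrt {a' z : B} (ha : 0 ≤ a') (hz : z ∈ her a') (h0 : 0 ≤ z) :
    ∃ y ∈ her a', star y = y ∧ y * y = z := by
  obtain ⟨y, hy, rfl⟩ := oz_sqrt h0
  have h1 : y * (1 - a') = 0 := oz_kill hy.isSelfAdjoint (by rw [mul_one_sub, hz.2, sub_self])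
  rw [mul_one_sub, sub_eq_zero] at h1
  refine ⟨y, ⟨?_, h1.symm⟩, hy.star_eq, rfl⟩
  have h2 := congrArg star h1
  rw [star_mul, hy.star_eq, ha.star_eq] at h2
  exact h2.symm

theorem limTr_conj {a' s : B} (hs : s ∈ her a') (x : B) : s * x * s ∈ her a' :=
  ⟨by rw [← mul_assoc, ← mul_assoc, hs.1], by rw [mul_assoc, hs.2]⟩

theorem limTr_mul {a' x y : B} (hx : x ∈ her a') (hy : y ∈ her a') : x * y ∈ her a' :=
  ⟨by rw [← mul_assoc, hx.1], by rw [mul_assoc, hy.2]⟩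

theorem limTr_sub {a' x y : B} {τ : B → ℂ} (hτ : IsTraceOn (her a') τ) (hx : x ∈ her a')
    (hy : y ∈ her a') : ‖τ x - τ y‖ ≤ 4 * ‖x - y‖ := by
  have h1 : x - y ∈ her a' := ⟨by rw [mul_sub, hx.1, hy.1], by rw [sub_mul, hx.2, hy.2]⟩
  have h2 := hτ.add _ h1 _ hy
  rw [sub_add_cancel] at h2
  rw [h2, add_sub_cancel_right]
  exact hτ.bound _ h1

theorem Tri.limTr_mem {a a' a'' : B} (h : Tri E a a' a'') : a ∈ her a' := by
  refine ⟨h.mul, ?_⟩
  have h2 := congrArg star h.mul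
  rwa [star_mul, h.pos.1.star_eq, h.pos.2.1.star_eq] at h2

theorem limTr_comp (σ : B →⋆ₐ[ℂ] B) {b b' : B} {r : B →L[ℂ] ℂ} (hr : r ∈ trSet (σ b) (σ b')) :
    r.comp (limTr_clm σ) ∈ trSet b b' := by
  obtain ⟨τ, hτ, h⟩ := hr
  have h1 : ∀ x ∈ her b', σ x ∈ her (σ b') := fun x hx =>
    ⟨by rw [← map_mul, hx.1], by rw [← map_mul, hx.2]⟩
  have h2 : ∀ x, ‖σ x‖ ≤ ‖x‖ := NonUnitalStarAlgHom.norm_apply_le σ
  refine ⟨fun x => τ (σ x), ⟨fun x hx y hy => ?_, fun c x hx => ?_, fun x hx => ?_, fun x hx => ?_,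
    fun x hx => ?_, fun x hx y hy => ?_⟩, fun x => ?_⟩
  · rw [map_add, hτ.add _ (h1 x hx) _ (h1 y hy)]
  · rw [map_smul, hτ.smul _ _ (h1 x hx)]
  · rw [map_mul, map_star]
    exact hτ.pos _ (h1 x hx)
  · rw [map_mul, map_star]
    exact (hτ.le _ (h1 x hx)).trans (pow_le_pow_left₀ (norm_nonneg _) (h2 x) 2)
  · exact (hτ.bound _ (h1 x hx)).trans (mul_le_mul_of_nonneg_left (h2 x) (by norm_num))
  · rw [map_mul, map_mul, hτ.trace _ (h1 x hx) _ (h1 y hy)]
  · beta_reduce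
    rw [map_mul, map_mul]
    exact h (σ x)

theorem Tri.act {a a' a'' : B} (h : Tri E a a' a'') (g : G) :
    Tri E (E.α g a) (E.α g a') (E.α g a'') := by
  have h1 : ∀ x, 0 ≤ x → 0 ≤ E.α g x := fun x hx => map_nonneg' (E.α g : B →⋆ₐ[ℂ] B) hx
  refine ⟨⟨E.inv g _ h.mem.1, E.inv g _ h.mem.2.1, E.inv g _ h.mem.2.2⟩,
    ⟨h1 _ h.pos.1, h1 _ h.pos.2.1, h1 _ h.pos.2.2⟩, ?_, (map_ne_zero_iff _ (E.α g).injective).2 h.ne,
    by rw [← map_mul, h.mul], by rw [← map_mul, h.mul']⟩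
  simpa only [act_norm] using h.norm

theorem exists_tri (h : ∃ a ∈ E.I, a ≠ 0) : ∃ a a' a'', Tri E a a' a'' := by
  obtain ⟨x, hx, hx0⟩ := h
  have : Nontrivial B := nontrivial_of_ne x 0 hx0
  obtain ⟨b, hb, hb0, hN⟩ : ∃ b ∈ E.I, 0 ≤ b ∧ 0 < ‖b‖ := ⟨star x * x, E.mul_left hx _,
    star_mul_self_nonneg x, norm_pos_iff.2 (CStarRing.star_mul_self_ne_zero_iff x |>.2 hx0)⟩
  obtain ⟨f, hf⟩ : ∃ f : ℝ → ℝ → ℝ, ∀ s t, f s t = max 0 (min 1 (4 * t / ‖b‖ - s)) :=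
    ⟨_, fun _ _ => rfl⟩
  have hc : ∀ s, Continuous (f s) := fun s => by
    rw [show f s = fun t => max 0 (min 1 (4 * t / ‖b‖ - s)) from funext (hf s)]
    fun_prop
  have h0 : ∀ s t, 0 ≤ f s t := fun s t => hf s t ▸ le_max_left _ _
  have h1 : ∀ s, 0 ≤ s → cfc (f s) b ∈ E.I := fun s hs =>
    E.cfc_mem hb hb0.star_eq (hc s) (by
      rw [hf, mul_zero, zero_div, zero_sub]
      exact max_eq_left ((min_le_right _ _).trans (neg_nonpos.2 hs)))
  have h2 : ∀ s, 0 ≤ cfc (f s) b := fun s => cfc_nonneg fun t _ => h0 s t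
  have h3 : ∀ s, ‖cfc (f s) b‖ ≤ 1 := fun s => norm_cfc_le zero_le_one fun t _ => by
    rw [Real.norm_of_nonneg (h0 s t), hf]
    exact max_le zero_le_one (min_le_left _ _)
  have h4 : ∀ s s', s + 1 ≤ s' → cfc (f s) b * cfc (f s') b = cfc (f s') b := fun s s' hs => by
    rw [← cfc_mul _ _ _ (hc s).continuousOn (hc s').continuousOn]
    refine cfc_congr fun t _ => ?_
    rcases le_total (4 * t / ‖b‖) s' with h | h
    · have : f s' t = 0 := by
        rw [hf]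
        exact max_eq_left ((min_le_right _ _).trans (sub_nonpos.2 h))
      simp only [this, mul_zero]
    · have : f s t = 1 := by
        rw [hf, min_eq_left (by linarith), max_eq_right zero_le_one]
      simp only [this, one_mul]
  refine ⟨cfc (f 2) b, cfc (f 1) b, cfc (f 0) b, ⟨h1 _ zero_le_two, h1 _ zero_le_one, h1 _ le_rfl⟩,
    ⟨h2 _, h2 _, h2 _⟩, ⟨h3 _, h3 _, h3 _⟩, fun h => ?_, h4 _ _ (by norm_num), h4 _ _ (by norm_num)⟩
  have h5 := norm_apply_le_norm_cfc (f 2) b (CStarAlgebra.norm_mem_spectrum_of_nonneg hb0)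
    (hc 2).continuousOn hb0.isSelfAdjoint
  rw [h, norm_zero, hf, mul_div_assoc, div_self hN.ne'] at h5
  norm_num at h5

theorem Tri.conj_mem {a a' a'' : B} (h : Tri E a a' a'') (x : B) : a * x * a ∈ her a' :=
  limTr_conj h.limTr_mem x

theorem Tri.exists_trSet {a a' a'' : B} (h : Tri E a a' a'') {τ : B → ℂ}
    (hτ : IsTraceOn (her a') τ) : ∃ ρ ∈ trSet a a', ∀ x, ρ x = τ (a * x * a) := by
  let f : B →ₗ[ℂ] ℂ :=
    { toFun := fun x => τ (a * x * a)
      map_add' := fun x y => by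
        rw [mul_add, add_mul, hτ.add _ (h.conj_mem x) _ (h.conj_mem y)]
      map_smul' := fun c x => by
        rw [mul_smul_comm, smul_mul_assoc, hτ.smul _ _ (h.conj_mem x)]
        rfl }
  have h1 : ∀ x, ‖f x‖ ≤ 4 * ‖x‖ := fun x => (hτ.bound _ (h.conj_mem x)).trans (by
    have h2 := h.norm.1
    have h3 : ‖a * x * a‖ ≤ 1 * ‖x‖ * 1 := norm_mul₃_le.trans (by gcongr)
    linarith)
  exact ⟨f.mkContinuous 4 h1, ⟨τ, hτ, fun _ => rfl⟩, fun _ => rfl⟩

theorem Tri.trSet_pos {a a' a'' : B} (h : Tri E a a' a'') {r : B →L[ℂ] ℂ} (hr : r ∈ trSet a a')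
    (x : B) : 0 ≤ r (star x * x) := by
  obtain ⟨τ, hτ, h1⟩ := hr
  obtain ⟨y, h2, h3, h4⟩ := limTr_sqrt h.pos.2.1 (h.conj_mem (star x * x))
    (h.pos.1.isSelfAdjoint.conjugate_nonneg (star_mul_self_nonneg x))
  rw [h1, ← h4]
  simpa only [h3] using hτ.pos y h2

theorem Tri.trSet_norm {a a' a'' : B} (h : Tri E a a' a'') {r : B →L[ℂ] ℂ}
    (hr : r ∈ trSet a a') : ‖r‖ ≤ 1 := by
  refine limTr_norm (h.trSet_pos hr) ?_
  obtain ⟨τ, hτ, h1⟩ := hr
  have h2 := hτ.le a h.limTr_mem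
  rw [h.pos.1.star_eq] at h2
  rw [h1, mul_one]
  exact h2.trans (pow_le_one₀ (norm_nonneg _) h.norm.1)

section Lim

variable {a a' a'' : B} {ρ : Ultrapower B ω →L[ℂ] ℂ}

theorem Tri.lim_pos (h : Tri E a a' a'') (hρ : IsLim ω (trSet a a') ρ) (x : Ultrapower B ω) :
    0 ≤ ρ (star x * x) := by
  obtain ⟨r, hr, h1⟩ := hρ
  obtain ⟨z, rfl⟩ := umk_surjective x
  rw [← map_star, ← map_mul]
  exact ge_of_tendsto' (h1 _) fun n => h.trSet_pos (hr n) (z n)

theorem Tri.lim_norm (h : Tri E a a' a'') (hρ : IsLim ω (trSet a a') ρ) : ‖ρ‖ ≤ 1 := by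
  obtain ⟨r, hr, h1⟩ := hρ
  refine ρ.opNorm_le_bound zero_le_one fun x => ?_
  obtain ⟨z, rfl⟩ := umk_surjective x
  exact le_of_tendsto_of_tendsto' (h1 z).norm ((tendsto_norm_umk z).const_mul 1) fun n =>
    (r n).le_of_opNorm_le (h.trSet_norm (hr n)) _

theorem Tri.lim_trace (h : Tri E a a' a'') (hρ : IsLim ω (trSet a a') ρ) {x y : Ultrapower B ω}
    (hx : x ∈ centralSeq B ω) (hy : y ∈ centralSeq B ω) : ρ (x * y) = ρ (y * x) := by
  obtain ⟨r, hr, h1⟩ := hρ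
  choose τ hτ hτ' using hr
  obtain ⟨s, hs, -, hss⟩ := limTr_sqrt h.pos.2.1 h.limTr_mem h.pos.1
  have key : ∀ u v : BoundedContinuousFunction ℕ B, umk ω u ∈ centralSeq B ω →
      umk ω v ∈ centralSeq B ω → Tendsto (fun n => τ n (s * u n * s * (s * v n * s)))
        (ω : Filter ℕ) (𝓝 (ρ (umk ω u * umk ω v))) := fun u v hu hv => by
    have h2 : umk ω (constSeq B s * u * constSeq B s * (constSeq B s * v * constSeq B s)) =
        umk ω (constSeq B a * (u * v) * constSeq B a) := by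
      simp only [map_mul, ← uconst_apply, ← hss]
      have e1 := mem_centralSeq.1 hu s
      have e2 := mem_centralSeq.1 hv s
      generalize uconst ω s = S at e1 e2
      rw [mul_assoc S (umk ω u) S, ← e1, e2]
      simp only [mul_assoc]
    rw [← map_mul]
    refine (h1 (u * v)).congr_dist (squeeze_zero (fun _ => dist_nonneg) (fun n => ?_)
      (by simpa only [mul_zero] using (umk_eq_iff.1 h2).const_mul 4))
    rw [hτ', dist_comm, dist_eq_norm]
    exact limTr_sub (hτ n) (limTr_mul (limTr_conj hs _) (limTr_conj hs _)) (h.conj_mem _)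
  obtain ⟨u, rfl⟩ := umk_surjective x
  obtain ⟨v, rfl⟩ := umk_surjective y
  exact tendsto_nhds_unique (key u v hx hy) ((key v u hy hx).congr fun n =>
    (hτ n).trace _ (limTr_conj hs _) _ (limTr_conj hs _))

theorem Tri.lim_ann (h : Tri E a a' a'') (hρ : IsLim ω (trSet a a') ρ) {x : Ultrapower B ω}
    (hx : IsAnn E ω x) : ρ x = 0 := by
  obtain ⟨r, hr, h1⟩ := hρ
  obtain ⟨u, rfl⟩ := umk_surjective x
  have h2 := hx a h.mem.1
  rw [uconst_apply, ← map_mul, umk_eq_zero] at h2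
  refine tendsto_nhds_unique (h1 u) (squeeze_zero_norm (fun n => ?_)
    (by simpa only [mul_zero] using h2.const_mul 4))
  obtain ⟨τ, hτ, hτ'⟩ := hr n
  rw [hτ']
  refine (hτ.bound _ (h.conj_mem _)).trans (mul_le_mul_of_nonneg_left ?_ (by norm_num))
  exact (norm_mul_le _ _).trans (mul_le_of_le_one_right (norm_nonneg _) h.norm.1)

theorem isLim_act (g g' : G) (hρ : IsLim ω (trSet (E.α g a) (E.α g a')) ρ) :
    ∃ ρ', IsLim ω (trSet (E.α (g'⁻¹ * g) a) (E.α (g'⁻¹ * g) a')) ρ' ∧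
      ∀ x, ρ' x = ρ (uact E ω g' x) := by
  obtain ⟨r, hr, h1⟩ := hρ
  refine ⟨ρ.comp (limTr_clm (uact E ω g')),
    ⟨fun n => (r n).comp (limTr_clm (E.α g' : B →⋆ₐ[ℂ] B)), fun n => limTr_comp _ ?_,
      fun x => h1 (seqMap (E.α g' : B →⋆ₐ[ℂ] B) x)⟩, fun _ => rfl⟩
  have h2 : ∀ b, (E.α g' : B →⋆ₐ[ℂ] B) (E.α (g'⁻¹ * g) b) = E.α g b := fun b => by
    rw [← mul_inv_cancel_left g' g, act_mul E.α g', mul_inv_cancel_left]
    rfl
  rw [h2, h2]
  exact hr n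

/-- the restriction of a limit trace to the central sequences is a trace -/
theorem Tri.isTr_of_lift (h : Tri E a a' a'') (hρ : IsLim ω (trSet a a') ρ) {Q : Type u}
    [CStarAlgebra Q] (q : centralSeq B ω →⋆ₐ[ℂ] Q) (hq : Function.Surjective q)
    (hk : ∀ x : centralSeq B ω, q x = 0 → ρ x = 0) :
    ∃ τ : Q →L[ℂ] ℂ, IsTr τ ∧ ∀ x : centralSeq B ω, τ (q x) = ρ x := by
  obtain ⟨τ, h1, h2⟩ := exists_clm_lift q hq (ρ.comp (limTr_clm (centralSeq B ω).subtype)) hk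
  have h3 : ∀ x : centralSeq B ω, τ (q x) = ρ x := h2
  refine ⟨τ, ⟨fun x => ?_, h1.trans (ContinuousLinearMap.opNorm_le_bound _ zero_le_one fun x =>
    ρ.le_of_opNorm_le (h.lim_norm hρ) (x : Ultrapower B ω)), fun x y => ?_⟩, h3⟩
  · obtain ⟨x, rfl⟩ := hq x
    rw [← map_star, ← map_mul, h3]
    exact h.lim_pos hρ x
  · obtain ⟨x, rfl⟩ := hq x
    obtain ⟨y, rfl⟩ := hq y
    rw [← map_mul, ← map_mul, h3, h3]
    exact h.lim_trace hρ x.2 y.2

end Lim

section Neg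

variable {a a' a'' : B} {x y : Ultrapower B ω}

theorem IsNeg.apply_eq_zero (h : Tri E a a' a'') (hx : IsNeg E ω a a' x) (g : G)
    {ρ : Ultrapower B ω →L[ℂ] ℂ} (hρ : IsLim ω (trSet (E.α g a) (E.α g a')) ρ) : ρ x = 0 := by
  simpa only [one_mul] using limTr_right ((h.act g).lim_pos hρ) (hx g ρ hρ) 1

theorem IsNeg.add (h : Tri E a a' a'') (hx : IsNeg E ω a a' x) (hy : IsNeg E ω a a' y) :
    IsNeg E ω a a' (x + y) := fun g ρ hρ => by
  rw [star_add, add_mul, map_add, limTr_left ((h.act g).lim_pos hρ) (hx g ρ hρ),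
    limTr_left ((h.act g).lim_pos hρ) (hy g ρ hρ), add_zero]

theorem IsNeg.smul (hx : IsNeg E ω a a' x) (c : ℂ) : IsNeg E ω a a' (c • x) :=
  fun g ρ hρ => by
    rw [star_smul, smul_mul_smul_comm, map_smul, hx g ρ hρ, smul_zero]

theorem IsNeg.mul_left (h : Tri E a a' a'') (hx : IsNeg E ω a a' x) (y : Ultrapower B ω) :
    IsNeg E ω a a' (y * x) := fun g ρ hρ => by
  rw [star_mul, mul_assoc, limTr_left ((h.act g).lim_pos hρ) (hx g ρ hρ)]

theorem IsNeg.star' (h : Tri E a a' a'') (hx : IsNeg E ω a a' x) (hc : x ∈ centralSeq B ω) :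
    IsNeg E ω a a' (star x) := fun g ρ hρ => by
  rw [star_star, (h.act g).lim_trace hρ hc (star_mem hc), hx g ρ hρ]

theorem IsNeg.mul_right (h : Tri E a a' a'') (hx : IsNeg E ω a a' x) (hc : x ∈ centralSeq B ω)
    (hy : y ∈ centralSeq B ω) : IsNeg E ω a a' (x * y) := by
  simpa only [star_mul, star_star] using ((hx.star' h hc).mul_left h (star y)).star' h
    (mul_mem (star_mem hy) (star_mem hc))

theorem IsNeg.act (hx : IsNeg E ω a a' x) (g : G) : IsNeg E ω a a' (uact E ω g x) :=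
  fun g₀ ρ hρ => by
    obtain ⟨ρ', h1, h2⟩ := isLim_act g₀ g hρ
    rw [← map_star, ← map_mul, ← h2, hx _ ρ' h1]

theorem isClosed_isNeg : IsClosed {x | IsNeg E ω a a' x} := by
  simp only [IsNeg, Set.ofPred_forall]
  exact isClosed_iInter fun g => isClosed_iInter fun ρ => isClosed_iInter fun _ =>
    isClosed_eq (by fun_prop) continuous_const

end Neg

end Vale.Agent.P095
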