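import Vale.Agent.P095.MultA
import Vale.Agent.P101.ZSpatial

/-! P095: the multiplier picture of the spatial tensor product. See skel/P095/BLUEPRINT.md. -/

namespace Vale.Agent.P095

open Filter Topology Vale.Agent.P101 Vale.Agent.P101.F
open scoped ComplexOrder MultiplierAlgebra TensorProduct

universe u v w

theorem MultB_ind {B : Type*} [NonUnitalCStarAlgebra B] {S : Set B}
    (hd : Dense (Submodule.span ℂ S : Set B)) {p : B → Prop} (hc : IsClosed {b | p b})
    (h1 : ∀ b ∈ S, p b) (h0 : p 0) (h2 : ∀ x y, p x → p y → p (x + y))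
    (h3 : ∀ (c : ℂ) x, p x → p (c • x)) (b : B) : p b :=
  hd.induction (fun _ hx => Submodule.span_induction h1 h0 (fun x y _ _ => h2 x y)
    (fun c x _ => h3 c x) hx) hc b

theorem MultB_abs {G A Z B L : Type*} [Group G] [NonUnitalCStarAlgebra A] [CStarAlgebra Z]
    [NonUnitalCStarAlgebra B] [CStarAlgebra L] (lam : A →⋆ₙₐ[ℂ] L)
    (hlam : Function.Injective lam) (ρ : Z →⋆ₐ[ℂ] L) (hc : ∀ a z, Commute (lam a) (ρ z))
    (j : B →⋆ₙₐ[ℂ] L) (t : A → Z → B) (hj : IsClosedSpan j t fun a z => lam a * ρ z)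
    (α : G →* (A ≃⋆ₐ[ℂ] A)) (β : G →* (B ≃⋆ₐ[ℂ] B))
    (hβ : ∀ g a z, β g (t a z) = t (α g a) z) (E : Env (Unitization ℂ A) G)
    (hE : ∀ b, b ∈ E.I ↔ ∃ a : A, (a : Unitization ℂ A) = b)
    (hα : ∀ g (a : A), E.α g (a : Unitization ℂ A) = (α g a : A)) :
    ∃ X : Tens E Z 𝓜(ℂ, B), (tensI E X.θ X.β = Set.range fun b : B => (b : 𝓜(ℂ, B))) ∧
      (∀ g (m : 𝓜(ℂ, B)) b, (X.δ g m).fst b = β g (m.fst ((β g).symm b))) ∧
      ∀ g (b : B), X.δ g (b : 𝓜(ℂ, B)) = (β g b : B) := by
  obtain ⟨hj, ht, hd⟩ := hj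
  beta_reduce at ht
  have jiso : Isometry j := NonUnitalStarAlgHom.isometry j hj
  let f : A →⋆ₙₐ[ℂ] B :=
    { toFun := fun a => t a 1
      map_smul' := fun c a => hj (by simp [ht])
      map_zero' := hj (by simp [ht])
      map_add' := fun a b => hj (by simp [ht])
      map_mul' := fun a b => hj (by simp [ht])
      map_star' := fun a => hj (by simp [ht, map_star]) }
  have hf : ∀ a, f a = t a 1 := fun _ => rfl
  have finj : Function.Injective f := fun a b h => hlam (by simpa [hf, ht] using congrArg j h)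
  have hmul : ∀ z a z', ρ z * j (t a z') = j (t a (z * z')) := fun z a z' => by
    rw [ht, ht, map_mul, ← mul_assoc, ← (hc a z).eq, mul_assoc]
  obtain ⟨θ, hθ⟩ := exists_unit_hom f
  obtain ⟨b', hb'⟩ := exists_multHom j hj ρ fun z => MultB_ind hd
    (p := fun b => ∃ b', j b' = ρ z * j b)
    (jiso.isClosedEmbedding.isClosed_range.preimage (continuous_const.mul jiso.continuous))
    (by rintro _ ⟨a, z', rfl⟩; exact ⟨_, (hmul z a z').symm⟩) ⟨0, by simp⟩
    (by rintro x y ⟨x', hx⟩ ⟨y', hy⟩; exact ⟨x' + y', by simp [hx, hy, mul_add]⟩)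
    (by rintro c x ⟨x', hx⟩; exact ⟨c • x', by simp [hx]⟩)
  obtain ⟨δ, hδ1, hδ2⟩ := exists_multAct β
  let c : B →⋆ₙₐ[ℂ] 𝓜(ℂ, B) := DoubleCentralizer.coeHom
  have hcb : ∀ b : B, (b : 𝓜(ℂ, B)) = c b := fun _ => rfl
  have ciso : Isometry c := AddMonoidHomClass.isometry_of_norm c norm_coe_mult
  have k0 : ∀ z a z', (b' z).fst (t a z') = t a (z * z') := fun z a z' =>
    hj ((hb' _ _).trans (hmul z a z'))
  have k1 : ∀ (a : A) z, b' z * θ a = c (t a z) := fun a z => by
    rw [hθ, mult_mul_coe, hf, k0, mul_one, hcb]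
  have k2 : ∀ (a : A) z, θ a * b' z = c (t a z) := fun a z => by
    have h1 := congrArg star (k1 (star a) (star z))
    have h2 : star (t (star a) (star z)) = t a z := hj (by
      rw [map_star, ht, ht, star_mul, map_star, map_star, star_star, star_star, (hc a z).eq])
    rwa [star_mul, Unitization.inr_star, map_star, map_star, star_star, star_star, ← map_star,
      h2] at h1
  have dec : ∀ a : Unitization ℂ A, a = algebraMap ℂ _ a.fst + (a.snd : Unitization ℂ A) :=
    fun a => (Unitization.inl_fst_add_inr_snd_eq a).symm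
  have hI : tensI E θ b' = Set.range c := by
    refine Set.Subset.antisymm (closure_minimal ?_ ciso.isClosedEmbedding.isClosed_range) ?_
    · refine Submodule.span_le (p := LinearMap.range (c : B →ₗ[ℂ] 𝓜(ℂ, B))).2 ?_
      rintro _ ⟨a, ha, z, rfl⟩
      obtain ⟨a, rfl⟩ := (hE a).1 ha
      exact ⟨_, (k2 a z).symm⟩
    · rintro _ ⟨b, rfl⟩
      refine MultB_ind hd (p := fun b => c b ∈ (Submodule.span ℂ
        {d | ∃ a ∈ E.I, ∃ z, d = θ a * b' z}).topologicalClosure)
        (isClosed_closure.preimage ciso.continuous) ?_ ?_ (fun x y hx hy => ?_)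
        (fun r x hx => ?_) b
      · rintro _ ⟨a, z, rfl⟩
        exact subset_closure (Submodule.subset_span ⟨a, (hE _).2 ⟨a, rfl⟩, z, (k2 a z).symm⟩)
      · rw [map_zero]
        exact zero_mem _
      · rw [map_add]
        exact add_mem hx hy
      · rw [map_smul]
        exact Submodule.smul_mem _ r hx
  refine ⟨⟨θ, b', δ, fun a z => ?_, fun a ha => ?_, fun g a => ?_, fun g z => mult_ext fun b => ?_,
    fun d hd x => ?_⟩, hI, hδ1, hδ2⟩
  · rw [dec a, map_add, AlgHomClass.commutes]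
    exact (Algebra.commute_algebraMap_left _ _).add_left ((k2 _ z).trans (k1 _ z).symm)
  · obtain ⟨a, rfl⟩ := (hE a).1 ha
    rw [hθ, norm_coe_mult, NonUnitalStarAlgHom.norm_map f finj, Unitization.norm_inr]
  · rw [dec a]
    simp only [map_add, AlgHomClass.commutes, hα, hθ, hδ2, hf, hβ]
  · obtain ⟨b, rfl⟩ := EquivLike.surjective (β g) b
    have hg := (StarAlgEquiv.isometry (β g)).continuous
    rw [hδ1, StarAlgEquiv.symm_apply_apply]
    refine MultB_ind hd (p := fun b => β g ((b' z).fst b) = (b' z).fst (β g b))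
      (isClosed_eq (hg.comp (b' z).fst.continuous) ((b' z).fst.continuous.comp hg)) ?_ (by simp)
      (fun x y hx hy => by simp only [map_add, hx, hy])
      (fun r x hx => by simp only [map_smul, hx]) b
    rintro _ ⟨a, z', rfl⟩
    rw [k0, hβ, hβ, k0]
  · rw [hI] at hd ⊢
    obtain ⟨b, rfl⟩ := hd
    exact ⟨⟨_, (mult_mul_coe x b).symm⟩, ⟨_, (coe_mul_mult x b).symm⟩⟩

open ZSpatial in
theorem exists_tens {G A Z B H K : Type*} [Group G] [NonUnitalCStarAlgebra A] [CStarAlgebra Z]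
    [Nontrivial Z] [NonUnitalCStarAlgebra B]
    [NormedAddCommGroup H] [InnerProductSpace ℂ H] [CompleteSpace H]
    [NormedAddCommGroup K] [InnerProductSpace ℂ K] [CompleteSpace K]
    (π : A →⋆ₙₐ[ℂ] (H →L[ℂ] H)) (σ : Z →⋆ₐ[ℂ] (K →L[ℂ] K))
    (hπ : Function.Injective π) (hσ : Function.Injective σ)
    (j : B →⋆ₙₐ[ℂ]
      (UniformSpace.Completion (H ⊗[ℂ] K) →L[ℂ] UniformSpace.Completion (H ⊗[ℂ] K)))
    (t : A → Z → B)
    (hj : IsClosedSpan j t fun a z => (TensorProduct.mapL (π a) (σ z)).completion)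
    (α : G →* (A ≃⋆ₐ[ℂ] A)) (β : G →* (B ≃⋆ₐ[ℂ] B))
    (hβ : ∀ g a z, β g (t a z) = t (α g a) z) (E : Env (Unitization ℂ A) G)
    (hE : ∀ b, b ∈ E.I ↔ ∃ a : A, (a : Unitization ℂ A) = b)
    (hα : ∀ g (a : A), E.α g (a : Unitization ℂ A) = (α g a : A)) :
    ∃ X : Tens E Z 𝓜(ℂ, B), (tensI E X.θ X.β = Set.range fun b : B => (b : 𝓜(ℂ, B))) ∧
      (∀ g (m : 𝓜(ℂ, B)) b, (X.δ g m).fst b = β g (m.fst ((β g).symm b))) ∧
      ∀ g (b : B), X.δ g (b : 𝓜(ℂ, B)) = (β g b : B) := by
  let lam : A →⋆ₙₐ[ℂ] (HilbertTensor H K →L[ℂ] HilbertTensor H K) :=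
    { toFun := fun a => opTensor (π a) 1
      map_smul' := fun c a => by simp [op_smul_left]
      map_zero' := by simpa using op_smul_left 0 (1 : H →L[ℂ] H) (1 : K →L[ℂ] K)
      map_add' := fun a b => by simp [op_add_left]
      map_mul' := fun a b => by simp [← op_mul]
      map_star' := fun a => by simp [← op_star, map_star] }
  let ρ : Z →⋆ₐ[ℂ] (HilbertTensor H K →L[ℂ] HilbertTensor H K) :=
    { toFun := fun z => opTensor 1 (σ z)
      map_one' := by simp [op_one]
      map_mul' := fun a b => by simp [← op_mul]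
      map_zero' := by simpa using op_smul_right 0 (1 : H →L[ℂ] H) (1 : K →L[ℂ] K)
      map_add' := fun a b => by simp [op_add_right]
      commutes' := fun c => by simp [Algebra.algebraMap_eq_smul_one, op_smul_right, op_one]
      map_star' := fun a => by simp [← op_star, map_star] }
  have h1 : ∀ a z, lam a * ρ z = opTensor (π a) (σ z) := fun a z => by
    change opTensor (π a) 1 * opTensor 1 (σ z) = _
    rw [← op_mul, mul_one, one_mul]
  have h2 : ∀ a z, ρ z * lam a = opTensor (π a) (σ z) := fun a z => by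
    change opTensor 1 (σ z) * opTensor (π a) 1 = _
    rw [← op_mul, mul_one, one_mul]
  obtain ⟨y, hy⟩ : ∃ y : K, y ≠ 0 := by
    by_contra hc
    push Not at hc
    exact one_ne_zero (hσ (ContinuousLinearMap.ext fun y => (hc _).trans (hc _).symm) :
      (1 : Z) = 0)
  refine MultB_abs lam ((injective_iff_map_eq_zero lam).2 fun a ha => hπ ?_) ρ
    (fun a z => (h1 a z).trans (h2 a z).symm) j t
    ⟨hj.1, fun a z => (hj.2.1 a z).trans (h1 a z).symm, hj.2.2⟩ α β hβ E hE hα
  rw [map_zero]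
  exact op_left_eq_zero hy ha

end Vale.Agent.P095
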