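import Vale.Agent.P095.Hg
import Vale.Agent.P095.Au
import Vale.Agent.P095.CPWit
import Vale.Agent.P095.LimTr

/-! P095: elements of the trace kernel are infinitesimal. See skel/P095/BLUEPRINT.md. -/

namespace Vale.Agent.P095

open Filter Topology Vale.Agent.P101 Vale.Agent.P101.F
open scoped ComplexOrder

universe u v w

variable {B : Type u} [CStarAlgebra B] {G : Type v} [Group G] {E : Env B G}
variable {ω : Ultrafilter ℕ}


theorem negSub_conj {c x : B} (hc : 0 ≤ c) (hx : star x = x) : 0 ≤ c * (x * x) * c := by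
  have := star_mul_self_nonneg (x * c)
  rwa [star_mul, hx, hc.star_eq, mul_assoc c, ← mul_assoc x, ← mul_assoc c] at this

theorem negSub_chain (hd : DivA E) {x b a y : B} (hx : x ∈ E.I) (hy : y ∈ E.I) {R L M D : ℕ}
    (hL : 0 < L) (hM : 0 < M) (hD : 0 < D) (h1 : Sub 1 x L b)
    (h2 : Sub (R * (L * M + 1) * D) b D a) (h3 : Sub 1 a M y) : Sub R x 1 y := by
  obtain ⟨n, hn⟩ : ∃ n, L * D * M = n + 1 :=
    ⟨L * D * M - 1, (Nat.succ_pred_eq_of_pos (by positivity)).symm⟩
  have k := (((h1.amp (R * (L * M + 1) * D)).mono le_rfl (mul_comm _ _).le).trans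
    ((h2.amp L).mono le_rfl (mul_one _).ge)).trans (h3.amp (L * D))
  refine sub_of_divA hd hx hy (n := n) (k.mono ?_ hn.le)
  calc (n + 2) * R = R * (L * M * D + 1) := by
        rw [mul_right_comm L M D, hn, mul_comm]
    _ ≤ R * (L * M * D + D) := Nat.mul_le_mul_left _ (Nat.add_le_add_left hD _)
    _ = _ := by ring

theorem negSub_close {L : ℕ} (z : Fin L → B) {b b' : B} {e : ℝ} (h : ‖b - b'‖ ≤ e) :
    ‖∑ k, star (z k) * b * z k - ∑ k, star (z k) * b' * z k‖ ≤ (∑ k, ‖z k‖ * ‖z k‖) * e := by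
  rw [← Finset.sum_sub_distrib, Finset.sum_mul]
  refine (norm_sum_le _ _).trans (Finset.sum_le_sum fun k _ => ?_)
  rw [← sub_mul, ← mul_sub, mul_right_comm ‖z k‖]
  refine (norm_mul_le _ _).trans (mul_le_mul_of_nonneg_right ((norm_mul_le _ _).trans ?_)
    (norm_nonneg _))
  rw [norm_star]
  exact mul_le_mul_of_nonneg_left h (norm_nonneg _)

theorem negSub_central {g : ℕ → B}
    (hg : ∀ c : B, Tendsto (fun n => ‖c * g n - g n * c‖) (ω : Filter ℕ) (𝓝 0)) (h a : B) {L : ℕ}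
    (z : Fin L → B) : Tendsto (fun n => ‖h * g n * h - ∑ k, star (z k) * (a * g n * a) * z k -
      g n * (h * h - ∑ k, star (z k) * (a * a) * z k)‖) (ω : Filter ℕ) (𝓝 0) := by
  simp only [← tendsto_zero_iff_norm_tendsto_zero] at hg ⊢
  have := ((hg h).mul_const h).sub (tendsto_finsetSum Finset.univ fun k _ =>
    (hg (star (z k) * a)).mul_const (a * z k))
  simp only [zero_mul, Finset.sum_const_zero, sub_zero] at this
  refine this.congr fun n => ?_
  simp only [sub_mul, mul_sub, Finset.mul_sum, Finset.sum_sub_distrib, mul_assoc]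
  abel

theorem neg_sub (hs : Simp E) (hn : CPAP E) (hd : DivA E) {a a' a'' : B} (ht : Tri E a a' a'')
    (f : BoundedContinuousFunction ℕ B) (hf : ∀ n, star (f n) = f n ∧ ‖f n‖ ≤ 1)
    (hc : umk ω f ∈ centralSeq B ω) (hN : IsNeg E ω a a' (umk ω f)) : NegSeq E ω f := by
  intro h hI h0 y yI y0 yne R ε hε
  obtain ⟨M, hM, sM⟩ := sub_tri hs ht y0 yI yne
  obtain ⟨L, z, hL, hz⟩ := simp_approx hs (x := h * h) (y := a * a)
    (by simpa only [h0.star_eq] using star_mul_self_nonneg h) (E.mul_left hI h)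
    (by simpa only [ht.pos.1.star_eq] using star_mul_self_nonneg a) (E.mul_left ht.mem.1 a)
    (fun e => ht.ne ((CStarRing.star_mul_self_eq_zero_iff a).1 (by rwa [ht.pos.1.star_eq])))
    (show 0 < ε / 4 by positivity)
  obtain ⟨Z, hZ⟩ : ∃ Z, Z = ∑ k, ‖z k‖ * ‖z k‖ := ⟨_, rfl⟩
  have Z0 : 0 ≤ Z := hZ ▸ Finset.sum_nonneg fun k _ => mul_self_nonneg _
  obtain ⟨e, he, hZe⟩ : ∃ e : ℝ, 0 < e ∧ Z * e ≤ ε / 4 := ⟨ε / 4 / (Z + 1), by positivity, by
    rw [← mul_div_assoc, div_le_iff₀ (by positivity)]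
    nlinarith⟩
  obtain ⟨δ, hδ, hδe⟩ : ∃ δ : ℝ, 0 < δ ∧ 2 * ((R * (L * M + 1) : ℕ) + 2) * δ < e :=
    ⟨e / 2 / (2 * ((R * (L * M + 1) : ℕ) + 2)), by positivity, by
      rw [mul_div_cancel₀ _ (by positivity)]
      exact half_lt_self he⟩
  have e1 := eventually_of_isLim (ω := ω) (fun r hr => ht.trSet_norm hr) (star f * f) (c := 0)
    (half_pos hδ) fun ρ hρ => by
      rw [map_mul, map_star, hN 1 ρ (by simpa only [map_one, StarAlgEquiv.one_apply] using hρ)]
      exact le_rfl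
  have e2 := (negSub_central (umk_mem_centralSeq.1 (map_mul (umk ω) f f ▸ mul_mem hc hc))
    h a z).eventually (ge_mem_nhds (show 0 < ε / 4 by positivity))
  filter_upwards [e1, e2] with n a1 a2
  have b0 := negSub_conj ht.pos.1 (hf n).1
  have x0 := negSub_conj h0 (hf n).1
  obtain ⟨D, hD, sD⟩ := hg hn ht.mem.2.1 ht.pos.2.1 ht.norm.2.1 _ hδ.le hδe b0 fun η hη =>
    cp_witness ht.pos.2.1.star_eq (ht.conj_mem _) b0 (fun τ hτ => by
      obtain ⟨ρ, r1, r2⟩ := ht.exists_trSet hτ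
      have := a1 ρ r1
      change (ρ (star (f n) * f n)).re ≤ _ at this
      rw [(hf n).1, r2] at this
      linarith) hη
  refine negSub_chain hd (cut_mem hε.le x0 (E.mul_left hI _)) yI hL hM hD
    (sub_of_close z x0 (cut_nonneg _ _) ?_) sD sM
  have a3 := negSub_close z (norm_sub_cut he.le b0)
  have a4 : ‖f n * f n * (h * h - ∑ k, star (z k) * (a * a) * z k)‖ ≤ 1 * 1 * (ε / 4) :=
    (norm_mul_le _ _).trans (mul_le_mul ((norm_mul_le _ _).trans
      (mul_le_mul (hf n).2 (hf n).2 (norm_nonneg _) zero_le_one)) hz (norm_nonneg _) (by norm_num))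
  have a5 := norm_sub_le_norm_sub_add_norm_sub (h * (f n * f n) * h)
    (∑ k, star (z k) * (a * (f n * f n) * a) * z k)
    (∑ k, star (z k) * cut e (a * (f n * f n) * a) * z k)
  have a6 := norm_le_norm_sub_add
    (h * (f n * f n) * h - ∑ k, star (z k) * (a * (f n * f n) * a) * z k)
    (f n * f n * (h * h - ∑ k, star (z k) * (a * a) * z k))
  change ‖h * (f n * f n) * h - ∑ k, star (z k) * (a * (f n * f n) * a) * z k -
    f n * f n * (h * h - ∑ k, star (z k) * (a * a) * z k)‖ ≤ _ at a2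
  rw [← hZ] at a3
  linarith

end Vale.Agent.P095
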