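import Vale.Agent.P095.Mat

/-! P095: completely positive maps are approximated by vectors of a state. See skel/P095/BLUEPRINT.md. -/

namespace Vale.Agent.P095

open Filter Topology Vale.Agent.P101 Vale.Agent.P101.F
open scoped ComplexOrder

universe u v w

variable {B : Type u} [CStarAlgebra B] {G : Type v} [Group G] {E : Env B G}
variable {ω : Ultrafilter ℕ}

theorem nucB_faith (hs : Simp E) {φ : B →L[ℂ] ℂ} (hφ : IsState φ) (h0 : ∃ a ∈ E.I, φ a ≠ 0)
    {b : B} (hb : b ∈ E.I) (hp : 0 ≤ b) (h : ∀ d, φ (star d * b * d) = 0) : b = 0 := by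
  by_contra hne
  obtain ⟨a, ha, h1⟩ := h0
  obtain ⟨c, rfl⟩ := CStarAlgebra.nonneg_iff_eq_star_mul_self.1 hp
  refine h1 (closure_minimal (t := (φ.ker : Set B)) (Submodule.span_le.2 ?_) φ.isClosed_ker
    (hs _ hb hne a ha))
  rintro _ ⟨x, y, rfl⟩
  have h2 := hφ.cs (c * star x) (c * y)
  have h3 := h y
  simp only [star_mul, star_star, mul_assoc] at h2 h3
  rw [h3, Complex.zero_re, mul_zero] at h2
  change φ _ = 0
  simpa only [mul_assoc] using norm_eq_zero.1 (pow_eq_zero_iff two_ne_zero |>.1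
    (le_antisymm h2 (sq_nonneg _)))

theorem nucB_mpos (hs : Simp E) {φ : B →L[ℂ] ℂ} (hφ : IsState φ) (h0 : ∃ a ∈ E.I, φ a ≠ 0)
    {k : ℕ} {H : Fin k → Fin k → B} (hI : ∀ i j, H i j ∈ E.I) (hH : ∀ i j, star (H i j) = H j i)
    (h : ∀ d : Fin k → B, 0 ≤ φ (∑ i, ∑ j, star (d i) * H i j * d j)) : MPos H := by
  obtain ⟨P, N, -, hN, h1, h2, h3, h4, h5⟩ := exists_mpos_sub (E := E) (M := fun i j => -H i j)
    (fun i j => E.I.neg_mem (hI i j)) fun i j => by rw [star_neg, hH]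
  have e (i j) : H i j = N i j - P i j := by rw [← neg_sub, ← h2, neg_neg]
  have hP (i j) : P j i = 0 := by
    refine (h5 i).2 (nucB_faith hs hφ h0 (E.I.sum_mem fun s _ => E.I.sum_mem fun t _ =>
      E.mul_left (h1 t i).1 _) (h5 i).1 fun d => le_antisymm ?_
        (hφ.nonneg (star_left_conjugate_nonneg (h5 i).1 d))) j
    have e1 : ∑ s, ∑ t, star (P s i * d) * H s t * (P t i * d) =
        star d * (∑ t, (∑ s, P i s * N s t) * P t i) * d -
          star d * (∑ s, ∑ t, P i s * P s t * P t i) * d := by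
      simp only [e, star_mul, h3, mul_sub, sub_mul, Finset.sum_sub_distrib, Finset.mul_sum,
        Finset.sum_mul, mul_assoc]
      rw [Finset.sum_comm]
    have := h fun s => P s i * d
    simp only [e1, h4, zero_mul, Finset.sum_const_zero, mul_zero, zero_sub, map_neg] at this
    exact neg_nonneg.1 this
  simpa only [funext₂ e, hP, sub_zero] using hN

section CP

variable {k : ℕ} {ψ : B →ₗ[ℂ] Matrix (Fin k) (Fin k) ℂ}
  (hψ : ∀ a : Fin k → B, (∀ i, a i ∈ E.I) → 0 ≤ ∑ i, ∑ j, ψ (star (a i) * a j) i j)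
include hψ

theorem nucB_pos {M : Fin k → Fin k → B} (hI : ∀ i j, M i j ∈ E.I) (h : MPos M) :
    0 ≤ ∑ i, ∑ j, ψ (M i j) i j := by
  obtain ⟨R, hR⟩ := h.exists_factor
  have e : ∑ i, ∑ j, ψ (M i j) i j = ∑ s, ∑ i, ∑ j, ψ (star (R s i) * R s j) i j := by
    simp only [hR, map_sum, Matrix.sum_apply]
    exact (Finset.sum_congr rfl fun _ _ => Finset.sum_comm).trans Finset.sum_comm
  rw [e]
  exact Finset.sum_nonneg fun s _ => hψ _ fun i =>
    E.mem_of_sum (a := fun s => R s i) (hR i i ▸ hI i i) s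

theorem nucB_re {Y : Fin k → Fin k → B} (hI : ∀ i j, Y i j ∈ E.I)
    (h : MPos fun i j => Y i j + star (Y j i)) : 0 ≤ (∑ i, ∑ j, ψ (Y i j) i j).re := by
  obtain ⟨P, N, hP, hN, h1, h2, -⟩ := exists_mpos_sub (E := E)
    (M := fun i j => Complex.I • (Y i j - star (Y j i)))
    (fun i j => E.smul_mem (E.I.sub_mem (hI i j) (E.star_mem (hI j i))) _) fun i j => by
      rw [star_smul, star_sub, star_star, Complex.star_def, Complex.conj_I, neg_smul, ← smul_neg,
        neg_sub]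
  have e1 := (nucB_pos hψ (fun i j => (h1 i j).1) hP).2
  have e2 := (nucB_pos hψ (fun i j => (h1 i j).2) hN).2
  have e3 := (nucB_pos hψ (fun i j => E.I.add_mem (hI i j) (E.star_mem (hI j i))) h).1
  have e4 : Complex.I * (∑ i, ∑ j, ψ (Y i j) i j - ∑ i, ∑ j, ψ (star (Y j i)) i j) =
      ∑ i, ∑ j, ψ (P i j) i j - ∑ i, ∑ j, ψ (N i j) i j := by
    simp only [← Finset.sum_sub_distrib, Finset.mul_sum, ← Matrix.sub_apply, ← map_sub, ← h2,
      map_smul, Matrix.smul_apply, smul_eq_mul]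
  have e5 := congrArg Complex.im e4
  simp only [map_add, Matrix.add_apply, Finset.sum_add_distrib, Complex.add_re,
    Complex.zero_re] at e3
  rw [Complex.I_mul_im, Complex.sub_re, Complex.sub_im, ← e1, ← e2] at e5
  linarith

theorem nucB_approx (hs : Simp E) {φ : B →L[ℂ] ℂ} (hφ : IsState φ) (h0 : ∃ a ∈ E.I, φ a ≠ 0)
    (F : Finset B) (hF : ∀ a ∈ F, a ∈ E.I) {ε : ℝ} (hε : 0 < ε) :
    ∃ (r : ℕ) (d : Fin r → Fin k → B), ∀ a ∈ F, ∀ i j, ‖vecs φ d a i j - ψ a i j‖ ≤ ε := by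
  classical
  let K : Set (F × Fin k × Fin k → ℂ) :=
    {v | ∃ (r : ℕ) (d : Fin r → Fin k → B), ∀ p, v p = vecs φ d p.1 p.2.1 p.2.2}
  have hsm : ∀ v ∈ K, ∀ t : ℝ, 0 ≤ t → t • v ∈ K := by
    rintro v ⟨r, d, h⟩ t ht
    refine ⟨r, fun s i => (√t : ℂ) • d s i, fun p => ?_⟩
    simp only [Pi.smul_apply, h, vecs, Matrix.of_apply, star_smul, smul_mul_assoc, mul_smul_comm,
      map_smul, smul_eq_mul, Complex.real_smul, Finset.mul_sum, Complex.star_def,
      Complex.conj_ofReal, ← mul_assoc, ← Complex.ofReal_mul, Real.mul_self_sqrt ht]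
  have hc : Convex ℝ K := by
    intro x hx y hy s t hs ht _
    obtain ⟨r, d, h⟩ := hsm x hx s hs
    obtain ⟨r', d', h'⟩ := hsm y hy t ht
    exact ⟨r + r', Fin.append d d', fun p => by
      simp only [Pi.add_apply, h, h', vecs, Matrix.of_apply, Fin.sum_univ_add, Fin.append_left,
        Fin.append_right]⟩
  have hx : (fun p : F × Fin k × Fin k => ψ p.1 p.2.1 p.2.2) ∈ closure K := by
    by_contra hx
    obtain ⟨f, u, h1, h2⟩ := RCLike.geometric_hahn_banach_point_closed (𝕜 := ℂ) hc.closure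
      isClosed_closure hx
    have hu : u < 0 := by
      simpa using h2 0 (subset_closure ⟨0, Fin.elim0, fun p => by simp [vecs]⟩)
    have h3 : ∀ v ∈ K, 0 ≤ (f v).re := fun v hv => by
      by_contra h
      have h4 := h2 _ (subset_closure (hsm v hv (u / (f v).re) (div_nonneg_of_nonpos hu.le
        (not_le.1 h).le)))
      rw [f.map_smul_of_tower, RCLike.smul_re, RCLike.re_to_complex,
        div_mul_cancel₀ _ (not_le.1 h).ne] at h4
      exact lt_irrefl _ h4
    let Y (i j : Fin k) : B := ∑ a : F, f (Pi.single (a, i, j) 1) • (a : B)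
    have hY (i j) : Y i j ∈ E.I := E.I.sum_mem fun a _ => E.smul_mem (hF a a.2) _
    have hf (v) : f v = ∑ i, ∑ j, ∑ a : F, f (Pi.single (a, i, j) 1) * v (a, i, j) := by
      conv_lhs => rw [pi_eq_sum_univ' v]
      simp only [map_sum, map_smul, smul_eq_mul, Fintype.sum_prod_type, mul_comm]
      exact Finset.sum_comm.trans (Finset.sum_congr rfl fun _ _ => Finset.sum_comm)
    have h4 := nucB_re hψ hY (nucB_mpos hs hφ h0
      (fun i j => E.I.add_mem (hY i j) (E.star_mem (hY j i)))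
      (fun i j => by rw [star_add, star_star, add_comm]) fun d => ?_)
    · rw [hf, RCLike.re_to_complex] at h1
      simp only [Y, map_sum, map_smul, Matrix.sum_apply, Matrix.smul_apply, smul_eq_mul] at h4
      linarith
    · have h5 := h3 _ ⟨1, fun _ => d, fun _ => rfl⟩
      have e : ∑ i, ∑ j, star (d i) * (Y i j + star (Y j i)) * d j =
          ∑ i, ∑ j, star (d i) * Y i j * d j + star (∑ i, ∑ j, star (d i) * Y i j * d j) := by
        simp only [mul_add, add_mul, Finset.sum_add_distrib, star_sum, star_mul, star_star,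
          mul_assoc]
        rw [Finset.sum_comm (f := fun i j => star (d i) * (star (Y j i) * d j))]
      have e' : φ (∑ i, ∑ j, star (d i) * Y i j * d j) = f fun p => vecs φ (fun _ : Fin 1 => d)
          p.1 p.2.1 p.2.2 := by
        rw [hf]
        simp [Y, vecs, Finset.mul_sum, Finset.sum_mul]
      rw [e, map_add, hφ.map_star', e', Complex.star_def, Complex.add_conj, Complex.zero_le_real]
      linarith
  obtain ⟨v, ⟨r, d, h⟩, hv⟩ := Metric.mem_closure_iff.1 hx ε hε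
  refine ⟨r, d, fun a ha i j => ?_⟩
  rw [← dist_eq_norm', ← h (⟨a, ha⟩, i, j)]
  exact (dist_le_pi_dist _ v (⟨a, ha⟩, i, j)).trans hv.le

end CP

theorem nucL_of_cpap (hs : Simp E) (hn : CPAP E) {φ : B →L[ℂ] ℂ} (hφ : IsState φ)
    (h0 : ∃ a ∈ E.I, φ a ≠ 0) : NucL E φ := by
  intro F ε hF hε
  obtain ⟨k, l, ψ, c, hc, hψ, h⟩ := hn F (ε / 2) hF (half_pos hε)
  obtain ⟨C, hC, h1⟩ : ∃ C : ℝ, 0 < C ∧ ∑ s, ∑ i, ∑ j, ‖star (c s i) * c s j‖ ≤ C :=
    ⟨_, by positivity, le_add_of_nonneg_right zero_le_one⟩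
  obtain ⟨r, d, hd⟩ := nucB_approx hψ hs hφ h0 F hF (ε := ε / 2 / C) (by positivity)
  refine ⟨k, l, r, c, d, hc, fun a ha => ?_⟩
  have h2 : ‖kraus c (vecs φ d a) - kraus c (ψ a)‖ ≤ ε / 2 := by
    refine le_trans ?_ ((mul_le_mul_of_nonneg_left h1 (by positivity : 0 ≤ ε / 2 / C)).trans_eq
      (div_mul_cancel₀ _ hC.ne'))
    simp only [kraus, ← Finset.sum_sub_distrib, ← sub_smul, Finset.mul_sum]
    refine norm_sum_le_of_le _ fun s _ => norm_sum_le_of_le _ fun i _ =>
      norm_sum_le_of_le _ fun j _ => ?_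
    rw [norm_smul]
    exact mul_le_mul_of_nonneg_right (hd a ha i j) (norm_nonneg _)
  linarith [norm_sub_le_norm_sub_add_norm_sub (kraus c (vecs φ d a)) (kraus c (ψ a)) a, h a ha]

end Vale.Agent.P095
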