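import Vale.Agent.P095.SiLevel
import Vale.Agent.P095.NegSub
import Vale.Agent.P095.Kish
import Vale.Agent.P095.NucB

/-! P095: equivariant property (SI). See skel/P095/BLUEPRINT.md. -/

namespace Vale.Agent.P095

open Filter Topology Vale.Agent.P101 Vale.Agent.P101.F
open scoped ComplexOrder

universe u v w

variable {B : Type u} [CStarAlgebra B] {G : Type v} [Group G] {E : Env B G}
variable {ω : Ultrafilter ℕ}


theorem siu_ne {φ : B →L[ℂ] ℂ} {x : ℕ → B} (hx : Excises E φ x) : φ (x 0) ≠ 0 := by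
  intro h0
  have h1 : ∀ n, x 0 * x (n + 1) = x (n + 1) := fun n => by
    induction n with
    | zero => exact hx.mul 0
    | succ n ih => rw [← hx.mul (n + 1), ← mul_assoc, ih]
  have h2 := (hx.lim (x 0)).comp (tendsto_add_atTop_nat 1)
  have h3 : ((fun n => ‖x n * x 0 * x n - φ (x 0) • (x n * x n)‖) ∘ fun n => n + 1) =
      fun _ => (1 : ℝ) := by
    funext n
    have h4 := CStarRing.norm_star_mul_self (x := x (n + 1))
    rw [(IsSelfAdjoint.of_nonneg (hx.pos (n + 1))).star_eq, hx.norm, mul_one] at h4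
    rw [Function.comp_apply, h0, zero_smul, sub_zero, mul_assoc, h1, h4]
  rw [h3] at h2
  exact one_ne_zero (tendsto_nhds_unique tendsto_const_nhds h2)

theorem siu_tendsto {R : ℕ → ℕ → Prop}
    (h : ∀ k, ∀ᶠ n in (ω : Filter ℕ), ∃ k', k ≤ k' ∧ R k' n) (u : ℕ → B) (m : ℕ)
    (hu : ∀ k n, m ≤ k → R k n → ‖u n‖ ≤ 1 / ((k : ℝ) + 1)) :
    Tendsto (fun n => ‖u n‖) (ω : Filter ℕ) (𝓝 0) := by
  rw [Metric.tendsto_nhds]
  intro ε hε
  obtain ⟨k, hk⟩ := exists_nat_one_div_lt hε
  filter_upwards [h (max m k)] with n ⟨k', h1, h2⟩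
  rw [dist_zero_right, norm_norm]
  refine (hu k' n ((le_max_left _ _).trans h1) h2).trans_lt (lt_of_le_of_lt ?_ hk)
  exact Nat.one_div_le_one_div ((le_max_right _ _).trans h1)

theorem siu_central {a : ℕ → B} (ha : ∀ b ∈ E.I, b ∈ closure (Set.range a))
    {x : Ultrapower B ω} (h : ∀ n, uconst ω (a n) * x = x * uconst ω (a n)) :
    x ∈ centralSeq B ω := by
  have c : Continuous (uconst ω : B → Ultrapower B ω) := continuous_starAlgHom _
  have h1 : ∀ b ∈ E.I, uconst ω b * x = x * uconst ω b := fun b hb =>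
    closure_minimal (t := {b | uconst ω b * x = x * uconst ω b})
      (by rintro _ ⟨n, rfl⟩; exact h n) (isClosed_eq (c.mul continuous_const)
        (continuous_const.mul c)) (ha b hb)
  refine mem_centralSeq.2 fun b => ?_
  obtain ⟨z, hz⟩ := E.codim b
  have h2 := h1 _ hz
  rw [map_sub, map_smul, map_one, sub_mul, mul_sub, smul_mul_assoc, mul_smul_comm, one_mul,
    mul_one] at h2
  exact sub_left_inj.1 h2

theorem siu [TopologicalSpace.SeparableSpace B] [Countable G] (hω : (ω : Filter ℕ) ≤ cofinite)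
    (hs : Simp E) (hn : CPAP E) (hd : DivA E) {a a' a'' : B} (ht : Tri E a a' a'') :
    SIU E ω a a' := by
  classical
  intro f hf hsa hn1 hN
  obtain ⟨φ, x, hx, hK⟩ := exists_excises (E := E) ⟨a, ht.mem.1, ht.ne⟩
    (fun g : {g // ¬ Triv E ω g} => E.α g.1) fun g => kish_of_not_triv hs g.2
  have hL := nucL_of_cpap hs hn hx.state ⟨x 0, hx.mem 0, siu_ne hx⟩
  obtain ⟨y, rfl, hy⟩ := exists_rep_sa hsa
  have hy' : ∀ n, star (y n) = y n ∧ ‖y n‖ ≤ 1 := fun n => ⟨(hy n).1, (hy n).2.trans hn1⟩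
  have hS := neg_sub hs hn hd ht y hy' hf hN
  obtain ⟨d, hd1, hd2⟩ := E.exists_dense
  obtain ⟨e, he⟩ := exists_surjective_nat G
  obtain ⟨s, hs⟩ := diag_seq hω _ fun k : ℕ => si_level hx hL hy' (umk_mem_centralSeq.1 hf) hS
    ((Finset.range (k + 1)).image d)
    (fun b hb => by
      obtain ⟨m, -, rfl⟩ := Finset.mem_image.1 hb
      exact hd1 m)
    (((Finset.range (k + 1)).image e).filter fun g => ¬ Triv E ω g)
    (fun g hg b => hK ⟨g, (Finset.mem_filter.1 hg).2⟩ b) (Nat.one_div_pos_of_nat (n := k))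
  have hz : ∀ i : Fin 2, ∃ z : BoundedContinuousFunction ℕ B, (∀ n, ‖z n‖ ≤ 2) ∧
      ∀ n, (∀ i, ‖s n i‖ ≤ 2) → z n = s n i := fun i => by
    have b : ∀ n, ‖if ‖s n i‖ ≤ 2 then s n i else 0‖ ≤ 2 := fun n => by
      split_ifs with h
      · exact h
      · rw [norm_zero]
        exact zero_le_two
    obtain ⟨z, hz⟩ := exists_bcf _ 2 b
    exact ⟨z, fun n => hz n ▸ b n, fun n h => by rw [hz, if_pos (h i)]⟩
  choose z z1 z2 using hz
  refine ⟨fun i => umk ω (z i), fun i => ⟨siu_central hd2 fun m => ?_, ?_⟩,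
    fun i j => isAnn_of_dense hd2 fun m => ?_, fun g hg i j => ?_⟩
  · rw [uconst_apply, ← map_mul, ← map_mul, umk_eq_iff]
    refine siu_tendsto hs _ m fun k n hk h => ?_
    have := h.2.1 (d m) (Finset.mem_image_of_mem d (Finset.mem_range.2 (Nat.lt_succ_of_le hk))) i
    rw [← z2 i n h.1] at this
    exact this
  · exact (norm_umk_le _).trans ((BoundedContinuousFunction.norm_le zero_le_two).2 (z1 i))
  · have e1 : (if i = j then umk ω y * umk ω y else 0) = umk ω (if i = j then y * y else 0) := by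
      split_ifs
      · rw [map_mul]
      · rw [map_zero]
    rw [e1, uconst_apply, ← map_star, ← map_mul, ← map_sub, ← map_mul, umk_eq_zero]
    refine siu_tendsto hs _ m fun k n hk h => ?_
    have := h.2.2.1 (d m) (Finset.mem_image_of_mem d (Finset.mem_range.2 (Nat.lt_succ_of_le hk)))
      i j
    rw [← z2 i n h.1, ← z2 j n h.1] at this
    refine le_of_eq_of_le ?_ this
    split_ifs <;> rfl
  · obtain ⟨m, rfl⟩ := he g
    rw [uact, umap_umk, ← map_star, ← map_mul, umk_eq_zero]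
    refine siu_tendsto hs _ m fun k n hk h => ?_
    have := h.2.2.2 (e m) (Finset.mem_filter.2
      ⟨Finset.mem_image_of_mem e (Finset.mem_range.2 (Nat.lt_succ_of_le hk)), hg⟩) i j
    rw [← z2 i n h.1, ← z2 j n h.1] at this
    exact this

end Vale.Agent.P095
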