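import Vale.Agent.P095.Mat
import Vale.Agent.P095.SDefs

/-! P095: the unitization of a simple nuclear algebra. See skel/P095/BLUEPRINT.md. -/

namespace Vale.Agent.P095

open Filter Topology Vale.Agent.P101 Vale.Agent.P101.F
open scoped ComplexOrder

universe u v w

variable {A : Type u} [NonUnitalCStarAlgebra A] {G : Type v} [Group G]

omit [NonUnitalCStarAlgebra A] in
theorem uenv_fst (b : Unitization ℂ A) : b.fst = 0 ↔ ∃ a : A, (a : Unitization ℂ A) = b :=
  ⟨fun h => ⟨b.snd, Unitization.ext h.symm rfl⟩, by rintro ⟨a, rfl⟩; rfl⟩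

/-- The extension of an automorphism. -/
noncomputable def uenvE (σ : A ≃⋆ₐ[ℂ] A) : Unitization ℂ A ≃⋆ₐ[ℂ] Unitization ℂ A :=
  StarAlgEquiv.ofBijective (Unitization.starMap (σ : A →⋆ₙₐ[ℂ] A))
    ⟨Unitization.starMap_injective σ.injective, Unitization.starMap_surjective σ.surjective⟩

theorem uenvE_inr (σ : A ≃⋆ₐ[ℂ] A) (a : A) : uenvE σ (a : Unitization ℂ A) = (σ a : A) :=
  Unitization.starMap_inr _ a

theorem uenv_ext {f g : Unitization ℂ A ≃⋆ₐ[ℂ] Unitization ℂ A}
    (h : ∀ a : A, f (a : Unitization ℂ A) = g a) : f = g := by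
  ext1 b
  rw [← b.inl_fst_add_inr_snd_eq, map_add, map_add, h]
  exact congrArg (· + _) ((AlgHomClass.commutes f b.fst).trans (AlgHomClass.commutes g b.fst).symm)

theorem uenv_pos {B : Type u} [CStarAlgebra B] (c : B) : 0 ≤ star c * c := star_mul_self_nonneg c

theorem uenv_sum {ι : Type*} (s : Finset ι) (f : ι → A) :
    ((∑ i ∈ s, f i : A) : Unitization ℂ A) = ∑ i ∈ s, (f i : Unitization ℂ A) :=
  map_sum (Unitization.inrHom ℂ ℂ A) f s

theorem exists_uenv (α : G →* (A ≃⋆ₐ[ℂ] A)) : ∃ E : Env (Unitization ℂ A) G,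
    (∀ b, b ∈ E.I ↔ ∃ a : A, (a : Unitization ℂ A) = b) ∧
    ∀ g (a : A), E.α g (a : Unitization ℂ A) = (α g a : A) := by
  refine ⟨⟨RingHom.ker (Unitization.fstHom ℂ A), inferInstance,
    isClosed_eq (Unitization.continuous_fst (𝕜 := ℂ) (A := A)) continuous_const,
    fun b => ⟨b.fst, ?_⟩, ⟨⟨fun g => uenvE (α g), uenv_ext fun a => ?_⟩,
      fun g h => uenv_ext fun a => ?_⟩, fun g b hb => ?_⟩, uenv_fst, fun g a => uenvE_inr _ a⟩
  · rw [RingHom.mem_ker, map_sub, map_smul, map_one, smul_eq_mul, mul_one]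
    exact sub_self _
  · rw [uenvE_inr, map_one]
    rfl
  · rw [uenvE_inr, map_mul]
    exact ((congrArg (uenvE (α g)) (uenvE_inr (α h) a)).trans (uenvE_inr _ _)).symm
  · obtain ⟨a, rfl⟩ := (uenv_fst b).1 hb
    exact (uenv_fst _).2 ⟨_, (uenvE_inr _ a).symm⟩

theorem simp_of_isSimple (hs : IsSimple A) (E : Env (Unitization ℂ A) G)
    (hE : ∀ b, b ∈ E.I ↔ ∃ a : A, (a : Unitization ℂ A) = b) : Simp E := by
  intro a ha h0 b hb
  obtain ⟨a, rfl⟩ := (hE a).1 ha
  obtain ⟨b, rfl⟩ := (hE b).1 hb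
  let S := Submodule.span ℂ {z : Unitization ℂ A | ∃ x y, z = x * a * y}
  have hm : ∀ L : Unitization ℂ A →L[ℂ] Unitization ℂ A,
      (∀ x y, ∃ x' y', L (x * a * y) = x' * a * y') →
      ∀ z ∈ S.topologicalClosure, L z ∈ S.topologicalClosure := fun L hL z hz =>
    map_mem_closure L.continuous hz fun w hw => (Submodule.span_le (p := S.comap L.toLinearMap)).2
      (by rintro _ ⟨x, y, rfl⟩; exact Submodule.subset_span (hL x y)) hw
  let J : TwoSidedIdeal A := .mk' {x | (x : Unitization ℂ A) ∈ S.topologicalClosure}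
    (by simp) (fun hx hy => by simpa using add_mem hx hy) (fun hx => by simpa using S.topologicalClosure.neg_mem hx)
    (fun {x y} hy => by
      simpa using hm (ContinuousLinearMap.mul ℂ _ x) (fun p q => ⟨x * p, q, by simp [mul_assoc]⟩) _ hy)
    (fun {x y} hx => by
      simpa using hm ((ContinuousLinearMap.mul ℂ _).flip (y : Unitization ℂ A))
        (fun p q => ⟨p, q * y, by simp [mul_assoc]⟩) _ hx)
  have hJ : ∀ x, x ∈ J ↔ (x : Unitization ℂ A) ∈ S.topologicalClosure := fun x =>
    TwoSidedIdeal.mem_mk' _ _ _ _ _ _ x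
  have hc : IsClosed (J : Set A) := by
    rw [show (J : Set A) = _ ⁻¹' (S.topologicalClosure : Set (Unitization ℂ A)) from Set.ext hJ]
    exact S.isClosed_topologicalClosure.preimage Unitization.continuous_inr
  rcases hs.2 J hc with h | h
  · have h1 := (hJ a).2 (subset_closure (Submodule.subset_span ⟨1, 1, by simp⟩))
    rw [h, TwoSidedIdeal.mem_bot] at h1
    exact absurd (by rw [h1, Unitization.inr_zero]) h0
  · exact (hJ b).1 (h ▸ TwoSidedIdeal.mem_top A)

theorem cpap_of_isNuclear (hn : IsNuclear A) (E : Env (Unitization ℂ A) G)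
    (hE : ∀ b, b ∈ E.I ↔ ∃ a : A, (a : Unitization ℂ A) = b) : CPAP E := by
  classical
  intro F ε hF hε
  obtain ⟨k, φ, ψ, h1, h2, -, -, h3⟩ := hn (F.image fun b => b.snd) ε hε
  let e := Matrix.toEuclideanCLM (n := Fin k) (𝕜 := ℂ)
  have e1 : ∀ i0 i j : Fin k, star (e (Matrix.single i0 i 1)) * e (Matrix.single i0 j 1) =
      e (Matrix.single i j 1) := by
    intro i0 i j
    rw [← map_star, ← map_mul, Matrix.star_eq_conjTranspose, Matrix.conjTranspose_single, star_one,
      Matrix.single_mul_single_same, mul_one]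
  have hM : ∀ i j, ((ψ (e (Matrix.single i j 1)) : A) : Unitization ℂ A) ∈ E.I := fun i j =>
    (hE _).2 ⟨_, rfl⟩
  obtain ⟨R, hR⟩ := (mpos_of_ideal hM fun v hv => by
    rcases isEmpty_or_nonempty (Fin k) with h | ⟨⟨i0⟩⟩
    · simp
    choose w hw using fun i => (hE _).1 (hv i)
    obtain ⟨c, hc⟩ := h2 k (fun i => e (Matrix.single i0 i 1)) w
    have h4 := congrArg (fun x : A => (x : Unitization ℂ A)) hc
    simp only [e1, uenv_sum, Unitization.inr_mul, Unitization.inr_star, hw] at h4
    rw [h4]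
    exact uenv_pos _).exists_factor
  refine ⟨k, k, e.symm.toAlgEquiv.toLinearMap ∘ₗ φ.toLinearMap ∘ₗ Unitization.sndHom ℂ ℂ A, R,
    fun s i => E.mem_of_sum (a := fun s => R s i) (hR i i ▸ hM i i) s, fun a ha => ?_,
    fun a ha => ?_⟩
  · rcases isEmpty_or_nonempty (Fin k) with h | ⟨⟨i0⟩⟩
    · simp
    choose w hw using fun i => (hE _).1 (ha i)
    obtain ⟨c, hc⟩ := h1 k w fun i => e (Matrix.single i i0 1)
    have h4 := congrArg (fun x => e.symm x i0 i0) hc
    simp only [map_sum, map_mul, map_star, StarAlgEquiv.symm_apply_apply, Matrix.sum_apply,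
      Matrix.star_eq_conjTranspose, Matrix.conjTranspose_single, star_one,
      Matrix.mul_single_apply_same, Matrix.single_mul_apply_same, one_mul, mul_one] at h4
    have h5 := (Matrix.posSemidef_conjTranspose_mul_self (e.symm c)).diag_nonneg (i := i0)
    rw [← h4] at h5
    refine h5.trans_eq (Finset.sum_congr rfl fun i _ => Finset.sum_congr rfl fun j _ => ?_)
    rw [← hw, ← hw, ← Unitization.inr_star, ← Unitization.inr_mul]
    rfl
  · obtain ⟨b, rfl⟩ := (hE _).1 (hF a ha)
    have h4 : ∀ m, kraus R m = (ψ (e m) : A) := by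
      intro m
      rw [kraus, Finset.sum_comm]
      conv_rhs => rw [Matrix.matrix_eq_sum_single m]
      simp only [map_sum, uenv_sum]
      refine Finset.sum_congr rfl fun i _ => ?_
      rw [Finset.sum_comm]
      refine Finset.sum_congr rfl fun j _ => ?_
      rw [← Finset.smul_sum, ← hR, ← Unitization.inr_smul, ← map_smul, ← map_smul,
        Matrix.smul_single, smul_eq_mul, mul_one]
    rw [h4, ← Unitization.inr_sub, Unitization.norm_inr]
    refine le_of_eq_of_le ?_ (h3 b (Finset.mem_image_of_mem _ ha)).le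
    exact congrArg (fun x => ‖ψ x - b‖) (e.apply_symm_apply (φ b))

theorem separable_unitization [TopologicalSpace.SeparableSpace A] :
    TopologicalSpace.SeparableSpace (Unitization ℂ A) := by
  refine DenseRange.separableSpace (f := fun p : ℂ × A => algebraMap ℂ _ p.1 + (p.2 : Unitization ℂ A))
    (Function.Surjective.denseRange fun b => ⟨(b.fst, b.snd), b.inl_fst_add_inr_snd_eq⟩) ?_
  exact ((continuous_algebraMap _ _).comp continuous_fst).add
    (Unitization.continuous_inr.comp continuous_snd)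

end Vale.Agent.P095
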