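import Vale.Agent.P095.Ann

/-! P095: central sequences of `Z` give central sequences of a `Z`-stable algebra. See skel/P095/BLUEPRINT.md. -/

namespace Vale.Agent.P095

open Filter Topology Vale.Agent.P101 Vale.Agent.P101.F
open scoped ComplexOrder

universe u v w

variable {B : Type u} [CStarAlgebra B] {G : Type v} [Group G] {E : Env B G}
variable {ω : Ultrafilter ℕ}

theorem zhom_rel {X Y W : Type*} [CStarAlgebra X] [CStarAlgebra Y] [CStarAlgebra W]
    (R : X → Y → Prop) (f : Y →⋆ₐ[ℂ] W) (ex : ∀ x, ∃ y, R x y)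
    (un : ∀ x y y', R x y → R x y' → f y = f y')
    (sc : ∀ c : ℂ, R (algebraMap ℂ X c) (algebraMap ℂ Y c))
    (add : ∀ x y x' y', R x y → R x' y' → R (x + x') (y + y'))
    (mul : ∀ x y x' y', R x y → R x' y' → R (x * x') (y * y'))
    (st : ∀ x y, R x y → R (star x) (star y)) : Nonempty (X →⋆ₐ[ℂ] W) := by
  choose g hg using ex
  have hc : ∀ c : ℂ, f (g (algebraMap ℂ X c)) = algebraMap ℂ W c := fun c => by
    rw [un _ _ _ (hg _) (sc c), AlgHomClass.commutes]
  refine ⟨{
    toFun := fun x => f (g x)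
    map_one' := by simpa using hc 1
    map_mul' := fun x x' => by rw [un _ _ _ (hg _) (mul _ _ _ _ (hg x) (hg x')), map_mul]
    map_zero' := by simpa using hc 0
    map_add' := fun x x' => by rw [un _ _ _ (hg _) (add _ _ _ _ (hg x) (hg x')), map_add]
    commutes' := hc
    map_star' := fun x => by rw [un _ _ _ (hg _) (st _ _ (hg x)), map_star] }⟩

theorem zhom_comm {Z D : Type*} [CStarAlgebra Z] [CStarAlgebra D] (X : Tens E Z D)
    (x : Ultrapower B ω) (z : Ultrapower Z ω) :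
    umap ω X.θ x * umap ω X.β z = umap ω X.β z * umap ω X.θ x := by
  obtain ⟨x, rfl⟩ := umk_surjective x
  obtain ⟨z, rfl⟩ := umk_surjective z
  rw [umap_umk, umap_umk, ← map_mul, ← map_mul]
  refine congrArg _ (BoundedContinuousFunction.ext fun n => ?_)
  exact X.comm (x n) (z n)

theorem zhom_ind {Z D : Type*} [CStarAlgebra Z] [CStarAlgebra D] (X : Tens E Z D)
    (l l' r r' : Ultrapower D ω)
    (h : ∀ a ∈ E.I, ∀ z, l * uconst ω (X.θ a * X.β z) * r = l' * uconst ω (X.θ a * X.β z) * r')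
    {d : D} (hd : d ∈ tensI E X.θ X.β) : l * uconst ω d * r = l' * uconst ω d * r' := by
  have hc : Continuous (uconst ω : D → Ultrapower D ω) := continuous_starAlgHom _
  refine closure_minimal (t := {d : D | l * uconst ω d * r = l' * uconst ω d * r'}) ?_
    (isClosed_eq (by fun_prop) (by fun_prop)) hd
  intro d hd
  induction hd using Submodule.span_induction with
  | mem d hd =>
    obtain ⟨a, ha, z, rfl⟩ := hd
    exact h a ha z
  | zero => simp
  | add x y _ _ hx hy =>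
    simp only [Set.mem_ofPred_eq] at hx hy ⊢
    rw [map_add, mul_add, add_mul, mul_add, add_mul, hx, hy]
  | smul c x _ hx =>
    simp only [Set.mem_ofPred_eq] at hx ⊢
    rw [map_smul, mul_smul_comm, smul_mul_assoc, mul_smul_comm, smul_mul_assoc, hx]

theorem zhom_inj {D : Type*} [CStarAlgebra D] (Φ : B →⋆ₐ[ℂ] D) (hΦ : ∀ a ∈ E.I, ‖Φ a‖ = ‖a‖)
    {a a' : B} (ha : a ∈ E.I) (ha' : a' ∈ E.I) (x x' : Ultrapower B ω)
    (h : uconst ω (Φ a) * umap ω Φ x = umap ω Φ x' * uconst ω (Φ a')) :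
    uconst ω a * x = x' * uconst ω a' := by
  obtain ⟨x, rfl⟩ := umk_surjective x
  obtain ⟨x', rfl⟩ := umk_surjective x'
  rw [umap_umk, umap_umk, uconst_apply, uconst_apply, ← map_mul, ← map_mul, umk_eq_iff] at h
  rw [uconst_apply, uconst_apply, ← map_mul, ← map_mul, umk_eq_iff]
  refine h.congr fun n => ?_
  change ‖Φ a * Φ (x n) - Φ (x' n) * Φ a'‖ = ‖a * x n - x' n * a'‖
  rw [← map_mul, ← map_mul, ← map_sub]
  exact hΦ _ (E.I.sub_mem (E.mul_right ha _) (E.mul_left ha' _))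

theorem exists_zhom [TopologicalSpace.SeparableSpace B] (hω : (ω : Filter ℕ) ≤ cofinite)
    {Z D : Type*} [CStarAlgebra Z] [CStarAlgebra D] (X : Tens E Z D) (Φ : B →⋆ₐ[ℂ] D)
    (hΦ : ∀ a ∈ E.I, ‖Φ a‖ = ‖a‖) (hI : Φ '' (E.I : Set B) = tensI E X.θ X.β) {F : Type u}
    [CStarAlgebra F] {q : centralSeq B ω →⋆ₐ[ℂ] F} (hq : AnnQuot E ω q) :
    Nonempty (centralSeq Z ω →⋆ₐ[ℂ] F) := by
  obtain ⟨h0, hh0, hlim⟩ := E.exists_unit_seq
  obtain ⟨h, hh⟩ := exists_bcf h0 1 fun n => (hh0 n).2.2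
  have hω' : (ω : Filter ℕ) ≤ atTop := Nat.cofinite_eq_atTop ▸ hω
  have hmem : ∀ a ∈ E.I, Φ a ∈ tensI E X.θ X.β := fun a ha => hI ▸ ⟨a, ha, rfl⟩
  have hl : ∀ a ∈ E.I, umk ω h * uconst ω a = uconst ω a := fun a ha => by
    rw [uconst_apply, ← map_mul, umk_eq_iff]
    refine ((tendsto_iff_norm_sub_tendsto_zero.1 (hlim a ha).1).mono_left hω').congr fun n => ?_
    rw [← hh]
    rfl
  have hr : ∀ a ∈ E.I, uconst ω a * umk ω h = uconst ω a := fun a ha => by
    rw [uconst_apply, ← map_mul, umk_eq_iff]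
    refine ((tendsto_iff_norm_sub_tendsto_zero.1 (hlim a ha).2).mono_left hω').congr fun n => ?_
    rw [← hh]
    rfl
  have hsplit : ∀ a z, uconst ω (X.θ a * X.β z) =
      umap ω X.θ (uconst ω a) * umap ω X.β (uconst ω z) := fun a z => by
    rw [map_mul, umap_uconst, umap_uconst]
  have hL : ∀ a ∈ E.I, umap ω X.θ (umk ω h) * uconst ω (Φ a) = uconst ω (Φ a) := fun a ha => by
    have := zhom_ind X (umap ω X.θ (umk ω h)) 1 1 1 (fun b hb z => by
      rw [mul_one, mul_one, one_mul, hsplit, ← mul_assoc, ← map_mul, hl b hb]) (hmem a ha)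
    simpa only [mul_one, one_mul] using this
  have hR : ∀ a ∈ E.I, uconst ω (Φ a) * umap ω X.θ (umk ω h) = uconst ω (Φ a) := fun a ha => by
    have := zhom_ind X 1 1 (umap ω X.θ (umk ω h)) 1 (fun b hb z => by
      rw [mul_one, one_mul, hsplit, mul_assoc, ← zhom_comm, ← mul_assoc, ← map_mul, hr b hb])
      (hmem a ha)
    simpa only [mul_one, one_mul] using this
  have hC : ∀ a ∈ E.I, ∀ z : centralSeq Z ω,
      uconst ω (Φ a) * umap ω X.β z = umap ω X.β z * uconst ω (Φ a) := fun a ha z => by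
    have := zhom_ind X 1 (umap ω X.β z) (umap ω X.β z) 1 (fun b hb y => by
      rw [mul_one, one_mul, hsplit, mul_assoc, ← map_mul, mem_centralSeq.1 z.2, map_mul,
        ← mul_assoc, zhom_comm, mul_assoc]) (hmem a ha)
    simpa only [mul_one, one_mul] using this
  have hP : ∀ (a : B) (x : centralSeq B ω),
      uconst ω (Φ a) * umap ω Φ x = umap ω Φ x * uconst ω (Φ a) := fun a x => by
    rw [← umap_uconst, ← map_mul, mem_centralSeq.1 x.2, map_mul]
  refine zhom_rel (fun (z : centralSeq Z ω) (x : centralSeq B ω) =>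
    ∀ a ∈ E.I, uconst ω (Φ a) * umap ω Φ x = uconst ω (Φ a) * umap ω X.β z) q ?_ ?_ ?_ ?_ ?_ ?_
  · intro z
    obtain ⟨y, hy, hyn⟩ := exists_rep_norm (z : Ultrapower Z ω)
    have hex : ∀ n, ∃ x ∈ E.I, Φ x = X.θ (h n) * X.β (y n) := fun n => by
      have : X.θ (h n) * X.β (y n) ∈ Φ '' (E.I : Set B) := by
        rw [hI]
        exact subset_closure (Submodule.subset_span ⟨h n, hh n ▸ (hh0 n).1, y n, rfl⟩)
      exact this
    choose x0 hx0 hx0' using hex
    obtain ⟨x, hx⟩ := exists_bcf x0 ‖(z : Ultrapower Z ω)‖ fun n => by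
      rw [← hΦ _ (hx0 n), hx0']
      refine (norm_mul_le _ _).trans ?_
      have e1 : ‖X.θ (h n)‖ ≤ 1 :=
        (NonUnitalStarAlgHom.norm_apply_le X.θ (h n)).trans (hh n ▸ (hh0 n).2.2)
      have e2 : ‖X.β (y n)‖ ≤ ‖(z : Ultrapower Z ω)‖ :=
        (NonUnitalStarAlgHom.norm_apply_le X.β (y n)).trans (hyn n)
      exact (mul_le_of_le_one_left (norm_nonneg _) e1).trans e2
    have hxe : umap ω Φ (umk ω x) = umap ω X.θ (umk ω h) * umap ω X.β z := by
      rw [← hy, umap_umk, umap_umk, umap_umk, ← map_mul]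
      refine congrArg _ (BoundedContinuousFunction.ext fun n => ?_)
      change Φ (x n) = X.θ (h n) * X.β (y n)
      rw [hx, hx0']
    have hcen : umk ω x ∈ centralSeq B ω := by
      rw [mem_centralSeq]
      intro b
      obtain ⟨c, hc⟩ := E.codim b
      have e := zhom_inj Φ hΦ hc hc (umk ω x) (umk ω x) (by
        rw [hxe, ← mul_assoc, hR _ hc, mul_assoc, ← hC _ hc, ← mul_assoc, hL _ hc])
      rw [map_sub, map_smul, map_one, sub_mul, mul_sub, smul_mul_assoc, mul_smul_comm, one_mul,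
        mul_one, sub_left_inj] at e
      exact e
    refine ⟨⟨umk ω x, hcen⟩, fun a ha => ?_⟩
    change uconst ω (Φ a) * umap ω Φ (umk ω x) = _
    rw [hxe, ← mul_assoc, hR a ha]
  · intro z x x' h1 h2
    rw [← sub_eq_zero, ← map_sub, hq.ker]
    intro a ha
    have e := zhom_inj Φ hΦ ha ha ((x : Ultrapower B ω) - (x' : Ultrapower B ω)) 0 (by
      rw [map_sub, mul_sub, h1 a ha, h2 a ha, sub_self, map_zero, zero_mul])
    rw [zero_mul] at e
    exact e
  · intro c a _
    change _ * umap ω Φ (algebraMap ℂ _ c) = _ * umap ω X.β (algebraMap ℂ _ c)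
    rw [AlgHomClass.commutes, AlgHomClass.commutes]
  · intro z x z' x' h1 h2 a ha
    change _ * umap ω Φ ((x : Ultrapower B ω) + x') = _ * umap ω X.β ((z : Ultrapower Z ω) + z')
    rw [map_add, map_add, mul_add, mul_add, h1 a ha, h2 a ha]
  · intro z x z' x' h1 h2 a ha
    change _ * umap ω Φ ((x : Ultrapower B ω) * x') = _ * umap ω X.β ((z : Ultrapower Z ω) * z')
    rw [map_mul, map_mul, ← mul_assoc, h1 a ha, hC a ha, mul_assoc, h2 a ha, ← mul_assoc,
      ← hC a ha, mul_assoc]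
  · intro z x h1 a ha
    change _ * umap ω Φ (star (x : Ultrapower B ω)) = _ * umap ω X.β (star (z : Ultrapower Z ω))
    have e := h1 (star a) (E.star_mem ha)
    rw [hP, hC _ (E.star_mem ha)] at e
    have e' := congrArg star e
    rw [star_mul, star_mul, map_star, map_star, star_star] at e'
    rw [map_star, map_star]
    exact e'

end Vale.Agent.P095
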