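import Vale.Agent.P095.ZNil

/-! P095: the central sequence algebra of the Jiang-Su algebra has no character. See skel/P095/BLUEPRINT.md. -/

namespace Vale.Agent.P095

open Filter Topology Vale.Agent.P101 Vale.Agent.P101.F
open scoped ComplexOrder Matrix.Norms.L2Operator

universe u v w

theorem znc_side {A N κ : Type*} [CStarAlgebra A] [CStarAlgebra N] (S : StarSubalgebra ℂ A)
    (π : N →⋆ₐ[ℂ] A) (σ : S) (hσ : star σ = σ) (hn : ‖σ‖ ≤ 1) (hc : ∀ a : A, Commute (σ : A) a)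
    (hm : ∀ x, σ * π x ∈ S) (G : Finset κ) (F : κ → S) (c : κ → N) {η : ℝ}
    (hF : ∀ f ∈ G, ‖(F f : A) - π (c f)‖ ≤ η) {x : Fin 2 → N} {y : N}
    (hx : ∀ i, ‖x i‖ ≤ 1 ∧ x i * x i = 0 ∧ ∀ f ∈ G, ‖x i * c f - c f * x i‖ ≤ η)
    (hs : ∑ i, (star (x i) * x i + x i * star (x i)) = 1 + star y * y) :
    ∃ (X : Fin 2 → S) (Y : S),
      (∀ i, ‖X i‖ ≤ 1 ∧ X i * X i = 0 ∧ ∀ f ∈ G, ‖F f * X i - X i * F f‖ ≤ 3 * η) ∧
      ∑ i, (star (X i) * X i + X i * star (X i)) = σ * σ + star Y * Y := by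
  have hσ' : star (σ : A) = σ := congrArg Subtype.val hσ
  have hn' : ‖(σ : A)‖ ≤ 1 := hn
  have e1 : ∀ a b, σ * π a * (σ * π b) = σ * σ * π (a * b) := fun a b => by
    rw [map_mul, mul_assoc, ← mul_assoc (π a), ← (hc (π a)).eq]
    simp only [mul_assoc]
  have e2 : ∀ a, star (σ * π a) = σ * π (star a) := fun a => by
    rw [star_mul, hσ', map_star, (hc _).eq]
  have e3 : ∀ a r, ‖a‖ ≤ r → ‖σ * π a‖ ≤ r := fun a r h => (norm_mul_le _ _).trans
    ((mul_le_of_le_one_left (norm_nonneg _) hn').trans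
      ((NonUnitalStarAlgHom.norm_apply_le π a).trans h))
  refine ⟨fun i => ⟨_, hm (x i)⟩, ⟨_, hm y⟩, fun i => ⟨e3 _ _ (hx i).1, Subtype.ext ?_,
    fun f hf => ?_⟩, Subtype.ext ?_⟩
  · change σ * π (x i) * (σ * π (x i)) = 0
    rw [e1, (hx i).2.1, map_zero, mul_zero]
  · change ‖(F f : A) * (σ * π (x i)) - σ * π (x i) * F f‖ ≤ _
    have e : (F f : A) * (σ * π (x i)) - σ * π (x i) * F f =
        (F f - π (c f)) * (σ * π (x i)) - σ * π (x i) * (F f - π (c f)) -
          σ * π (x i * c f - c f * x i) := by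
      rw [map_sub, map_mul, map_mul, mul_sub (σ : A), ← mul_assoc (σ : A) (π (c f)),
        (hc (π (c f))).eq]
      noncomm_ring
    have h1 := e3 _ _ (hx i).1
    have h2 := (norm_mul_le ((F f : A) - π (c f)) (σ * π (x i))).trans
      ((mul_le_of_le_one_right (norm_nonneg _) h1).trans (hF f hf))
    have h3 := (norm_mul_le (σ * π (x i)) ((F f : A) - π (c f))).trans
      ((mul_le_of_le_one_left (norm_nonneg _) h1).trans (hF f hf))
    have h4 := e3 _ _ ((hx i).2.2 f hf)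
    rw [e]
    refine (norm_sub_le _ _).trans ((add_le_add_left (norm_sub_le _ _) _).trans ?_)
    linarith
  · rw [Fin.sum_univ_two] at hs ⊢
    change star (σ * π (x 0)) * (σ * π (x 0)) + σ * π (x 0) * star (σ * π (x 0)) +
      (star (σ * π (x 1)) * (σ * π (x 1)) + σ * π (x 1) * star (σ * π (x 1))) =
      (σ : A) * σ + star (σ * π y) * (σ * π y)
    simp only [e2, e1, ← mul_add, ← map_add, hs]
    rw [map_add, map_one, mul_add, mul_one]

theorem znc_factor {D N M : Type*} [CStarAlgebra D] [CStarAlgebra N] [CStarAlgebra M]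
    (κ : N →⋆ₐ[ℂ] M) (hκ : Function.Injective κ) (ψ : D →⋆ₐ[ℂ] M) (h : ∀ f, ∃ c, ψ f = κ c) :
    ∃ ρ : D →⋆ₐ[ℂ] N, ∀ f, κ (ρ f) = ψ f := by
  choose c hc using h
  refine ⟨{ toFun := c
            map_one' := hκ (by rw [← hc, map_one, map_one])
            map_mul' := fun a b => hκ (by rw [map_mul, ← hc, ← hc, ← hc, map_mul])
            map_zero' := hκ (by rw [← hc, map_zero, map_zero])
            map_add' := fun a b => hκ (by rw [map_add, ← hc, ← hc, ← hc, map_add])
            commutes' := fun r => hκ (by rw [← hc, AlgHomClass.commutes, AlgHomClass.commutes])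
            map_star' := fun a => hκ (by rw [map_star, ← hc, ← hc, map_star]) },
    fun f => (hc f).symm⟩

theorem znc_kap_inj {J J₀ R : Type*} [Fintype J] [DecidableEq J] [Fintype J₀]
    [DecidableEq J₀] [Fintype R] [DecidableEq R] (r : R) (e : J ≃ J₀ × R) :
    Function.Injective (kapHom ℂ e) := fun c d h => by
  ext j k
  simpa [kap_apply] using congrFun (congrFun h (e.symm (j, r))) (e.symm (k, r))

theorem znc_dense {p q p' q' : ℕ} (hp : 0 < p) (hq : 0 < q)
    {φ : dimDrop p q →⋆ₐ[ℂ] dimDrop p' q'} (hφ : Function.Injective φ) {δ : ℝ} (hδ : 0 < δ)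
    (h : IsDiagonalForm φ (δ / 2)) (t₀ s : unitInterval) (g : C(unitInterval, ℂ))
    (hg : ∀ t : unitInterval, |(t : ℝ) - s| ≤ δ → g t = 1) : (φ (ZTens.sc p q g)).1 t₀ ≠ 0 := by
  obtain ⟨k, e, u, ξ, hu, hξ, hφ'⟩ := h
  have : Nonempty (Fin p × Fin q) := ⟨(⟨0, hp⟩, ⟨0, hq⟩)⟩
  intro h0
  have h1 : ∀ i, δ < |(ξ i t₀ : ℝ) - s| := fun i => by
    by_contra hc
    have h2 : u t₀ * (φ (ZTens.sc p q g)).1 t₀ * star (u t₀) = 0 := by rw [h0]; simp
    rw [hφ', ← mul_assoc, ← mul_assoc, (hu t₀).2, one_mul, mul_assoc, (hu t₀).2, mul_one,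
      ← (Matrix.reindex e e).symm.injective.eq_iff, Equiv.symm_apply_apply] at h2
    have h3 := congrArg (fun B => Matrix.blockDiag B i) h2
    simp only [Matrix.blockDiag_blockDiagonal, ZTens.sc_apply, hg _ (not_lt.1 hc), one_smul,
      Matrix.reindex_symm, Matrix.reindex_apply, Matrix.submatrix_zero, Pi.zero_apply,
      Matrix.blockDiag_zero] at h3
    exact one_ne_zero h3
  let g₁ : C(unitInterval, ℂ) := ⟨fun t => ((max (δ / 2 - |(t : ℝ) - s|) 0 : ℝ) : ℂ), by fun_prop⟩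
  have h2 : φ (ZTens.sc p q g₁) = 0 := by
    refine Subtype.ext (ContinuousMap.ext fun x => ?_)
    have h3 : (fun i => (ZTens.sc p q g₁).1 (ξ i x)) = 0 := funext fun i => by
      have h4 := h1 i
      have h5 := hξ i t₀ x
      have h6 := abs_sub_le (ξ i t₀ : ℝ) (ξ i x) s
      have h7 : max (δ / 2 - |(ξ i x : ℝ) - s|) 0 = 0 := max_eq_right (by linarith)
      simp [ZTens.sc_apply, g₁, h7]
    rw [hφ', h3]
    simp
  have h3 := congrArg (fun f : dimDrop p q => f.1 s) (hφ (h2.trans (map_zero φ).symm))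
  simp [ZTens.sc_apply, g₁] at h3
  linarith

/-- conjugation of constants by a path of unitaries -/
noncomputable def zncAd {M : Type*} [CStarAlgebra M] (V : C(unitInterval, M))
    (hV : ∀ t, V t ∈ unitary M) : M →⋆ₐ[ℂ] C(unitInterval, M) where
  toFun a := V * ContinuousMap.const _ a * star V
  map_one' := by ext t; simp [(hV t).2]
  map_mul' a b := by
    ext t
    change V t * (a * b) * star (V t) = V t * a * star (V t) * (V t * b * star (V t))
    calc _ = V t * a * (star (V t) * V t) * b * star (V t) := by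
          rw [(hV t).1]; noncomm_ring
      _ = _ := by noncomm_ring
  map_zero' := by ext t; simp
  map_add' a b := by ext t; simp [mul_add, add_mul]
  commutes' r := by ext t; simp [Algebra.algebraMap_eq_smul_one, (hV t).2]
  map_star' a := by ext t; simp [mul_assoc]

/-- evaluation -/
noncomputable def zncEv (M : Type*) [CStarAlgebra M] (t : unitInterval) :
    C(unitInterval, M) →⋆ₐ[ℂ] M where
  toFun f := f t
  map_one' := rfl
  map_mul' _ _ := rfl
  map_zero' := rfl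
  map_add' _ _ := rfl
  commutes' _ := rfl
  map_star' _ := rfl

theorem znc_sc_norm {p q : ℕ} {g : C(unitInterval, ℂ)} (hg : ∀ t, ‖g t‖ ≤ 1) :
    ‖ZTens.sc p q g‖ ≤ 1 :=
  (NonUnitalStarAlgHom.norm_apply_le _ g).trans ((g.norm_le zero_le_one).2 hg)

theorem znc_sc_comm {p q : ℕ} (g : C(unitInterval, ℂ))
    (a : C(unitInterval, Matrix (Fin p × Fin q) (Fin p × Fin q) ℂ)) :
    Commute (ZTens.sc p q g).1 a :=
  ContinuousMap.ext fun t => by
    change (g t • 1) * a t = a t * (g t • 1)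
    simp

theorem znc_drop {p q : ℕ} (hp : 0 < p) (hq : 0 < q) (G : Finset (dimDrop p q)) {η : ℝ}
    (hη : 0 < η) : ∃ δ : ℝ, 0 < δ ∧ ∀ (p' q' : ℕ), 0 < p' → 0 < q' →
      ∀ φ : dimDrop p q →⋆ₐ[ℂ] dimDrop p' q', Function.Injective φ → IsDiagonalForm φ δ →
      ∃ (X X' : Fin 2 → dimDrop p' q') (Y Y' σ σ' : dimDrop p' q'),
        (∀ i, ‖X i‖ ≤ 1 ∧ X i * X i = 0 ∧ ∀ f ∈ G, ‖φ f * X i - X i * φ f‖ ≤ 3 * (2 * η)) ∧
        (∀ i, ‖X' i‖ ≤ 1 ∧ X' i * X' i = 0 ∧ ∀ f ∈ G, ‖φ f * X' i - X' i * φ f‖ ≤ 3 * (2 * η)) ∧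
        ∑ i, (star (X i) * X i + X i * star (X i)) = σ * σ + star Y * Y ∧
        ∑ i, (star (X' i) * X' i + X' i * star (X' i)) = σ' * σ' + star Y' * Y' ∧
        star σ = σ ∧ star σ' = σ' ∧ σ + σ' = 1 := by
  obtain ⟨δ₁, hδ₁, h1⟩ := rep_nil hp hq G (show 0 < 2 * η by positivity)
  obtain ⟨δ₂, hδ₂, h2⟩ := exists_path_of_diag G hη
  refine ⟨min (δ₁ / 2) δ₂, by positivity, fun p' q' hp' hq' φ hi hφ => ?_⟩
  obtain ⟨W, hW, hW0, hWe⟩ := h2 p' q' φ (hφ.mono (min_le_right _ _))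
  have hd := znc_dense hp hq hi hδ₁ (hφ.mono (min_le_left _ _))
  obtain ⟨ρ, hρ⟩ := znc_factor (kL (Fin p') (Fin q')) (znc_kap_inj ⟨0, hq'⟩ _)
    ((zncEv _ 0).comp ((dimDrop p' q').subtype.comp φ))
    fun f => by exact (mem_dimDrop.1 (φ f).2).1
  obtain ⟨ρ', hρ'⟩ := znc_factor (kR (Fin p') (Fin q')) (znc_kap_inj ⟨0, hp'⟩ _)
    ((zncEv _ 1).comp ((dimDrop p' q').subtype.comp φ))
    fun f => by exact (mem_dimDrop.1 (φ f).2).2
  have hρ1 : ∀ f, kL (Fin p') (Fin q') (ρ f) = (φ f).1 0 := hρ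
  have hρ1' : ∀ f, kR (Fin p') (Fin q') (ρ' f) = (φ f).1 1 := hρ'
  obtain ⟨x, y, hx, hs⟩ := h1 _ ρ fun s g hg h0 => hd 0 s g hg (by rw [← hρ1, h0, map_zero])
  obtain ⟨x', y', hx', hs'⟩ := h1 _ ρ' fun s g hg h0 => hd 1 s g hg (by rw [← hρ1', h0, map_zero])
  have hV : ∀ t, (W * ContinuousMap.const unitInterval (star (W 1))) t ∈ unitary _ := fun t =>
    mul_mem (hW t) (Unitary.star_mem (hW 1))
  have s1 : star tt = tt := by ext t; simp
  have s2 : star (1 - tt) = 1 - tt := by rw [star_sub, star_one, s1]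
  have s3 : star (ZTens.sc p' q' tt) = ZTens.sc p' q' tt := by rw [← map_star, s1]
  have s4 : star (ZTens.sc p' q' (1 - tt)) = ZTens.sc p' q' (1 - tt) := by rw [← map_star, s2]
  obtain ⟨X, Y, hX, hS⟩ := znc_side (dimDrop p' q') ((zncAd W hW).comp (kL _ _))
    (ZTens.sc p' q' (1 - tt)) s4
    (znc_sc_norm fun t => by
      have : (1 - tt) t = ((1 - t : ℝ) : ℂ) := by simp
      rw [this, Complex.norm_real, Real.norm_of_nonneg (unitInterval.one_minus_nonneg t)]
      exact unitInterval.one_minus_le_one t)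
    (znc_sc_comm _)
    (fun a => mem_dimDrop.2 ⟨⟨a, by
      change ((1 - tt) 0 • 1) * (W 0 * kL _ _ a * star (W 0)) = _
      simp [hW0]⟩, 0, by
      change ((1 - tt) 1 • 1) * (W 1 * kL _ _ a * star (W 1)) = kR _ _ 0
      rw [map_zero]
      simp⟩) G φ ρ (η := 2 * η)
    (fun f hf => (ContinuousMap.norm_le _ (by positivity)).2 fun t => by
      change ‖(φ f).1 t - W t * kL _ _ (ρ f) * star (W t)‖ ≤ _
      rw [hρ1]
      linarith [hWe f hf t]) hx hs
  obtain ⟨X', Y', hX', hS'⟩ := znc_side (dimDrop p' q') ((zncAd _ hV).comp (kR _ _))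
    (ZTens.sc p' q' tt) s3
    (znc_sc_norm fun t => by
      rw [tt_apply, Complex.norm_real, Real.norm_of_nonneg (unitInterval.nonneg t)]
      exact unitInterval.le_one t)
    (znc_sc_comm _)
    (fun a => mem_dimDrop.2 ⟨⟨0, by
      change (tt 0 • 1) * (W 0 * star (W 1) * kR _ _ a * star (W 0 * star (W 1))) =
        kL _ _ 0
      rw [map_zero (kL _ _)]
      simp⟩, a, by
      change (tt 1 • 1) * (W 1 * star (W 1) * kR _ _ a * star (W 1 * star (W 1))) = _
      rw [(hW 1).2]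
      simp⟩) G φ ρ' (η := 2 * η)
    (fun f hf => (ContinuousMap.norm_le _ (by positivity)).2 fun t => by
      change ‖(φ f).1 t - W t * star (W 1) * kR _ _ (ρ' f) * star (W t * star (W 1))‖ ≤ _
      rw [hρ1']
      have a1 := norm_conj_sub_le (Unitary.star_mem (hV t)) (hWe f hf 1)
      have e : star (star (W t * star (W 1))) * (W 1 * (φ f).1 0 * star (W 1)) *
          star (W t * star (W 1)) = W t * (φ f).1 0 * star (W t) := by
        rw [star_star, star_mul, star_star]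
        calc _ = W t * (star (W 1) * W 1) * (φ f).1 0 * (star (W 1) * W 1) * star (W t) := by
              noncomm_ring
          _ = _ := by rw [(hW 1).1, mul_one, mul_one]
      change ‖star (star (W t * star (W 1))) * _ * star (W t * star (W 1)) -
        star (star (W t * star (W 1))) * _ * star (W t * star (W 1))‖ ≤ _ at a1
      rw [e, star_star, norm_sub_rev] at a1
      refine (norm_sub_le_norm_sub_add_norm_sub _ _ _).trans ((add_le_add (hWe f hf t) a1).trans ?_)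
      linarith) hx' hs'
  exact ⟨X, X', Y, Y', _, _, hX, hX', hS, hS', s4, s3, by rw [← map_add, sub_add_cancel, map_one]⟩

theorem znc_half {Z : Type u} [CStarAlgebra Z] {a b y y' : Z} (ha : star a = a) (hb : star b = b)
    (h : a + b = 1) : (2⁻¹ : ℝ) • (1 : Z) ≤ a * a + star y * y + (b * b + star y' * y') := by
  have e2 : a * a + b * b = (2⁻¹ : ℝ) • (1 : Z) + (2⁻¹ : ℝ) • (star (a - b) * (a - b)) := by
    rw [star_sub, ha, hb, ← smul_add, ← mul_one (1 : Z), ← h, eq_inv_smul_iff₀ two_ne_zero,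
      two_smul]
    noncomm_ring
  rw [add_add_add_comm, e2, add_assoc]
  exact le_add_of_nonneg_right (add_nonneg (smul_nonneg (by norm_num) (star_mul_self_nonneg _))
    (add_nonneg (star_mul_self_nonneg _) (star_mul_self_nonneg _)))

theorem znc_comm {Z : Type u} [CStarAlgebra Z] {a z w : Z} {η η' : ℝ} (ha : ‖a‖ ≤ 1)
    (hz : ‖z - w‖ ≤ η) (h : ‖w * a - a * w‖ ≤ η') : ‖z * a - a * z‖ ≤ 2 * η + η' := by
  have e : z * a - a * z = (z - w) * a - a * (z - w) + (w * a - a * w) := by noncomm_ring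
  have h2 := (norm_mul_le (z - w) a).trans ((mul_le_of_le_one_right (norm_nonneg _) ha).trans hz)
  have h3 := (norm_mul_le a (z - w)).trans ((mul_le_of_le_one_left (norm_nonneg _) ha).trans hz)
  rw [e]
  refine (norm_add_le _ _).trans ((add_le_add_left (norm_sub_le _ _) _).trans ?_)
  linarith

theorem znc_char {A : Type*} [CStarAlgebra A] (S : StarSubalgebra ℂ A) [IsClosed (S : Set A)]
    (x : Fin 4 → A) (hx : ∀ i, x i ∈ S) (h0 : ∀ i, x i * x i = 0)
    (h : ‖algebraMap ℂ A 8 - ∑ i, (star (x i) * x i + x i * star (x i))‖ ≤ 15 / 2) :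
    IsEmpty (S →⋆ₐ[ℂ] ℂ) := by
  refine ⟨fun χ => ?_⟩
  let X : Fin 4 → S := fun i => ⟨_, hx i⟩
  have h1 : ∀ i, χ (X i) = 0 := fun i => by
    have h1 := congrArg χ (show X i * X i = 0 from Subtype.ext (h0 i))
    rw [map_mul, map_zero] at h1
    exact mul_self_eq_zero.1 h1
  have h2 : ‖algebraMap ℂ S 8 - ∑ i, (star (X i) * X i + X i * star (X i))‖ ≤ 15 / 2 := by
    rw [Fin.sum_univ_four] at h ⊢
    exact h
  let _ : CStarAlgebra S := StarSubalgebra.cstarAlgebra S
  have h3 := (NonUnitalStarAlgHom.norm_apply_le χ _).trans h2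
  simp only [map_sub, map_sum, map_add, map_mul, h1, map_star, AlgHomClass.commutes] at h3
  norm_num at h3

theorem z_nil {Z : Type u} [CStarAlgebra Z] (hZ : IsJiangSu Z) (F : Finset Z) {ε : ℝ}
    (hε : 0 < ε) : ∃ x : Fin 4 → Z,
      (∀ i, ‖x i‖ ≤ 1 ∧ x i * x i = 0 ∧ ∀ z ∈ F, ‖z * x i - x i * z‖ ≤ ε) ∧
      (2⁻¹ : ℝ) • (1 : Z) ≤ ∑ i, (star (x i) * x i + x i * star (x i)) := by
  classical
  obtain ⟨p, q, ι, hp, hι, hd, hφ⟩ := hZ
  have h1 : ∀ z : Z, ∀ᶠ m in atTop, ∃ f, ‖z - ι m f‖ ≤ ε / 8 := by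
    intro z
    obtain ⟨y, hy, hzy⟩ := Metric.mem_closure_iff.1 (hd z) (ε / 8) (by positivity)
    obtain ⟨m, f, rfl⟩ := Set.mem_iUnion.1 hy
    filter_upwards [eventually_gt_atTop m] with n hn
    obtain ⟨φ, h, -⟩ := hφ m n hn
    exact ⟨φ f, by rw [h, ← dist_eq_norm]; exact hzy.le⟩
  obtain ⟨m, hm⟩ := ((F.eventually_all).2 fun z _ => h1 z).exists
  choose! f hf using hm
  obtain ⟨δ, hδ, hW⟩ := znc_drop (p := p m) (q := q m) (by have := hp m; omega)
    (by have := hp m; omega) (F.image f) (show 0 < ε / 8 by positivity)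
  obtain ⟨k, hk⟩ := exists_pow_lt_of_lt_one hδ (show (1 / 2 : ℝ) < 1 by norm_num)
  obtain ⟨φ, hφ1, hφ2⟩ := hφ m (m + k + 1) (by omega)
  obtain ⟨X, X', Y, Y', σ, σ', hX, hX', hS, hS', s1, s2, s3⟩ := hW _ _
    (by have := hp (m + k + 1); omega) (by have := hp (m + k + 1); omega) φ
    (fun a b h => hι m (by rw [← hφ1, ← hφ1, h])) (hφ2.mono (by
      rw [show m + k + 1 - m = k + 1 by omega, pow_succ]
      have : (0 : ℝ) < (1 / 2) ^ k := by positivity
      linarith))
  set j := ι (m + k + 1)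
  have key : ∀ a, (‖a‖ ≤ 1 ∧ a * a = 0 ∧
      ∀ g ∈ F.image f, ‖φ g * a - a * φ g‖ ≤ 3 * (2 * (ε / 8))) →
      ‖j a‖ ≤ 1 ∧ j a * j a = 0 ∧ ∀ z ∈ F, ‖z * j a - j a * z‖ ≤ ε := by
    rintro a ⟨a1, a2, a3⟩
    have a4 : ‖j a‖ ≤ 1 := (NonUnitalStarAlgHom.norm_apply_le j a).trans a1
    refine ⟨a4, by rw [← map_mul, a2, map_zero], fun z hz => ?_⟩
    have a5 := norm_map_sub_le j (a3 _ (Finset.mem_image_of_mem f hz))
    rw [map_mul, map_mul, hφ1] at a5
    exact (znc_comm a4 (hf z hz) a5).trans (le_of_eq (by ring))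
  refine ⟨![j (X 0), j (X 1), j (X' 0), j (X' 1)], fun i => ?_, ?_⟩
  · fin_cases i
    exacts [key _ (hX 0), key _ (hX 1), key _ (hX' 0), key _ (hX' 1)]
  · have a1 := congrArg j hS
    have a2 := congrArg j hS'
    have a3 := congrArg j s1
    have a4 := congrArg j s2
    have a5 := congrArg j s3
    simp only [Fin.sum_univ_two, map_add, map_mul, map_star, map_one] at a1 a2 a3 a4 a5
    have a6 := znc_half (y := j Y) (y' := j Y') a3 a4 a5
    rw [← a1, ← a2, ← add_assoc] at a6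
    rw [Fin.sum_univ_four]
    exact a6

theorem z_no_char {Z : Type u} [CStarAlgebra Z] (hZ : IsJiangSu Z) {ω : Ultrafilter ℕ}
    (hω : (ω : Filter ℕ) ≤ cofinite) : IsEmpty (centralSeq Z ω →⋆ₐ[ℂ] ℂ) := by
  classical
  have := hZ.separableSpace
  obtain ⟨a, ha⟩ := TopologicalSpace.exists_dense_seq Z
  choose x hx hs using fun n : ℕ => z_nil hZ ((Finset.range n).image a)
    (Nat.one_div_pos_of_nat (α := ℝ) (n := n))
  choose y hy using fun i : Fin 4 => exists_bcf (fun n => x n i) 1 fun n => (hx n i).1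
  have hc : ∀ i, umk ω (y i) ∈ centralSeq Z ω := fun i => by
    have hu : Continuous (uconst ω : Z → Ultrapower Z ω) := continuous_starAlgHom (uconst ω)
    refine mem_centralSeq.2 fun b => ha.induction_on b (isClosed_eq (by fun_prop) (by fun_prop))
      fun k => ?_
    rw [uconst_apply, ← map_mul, ← map_mul, umk_eq_iff]
    rw [Nat.cofinite_eq_atTop] at hω
    refine squeeze_zero' (Eventually.of_forall fun _ => norm_nonneg _) ?_
      (tendsto_one_div_add_atTop_nhds_zero_nat.mono_left hω)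
    filter_upwards [hω (eventually_gt_atTop k)] with n hn
    have := (hx n i).2.2 (a k) (Finset.mem_image_of_mem a (Finset.mem_range.2 hn))
    rw [← hy] at this
    exact this
  have h1 : ∀ n, ‖algebraMap ℝ Z 8 - ∑ i, (star (x n i) * x n i + x n i * star (x n i))‖ ≤
      15 / 2 := fun n => by
    have a0 : 0 ≤ ∑ i, (star (x n i) * x n i + x n i * star (x n i)) :=
      Finset.sum_nonneg fun i _ => add_nonneg (star_mul_self_nonneg _) (mul_star_self_nonneg _)
    have a1 : ‖∑ i, (star (x n i) * x n i + x n i * star (x n i))‖ ≤ 8 := by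
      refine (norm_sum_le_of_le _ (n := fun _ => 2) fun i _ => ?_).trans (by simp; norm_num)
      have a2 := mul_le_one₀ (hx n i).1 (norm_nonneg _) (hx n i).1
      refine (norm_add_le _ _).trans ?_
      rw [CStarRing.norm_star_mul_self, CStarRing.norm_self_mul_star]
      linarith
    rw [CStarAlgebra.norm_le_iff_le_algebraMap _ (by norm_num) a0] at a1
    rw [CStarAlgebra.norm_le_iff_le_algebraMap _ (by norm_num) (sub_nonneg.2 a1), sub_le_comm,
      ← map_sub, Algebra.algebraMap_eq_smul_one, show (8 - 15 / 2 : ℝ) = 2⁻¹ by norm_num]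
    exact hs n
  refine znc_char _ (fun i => umk ω (y i)) hc (fun i => ?_) ?_
  · have : y i * y i = 0 := by
      ext n
      change y i n * y i n = 0
      rw [hy, (hx n i).2.1]
    rw [← map_mul, this, map_zero]
  · have e : algebraMap ℂ (Ultrapower Z ω) 8 - ∑ i, (star (umk ω (y i)) * umk ω (y i) +
        umk ω (y i) * star (umk ω (y i))) =
        umk ω (algebraMap ℂ _ 8 - ∑ i, (star (y i) * y i + y i * star (y i))) := by
      simp only [map_sub, map_sum, map_add, map_mul, map_star, AlgHomClass.commutes]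
    rw [e]
    refine (norm_umk_le _).trans ((BoundedContinuousFunction.norm_le (by norm_num)).2 fun n => ?_)
    have e2 : algebraMap ℝ Z 8 = algebraMap ℂ Z 8 := by
      rw [IsScalarTower.algebraMap_apply ℝ ℂ Z]
      congr 1
    have h2 := h1 n
    simp only [e2, ← hy, Fin.sum_univ_four] at h2
    rw [Fin.sum_univ_four]
    exact h2

end Vale.Agent.P095
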