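import Vale.Agent.P095.NoChar
import Vale.Agent.P095.CopyA
import Vale.Agent.P095.DivA
import Vale.Agent.P095.Siu
import Vale.Agent.P095.CopyG
import Vale.Agent.P095.ZNoChar
import Vale.Agent.P095.ZHom
import Vale.Agent.P095.Key
import Vale.Agent.P095.Inter
import Vale.Agent.P095.UEnv
import Vale.Agent.P095.MultB
import Vale.Agent.P101.ZRW
import Vale.Agent.P101.SBridge

/-! P095: assembly. -/

namespace Vale.Agent.P095

open Filter Topology Vale.Agent.P101 Vale.Agent.P101.F TopologicalSpace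
open scoped ComplexOrder Matrix.Norms.L2Operator MultiplierAlgebra TensorProduct

universe u v w

theorem hasRW_of_no_char {Q : Type u} [CStarAlgebra Q] (h0 : IsEmpty (Q →⋆ₐ[ℂ] ℂ))
    (hP : Closed3 fun (D : Type u) _ => SeparableSpace D ∧ Nonempty (D →⋆ₐ[ℂ] Q)) :
    HasRW Q := by
  intro n
  obtain ⟨D, _, hD1, hD2, hD3⟩ := exists_sep_nil (full_nil h0)
  obtain ⟨E, _, hE, α, hα⟩ := exists_fullOZ hP ⟨hD1, hD2⟩ hD3 (n + 1) n.succ_pos
  obtain ⟨E', _, ⟨-, ⟨θ⟩⟩, β, s, h1, h2⟩ := exists_rw_one hP hE α hα 0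
  rw [Fin.sum_univ_one] at h1
  have h3 : β.φ 1 = 1 - star (s 0) * s 0 := by rw [h1, sub_sub_cancel]
  have h4 : θ (β.φ 1) = 1 - star (θ (s 0)) * θ (s 0) := by
    rw [h3, map_sub, map_one, map_mul, map_star]
  have h5 : ‖s 0‖ ≤ 1 := by
    have h6 : ‖star (s 0) * s 0‖ ≤ 1 :=
      (CStarAlgebra.norm_le_one_iff_of_nonneg _ (star_mul_self_nonneg _)).2
        (by rw [h1]; exact sub_le_self _ β.nonneg)
    rw [CStarRing.norm_star_mul_self] at h6
    nlinarith [norm_nonneg (s 0)]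
  refine ⟨fun i j => θ (β.φ (Matrix.single i j 1)), θ (s 0), ⟨fun i j => ?_, fun i j k l => ?_,
    ?_, ?_⟩, (NonUnitalStarAlgHom.norm_apply_le θ _).trans h5⟩
  · rw [← map_star, ← β.star', Matrix.star_eq_conjTranspose, Matrix.conjTranspose_single, star_one]
  · rw [← map_mul, β.mul', map_mul, h4]
    split_ifs with e
    · rw [e, Matrix.single_mul_single_same, one_mul]
    · rw [Matrix.single_mul_single_of_ne _ _ _ _ e, map_zero, map_zero, mul_zero]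
  · rw [← h4, ← map_sum, ← map_sum, Matrix.sum_single_one]
  · rw [← map_mul, h2]

theorem HasRW.map {Q : Type u} {Q' : Type w} [CStarAlgebra Q] [CStarAlgebra Q'] (h : HasRW Q)
    (f : Q →⋆ₐ[ℂ] Q') : HasRW Q' := by
  intro n
  obtain ⟨φ, v, h1, h2⟩ := h n
  refine ⟨fun i j => f (φ i j), f v, ⟨fun i j => ?_, fun i j k l => ?_, ?_, ?_⟩,
    (NonUnitalStarAlgHom.norm_apply_le f _).trans h2⟩
  · rw [← map_star, h1.star_eq]
  · rw [← map_mul, h1.mul_eq]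
    split_ifs <;> simp [map_star]
  · rw [← map_sum, h1.sum_eq]
    simp [map_star]
  · rw [← map_mul, h1.mul_v]

theorem HasRW.dimDrop {Q : Type u} [CStarAlgebra Q] (h : HasRW Q) {p q : ℕ} (hp : 2 ≤ p)
    (hq : 2 ≤ q) (hpq : Nat.Coprime p q) : Nonempty (dimDrop p q →⋆ₐ[ℂ] Q) := by
  obtain ⟨k, hk1, hk2⟩ := Nat.chineseRemainder hpq (p - 1) (q - 2)
  obtain ⟨φ, v, h1, -⟩ := h k
  refine exists_hom_of_RW h1 ?_ ?_
  · have := hk1.add_right 1
    rw [Nat.sub_add_cancel (by omega)] at this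
    exact (Nat.modEq_zero_iff_dvd).1 (this.trans (Nat.modEq_zero_iff_dvd.2 dvd_rfl))
  · have := hk2.add_right 2
    rw [Nat.sub_add_cancel hq] at this
    exact (Nat.modEq_zero_iff_dvd).1 (this.trans (Nat.modEq_zero_iff_dvd.2 dvd_rfl))

section Env

variable {B : Type u} [CStarAlgebra B] {G : Type v} [Group G] {E : Env B G} {ω : Ultrafilter ℕ}

theorem three_copies [SeparableSpace B] [Countable G] (hω : (ω : Filter ℕ) ≤ cofinite)
    {F : Type u} [CStarAlgebra F] {q : cenG E ω →⋆ₐ[ℂ] F} (hq : AnnQuot E ω q) {D : Type w}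
    [CStarAlgebra D] [SeparableSpace D] (ι : D →⋆ₐ[ℂ] F) :
    ∃ γ : Fin 3 → (D →⋆ₐ[ℂ] F), ∀ i j, i ≠ j → ∀ f g, Commute (γ i f) (γ j g) := by
  have hs : ∀ π : D →⋆ₐ[ℂ] F, IsSeparable (Set.range π) := fun π =>
    isSeparable_range (continuous_starAlgHom _)
  obtain ⟨π1, h1⟩ := copyG hω hq ι (hs ι)
  obtain ⟨π2, h2⟩ := copyG hω hq ι ((hs ι).union (hs π1))
  have h10 : ∀ x y, Commute (π1 x) (ι y) := fun x y => h1 x _ ⟨y, rfl⟩
  have h20 : ∀ x y, Commute (π2 x) (ι y) := fun x y => h2 x _ (Or.inl ⟨y, rfl⟩)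
  have h21 : ∀ x y, Commute (π2 x) (π1 y) := fun x y => h2 x _ (Or.inr ⟨y, rfl⟩)
  refine ⟨![ι, π1, π2], fun i j hij => ?_⟩
  fin_cases i <;> fin_cases j
  · exact absurd rfl hij
  · exact fun x y => (h10 y x).symm
  · exact fun x y => (h20 y x).symm
  · exact h10
  · exact absurd rfl hij
  · exact fun x y => (h21 y x).symm
  · exact h20
  · exact h21
  · exact absurd rfl hij

theorem main_env [SeparableSpace B] [Countable G] (hF : Folner G) (hs : Simp E)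
    (hI : ∃ a ∈ E.I, a ≠ 0) (hn : CPAP E) {Z D : Type*} [CStarAlgebra Z] [CStarAlgebra D]
    (hZ : IsJiangSu Z) (X : Tens E Z D) (Φ : B →⋆ₐ[ℂ] D) (hΦ : ∀ a ∈ E.I, ‖Φ a‖ = ‖a‖)
    (hΦI : Φ '' (E.I : Set B) = tensI E X.θ X.β) : X.Conj := by
  have hω : ((hyperfilter ℕ : Ultrafilter ℕ) : Filter ℕ) ≤ cofinite := hyperfilter_le_cofinite
  set ω := hyperfilter ℕ
  have := hZ.separableSpace
  have hZ1 : HasRW (centralSeq Z ω) :=
    hasRW_of_no_char (z_no_char hZ hω) (closed3_centralSeq ω hω)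
  obtain ⟨F, _, q, hq⟩ := exists_annQuot E ω (centralSeq B ω) (isClosed_centralSeq B ω) le_rfl
  obtain ⟨ζ⟩ := exists_zhom hω X Φ hΦ hΦI hq
  have hF1 : HasRW F := hZ1.map ζ
  obtain ⟨a, a', a'', ht⟩ := exists_tri hI
  have hS : SIU E ω a a' := siu hω hs hn (divA_of_hasRW hq hF1) ht
  obtain ⟨F', _, q', hq'⟩ := exists_annQuot E ω (cenG E ω) (isClosed_cenG E ω) cenG_le
  have h0 := no_char hω hF ht (copyA_of_hasRW hq hF1 ht) hS hq'
  have hF2 : HasRW F' := by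
    refine hasRW_of_no_char h0 ?_
    rintro D' _ ⟨hD, ⟨ι⟩⟩
    obtain ⟨γ, hγ⟩ := three_copies hω hq' ι
    exact reind_gen γ hγ
  refine conj_of_key X (key_unitary X hZ hq' fun p p' hp hp' hpp => ?_)
  obtain ⟨ι⟩ := hF2.dimDrop hp hp' hpp
  exact three_copies hω hq' ι

end Env

theorem main_thm {G A Z B H K : Type*} [Group G] [Countable G] (hG : IsAmenable G)
    [NonUnitalCStarAlgebra A] [SeparableSpace A] (hs : IsSimple A) (hn : IsNuclear A)
    [CStarAlgebra Z] (hZ : S.IsJiangSu Z) [NonUnitalCStarAlgebra B]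
    [NormedAddCommGroup H] [InnerProductSpace ℂ H] [CompleteSpace H]
    [NormedAddCommGroup K] [InnerProductSpace ℂ K] [CompleteSpace K]
    (π : A →⋆ₙₐ[ℂ] (H →L[ℂ] H)) (σ : Z →⋆ₐ[ℂ] (K →L[ℂ] K))
    (hπ : Function.Injective π) (hσ : Function.Injective σ)
    (j : B →⋆ₙₐ[ℂ]
      (UniformSpace.Completion (H ⊗[ℂ] K) →L[ℂ] UniformSpace.Completion (H ⊗[ℂ] K)))
    (t : A → Z → B)
    (hj : IsClosedSpan j t fun a z => (TensorProduct.mapL (π a) (σ z)).completion)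
    (hstab : Nonempty (A ≃⋆ₐ[ℂ] B))
    (α : G →* (A ≃⋆ₐ[ℂ] A)) (β : G →* (B ≃⋆ₐ[ℂ] B))
    (hβ : ∀ g a z, β g (t a z) = t (α g a) z) :
    CocycleConjugate α β := by
  have hZ' := isJiangSu_of_S hZ
  have := hZ'.nontrivial
  have := separable_unitization (A := A)
  obtain ⟨E, hE, hα⟩ := exists_uenv α
  obtain ⟨X, hX, h1, h2⟩ := exists_tens π σ hπ hσ j t hj α β hβ E hE hα
  obtain ⟨Ψ⟩ := hstab
  obtain ⟨Φ, hΦ⟩ := exists_unit_hom (Ψ : A →⋆ₙₐ[ℂ] B)
  refine cocycleConjugate_of α β E hE hα X hX h1 h2 (main_env (folner_of_amenable hG)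
    (simp_of_isSimple hs E hE) ?_ (cpap_of_isNuclear hn E hE) hZ' X Φ ?_ ?_)
  · have := hs.1
    obtain ⟨a, ha⟩ := exists_ne (0 : A)
    exact ⟨a, (hE _).2 ⟨a, rfl⟩, fun h => ha (Unitization.inr_injective (R := ℂ) (by simpa using h))⟩
  · intro b hb
    obtain ⟨a, rfl⟩ := (hE b).1 hb
    rw [hΦ, norm_coe_mult, Unitization.norm_inr]
    exact StarAlgEquiv.norm_map Ψ a
  · rw [hX]
    ext d
    constructor
    · rintro ⟨b, hb, rfl⟩
      obtain ⟨a, rfl⟩ := (hE b).1 hb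
      exact ⟨_, (hΦ a).symm⟩
    · rintro ⟨b, rfl⟩
      refine ⟨(Ψ.symm b : A), (hE _).2 ⟨_, rfl⟩, ?_⟩
      rw [hΦ]
      exact congrArg _ (Ψ.apply_symm_apply b)

end Vale.Agent.P095
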