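import Vale.Agent.P095.Tools

/-! P095: positive matrices over a C*-algebra. See skel/P095/BLUEPRINT.md. -/

namespace Vale.Agent.P095

open Filter Topology Vale.Agent.P101 Vale.Agent.P101.F
open scoped ComplexOrder

universe u v w

variable {B : Type u} [CStarAlgebra B] {G : Type v} [Group G] {E : Env B G}
variable {ω : Ultrafilter ℕ}

/-- polarisation -/
theorem mat_sa {A : Type*} [CStarAlgebra A] {ι : Type*} [Fintype ι] {M : ι → ι → A}
    (h : ∀ v : ι → A, IsSelfAdjoint (∑ i, ∑ j, star (v i) * M i j * v j)) (i j : ι) :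
    star (M i j) = M j i := by
  classical
  have key : ∀ x y : A, IsSelfAdjoint (star x * M i i * x + star x * M i j * y +
      (star y * M j i * x + star y * M j j * y)) := fun x y => by
    have := h (Pi.single i x + Pi.single j y)
    simpa [Pi.single_apply, add_mul, mul_add, Finset.sum_add_distrib, apply_ite star, ite_mul,
      mul_ite, add_assoc, add_left_comm] using this
  have h1 := (key 1 0).star_eq
  have h2 := (key 0 1).star_eq
  have h3 := (key 1 1).star_eq
  have h4 := (key 1 (Complex.I • 1)).star_eq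
  simp only [star_one, star_zero, one_mul, mul_one, mul_zero, zero_mul, add_zero, zero_add,
    star_add, star_smul, smul_mul_assoc, mul_smul_comm, Complex.star_def, Complex.conj_I,
    map_neg, neg_neg] at h1 h2 h3 h4
  rw [h1, h2] at h3 h4
  linear_combination (norm := skip) (2⁻¹ : ℂ) • h3 + (2⁻¹ * Complex.I : ℂ) • h4
  match_scalars <;> ring_nf <;> simp

theorem mat_abs {A : Type*} [CStarAlgebra A] {M : A} (h : star M = M) :
    ∃ P N T U : A, P = star T * T ∧ N = star U * U ∧ P - N = M ∧ P * N = 0 ∧ N * P = 0 := by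
  obtain ⟨T, hT⟩ := CStarAlgebra.nonneg_iff_eq_star_mul_self.1 (CFC.posPart_nonneg M)
  obtain ⟨U, hU⟩ := CStarAlgebra.nonneg_iff_eq_star_mul_self.1 (CFC.negPart_nonneg M)
  exact ⟨_, _, T, U, hT, hU, CFC.posPart_sub_negPart M h, CFC.posPart_mul_negPart M,
    CFC.negPart_mul_posPart M⟩

theorem mat_split {ι : Type} [Fintype ι] [DecidableEq ι] {M : CStarMatrix ι ι B}
    (h : star M = M) : ∃ P N T U : CStarMatrix ι ι B, P = star T * T ∧ N = star U * U ∧
      star P = P ∧ star N = N ∧ P - N = M ∧ P * N = 0 ∧ N * P = 0 := by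
  obtain ⟨P, N, T, U, hT, hU, h⟩ := mat_abs (A := CStarMatrix ι ι B) h
  exact ⟨P, N, T, U, hT, hU, by rw [hT, star_mul, star_star], by rw [hU, star_mul, star_star], h⟩

theorem mat_cube {ι : Type} [Fintype ι] [DecidableEq ι] {P T : CStarMatrix ι ι B}
    (hT : P = star T * T) (hP : star P = P) (i : ι) : 0 ≤ ∑ s, ∑ t, P i s * P s t * P t i ∧
      (∑ s, ∑ t, P i s * P s t * P t i = 0 → ∀ j, P j i = 0) := by
  have e1 : P * P * P = star (T * P) * (T * P) := by
    rw [star_mul, hP, mul_assoc P (star T), ← mul_assoc (star T), ← hT,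
      mul_assoc]
  have e2 : ∑ s, ∑ t, P i s * P s t * P t i = ∑ s, star ((T * P) s i) * (T * P) s i := by
    have : (P * P * P) i i = (star (T * P) * (T * P)) i i := by rw [e1]
    rw [Finset.sum_comm]
    simpa only [CStarMatrix.mul_apply (M := P * P), CStarMatrix.mul_apply (M := P),
      CStarMatrix.mul_apply (M := star (T * P)), CStarMatrix.star_apply, Finset.sum_mul] using this
  rw [e2]
  refine ⟨Finset.sum_nonneg fun s _ => star_mul_self_nonneg _, fun h j => ?_⟩
  have h1 : ∀ s, (T * P) s i = 0 := fun s => (CStarRing.star_mul_self_eq_zero_iff _).1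
    ((Finset.sum_eq_zero_iff_of_nonneg fun s _ => star_mul_self_nonneg _).1 h s
      (Finset.mem_univ _))
  have h2 : ∑ s, star (P s i) * P s i = 0 := by
    have : (star P * P) i i = (star T * (T * P)) i i := by
      rw [← mul_assoc, ← hT, hP]
    simpa only [CStarMatrix.mul_apply (M := star P), CStarMatrix.mul_apply (M := star T),
      CStarMatrix.star_apply, h1, mul_zero, Finset.sum_const_zero] using this
  exact (CStarRing.star_mul_self_eq_zero_iff _).1
    ((Finset.sum_eq_zero_iff_of_nonneg fun s _ => star_mul_self_nonneg _).1 h2 j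
      (Finset.mem_univ _))

theorem MPos.exists_factor {ι : Type} [Fintype ι] {M : ι → ι → B} (h : MPos M) :
    ∃ R : ι → ι → B, ∀ i j, M i j = ∑ s, star (R s i) * R s j := by
  classical
  obtain ⟨M', rfl⟩ : ∃ M' : CStarMatrix ι ι B, M = fun i j => M' i j := ⟨M, rfl⟩
  obtain ⟨P, N, T, U, hT, hU, hP, hN, h1, h2, h3⟩ := mat_split (M := M')
    (CStarMatrix.ext fun i j => mat_sa (fun v => (h v).isSelfAdjoint) j i)
  have e1 : N * M' * N = -(N * N * N) := by
    rw [← h1, mul_sub, h3, zero_sub, neg_mul]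
  have h0 : N = 0 := CStarMatrix.ext fun j i => by
    refine (mat_cube hU hN i).2 (le_antisymm ?_ (mat_cube hU hN i).1) j
    have h1 := h fun s => N s i
    have h2 : (N * M' * N) i i = (-(N * N * N)) i i := by rw [e1]
    simp only [CStarMatrix.mul_apply, CStarMatrix.neg_apply, Finset.sum_mul] at h2
    simp only [← CStarMatrix.star_apply, hN] at h1
    rw [Finset.sum_comm, h2, Finset.sum_comm] at h1
    exact neg_nonneg.1 h1
  refine ⟨T, fun i j => ?_⟩
  rw [← h1, h0, sub_zero, hT]
  rfl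

theorem mpos_of_factor {ι κ : Type*} [Fintype ι] [Fintype κ] (R : κ → ι → B) :
    MPos fun i j => ∑ s, star (R s i) * R s j := fun v => by
  have : ∑ i, ∑ j, star (v i) * (∑ s, star (R s i) * R s j) * v j =
      ∑ s, star (∑ i, R s i * v i) * ∑ j, R s j * v j := by
    simp only [star_sum, star_mul, Finset.sum_mul_sum]
    simp only [Finset.mul_sum, Finset.sum_mul, mul_assoc]
    rw [Finset.sum_comm (β := B) (f := fun s i => ∑ j, star (v i) * (star (R s i) * (R s j * v j)))]
    exact Finset.sum_congr rfl fun i _ => Finset.sum_comm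
  rw [this]
  exact Finset.sum_nonneg fun s _ => star_mul_self_nonneg _

theorem MPos.add {ι : Type*} [Fintype ι] {M N : ι → ι → B} (h : MPos M) (h' : MPos N) :
    MPos fun i j => M i j + N i j := fun v => by
  simp only [mul_add, add_mul, Finset.sum_add_distrib]
  exact add_nonneg (h v) (h' v)

theorem mpos_diag {ι : Type*} [Fintype ι] [DecidableEq ι] {x : B} (hx : 0 ≤ x) :
    MPos fun i j : ι => if i = j then x else 0 := fun v => by
  simp only [mul_ite, ite_mul, mul_zero, zero_mul, Finset.sum_ite_eq, Finset.mem_univ, if_true]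
  exact Finset.sum_nonneg fun i _ => star_left_conjugate_nonneg hx _

/-- it suffices to test with vectors from the ideal -/
theorem mpos_of_ideal {ι : Type*} [Fintype ι] {M : ι → ι → B} (hM : ∀ i j, M i j ∈ E.I)
    (h : ∀ v : ι → B, (∀ i, v i ∈ E.I) → 0 ≤ ∑ i, ∑ j, star (v i) * M i j * v j) :
    MPos M := fun v => by
  classical
  have hx : ∑ i, ∑ j, star (v i) * M i j * v j ∈ E.I := E.I.sum_mem fun i _ =>
    E.I.sum_mem fun j _ => E.mul_right (E.mul_left (hM i j) _) _
  generalize e : ∑ i, ∑ j, star (v i) * M i j * v j = x at hx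
  refine (isClosed_Ici (a := (0 : B))).closure_subset (Metric.mem_closure_iff.2 fun ε hε => ?_)
  obtain ⟨u, hu, h0, h1, h2⟩ := E.exists_unit {x} (by simpa using hx) (ε := ε / 3) (by positivity)
  obtain ⟨h3, h4⟩ := h2 x (Finset.mem_singleton_self x)
  refine ⟨u * x * u, ?_, ?_⟩
  · have := h (fun i => v i * u) fun i => E.mul_left hu _
    simp only [star_mul, h0.isSelfAdjoint.star_eq] at this
    rw [← e, Set.mem_Ici]
    simpa only [Finset.mul_sum, Finset.sum_mul, mul_assoc] using this
  · have e2 : u * x * u - x = u * (x * u - x) + (u * x - x) := by noncomm_ring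
    rw [dist_comm, dist_eq_norm, e2]
    have := norm_mul_le u (x * u - x)
    have := mul_le_of_le_one_left (norm_nonneg (x * u - x)) h1
    linarith [norm_add_le (u * (x * u - x)) (u * x - x)]

/-- a self-adjoint matrix over the ideal is a difference of positive ones -/
theorem exists_mpos_sub {ι : Type} [Fintype ι] {M : ι → ι → B} (hM : ∀ i j, M i j ∈ E.I)
    (hs : ∀ i j, star (M i j) = M j i) :
    ∃ P N : ι → ι → B, MPos P ∧ MPos N ∧ (∀ i j, P i j ∈ E.I ∧ N i j ∈ E.I) ∧
      (∀ i j, M i j = P i j - N i j) ∧ (∀ i j, star (P i j) = P j i) ∧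
      (∀ i j, ∑ s, P i s * N s j = 0) ∧
      ∀ i, 0 ≤ ∑ s, ∑ t, P i s * P s t * P t i ∧
        (∑ s, ∑ t, P i s * P s t * P t i = 0 → ∀ j, P j i = 0) := by
  classical
  obtain ⟨M', rfl⟩ : ∃ M' : CStarMatrix ι ι B, M = fun i j => M' i j := ⟨M, rfl⟩
  obtain ⟨P, N, T, U, hT, hU, hP, hN, h1, h2, h3⟩ := mat_split (M := M')
    (CStarMatrix.ext fun i j => hs j i)
  have e : M' * M' = star P * P + star N * N := by
    rw [← h1, hP, hN, mul_sub, sub_mul, sub_mul, h2, h3]
    abel
  have hI : ∀ (j : ι) (s : ι ⊕ ι), Sum.elim (fun s => P s j) (fun s => N s j) s ∈ E.I :=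
    fun j => E.mem_of_sum (by
      have : (M' * M') j j = (star P * P + star N * N) j j := by rw [e]
      rw [Fintype.sum_sum_type]
      exact (this ▸ E.I.sum_mem fun s _ => E.mul_left (hM s j) _ :
        (star P * P + star N * N) j j ∈ E.I))
  refine ⟨P, N, hT ▸ mpos_of_factor T, hU ▸ mpos_of_factor U, fun i j => ⟨hI j (.inl i), hI j (.inr i)⟩,
    fun i j => by rw [← h1]; rfl, fun i j => ?_, fun i j => ?_, mat_cube hT hP⟩
  · rw [← CStarMatrix.star_apply, hP]
  · rw [← CStarMatrix.mul_apply, h2, CStarMatrix.zero_apply]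

theorem mat_pair {e : B} {ε : ℝ} (he : ‖e‖ ≤ ε) (x y : B) :
    0 ≤ star x * e * y + star y * star e * x + (ε : ℂ) • (star x * x + star y * y) := by
  rcases ((norm_nonneg e).trans he).eq_or_lt with h | h
  · subst h
    simp [norm_le_zero_iff.1 he]
  have h1 := star_mul_self_nonneg (ε • x + e * y)
  have h2 : star y * (star e * e) * y ≤ star y * algebraMap ℝ B (ε ^ 2) * y :=
    star_left_conjugate_le_conjugate (CStarAlgebra.star_mul_le_algebraMap_norm_sq.trans
      (algebraMap_mono _ (by gcongr))) y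
  have h3 := smul_nonneg (inv_pos.2 h).le (add_nonneg h1 (sub_nonneg.2 h2))
  convert h3 using 1
  simp only [star_add, star_smul, star_mul, star_trivial, mul_add, add_mul, smul_mul_assoc,
    mul_smul_comm, Algebra.algebraMap_eq_smul_one, mul_one, mul_assoc, Complex.coe_smul]
  match_scalars <;> field_simp
  ring

theorem mpos_small {ι : Type*} [Fintype ι] [DecidableEq ι] {e : ι → ι → B} {ε : ℝ}
    (hs : ∀ i j, star (e i j) = e j i) (he : ∀ i j, ‖e i j‖ ≤ ε) :
    MPos fun i j => e i j + if i = j then ((Fintype.card ι * ε : ℝ) : ℂ) • (1 : B) else 0 := by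
  intro v
  have h1 : 0 ≤ ∑ i, ∑ j, (star (v i) * e i j * v j + star (v j) * star (e i j) * v i +
      (ε : ℂ) • (star (v i) * v i + star (v j) * v j)) :=
    Finset.sum_nonneg fun i _ => Finset.sum_nonneg fun j _ => mat_pair (he i j) _ _
  have h2 := smul_nonneg (by norm_num : (0 : ℝ) ≤ 2⁻¹) h1
  convert h2 using 1
  simp only [mul_add, add_mul, Finset.sum_add_distrib, mul_ite, ite_mul, mul_zero, zero_mul,
    Finset.sum_ite_eq, Finset.mem_univ, if_true, hs, ← Finset.smul_sum, Finset.sum_const,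
    Finset.card_univ, smul_mul_assoc, mul_smul_comm, mul_one]
  rw [Finset.sum_comm (f := fun i j => star (v j) * e j i * v i)]
  simp only [Complex.coe_smul]
  module

theorem row_cs {ι : Type*} [Fintype ι] (y w : ι → B) :
    star (∑ i, y i * w i) * (∑ i, y i * w i) ≤
      ‖∑ i, y i * star (y i)‖ • ∑ i, star (w i) * w i := by
  have := CStarModule.inner_mul_inner_swap_le (A := B)
    (x := (WithCStarModule.equiv B (ι → B)).symm y)
    (y := (WithCStarModule.equiv B (ι → B)).symm fun i => star (w i))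
  rw [CStarModule.norm_sq_eq B] at this
  simpa [WithCStarModule.pi_inner, WithCStarModule.inner_def, star_sum] using this

open scoped MatrixOrder in
theorem mat_psd {ι : Type*} [Fintype ι] {X : Matrix ι ι ℂ} (hX : X.PosSemidef) :
    ∃ Y : ι → ι → ℂ, ∀ i j, X i j = ∑ s, star (Y s i) * Y s j := by
  classical
  obtain ⟨Y, rfl⟩ := CStarAlgebra.nonneg_iff_eq_star_mul_self.1 hX.nonneg
  exact ⟨Y, fun i j => rfl⟩

theorem mpos_scalar {ι : Type*} [Fintype ι] {X : Matrix ι ι ℂ} (hX : X.PosSemidef) {x : B}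
    (hx : 0 ≤ x) : MPos fun i j => X i j • x := by
  obtain ⟨Y, hY⟩ := mat_psd hX
  obtain ⟨r, rfl⟩ := CStarAlgebra.nonneg_iff_eq_star_mul_self.1 hx
  convert mpos_of_factor fun s i => Y s i • r using 3 with i j
  simp only [hY, Finset.sum_smul, star_smul, smul_mul_smul_comm]

theorem kraus_mpos {k l : ℕ} (c : Fin l → Fin k → B) {ι : Type*} [Fintype ι]
    {X : Matrix (Fin k × ι) (Fin k × ι) ℂ} (hX : X.PosSemidef) :
    MPos fun r s => kraus c (Matrix.of fun p q => X (p, r) (q, s)) := by
  obtain ⟨Y, hY⟩ := mat_psd hX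
  convert mpos_of_factor fun (t : Fin l × (Fin k × ι)) r => ∑ p, Y t.2 (p, r) • c t.1 p
    using 3 with r s
  rw [Fintype.sum_prod_type, kraus]
  refine Finset.sum_congr rfl fun t _ => ?_
  simp only [Matrix.of_apply, hY, Finset.sum_smul, star_sum, star_smul, Finset.sum_mul_sum,
    smul_mul_smul_comm]
  rw [Finset.sum_comm (f := fun (u : Fin k × ι) p => ∑ q,
    (star (Y u (p, r)) * Y u (q, s)) • (star (c t p) * c t q))]
  exact Finset.sum_congr rfl fun i _ => Finset.sum_comm

theorem cp_mpos {k m : ℕ} (φ : B →ₗ[ℂ] Matrix (Fin k) (Fin k) ℂ)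
    (hφ : ∀ a : Fin k → B, (∀ i, a i ∈ E.I) → 0 ≤ ∑ i, ∑ j, φ (star (a i) * a j) i j)
    {N : Fin m → Fin m → B} (hN : MPos N) (hI : ∀ i j, N i j ∈ E.I) :
    (blockM fun i j => φ (N i j)).PosSemidef := by
  obtain ⟨R, hR⟩ := hN.exists_factor
  have hRI : ∀ i s, R s i ∈ E.I := fun i => E.mem_of_sum (hR i i ▸ hI i i)
  have key : ∀ v : Fin m × Fin k → ℂ,
      0 ≤ ∑ a, ∑ b, star (v a) * blockM (fun i j => φ (N i j)) a b * v b := fun v => by
    have h1 : 0 ≤ ∑ s, ∑ p, ∑ q, φ (star (∑ i, v (i, p) • R s i) * ∑ j, v (j, q) • R s j) p q :=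
      Finset.sum_nonneg fun s _ => hφ (fun p => ∑ i, v (i, p) • R s i) fun p =>
        E.I.sum_mem fun i _ => E.smul_mem (hRI i s) _
    convert h1 using 1
    simp only [blockM, Matrix.of_apply, hR, star_sum, star_smul, Finset.sum_mul_sum,
      smul_mul_smul_comm, map_sum, map_smul, Matrix.sum_apply, Matrix.smul_apply, smul_eq_mul]
    simp only [Finset.mul_sum, Finset.sum_mul]
    simp only [← Finset.sum_product', Finset.univ_product_univ]
    refine Fintype.sum_equiv ⟨fun x => (x.2.2, x.1.2, x.2.1.2, x.1.1, x.2.1.1),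
      fun y => ((y.2.2.2.1, y.2.1), (y.2.2.2.2, y.2.2.1), y.1), fun _ => rfl, fun _ => rfl⟩ _ _
      fun x => ?_
    simp only [Equiv.coe_fn_mk]
    ring
  refine .of_dotProduct_mulVec_nonneg
    (Matrix.ext fun a b => mat_sa (fun v => (key v).isSelfAdjoint) b a) fun v => ?_
  simpa only [dotProduct, Matrix.mulVec, Finset.mul_sum, mul_assoc, Pi.star_apply] using key v

end Vale.Agent.P095
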