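import Vale.Agent.P095.Basic
import Vale.Agent.P095.SDefs

/-! P095: automorphisms of multiplier algebras. See skel/P095/BLUEPRINT.md. -/

namespace Vale.Agent.P095

open Filter Topology Vale.Agent.P101 Vale.Agent.P101.F
open scoped ComplexOrder MultiplierAlgebra

universe u v w

variable {A : Type u} {B : Type w} [NonUnitalCStarAlgebra A] [NonUnitalCStarAlgebra B]
variable {G : Type v} [Group G]

lemma multA_cancel {x : B} (h : ∀ y, x * y = 0) : x = 0 := by
  have h1 := h (star x)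
  have h2 : ‖x‖ * ‖x‖ = 0 := by rw [← CStarRing.norm_self_mul_star, h1, norm_zero]
  exact norm_eq_zero.1 (mul_self_eq_zero.1 h2)

lemma multA_cancel' {x : B} (h : ∀ y, y * x = 0) : x = 0 := by
  have h1 := h (star x)
  have h2 : ‖x‖ * ‖x‖ = 0 := by rw [← CStarRing.norm_star_mul_self, h1, norm_zero]
  exact norm_eq_zero.1 (mul_self_eq_zero.1 h2)

lemma multA_ext {m m' : 𝓜(ℂ, B)} (h : ∀ b, m.fst b = m'.fst b) : m = m' := by
  refine DoubleCentralizer.ext _ _ _ _ (Prod.ext (ContinuousLinearMap.ext h)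
    (ContinuousLinearMap.ext fun x => ?_))
  refine sub_eq_zero.1 (multA_cancel fun y => ?_)
  rw [sub_mul, m.central, m'.central, h, sub_self]

lemma multA_fst_mul (m : 𝓜(ℂ, B)) (a b : B) : m.fst (a * b) = m.fst a * b := by
  refine sub_eq_zero.1 (multA_cancel' fun y => ?_)
  rw [mul_sub, ← m.central, ← mul_assoc, ← mul_assoc, ← m.central, sub_self]

lemma multA_coe_fst (a b : B) : (a : 𝓜(ℂ, B)).fst b = a * b := rfl

lemma multA_mul_fst (m m' : 𝓜(ℂ, B)) (b : B) : (m * m').fst b = m.fst (m'.fst b) := rfl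

/-- a star automorphism as a continuous linear map -/
noncomputable def multA_clm (σ : B ≃⋆ₐ[ℂ] B) : B →L[ℂ] B :=
  LinearMap.mkContinuous
    { toFun := σ
      map_add' := map_add σ
      map_smul' := map_smul σ } 1 fun b => by
      simp [StarAlgEquiv.norm_map σ b]

lemma multA_clm_apply (σ : B ≃⋆ₐ[ℂ] B) (b : B) : multA_clm σ b = σ b := rfl

/-- conjugation of a multiplier by an automorphism -/
noncomputable def multA_conj (σ : B ≃⋆ₐ[ℂ] B) (m : 𝓜(ℂ, B)) : 𝓜(ℂ, B) where
  fst := multA_clm σ ∘L m.fst ∘L multA_clm σ.symm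
  snd := multA_clm σ ∘L m.snd ∘L multA_clm σ.symm
  central x y := by
    show σ (m.snd (σ.symm x)) * y = x * σ (m.fst (σ.symm y))
    apply EquivLike.injective σ.symm
    rw [map_mul, map_mul, σ.symm_apply_apply, σ.symm_apply_apply, m.central]

lemma multA_conj_fst (σ : B ≃⋆ₐ[ℂ] B) (m : 𝓜(ℂ, B)) (b : B) :
    (multA_conj σ m).fst b = σ (m.fst (σ.symm b)) := rfl

lemma multA_conj_snd (σ : B ≃⋆ₐ[ℂ] B) (m : 𝓜(ℂ, B)) (b : B) :
    (multA_conj σ m).snd b = σ (m.snd (σ.symm b)) := rfl

/-- the extension of an automorphism to the multiplier algebra -/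
noncomputable def multA_equiv (σ : B ≃⋆ₐ[ℂ] B) : 𝓜(ℂ, B) ≃⋆ₐ[ℂ] 𝓜(ℂ, B) where
  toFun := multA_conj σ
  invFun := multA_conj σ.symm
  left_inv m := multA_ext fun b => by
    simp only [multA_conj_fst, StarAlgEquiv.symm_symm, σ.symm_apply_apply]
  right_inv m := multA_ext fun b => by
    simp only [multA_conj_fst, StarAlgEquiv.symm_symm, σ.apply_symm_apply]
  map_mul' m m' := multA_ext fun b => by
    simp only [multA_conj_fst, multA_mul_fst, σ.symm_apply_apply]
  map_add' m m' := multA_ext fun b => by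
    simp only [multA_conj_fst, DoubleCentralizer.add_fst, add_apply, map_add]
  map_star' m := multA_ext fun b => by
    simp only [multA_conj_fst, DoubleCentralizer.star_fst, multA_conj_snd, map_star]
  map_smul' c m := multA_ext fun b => by
    simp only [multA_conj_fst, DoubleCentralizer.smul_fst, smul_apply, map_smul]

lemma multA_equiv_fst (σ : B ≃⋆ₐ[ℂ] B) (m : 𝓜(ℂ, B)) (b : B) :
    (multA_equiv σ m).fst b = σ (m.fst (σ.symm b)) := rfl

theorem exists_multAct (β : G →* (B ≃⋆ₐ[ℂ] B)) : ∃ δ : G →* (𝓜(ℂ, B) ≃⋆ₐ[ℂ] 𝓜(ℂ, B)),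
    (∀ g (m : 𝓜(ℂ, B)) b, (δ g m).fst b = β g (m.fst ((β g).symm b))) ∧
    ∀ g (b : B), δ g (b : 𝓜(ℂ, B)) = (β g b : B) := by
  have hs : ∀ g b, (β g).symm b = β g⁻¹ b := fun g b => by
    apply EquivLike.injective (β g)
    rw [(β g).apply_symm_apply, ← StarAlgEquiv.mul_apply, ← map_mul, mul_inv_cancel, map_one]
    rfl
  refine ⟨MonoidHom.mk' (fun g => multA_equiv (β g)) fun g h => ?_, fun g m b => rfl,
    fun g b => multA_ext fun c => ?_⟩
  · refine StarAlgEquiv.ext fun m => multA_ext fun b => ?_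
    rw [StarAlgEquiv.mul_apply, multA_equiv_fst, multA_equiv_fst, multA_equiv_fst, hs (g * h),
      mul_inv_rev, map_mul, map_mul, StarAlgEquiv.mul_apply, StarAlgEquiv.mul_apply, hs, hs]
  · show β g (b * (β g).symm c) = β g b * c
    rw [map_mul, (β g).apply_symm_apply]

theorem norm_coe_mult (b : B) : ‖(b : 𝓜(ℂ, B))‖ = ‖b‖ := by
  rw [← DoubleCentralizer.norm_fst, DoubleCentralizer.coe_fst]
  exact ContinuousLinearMap.opNorm_mul_apply ℂ B b

theorem mult_mul_coe (m : 𝓜(ℂ, B)) (b : B) : m * (b : 𝓜(ℂ, B)) = (m.fst b : B) :=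
  multA_ext fun c => multA_fst_mul m b c

theorem coe_mul_mult (m : 𝓜(ℂ, B)) (b : B) : (b : 𝓜(ℂ, B)) * m = (m.snd b : B) :=
  multA_ext fun c => (m.central b c).symm

theorem mult_ext {m m' : 𝓜(ℂ, B)} (h : ∀ b, m.fst b = m'.fst b) : m = m' := multA_ext h

/-- operators that normalise the range of a faithful representation are multipliers -/
theorem exists_multHom {L : Type*} {Z : Type*} [CStarAlgebra L] [CStarAlgebra Z]
    (j : B →⋆ₙₐ[ℂ] L) (hj : Function.Injective j) (ρ : Z →⋆ₐ[ℂ] L)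
    (h : ∀ z b, ∃ b', j b' = ρ z * j b) :
    ∃ β : Z →⋆ₐ[ℂ] 𝓜(ℂ, B), ∀ z b, j ((β z).fst b) = ρ z * j b := by
  choose l hl using h
  have hn : ∀ b, ‖j b‖ = ‖b‖ := NonUnitalStarAlgHom.norm_map j hj
  have hb : ∀ z b, ‖l z b‖ ≤ ‖ρ z‖ * ‖b‖ := fun z b => by
    rw [← hn, hl, ← hn b]
    exact norm_mul_le _ _
  have hr : ∀ z b, j (star (l (star z) (star b))) = j b * ρ z := fun z b => by
    rw [map_star, hl, star_mul, map_star, map_star, star_star, star_star]
  let L : Z → B →L[ℂ] B := fun z => LinearMap.mkContinuous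
    { toFun := l z
      map_add' := fun a b => hj (by rw [map_add, hl, hl, hl, map_add, mul_add])
      map_smul' := fun c a => hj (by
        rw [RingHom.id_apply, map_smul, hl, hl, map_smul, mul_smul_comm]) } ‖ρ z‖ (hb z)
  let R : Z → B →L[ℂ] B := fun z => LinearMap.mkContinuous
    { toFun := fun b => star (l (star z) (star b))
      map_add' := fun a b => hj (by rw [map_add, hr, hr, hr, map_add, add_mul])
      map_smul' := fun c a => hj (by
        rw [RingHom.id_apply, map_smul, hr, hr, map_smul, smul_mul_assoc]) } ‖ρ (star z)‖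
    fun b => by
      show ‖star (l (star z) (star b))‖ ≤ _
      rw [norm_star, ← norm_star b]
      exact hb _ _
  let M : Z → 𝓜(ℂ, B) := fun z =>
    { fst := L z
      snd := R z
      central := fun x y => hj (by
        show j (star (l (star z) (star x)) * y) = j (x * l z y)
        rw [map_mul, map_mul, hr, hl, mul_assoc]) }
  have hM : ∀ z b, j ((M z).fst b) = ρ z * j b := hl
  have hM' : ∀ z b, j ((M z).snd b) = j b * ρ z := hr
  refine ⟨{ toFun := M
            map_one' := multA_ext fun b => hj ?_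
            map_mul' := fun z w => multA_ext fun b => hj ?_
            map_zero' := multA_ext fun b => hj ?_
            map_add' := fun z w => multA_ext fun b => hj ?_
            commutes' := fun c => multA_ext fun b => hj ?_
            map_star' := fun z => multA_ext fun b => hj ?_ }, hM⟩
  · rw [hM, map_one, one_mul]
    rfl
  · rw [multA_mul_fst, hM, hM, hM, map_mul, mul_assoc]
  · rw [hM, map_zero, zero_mul, DoubleCentralizer.zero_fst, zero_apply,
      map_zero]
  · rw [hM, DoubleCentralizer.add_fst, add_apply, map_add, map_add, hM, hM,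
      add_mul]
  · rw [hM, AlgHomClass.commutes, DoubleCentralizer.algebraMap_fst, ← Algebra.smul_def,
      Algebra.algebraMap_eq_smul_one, smul_apply,
      one_apply_eq_self, map_smul]
  · rw [hM, DoubleCentralizer.star_fst, map_star j, hM', star_mul, map_star, map_star, star_star]

theorem exists_unit_hom (f : A →⋆ₙₐ[ℂ] B) : ∃ Φ : Unitization ℂ A →⋆ₐ[ℂ] 𝓜(ℂ, B),
    ∀ a : A, Φ (a : Unitization ℂ A) = (f a : B) :=
  ⟨Unitization.starLift ((DoubleCentralizer.coeHom (𝕜 := ℂ) (A := B)).comp f), fun a => by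
    have := Unitization.starLift_symm_apply_apply
      (Unitization.starLift ((DoubleCentralizer.coeHom (𝕜 := ℂ) (A := B)).comp f)) a
    rw [Equiv.symm_apply_apply] at this
    exact this.symm⟩

theorem cocycleConjugate_of {Z : Type*} [CStarAlgebra Z] (α : G →* (A ≃⋆ₐ[ℂ] A))
    (β : G →* (B ≃⋆ₐ[ℂ] B)) (E : Env (Unitization ℂ A) G)
    (hE : ∀ b, b ∈ E.I ↔ ∃ a : A, (a : Unitization ℂ A) = b)
    (hα : ∀ g (a : A), E.α g (a : Unitization ℂ A) = (α g a : A)) (X : Tens E Z 𝓜(ℂ, B))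
    (hI : tensI E X.θ X.β = Set.range fun b : B => (b : 𝓜(ℂ, B)))
    (h1 : ∀ g (m : 𝓜(ℂ, B)) b, (X.δ g m).fst b = β g (m.fst ((β g).symm b)))
    (h2 : ∀ g (b : B), X.δ g (b : 𝓜(ℂ, B)) = (β g b : B)) (h : X.Conj) :
    CocycleConjugate α β := by
  obtain ⟨Φ, u, hn, hs, hu, hc, he⟩ := h
  have hcoe : Function.Injective fun b : B => (b : 𝓜(ℂ, B)) := fun a b hab => by
    have h0 : DoubleCentralizer.coeHom (𝕜 := ℂ) (a - b) = 0 := by
      rw [map_sub]
      exact sub_eq_zero.2 hab
    have h1 : ‖a - b‖ = 0 := by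
      rw [← norm_coe_mult]
      exact norm_eq_zero.2 h0
    exact sub_eq_zero.1 (norm_eq_zero.1 h1)
  have hex : ∀ a : A, ∃ b : B, (b : 𝓜(ℂ, B)) = Φ (a : Unitization ℂ A) := fun a => by
    have : Φ (a : Unitization ℂ A) ∈ tensI E X.θ X.β := by
      rw [← hs]
      exact ⟨a, (hE _).2 ⟨a, rfl⟩, rfl⟩
    rw [hI] at this
    exact this
  choose f hf using hex
  have hf' : ∀ a, DoubleCentralizer.coeHom (𝕜 := ℂ) (f a) = Φ (a : Unitization ℂ A) := hf
  have hcoe' : Function.Injective (DoubleCentralizer.coeHom (𝕜 := ℂ) (A := B)) := hcoe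
  let F : A →⋆ₙₐ[ℂ] B :=
    { toFun := f
      map_smul' := fun c a => hcoe' (by
        rw [MonoidHom.id_apply, map_smul, hf', hf', Unitization.inr_smul, map_smul])
      map_zero' := hcoe' (by rw [hf', Unitization.inr_zero, map_zero, map_zero])
      map_add' := fun a b => hcoe' (by rw [map_add, hf', hf', hf', Unitization.inr_add, map_add])
      map_mul' := fun a b => hcoe' (by rw [map_mul, hf', hf', hf', Unitization.inr_mul, map_mul])
      map_star' := fun a => hcoe' (by rw [map_star, hf', hf', Unitization.inr_star, map_star]) }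
  have hF : ∀ a, ((F a : B) : 𝓜(ℂ, B)) = Φ (a : Unitization ℂ A) := hf
  have hbij : Function.Bijective F := by
    refine ⟨fun a b hab => ?_, fun b => ?_⟩
    · have h0 : F (a - b) = 0 := by rw [map_sub, hab, sub_self]
      have h1 : ‖a - b‖ = 0 := by
        rw [← Unitization.norm_inr (𝕜 := ℂ), ← hn _ ((hE _).2 ⟨_, rfl⟩), ← hF, norm_coe_mult, h0,
          norm_zero]
      exact sub_eq_zero.1 (norm_eq_zero.1 h1)
    · have : (b : 𝓜(ℂ, B)) ∈ Φ '' (E.I : Set (Unitization ℂ A)) := by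
        rw [hs, hI]
        exact ⟨b, rfl⟩
      obtain ⟨x, hx, hxb⟩ := this
      obtain ⟨a, rfl⟩ := (hE x).1 hx
      exact ⟨a, hcoe (by simpa only [hF] using hxb)⟩
  refine ⟨StarAlgEquiv.ofBijective F hbij, u, fun g => Unitary.mem_iff.1 (hu g),
    fun g k b => ?_, fun g a => ?_⟩
  · rw [hc, multA_mul_fst, h1]
  · rw [StarAlgEquiv.ofBijective_apply, StarAlgEquiv.ofBijective_apply, hF, ← hα, he, ← h2, hF]

end Vale.Agent.P095
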