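import Vale.Agent.P095.Kills
import Vale.Agent.P095.Kappa
import Vale.Agent.P095.InvPair

/-! P095: the invariant central sequence algebra has no character. See skel/P095/BLUEPRINT.md. -/

namespace Vale.Agent.P095

open Filter Topology Vale.Agent.P101 Vale.Agent.P101.F
open scoped ComplexOrder

universe u v w

variable {B : Type u} [CStarAlgebra B] {G : Type v} [Group G] {E : Env B G}
variable {ω : Ultrafilter ℕ}

/-- An element that is invariant modulo the trace kernel has an invariant lift. -/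
theorem noChar_lift [TopologicalSpace.SeparableSpace B] [Countable G]
    (hω : (ω : Filter ℕ) ≤ cofinite) (hF : Folner G) {a a' a'' : B} (ht : Tri E a a' a'')
    {Q : Type u} [CStarAlgebra Q] (q : centralSeq B ω →⋆ₐ[ℂ] Q) (α : G →* (Q ≃⋆ₐ[ℂ] Q))
    (hq : Function.Surjective q) (hk : ∀ x : centralSeq B ω, q x = 0 ↔ IsNeg E ω a a' x)
    (hα : ∀ g (x y : centralSeq B ω), (y : Ultrapower B ω) = uact E ω g x → q y = α g (q x))
    {h : Q} (h1 : ‖h‖ ≤ 1) (hi : ∀ g, α g h = h) :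
    ∃ x : cenG E ω, q (StarSubalgebra.inclusion cenG_le x) = h := by
  classical
  obtain ⟨H, hH, hn⟩ := exists_lift_norm q hq h
  obtain ⟨x, hx, hN, hP⟩ := satC (E := E) hω (V := Unit)
    (fun (g : G) x => uact E ω g (x ()) - x ())
    (fun (_ : G) x => star (x () - (H : Ultrapower B ω)) * (x () - H))
    (fun g => trSet (E.α g a) (E.α g a')) (fun _ => 0)
    (fun g => ((Dfn.var ()).act g).sub (Dfn.var ()))
    (fun _ => ((Dfn.var ()).sub (Dfn.const _)).star.mul ((Dfn.var ()).sub (Dfn.const _)))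
    (fun g r hr => (ht.act g).trSet_norm hr) fun t s ε hε => by
      obtain ⟨F, hne, hF⟩ := folner_avg hF t hε
      have hc : (F.card : ℂ) ≠ 0 := Nat.cast_ne_zero.2 hne.card_pos.ne'
      have hb : ∀ g, ‖uact E ω g H‖ ≤ 1 := fun g => (norm_uact g _).trans_le (hn.trans h1)
      obtain ⟨y, hy⟩ : ∃ y : centralSeq B ω,
        y = (F.card : ℂ)⁻¹ • ∑ g ∈ F, ⟨uact E ω g H, uact_mem H.2 g⟩ := ⟨_, rfl⟩
      have hy' : (y : Ultrapower B ω) = (F.card : ℂ)⁻¹ • ∑ g ∈ F, uact E ω g H := by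
        rw [hy, SetLike.val_smul, AddSubmonoidClass.coe_finsetSum]
      have hqy : q (y - H) = 0 := by
        rw [map_sub, hy, map_smul, map_sum, Finset.sum_congr rfl fun g _ =>
          (hα g H ⟨uact E ω g H, uact_mem H.2 g⟩ rfl).trans (by rw [hH, hi]), Finset.sum_const,
          ← Nat.cast_smul_eq_nsmul ℂ, smul_smul, inv_mul_cancel₀ hc, one_smul, hH, sub_self]
      refine ⟨fun _ => y, fun _ => ⟨y.2, ?_⟩, fun g hg => ?_, fun g _ ρ hρ => ?_⟩
      · rw [hy', norm_smul, norm_inv, Complex.norm_natCast]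
        refine inv_mul_le_one_of_le₀ ((norm_sum_le _ _).trans ?_) (Nat.cast_nonneg _)
        simpa using Finset.sum_le_card_nsmul F _ 1 fun g _ => hb g
      · have := hF _ (fun g => uact E ω g H) hb g hg
        simpa only [hy', map_smul, map_sum, uact_mul] using this
      · have : ρ (star ((y : Ultrapower B ω) - H) * (y - H)) = 0 := (hk _).1 hqy g ρ hρ
        rw [this, Complex.zero_re, zero_add]
        exact hε.le
  have hneg : IsNeg E ω a a' ((⟨x (), (hx ()).1⟩ - H : centralSeq B ω) : Ultrapower B ω) :=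
    fun g ρ hρ => by
      have h2 := Complex.nonneg_iff.1 ((ht.act g).lim_pos hρ (x () - H))
      exact Complex.ext (le_antisymm (hP g ρ hρ) h2.1) h2.2.symm
  refine ⟨⟨x (), mem_cenG.2 ⟨(hx ()).1, fun g => sub_eq_zero.1 (hN g)⟩⟩, ?_⟩
  have h3 := (hk _).2 hneg
  rw [map_sub, sub_eq_zero, hH] at h3
  exact h3

theorem no_char [TopologicalSpace.SeparableSpace B] [Countable G]
    (hω : (ω : Filter ℕ) ≤ cofinite) (hF : Folner G) {a a' a'' : B} (ht : Tri E a a' a'')
    (hc : CopyA E a a') (hS : SIU E ω a a') {F : Type u} [CStarAlgebra F]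
    {q : cenG E ω →⋆ₐ[ℂ] F} (hq : AnnQuot E ω q) : IsEmpty (F →⋆ₐ[ℂ] ℂ) := by
  refine ⟨fun χ => ?_⟩
  obtain ⟨Q, _, p, α, T, hp, hk, hα, hT⟩ := exists_kappa hω ht hc
  obtain ⟨h, k, hhk, hi⟩ := hT.exists_invariant_pair hF
  have hn : ∀ {b : Q}, Symm b → ‖b‖ ≤ 1 := fun {b} hb => by
    have h1 : b ∈ unitary Q := ⟨by rw [hb.sa, hb.sq], by rw [hb.sa, hb.sq]⟩
    simpa using (CStarRing.norm_mem_unitary_mul 1 h1).trans_le
      ((CStarAlgebra.norm_le_one_iff_of_nonneg (1 : Q) zero_le_one).2 le_rfl)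
  obtain ⟨x, hx⟩ := noChar_lift hω hF ht p α hp hk hα (hn hhk.fst) fun g => (hi g).1
  obtain ⟨y, hy⟩ := noChar_lift hω hF ht p α hp hk hα (hn hhk.snd) fun g => (hi g).2
  obtain ⟨π, hπ⟩ : ∃ π : cenG E ω →⋆ₐ[ℂ] Q, ∀ w, π w = p (StarSubalgebra.inclusion cenG_le w) :=
    ⟨p.comp (StarSubalgebra.inclusion cenG_le), fun _ => rfl⟩
  have key : ∀ w, π w = 0 → (χ.comp q) w = 0 := fun w hw => by
    have hc : (0 : ℝ) < ‖w‖ * ‖w‖ + 1 := by positivity
    have h1 := char_kills hω hF hS (χ.comp q)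
      (fun z hz => by rw [StarAlgHom.comp_apply, (hq.ker z).2 hz, map_zero])
      ((((‖w‖ * ‖w‖ + 1)⁻¹ : ℝ) : ℂ) • (star w * w))
      (by rw [star_smul, star_mul, star_star, Complex.star_def, Complex.conj_ofReal]) ?_ ?_
    · rw [map_smul, map_mul, map_star, smul_eq_mul, mul_eq_zero, mul_eq_zero, star_eq_zero,
        or_self, Complex.ofReal_eq_zero] at h1
      exact h1.resolve_left (inv_pos.2 hc).ne'
    · change ‖(((‖w‖ * ‖w‖ + 1)⁻¹ : ℝ) : ℂ) • (star w * w)‖ ≤ 1
      rw [norm_smul, CStarRing.norm_star_mul_self, Complex.norm_real,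
        Real.norm_of_nonneg (inv_pos.2 hc).le]
      exact inv_mul_le_one_of_le₀ (by linarith) hc.le
    · refine (hk (StarSubalgebra.inclusion (cenG_le (E := E))
        ((((‖w‖ * ‖w‖ + 1)⁻¹ : ℝ) : ℂ) • (star w * w)))).1 ?_
      rw [← hπ, map_smul, map_mul, hw, mul_zero, smul_zero]
  rw [← hπ] at hx hy
  have e1 := key (x * x - 1) (by rw [map_sub, map_mul, map_one, hx, hhk.fst.sq, sub_self])
  have e2 := key (y * y - 1) (by rw [map_sub, map_mul, map_one, hy, hhk.snd.sq, sub_self])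
  have e3 := key (x * y + y * x)
    (by rw [map_add, map_mul, map_mul, hx, hy, hhk.anti, neg_add_cancel])
  rw [map_sub, map_mul, map_one] at e1 e2
  rw [map_add, map_mul, map_mul] at e3
  generalize (χ.comp q) x = s at *
  generalize (χ.comp q) y = t at *
  have e4 : (4 : ℂ) = 0 := by
    linear_combination (2 * s * t) * e3 - (4 * t * t) * e1 - 4 * e2
  norm_num at e4

end Vale.Agent.P095
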