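import Vale.Agent.P095.NrmA

/-! P095: 2-norms, star polynomials, saturation and layers. See skel/P095/BLUEPRINT.md. -/

namespace Vale.Agent.P095

open Filter Topology Vale.Agent.P101 Vale.Agent.P101.F
open scoped ComplexOrder

universe u v w

variable {Q : Type u} [CStarAlgebra Q] {G : Type v} [Group G]
variable {α : G →* (Q ≃⋆ₐ[ℂ] Q)} {T : Set (Q →L[ℂ] ℂ)}

section Dfn

variable {H : Type v} {β : H → Q → Q} {V : Type} {P P' : (V → Q) → Q}

theorem Dfn.smul (c : ℂ) (h : Dfn β P) : Dfn β fun x => c • P x := by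
  simpa only [smul_mul_assoc, one_mul] using (Dfn.const (c • (1 : Q))).mul h

theorem Dfn.neg (h : Dfn β P) : Dfn β fun x => -P x := by
  simpa only [neg_mul, one_mul] using (Dfn.const (-1 : Q)).mul h

theorem Dfn.sub (h : Dfn β P) (h' : Dfn β P') : Dfn β fun x => P x - P' x := by
  simpa only [sub_eq_add_neg] using h.add h'.neg

theorem Dfn.pow (h : Dfn β P) (n : ℕ) : Dfn β fun x => P x ^ n := by
  induction n with
  | zero => simpa only [pow_zero] using Dfn.const (1 : Q)
  | succ n ih => simpa only [pow_succ] using ih.mul h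

theorem Dfn.sum {ι : Type*} (s : Finset ι) {R : ι → (V → Q) → Q} (h : ∀ i ∈ s, Dfn β (R i)) :
    Dfn β fun x => ∑ i ∈ s, R i x := by
  classical
  induction s using Finset.induction_on with
  | empty => simpa only [Finset.sum_empty] using Dfn.const (0 : Q)
  | insert a s ha ih =>
    simpa only [Finset.sum_insert ha] using (h a (Finset.mem_insert_self _ _)).add
      (ih fun i hi => h i (Finset.mem_insert_of_mem hi))

theorem Dfn.listProd {ι : Type*} (l : List ι) {R : ι → (V → Q) → Q}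
    (h : ∀ i ∈ l, Dfn β (R i)) : Dfn β fun x => (l.map fun i => R i x).prod := by
  induction l with
  | nil => simpa only [List.map_nil, List.prod_nil] using Dfn.const (1 : Q)
  | cons a l ih =>
    simpa only [List.map_cons, List.prod_cons] using (h a List.mem_cons_self).mul
      (ih fun i hi => h i (List.mem_cons_of_mem _ hi))

theorem Dfn.word {L : ℕ} (w : List (G × Fin L × Bool)) :
    Dfn (fun g => α g) fun Z : Fin L → Q => word α Z w := by
  refine Dfn.listProd w (R := fun p Z => if p.2.2 then α p.1 (Z p.2.1) else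
    Star.star (α p.1 (Z p.2.1))) fun p _ => ?_
  have h1 : Dfn (fun g => α g) fun Z : Fin L → Q => α p.1 (Z p.2.1) := (Dfn.var p.2.1).act p.1
  by_cases h : p.2.2 = true
  · simpa only [if_pos h] using h1
  · simpa only [if_neg h] using h1.star

end Dfn

theorem TSat.nrm_act (hT : TSat α T) {τ : Q →L[ℂ] ℂ} (hτ : τ ∈ T) (g : G) :
    ∃ τ' ∈ T, ∀ x, nrm τ (α g x) = nrm τ' x := by
  obtain ⟨τ', h1, h2⟩ := hT.inv τ hτ g
  refine ⟨τ', h1, fun x => ?_⟩
  rw [nrm, nrm, h2, map_mul (α g), map_star (α g)]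

theorem TSat.eq_of_nrm (hT : TSat α T) {x y : Q}
    (h : ∀ ε : ℝ, 0 < ε → ∀ τ ∈ T, nrm τ (x - y) ≤ ε) : x = y := by
  refine sub_eq_zero.1 (hT.sep _ fun τ hτ => ?_)
  have h1 : nrm τ (x - y) = 0 :=
    le_antisymm (le_of_forall_pos_le_add fun ε hε => by simpa using h ε hε τ hτ) (nrm_nonneg _ _)
  rw [← (hT.tr τ hτ).nrm_sq', h1]
  simp

theorem Nrm_sat (hT : TSat α T) {V : Type} [Countable V] {ι : Type*} [Countable ι]
    (R : ι → (V → Q) → Q) (hR : ∀ i, Dfn (fun g => α g) (R i))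
    (h : ∀ (s : Finset ι) (ε : ℝ), 0 < ε → ∃ x : V → Q, (∀ i, ‖x i‖ ≤ 1) ∧
      ∀ i ∈ s, ∀ τ ∈ T, (τ (R i x)).re ≤ ε) :
    ∃ x : V → Q, (∀ i, ‖x i‖ ≤ 1) ∧ ∀ i, ∀ τ ∈ T, (τ (R i x)).re ≤ 0 := by
  classical
  obtain ⟨e, he⟩ := exists_surjective_nat (Option ι)
  obtain ⟨x, h1, h2⟩ := hT.sat V (fun k => (e k).elim (fun _ => 0) R) (fun _ => 0)
    (fun k => by
      cases e k with
      | none => exact Dfn.const 0
      | some i => exact hR i) fun m ε hε => by
      obtain ⟨x, h1, h2⟩ := h (Finset.eraseNone ((Finset.range m).image e)) ε hε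
      refine ⟨x, h1, fun k hk τ hτ => ?_⟩
      have h3 : e k ∈ (Finset.range m).image e := Finset.mem_image_of_mem _ (Finset.mem_range.2 hk)
      rw [zero_add]
      generalize e k = o at h3
      cases o with
      | none => simpa using hε.le
      | some i => exact h2 i (Finset.mem_eraseNone.2 h3) τ hτ
  refine ⟨x, h1, fun i τ hτ => ?_⟩
  obtain ⟨k, hk⟩ := he (some i)
  have h3 := h2 k τ hτ
  rw [hk] at h3
  exact h3

theorem TSat.sat2 (hT : TSat α T) {V : Type} [Countable V] {ι κ : Type*} [Countable ι]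
    [Countable κ] (N : ι → (V → Q) → Q) (P : κ → (V → Q) → Q)
    (hN : ∀ i, Dfn (fun g => α g) (N i)) (hP : ∀ j, Dfn (fun g => α g) (P j))
    (h : ∀ (s : Finset ι) (t : Finset κ) (ε : ℝ), 0 < ε → ∃ x : V → Q, (∀ i, ‖x i‖ ≤ 1) ∧
      (∀ i ∈ s, ∀ τ ∈ T, nrm τ (N i x) ≤ ε) ∧ ∀ j ∈ t, ∀ τ ∈ T, ‖τ (P j x)‖ ≤ ε) :
    ∃ x : V → Q, (∀ i, ‖x i‖ ≤ 1) ∧ (∀ i, N i x = 0) ∧ ∀ j, ∀ τ ∈ T, τ (P j x) = 0 := by
  classical
  obtain ⟨c, hc⟩ : ∃ c : Fin 4 → ℂ, c = ![1, -1, Complex.I, -Complex.I] := ⟨_, rfl⟩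
  have c1 : ∀ r, ‖c r‖ = 1 := fun r => by
    rw [hc]
    fin_cases r <;> simp
  obtain ⟨x, h1, h2⟩ := Nrm_sat hT (ι := ι ⊕ κ × Fin 4)
    (Sum.elim (fun i x => star (N i x) * N i x) fun j x => c j.2 • P j.1 x)
    (fun i => by
      cases i with
      | inl i => exact (hN i).star.mul (hN i)
      | inr j => exact (hP j.1).smul _) fun s ε hε => by
      obtain ⟨x, h1, h2, h3⟩ := h s.toLeft (s.toRight.image Prod.fst) (min ε 1) (by positivity)
      refine ⟨x, h1, fun i hi τ hτ => ?_⟩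
      cases i with
      | inl i =>
        have h4 := h2 i (Finset.mem_toLeft.2 hi) τ hτ
        have h5 := nrm_nonneg τ (N i x)
        change (τ (star (N i x) * N i x)).re ≤ ε
        rw [← (hT.tr τ hτ).nrm_sq]
        nlinarith [min_le_left ε 1, min_le_right ε 1]
      | inr j =>
        have h4 := h3 j.1 (Finset.mem_image_of_mem _ (Finset.mem_toRight.2 hi)) τ hτ
        change (τ (c j.2 • P j.1 x)).re ≤ ε
        refine (Complex.re_le_norm _).trans ?_
        rw [map_smul, norm_smul, c1, one_mul]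
        exact h4.trans (min_le_left _ _)
  refine ⟨x, h1, fun i => hT.sep _ fun τ hτ => ?_, fun j τ hτ => ?_⟩
  · have h3 : (τ (star (N i x) * N i x)).re ≤ 0 := h2 (Sum.inl i) τ hτ
    rw [← (hT.tr τ hτ).nrm_sq] at h3
    rw [← (hT.tr τ hτ).nrm_sq', le_antisymm h3 (sq_nonneg _)]
    simp
  · have h3 : ∀ r, (c r * τ (P j x)).re ≤ 0 := fun r => by
      have h4 : (τ (c r • P j x)).re ≤ 0 := h2 (Sum.inr (j, r)) τ hτ
      rwa [map_smul, smul_eq_mul] at h4
    have a0 := h3 0
    have a1 := h3 1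
    have a2 := h3 2
    have a3 := h3 3
    simp [hc] at a0 a1 a2 a3
    exact Complex.ext (le_antisymm a0 a1) (le_antisymm a3 a2)

theorem Nrm_lay_countable [Countable G] (h k : Q) : (lay α h k).Countable := by
  refine ((Set.countable_range fun g => α g h).union (Set.countable_range fun g => α g k)).mono ?_
  rintro x ⟨g, rfl | rfl⟩
  · exact Or.inl ⟨g, rfl⟩
  · exact Or.inr ⟨g, rfl⟩

theorem Nrm_copy (hT : TSat α T) [Countable G] (S : Set Q) (hS : S.Countable) :
    ∃ h k, Pair h k ∧ ∀ x ∈ lay α h k, ∀ s ∈ S, Commute x s := by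
  obtain ⟨h, k, h1, h2⟩ := hT.copy (⋃ g, α g '' S) (Set.countable_iUnion fun g => hS.image _)
  refine ⟨h, k, h1, ?_⟩
  rintro x ⟨g, hx⟩ s hs
  have h3 := h2 (α g⁻¹ s) (Set.mem_iUnion.2 ⟨g⁻¹, s, hs, rfl⟩)
  have e : α g (α g⁻¹ s) = s := by rw [← act_mul, mul_inv_cancel, act_one]
  rcases hx with rfl | rfl
  · simpa only [e] using h3.1.map (α g)
  · simpa only [e] using h3.2.map (α g)

theorem TSat.layers (hT : TSat α T) [Countable G] (S : Set Q) (hS : S.Countable) (ι : Type)
    [Finite ι] : ∃ h k : ι → Q, (∀ i, Pair (h i) (k i)) ∧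
      (∀ i, ∀ x ∈ lay α (h i) (k i), ∀ s ∈ S, Commute x s) ∧
      ∀ i j, i ≠ j → ∀ x ∈ lay α (h i) (k i), ∀ y ∈ lay α (h j) (k j), Commute x y := by
  induction ι using Finite.induction_empty_option with
  | of_equiv e ih =>
    obtain ⟨h, k, h1, h2, h3⟩ := ih
    exact ⟨fun i => h (e.symm i), fun i => k (e.symm i), fun i => h1 _, fun i => h2 _,
      fun i j hij => h3 _ _ fun h4 => hij (e.symm.injective h4)⟩
  | h_empty => exact ⟨PEmpty.elim, PEmpty.elim, fun i => i.elim, fun i => i.elim, fun i => i.elim⟩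
  | h_option ih =>
    obtain ⟨h, k, h1, h2, h3⟩ := ih
    obtain ⟨h', k', k1, k2⟩ := Nrm_copy hT (S ∪ ⋃ i, lay α (h i) (k i))
      (hS.union (Set.countable_iUnion fun i => Nrm_lay_countable _ _))
    refine ⟨fun i => i.elim h' h, fun i => i.elim k' k, fun i => ?_, fun i => ?_, fun i j hij => ?_⟩
    · cases i with
      | none => exact k1
      | some i => exact h1 i
    · cases i with
      | none => exact fun x hx s hs => k2 x hx s (Or.inl hs)
      | some i => exact h2 i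
    · cases i with
      | none =>
        cases j with
        | none => exact absurd rfl hij
        | some j => exact fun x hx y hy => k2 x hx y (Or.inr (Set.mem_iUnion.2 ⟨j, hy⟩))
      | some i =>
        cases j with
        | none => exact fun x hx y hy => (k2 y hy x (Or.inr (Set.mem_iUnion.2 ⟨i, hx⟩))).symm
        | some j => exact h3 i j fun h4 => hij (congrArg some h4)

end Vale.Agent.P095
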