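import Vale.Agent.P095.Tools

/-! P095: 2-norms, symmetries and partitions. See skel/P095/BLUEPRINT.md. -/

namespace Vale.Agent.P095

open Filter Topology Vale.Agent.P101 Vale.Agent.P101.F
open scoped ComplexOrder

universe u v w

variable {Q : Type u} [CStarAlgebra Q] {G : Type v} [Group G]
variable {α : G →* (Q ≃⋆ₐ[ℂ] Q)} {T : Set (Q →L[ℂ] ℂ)}


section Nrm

variable {τ : Q →L[ℂ] ℂ}

theorem nrm_nonneg (τ : Q →L[ℂ] ℂ) (x : Q) : 0 ≤ nrm τ x := Real.sqrt_nonneg _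

theorem IsTr.nonneg (h : IsTr τ) {a : Q} (ha : 0 ≤ a) : 0 ≤ τ a := by
  obtain ⟨b, rfl⟩ := CStarAlgebra.nonneg_iff_eq_star_mul_self.1 ha
  exact h.pos b

/-- the functional as a positive map -/
noncomputable def IsTr.nrmA_pm (h : IsTr τ) : Q →ₚ[ℂ] ℂ :=
  PositiveLinearMap.mk₀ τ.toLinearMap fun _ => h.nonneg

theorem IsTr.nrmA_eq (h : IsTr τ) (x : Q) : nrm τ x = ‖h.nrmA_pm.toPreGNS x‖ := rfl

theorem IsTr.re_mono (h : IsTr τ) {a b : Q} (hab : a ≤ b) : (τ a).re ≤ (τ b).re :=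
  Complex.re_le_re (OrderHomClass.mono h.nrmA_pm hab)

theorem IsTr.map_star' (h : IsTr τ) (a : Q) : τ (star a) = star (τ a) := map_star h.nrmA_pm a

theorem IsTr.norm_apply_le (h : IsTr τ) (a : Q) : ‖τ a‖ ≤ ‖a‖ :=
  (τ.le_of_opNorm_le h.norm_le a).trans_eq (one_mul _)

theorem IsTr.nrm_sq (h : IsTr τ) (x : Q) : nrm τ x ^ 2 = (τ (star x * x)).re :=
  Real.sq_sqrt (h.pos x).1

theorem IsTr.nrm_sq' (h : IsTr τ) (x : Q) : ((nrm τ x ^ 2 : ℝ) : ℂ) = τ (star x * x) := by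
  rw [h.nrm_sq]
  exact (Complex.eq_re_of_ofReal_le (r := 0) (h.pos x)).symm

theorem IsTr.cs (h : IsTr τ) (x y : Q) : ‖τ (star x * y)‖ ≤ nrm τ x * nrm τ y :=
  norm_inner_le_norm (𝕜 := ℂ) (h.nrmA_pm.toPreGNS x) (h.nrmA_pm.toPreGNS y)

theorem IsTr.nrmA_le (h : IsTr τ) (x : Q) : nrm τ x ≤ ‖x‖ := by
  refine Real.sqrt_le_iff.2 ⟨norm_nonneg _, (Complex.re_le_norm _).trans ?_⟩
  rw [sq, ← CStarRing.norm_star_mul_self]
  exact h.norm_apply_le _

theorem IsTr.norm_le_nrm (h : IsTr τ) (x : Q) : ‖τ x‖ ≤ nrm τ x := by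
  have h1 := h.cs 1 x
  rw [star_one, one_mul] at h1
  exact h1.trans (mul_le_of_le_one_left (nrm_nonneg _ _)
    ((h.nrmA_le 1).trans (IsStarProjection.one Q).norm_le))

theorem IsTr.nrm_le_norm (h : IsTr τ) (x : Q) : nrm τ x ≤ ‖x‖ := h.nrmA_le x

theorem IsTr.nrm_add_le (h : IsTr τ) (x y : Q) : nrm τ (x + y) ≤ nrm τ x + nrm τ y :=
  norm_add_le (h.nrmA_pm.toPreGNS x) (h.nrmA_pm.toPreGNS y)

theorem nrm_neg (τ : Q →L[ℂ] ℂ) (x : Q) : nrm τ (-x) = nrm τ x := by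
  rw [nrm, star_neg, neg_mul_neg, nrm]

theorem IsTr.nrm_sub_le (h : IsTr τ) (x y : Q) : nrm τ (x - y) ≤ nrm τ x + nrm τ y :=
  norm_sub_le (h.nrmA_pm.toPreGNS x) (h.nrmA_pm.toPreGNS y)

theorem IsTr.nrm_tri (h : IsTr τ) (x y z : Q) :
    nrm τ (x - z) ≤ nrm τ (x - y) + nrm τ (y - z) := by
  simpa only [sub_add_sub_cancel] using h.nrm_add_le (x - y) (y - z)

theorem IsTr.nrm_smul (h : IsTr τ) (c : ℂ) (x : Q) : nrm τ (c • x) = ‖c‖ * nrm τ x :=
  norm_smul c (h.nrmA_pm.toPreGNS x)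

theorem IsTr.nrm_sum_le (h : IsTr τ) {ι : Type*} (s : Finset ι) (x : ι → Q) :
    nrm τ (∑ i ∈ s, x i) ≤ ∑ i ∈ s, nrm τ (x i) := by
  simp only [h.nrmA_eq, map_sum]
  exact norm_sum_le _ _

theorem IsTr.nrm_star (h : IsTr τ) (x : Q) : nrm τ (star x) = nrm τ x := by
  rw [nrm, star_star, h.trace, nrm]

theorem IsTr.nrm_mul_left (h : IsTr τ) (a x : Q) : nrm τ (a * x) ≤ ‖a‖ * nrm τ x := by
  refine Real.sqrt_le_iff.2 ⟨mul_nonneg (norm_nonneg _) (nrm_nonneg _ _), ?_⟩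
  have h1 := h.re_mono (CStarAlgebra.star_left_conjugate_le_norm_smul (a := x) (b := star a * a))
  rw [← Complex.coe_smul, map_smul, smul_eq_mul, Complex.re_ofReal_mul,
    CStarRing.norm_star_mul_self] at h1
  rw [mul_pow, h.nrm_sq, sq, star_mul, mul_assoc, ← mul_assoc (star a), ← mul_assoc]
  exact h1

theorem IsTr.nrm_mul_right (h : IsTr τ) (x a : Q) : nrm τ (x * a) ≤ nrm τ x * ‖a‖ := by
  rw [← h.nrm_star, star_mul, ← h.nrm_star x, ← norm_star a, mul_comm (nrm _ _)]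
  exact h.nrm_mul_left _ _

theorem nrmA_prod {ι : Type*} (l : List ι) (y : ι → Q) (hy : ∀ i ∈ l, ‖y i‖ ≤ 1) :
    ‖(l.map y).prod‖ ≤ 1 := by
  induction l with
  | nil => exact (IsStarProjection.one Q).norm_le
  | cons i l ih =>
    rw [List.map_cons, List.prod_cons]
    exact (norm_mul_le _ _).trans (mul_le_one₀ (hy i List.mem_cons_self) (norm_nonneg _)
      (ih fun j hj => hy j (List.mem_cons_of_mem _ hj)))

theorem IsTr.nrm_prod_sub (h : IsTr τ) {ι : Type*} (l : List ι) (x y : ι → Q) {ε : ℝ}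
    (hx : ∀ i ∈ l, ‖x i‖ ≤ 1) (hy : ∀ i ∈ l, ‖y i‖ ≤ 1) (hxy : ∀ i ∈ l, nrm τ (x i - y i) ≤ ε) :
    nrm τ ((l.map x).prod - (l.map y).prod) ≤ l.length * ε := by
  induction l with
  | nil => simp [nrm]
  | cons i l ih =>
    have h1 := ih (fun j hj => hx j (List.mem_cons_of_mem _ hj))
      (fun j hj => hy j (List.mem_cons_of_mem _ hj)) fun j hj => hxy j (List.mem_cons_of_mem _ hj)
    have h2 := nrmA_prod l y fun j hj => hy j (List.mem_cons_of_mem _ hj)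
    have e : x i * (l.map x).prod - y i * (l.map y).prod =
        x i * ((l.map x).prod - (l.map y).prod) + (x i - y i) * (l.map y).prod := by noncomm_ring
    rw [List.map_cons, List.map_cons, List.prod_cons, List.prod_cons, e, List.length_cons,
      Nat.cast_succ, add_one_mul]
    refine (h.nrm_add_le _ _).trans (add_le_add ((h.nrm_mul_left _ _).trans ?_)
      ((h.nrm_mul_right _ _).trans ?_))
    · exact (mul_le_of_le_one_left (nrm_nonneg _ _) (hx i List.mem_cons_self)).trans h1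
    · exact (mul_le_of_le_one_right (nrm_nonneg _ _) h2).trans (hxy i List.mem_cons_self)

end Nrm

theorem Symm.norm_le {b : Q} (h : Symm b) : ‖b‖ ≤ 1 := by
  have h1 := CStarRing.norm_star_mul_self (x := b)
  rw [h.sa, h.sq] at h1
  have h2 := (IsStarProjection.one Q).norm_le
  nlinarith [norm_nonneg b]

theorem Symm.map {Q' : Type w} [CStarAlgebra Q'] {b : Q} (h : Symm b) (f : Q →⋆ₐ[ℂ] Q') :
    Symm (f b) :=
  ⟨by rw [← map_star, h.sa], by rw [← map_mul, h.sq, map_one]⟩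

theorem Symm.act {b : Q} (h : Symm b) (g : G) : Symm (α g b) :=
  ⟨by rw [← map_star, h.sa], by rw [← map_mul, h.sq, map_one]⟩

theorem Pair.act {h k : Q} (hp : Pair h k) (g : G) : Pair (α g h) (α g k) :=
  ⟨hp.fst.act g, hp.snd.act g, by rw [← map_mul, hp.anti, map_neg, map_mul]⟩

theorem Pair.symm {h k : Q} (hp : Pair h k) : Pair k h :=
  ⟨hp.snd, hp.fst, by rw [hp.anti, neg_neg]⟩

theorem act_mul (α : G →* (Q ≃⋆ₐ[ℂ] Q)) (g h : G) (x : Q) : α (g * h) x = α g (α h x) := by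
  rw [map_mul]; rfl

theorem act_one (α : G →* (Q ≃⋆ₐ[ℂ] Q)) (x : Q) : α 1 x = x := by
  rw [map_one]; rfl

theorem act_norm (α : G →* (Q ≃⋆ₐ[ℂ] Q)) (g : G) (x : Q) : ‖α g x‖ = ‖x‖ :=
  StarAlgEquiv.norm_map _ x

theorem Part.norm_le {Ω : Type} [Fintype Ω] {p : Ω → Q} (hp : Part p) (i : Ω) : ‖p i‖ ≤ 1 :=
  IsStarProjection.norm_le _ ⟨hp.sq i, hp.sa i⟩

/-- orthogonal sums along a partition -/
theorem Part.norm_sum_le {Ω : Type} [Fintype Ω] {p : Ω → Q} (hp : Part p) (x : Ω → Q) {C : ℝ}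
    (hC : 0 ≤ C) (hx : ∀ i, ‖x i‖ ≤ C) (hc : ∀ i, Commute (p i) (x i)) :
    ‖∑ i, p i * x i‖ ≤ C := by
  have e : star (∑ i, p i * x i) * ∑ i, p i * x i = ∑ i, star (p i) * (star (x i) * x i) * p i := by
    rw [star_sum, Finset.sum_mul_sum]
    refine Finset.sum_congr rfl fun i _ => ?_
    rw [Finset.sum_eq_single i (fun j _ hj => ?_) fun h => absurd (Finset.mem_univ i) h]
    · rw [(hc i).eq, star_mul]
      simp only [mul_assoc]
    · rw [star_mul, hp.sa, mul_assoc, ← mul_assoc (p i), hp.orth i j hj.symm, zero_mul, mul_zero]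
  have h1 : star (∑ i, p i * x i) * ∑ i, p i * x i ≤ algebraMap ℝ Q (C * C) := by
    rw [e, Algebra.algebraMap_eq_smul_one, ← hp.sum, Finset.smul_sum]
    refine Finset.sum_le_sum fun i _ =>
      (CStarAlgebra.star_left_conjugate_le_norm_smul (a := p i) (b := star (x i) * x i)).trans ?_
    have h2 := star_mul_self_nonneg (p i)
    rw [hp.sa, hp.sq] at h2 ⊢
    rw [CStarRing.norm_star_mul_self]
    exact smul_le_smul_of_nonneg_right (mul_self_le_mul_self (norm_nonneg _) (hx i)) h2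
  rw [← CStarAlgebra.norm_le_iff_le_algebraMap _ (mul_self_nonneg C) (star_mul_self_nonneg _),
    CStarRing.norm_star_mul_self] at h1
  exact (mul_self_le_mul_self_iff (norm_nonneg _) hC).2 h1

theorem Part.sum_mul_sum {Ω : Type} [Fintype Ω] {p : Ω → Q} (hp : Part p) (x y : Ω → Q)
    (hc : ∀ i j, Commute (p i) (x j)) :
    (∑ i, p i * x i) * (∑ i, p i * y i) = ∑ i, p i * (x i * y i) := by
  rw [Finset.sum_mul_sum]
  refine Finset.sum_congr rfl fun i _ => ?_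
  have e : ∀ j, p i * x i * (p j * y j) = p i * p j * (x i * y j) := fun j => by
    rw [mul_assoc, ← mul_assoc (x i), ← (hc j i).eq, mul_assoc, mul_assoc]
  rw [Finset.sum_eq_single i (fun j _ hj => ?_) fun h => absurd (Finset.mem_univ i) h, e, hp.sq]
  rw [e, hp.orth i j hj.symm, zero_mul]

theorem Part.pair {Ω : Type} [Fintype Ω] {p : Ω → Q} (hp : Part p) {h k : Ω → Q}
    (hk : ∀ i, Pair (h i) (k i)) (hc : ∀ i j, Commute (p i) (h j) ∧ Commute (p i) (k j)) :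
    Pair (∑ i, p i * h i) (∑ i, p i * k i) := by
  have key : ∀ x : Ω → Q, (∀ i, Symm (x i)) → (∀ i j, Commute (p i) (x j)) →
      Symm (∑ i, p i * x i) := fun x hx hc => ⟨by
    rw [star_sum]
    exact Finset.sum_congr rfl fun i _ => by rw [star_mul, hp.sa, (hx i).sa, (hc i i).eq], by
    simp only [hp.sum_mul_sum x x hc, (hx _).sq, mul_one, hp.sum]⟩
  refine ⟨key h (fun i => (hk i).fst) fun i j => (hc i j).1,
    key k (fun i => (hk i).snd) fun i j => (hc i j).2, ?_⟩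
  rw [hp.sum_mul_sum h k fun i j => (hc i j).1, hp.sum_mul_sum k h fun i j => (hc i j).2,
    ← Finset.sum_neg_distrib]
  exact Finset.sum_congr rfl fun i _ => by rw [(hk i).anti, mul_neg]

end Vale.Agent.P095
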