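import Vale.Agent.P095.OprodA

/-! P095: ordered products, rotations and the hybrid argument. See skel/P095/BLUEPRINT.md. -/

namespace Vale.Agent.P095

open Filter Topology Vale.Agent.P101 Vale.Agent.P101.F
open scoped ComplexOrder

universe u v w

variable {Q : Type u} [CStarAlgebra Q] {N : ℕ}

theorem center (τ : Q →L[ℂ] ℂ) (hτ : ∀ x y, τ (x * y) = τ (y * x)) {h k y : Q} (hp : Pair h k)
    (hy : Commute y k) : τ (y * h) = 0 := by
  have e1 : τ (y * h) = τ (k * (y * h * k)) := by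
    rw [hτ k, mul_assoc, hp.snd.sq, mul_one]
  have e2 : k * (y * h * k) = -(y * h) := by
    rw [mul_assoc y, hp.anti, mul_neg, mul_neg, ← mul_assoc y, hy.eq, ← mul_assoc, ← mul_assoc,
      hp.snd.sq, one_mul]
  rw [e2, map_neg] at e1
  linear_combination (2⁻¹ : ℂ) * e1

theorem rot_add {h : Q} (hh : Symm h) (s t : ℝ) : rot s h * rot t h = rot (s + t) h := by
  simp only [rot, add_mul, mul_add, smul_mul_smul_comm, one_mul, mul_one, hh.sq, Real.cos_add,
    Real.sin_add]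
  push_cast
  match_scalars
  · linear_combination (Complex.sin s * Complex.sin t) * Complex.I_sq
  · ring

theorem rot_zero (h : Q) : rot 0 h = 1 := by simp [rot]

theorem star_rot {h : Q} (hh : Symm h) (t : ℝ) : star (rot t h) = rot (-t) h := by
  simp only [rot, star_add, star_smul, star_one, hh.sa, Real.cos_neg, Real.sin_neg, star_mul',
    Complex.star_def, Complex.conj_ofReal, Complex.conj_I, Complex.ofReal_neg, mul_neg, neg_mul]

theorem rot_mem_unitary {h : Q} (hh : Symm h) (t : ℝ) : rot t h ∈ unitary Q := by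
  constructor
  · rw [star_rot hh, rot_add hh, neg_add_cancel, rot_zero]
  · rw [star_rot hh, rot_add hh, add_neg_cancel, rot_zero]

theorem norm_rot_le {h : Q} (hh : Symm h) (t : ℝ) : ‖rot t h‖ ≤ 1 := by
  rcases subsingleton_or_nontrivial Q with _ | _
  · rw [Subsingleton.elim (rot t h) 0, norm_zero]
    exact zero_le_one
  · exact (CStarRing.norm_of_mem_unitary (rot_mem_unitary hh t)).le

theorem rot_pow {h : Q} (hh : Symm h) (t : ℝ) (n : ℕ) : rot t h ^ n = rot (n * t) h := by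
  induction n with
  | zero => rw [pow_zero, Nat.cast_zero, zero_mul, rot_zero]
  | succ n ih => rw [pow_succ, ih, rot_add hh, Nat.cast_succ, add_mul, one_mul]

theorem norm_rot_sub_one {h : Q} (hh : Symm h) (t : ℝ) : ‖rot t h - 1‖ ≤ |t| := by
  rcases subsingleton_or_nontrivial Q with _ | _
  · rw [Subsingleton.elim (rot t h - 1) 0, norm_zero]
    exact abs_nonneg t
  have e : star (rot t h - 1) * (rot t h - 1) = ((2 - 2 * Real.cos t : ℝ) : ℂ) • (1 : Q) := by
    rw [star_sub, star_one, star_rot hh, sub_mul, mul_sub, rot_add hh, neg_add_cancel, rot_zero,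
      one_mul, mul_one]
    simp only [rot, Real.cos_neg, Real.sin_neg]
    push_cast
    module
  have h1 := CStarRing.norm_star_mul_self (x := rot t h - 1)
  rw [e, norm_smul, norm_one, mul_one, Complex.norm_real,
    Real.norm_of_nonneg (by linarith [Real.cos_le_one t])] at h1
  refine (le_abs_self _).trans (sq_le_sq.1 ?_)
  nlinarith [Real.one_sub_sq_div_two_le_cos (x := t)]

theorem commute_rot {h y : Q} (hc : Commute h y) (t : ℝ) : Commute (rot t h) y :=
  ((Commute.one_left y).smul_left _).add_left (hc.smul_left _)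

theorem map_rot {Q' : Type w} [CStarAlgebra Q'] (f : Q ≃⋆ₐ[ℂ] Q') (t : ℝ) (h : Q) :
    f (rot t h) = rot t (f h) := by
  simp only [rot, map_add, map_smul, map_one]

theorem exists_param (n₀ : ℕ) {ε : ℝ} (hε : 0 < ε) :
    ∃ (t : ℝ) (N : ℕ), 0 < t ∧ t ≤ ε ∧ t ≤ 1 ∧ 0 < N ∧ N * t ^ 3 ≤ ε ∧ ∀ n : ℕ, 1 ≤ n → n ≤ n₀ →
      |Real.cos (n * t)| ^ N ≤ ε ∧ |Real.sin (n * t)| ≤ ε ∧
      1 ≤ ε * (N * (Real.cos (n * t) * Real.sin (n * t)) ^ 2) := by
  obtain ⟨r, hr, hr1, hr2⟩ : ∃ r : ℝ, 0 < r ∧ 16 * (n₀ + 1) * r ≤ 1 ∧ 16 * (n₀ + 1) * r ≤ ε := by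
    have h0 : (0 : ℝ) < 16 * (n₀ + 1) := by positivity
    refine ⟨min 1 ε / (16 * (n₀ + 1)), by positivity, ?_, ?_⟩
    · rw [mul_div_cancel₀ _ h0.ne']
      exact min_le_left _ _
    · rw [mul_div_cancel₀ _ h0.ne']
      exact min_le_right _ _
  have hn₀ : (0 : ℝ) ≤ n₀ * r := by positivity
  have a1 : 16 * r ≤ 1 := by nlinarith
  have a2 : 16 * r ≤ ε := by nlinarith
  have a3 : r ^ 2 ≤ r := by nlinarith
  have hN1 : 1 ≤ (⌈(r ^ 5)⁻¹⌉₊ : ℝ) * r ^ 5 := by
    rw [← inv_le_iff_one_le_mul₀ (by positivity)]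
    exact Nat.le_ceil _
  have hN2 : (⌈(r ^ 5)⁻¹⌉₊ : ℝ) * r ^ 5 ≤ 2 := by
    have h1 := (Nat.ceil_lt_add_one (a := (r ^ 5)⁻¹) (by positivity)).le
    have h2 : r ^ 5 ≤ 1 := pow_le_one₀ hr.le (by linarith)
    have h3 := mul_le_mul_of_nonneg_right h1 (by positivity : 0 ≤ r ^ 5)
    rw [add_mul, inv_mul_cancel₀ (by positivity)] at h3
    linarith
  generalize ⌈(r ^ 5)⁻¹⌉₊ = N at hN1 hN2
  have hN0 : 0 < N := by
    rcases Nat.eq_zero_or_pos N with rfl | h
    · simp at hN1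
      linarith
    · exact h
  refine ⟨r ^ 2, N, by positivity, by linarith, by linarith, hN0, ?_, fun n hn hn' => ?_⟩
  · calc (N : ℝ) * (r ^ 2) ^ 3 = N * r ^ 5 * r := by ring
      _ ≤ 2 * r := mul_le_mul_of_nonneg_right hN2 hr.le
      _ ≤ ε := by linarith
  have b1 : (1 : ℝ) ≤ n := by exact_mod_cast hn
  have b2 : (n : ℝ) ≤ n₀ := by exact_mod_cast hn'
  have x0 : r ^ 2 ≤ n * r ^ 2 := le_mul_of_one_le_left (by positivity) b1
  have x1 : n * r ^ 2 ≤ n₀ * r := mul_le_mul b2 a3 (by positivity) (by positivity)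
  generalize (n : ℝ) * r ^ 2 = x at x0 x1
  have x2 : 0 < x := lt_of_lt_of_le (by positivity) x0
  have x3 : x ≤ 1 := by nlinarith
  have x4 : x ≤ ε := by nlinarith
  have c1 : 1 / 2 ≤ Real.cos x := by nlinarith [Real.one_sub_sq_div_two_le_cos (x := x)]
  have s1 : r ^ 2 / 2 ≤ Real.sin x := by
    have := Real.sin_gt_sub_cube x2
    have h3 : x ^ 3 ≤ x := by nlinarith [mul_le_one₀ x3 x2.le x3]
    linarith
  have q1 : r ^ 4 / 4 ≤ Real.sin x ^ 2 := by
    have := pow_le_pow_left₀ (by positivity) s1 2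
    linarith [show (r ^ 2 / 2) ^ 2 = r ^ 4 / 4 by ring]
  have hNr : 1 ≤ 16 * r * (N * (r ^ 4 / 16)) := by
    linarith [show 16 * r * (N * (r ^ 4 / 16)) = N * r ^ 5 by ring]
  refine ⟨?_, (Real.abs_sin_le_abs.trans_eq (abs_of_pos x2)).trans x4, ?_⟩
  · have c2 : Real.cos x ≤ 1 - r ^ 4 / 8 := by
      nlinarith [Real.sin_sq_add_cos_sq x, sq_nonneg (1 - Real.cos x)]
    have c3 : Real.cos x ≤ Real.exp (-(r ^ 4 / 8)) :=
      c2.trans (by linarith [Real.add_one_le_exp (-(r ^ 4 / 8))])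
    rw [abs_of_nonneg (by linarith)]
    refine (pow_le_pow_left₀ (by linarith) c3 N).trans ?_
    rw [← Real.exp_nat_mul, mul_neg, Real.exp_neg, inv_le_iff_one_le_mul₀ (Real.exp_pos _)]
    have c4 : N * (r ^ 4 / 16) ≤ Real.exp (N * (r ^ 4 / 8)) := by
      have := Real.add_one_le_exp (N * (r ^ 4 / 8))
      have h5 : 0 ≤ N * (r ^ 4 / 16) := by positivity
      linarith [show N * (r ^ 4 / 8) = 2 * (N * (r ^ 4 / 16)) by ring]
    exact hNr.trans (mul_le_mul a2 c4 (by positivity) hε.le)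
  · refine hNr.trans (mul_le_mul a2 (mul_le_mul_of_nonneg_left ?_ (by positivity))
      (by positivity) hε.le)
    rw [mul_pow]
    have c5 : 1 / 4 ≤ Real.cos x ^ 2 := by nlinarith
    calc r ^ 4 / 16 = 1 / 4 * (r ^ 4 / 4) := by ring
      _ ≤ _ := mul_le_mul c5 q1 (by positivity) (by positivity)

end Vale.Agent.P095
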