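import Vale.Agent.P095.Nrm

/-! P095: ordered products and the hybrid argument. See skel/P095/BLUEPRINT.md. -/

namespace Vale.Agent.P095

open Filter Topology Vale.Agent.P101 Vale.Agent.P101.F
open scoped ComplexOrder

universe u v w

variable {Q : Type u} [CStarAlgebra Q] {N : ℕ}

theorem oprodA_zero (m : Fin 0 → Q) : oprod m = 1 := by
  simp [oprod]

theorem oprodA_succ (m : Fin (N + 1) → Q) : oprod m = m 0 * oprod fun i : Fin N => m i.succ := by
  simp [oprod, List.ofFn_succ]

theorem oprodA_norm_one : ‖(1 : Q)‖ ≤ 1 := by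
  rcases subsingleton_or_nontrivial Q with h | h
  · simp [Subsingleton.elim (1 : Q) 0]
  · simp

theorem map_oprod {Q' : Type w} [CStarAlgebra Q'] {Φ : Type*} [FunLike Φ Q Q']
    [MonoidHomClass Φ Q Q'] (f : Φ) (m : Fin N → Q) :
    f (oprod m) = oprod fun i => f (m i) := by
  induction N with
  | zero => rw [oprodA_zero, oprodA_zero, map_one]
  | succ N ih => rw [oprodA_succ, oprodA_succ, map_mul, ih]

theorem oprod_one : oprod (fun _ : Fin N => (1 : Q)) = 1 := by
  induction N with
  | zero => rw [oprodA_zero]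
  | succ N ih => rw [oprodA_succ, ih, one_mul]

theorem commute_oprod {m : Fin N → Q} {y : Q} (h : ∀ i, Commute (m i) y) :
    Commute (oprod m) y := by
  induction N with
  | zero => rw [oprodA_zero]; exact Commute.one_left y
  | succ N ih => rw [oprodA_succ]; exact (h 0).mul_left (ih fun i => h i.succ)

theorem norm_oprod_le {m : Fin N → Q} (h : ∀ i, ‖m i‖ ≤ 1) : ‖oprod m‖ ≤ 1 := by
  induction N with
  | zero => rw [oprodA_zero]; exact oprodA_norm_one
  | succ N ih =>
    rw [oprodA_succ]
    refine (norm_mul_le _ _).trans ?_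
    exact mul_le_one₀ (h 0) (norm_nonneg _) (ih fun i => h i.succ)

theorem oprod_mem_unitary {m : Fin N → Q} (h : ∀ i, m i ∈ unitary Q) :
    oprod m ∈ unitary Q := by
  induction N with
  | zero => rw [oprodA_zero]; exact one_mem _
  | succ N ih => rw [oprodA_succ]; exact mul_mem (h 0) (ih fun i => h i.succ)

theorem oprod_mul {a b : Fin N → Q} (h : ∀ i j, i ≠ j → Commute (a i) (b j)) :
    oprod a * oprod b = oprod fun i => a i * b i := by
  induction N with
  | zero => rw [oprodA_zero, oprodA_zero, oprodA_zero, one_mul]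
  | succ N ih =>
    rw [oprodA_succ, oprodA_succ b, oprodA_succ fun i => a i * b i]
    have h1 : Commute (oprod fun i : Fin N => a i.succ) (b 0) :=
      commute_oprod fun i => h _ _ (Fin.succ_ne_zero i)
    have h2 := ih (a := fun i : Fin N => a i.succ) (b := fun i : Fin N => b i.succ)
      fun i j hij => h _ _ fun e => hij (Fin.succ_injective _ e)
    rw [← h2, mul_assoc, ← mul_assoc (oprod fun i : Fin N => a i.succ), h1.eq, mul_assoc,
      ← mul_assoc]

theorem oprod_pow {a : Fin N → Q} (h : ∀ i j, i ≠ j → Commute (a i) (a j)) (n : ℕ) :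
    oprod a ^ n = oprod fun i => a i ^ n := by
  induction n with
  | zero => simp only [pow_zero]; exact oprod_one.symm
  | succ n ih =>
    rw [pow_succ, ih, oprod_mul fun i j hij => (h i j hij).pow_left n]
    simp only [pow_succ]

theorem star_oprod {a : Fin N → Q} (h : ∀ i j, i ≠ j → Commute (a i) (a j)) :
    star (oprod a) = oprod fun i => star (a i) := by
  induction N with
  | zero => rw [oprodA_zero, oprodA_zero, star_one]
  | succ N ih =>
    rw [oprodA_succ, oprodA_succ fun i => star (a i), star_mul,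
      ih (a := fun i : Fin N => a i.succ)
        fun i j hij => h _ _ fun e => hij (Fin.succ_injective _ e)]
    exact (commute_oprod fun i : Fin N => (h _ _ (Fin.succ_ne_zero i)).star_star).eq

theorem prod_oprod {ι : Type*} (l : List ι) (a : ι → Fin N → Q)
    (h : ∀ p ∈ l, ∀ p' ∈ l, ∀ i j, i ≠ j → Commute (a p i) (a p' j)) :
    (l.map fun p => oprod (a p)).prod = oprod fun i => (l.map fun p => a p i).prod := by
  induction l with
  | nil => simp only [List.map_nil, List.prod_nil]; exact oprod_one.symm
  | cons p l ih =>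
    simp only [List.map_cons, List.prod_cons]
    rw [ih fun q hq q' hq' => h q (List.mem_cons_of_mem _ hq) q' (List.mem_cons_of_mem _ hq')]
    refine oprod_mul fun i j hij => Commute.list_prod_right _ _ fun x hx => ?_
    obtain ⟨q, hq, rfl⟩ := List.mem_map.1 hx
    exact h p List.mem_cons_self q (List.mem_cons_of_mem _ hq) i j hij

theorem oprod_smul_one (c : ℂ) : oprod (fun _ : Fin N => c • (1 : Q)) = c ^ N • (1 : Q) := by
  induction N with
  | zero => rw [oprodA_zero, pow_zero, one_smul]
  | succ N ih => rw [oprodA_succ, ih, smul_mul_smul_comm, one_mul, pow_succ']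

/-- one factor can be split off a product of commuting factors -/
theorem oprod_eq_mul {a : Fin N → Q} (h : ∀ i j, i ≠ j → Commute (a i) (a j)) (j : Fin N) :
    oprod a = oprod (Function.update a j 1) * a j := by
  induction N with
  | zero => exact j.elim0
  | succ N ih =>
    rw [oprodA_succ, oprodA_succ (Function.update a j 1)]
    refine Fin.cases ?_ (fun k => ?_) j
    · have e : (fun i : Fin N => Function.update a 0 1 i.succ) = fun i : Fin N => a i.succ := by
        funext i
        exact Function.update_of_ne (Fin.succ_ne_zero i) _ _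
      rw [e, Function.update_self, one_mul]
      exact (commute_oprod fun i : Fin N => h _ _ (Fin.succ_ne_zero i)).eq.symm
    · have e : (fun i : Fin N => Function.update a k.succ 1 i.succ) =
          Function.update (fun i : Fin N => a i.succ) k 1 := by
        funext i
        by_cases hik : i = k
        · subst hik
          rw [Function.update_self, Function.update_self]
        · rw [Function.update_of_ne hik,
            Function.update_of_ne fun e => hik (Fin.succ_injective _ e)]
      rw [e, Function.update_of_ne (Fin.succ_ne_zero k).symm, mul_assoc]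
      rw [← ih (a := fun i : Fin N => a i.succ)
        (fun i j hij => h _ _ fun e => hij (Fin.succ_injective _ e)) k]

theorem oprodA_mul_le {a b : Q} (ha : 0 ≤ a) (hb : b ≤ 1) (hc : Commute a b) : a * b ≤ a := by
  have h1 : 0 ≤ a * (1 - b) :=
    Commute.mul_nonneg ha (sub_nonneg.2 hb) ((Commute.one_right a).sub_right hc)
  rw [mul_sub, mul_one] at h1
  exact sub_nonneg.1 h1

theorem oprodA_le_one {a : Fin N → Q} (h0 : ∀ i, 0 ≤ a i) (h1 : ∀ i, a i ≤ 1)
    (hc : ∀ i j, Commute (a i) (a j)) : oprod a ≤ 1 := by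
  induction N with
  | zero => rw [oprodA_zero]
  | succ N ih =>
    rw [oprodA_succ]
    refine (oprodA_mul_le (h0 0) (ih (fun i => h0 _) (fun i => h1 _) fun i j => hc _ _) ?_).trans
      (h1 0)
    exact (commute_oprod fun i : Fin N => hc _ _).symm

/-- telescoping inequality for commuting positive contractions -/
theorem sum_mul_oprod_le {w : Fin N → Q} (h0 : ∀ i, 0 ≤ w i) (h1 : ∀ i, w i ≤ 1)
    (hc : ∀ i j, Commute (w i) (w j)) : (∑ j, w j) * oprod (fun i => 1 - w i) ≤ 1 := by
  induction N with
  | zero => simp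
  | succ N ih =>
    have hc1 : ∀ i j, Commute (1 - w i) (w j) := fun i j =>
      (Commute.one_left _).sub_left (hc i j)
    have hc2 : ∀ i j, Commute (1 - w i) (1 - w j) := fun i j =>
      (Commute.one_right _).sub_right (hc1 i j)
    have hA : w 0 * oprod (fun i => 1 - w i) ≤ w 0 :=
      oprodA_mul_le (h0 0)
        (oprodA_le_one (fun i => sub_nonneg.2 (h1 i)) (fun i => sub_le_self _ (h0 i)) hc2)
        (commute_oprod fun i => hc1 i 0).symm
    have hS : Commute (1 - w 0) (∑ j : Fin N, w j.succ) :=
      Commute.sum_right _ _ _ fun j _ => hc1 _ _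
    have hP : Commute (1 - w 0) (oprod fun i : Fin N => 1 - w i.succ) :=
      (commute_oprod fun i : Fin N => hc2 _ _).symm
    have hB : (1 - w 0) * ((∑ j : Fin N, w j.succ) * oprod fun i : Fin N => 1 - w i.succ)
        ≤ 1 - w 0 :=
      oprodA_mul_le (sub_nonneg.2 (h1 0))
        (ih (w := fun i : Fin N => w i.succ) (fun i => h0 _) (fun i => h1 _) fun i j => hc _ _)
        (hS.mul_right hP)
    rw [Fin.sum_univ_succ, add_mul]
    have e : (∑ j : Fin N, w j.succ) * oprod (fun i => 1 - w i) =
        (1 - w 0) * ((∑ j : Fin N, w j.succ) * oprod fun i : Fin N => 1 - w i.succ) := by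
      rw [oprodA_succ, ← mul_assoc, ← hS.eq, mul_assoc]
    rw [e]
    calc _ ≤ w 0 + (1 - w 0) := add_le_add hA hB
      _ = 1 := by abel

theorem hybrid (τ : Q →L[ℂ] ℂ) (hτ : ∀ x y, τ (x * y) = τ (y * x)) (L : Fin N → Set Q)
    (m m' : Fin N → Q) (y : Q) (δ : Fin N → ℝ) (hm : ∀ i, ‖m i‖ ≤ 1) (hm' : ∀ i, ‖m' i‖ ≤ 1)
    (hy : ‖y‖ ≤ 1) (hyL : ∀ i, ∀ x ∈ L i, Commute y x)
    (hc : ∀ i j, i ≠ j → ∀ x ∈ L i, Commute (m j) x ∧ Commute (m' j) x)
    (h : ∀ i z, ‖z‖ ≤ 1 → (∀ x ∈ L i, Commute z x) → ‖τ (z * (m i - m' i))‖ ≤ δ i) :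
    ‖τ (y * oprod m) - τ (y * oprod m')‖ ≤ ∑ i, δ i := by
  induction N generalizing y with
  | zero => simp [oprodA_zero]
  | succ N ih =>
    rw [oprodA_succ m, oprodA_succ m', Fin.sum_univ_succ]
    have hP : ‖oprod fun i : Fin N => m i.succ‖ ≤ 1 := norm_oprod_le fun i => hm _
    have h1 := h 0 ((oprod fun i : Fin N => m i.succ) * y)
      ((norm_mul_le _ _).trans (mul_le_one₀ hP (norm_nonneg _) hy))
      fun x hx => (commute_oprod fun i : Fin N =>
        (hc 0 i.succ (Fin.succ_ne_zero i).symm x hx).1).mul_left (hyL 0 x hx)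
    have h2 := ih (fun i : Fin N => L i.succ) (fun i => m i.succ) (fun i => m' i.succ) (y * m' 0)
      (fun i => δ i.succ) (fun i => hm _) (fun i => hm' _)
      ((norm_mul_le _ _).trans (mul_le_one₀ hy (norm_nonneg _) (hm' 0)))
      (fun i x hx => (hyL _ x hx).mul_left (hc i.succ 0 (Fin.succ_ne_zero i) x hx).2)
      (fun i j hij x hx => hc _ _ (fun e => hij (Fin.succ_injective _ e)) x hx)
      (fun i z hz hzL => h _ z hz hzL)
    have e1 : τ ((oprod fun i : Fin N => m i.succ) * y * (m 0 - m' 0)) =
        τ (y * (m 0 * oprod fun i : Fin N => m i.succ)) -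
          τ (y * m' 0 * oprod fun i : Fin N => m i.succ) := by
      rw [mul_assoc, hτ, ← map_sub]
      congr 1
      noncomm_ring
    have e2 : τ (y * (m 0 * oprod fun i : Fin N => m i.succ)) -
        τ (y * (m' 0 * oprod fun i : Fin N => m' i.succ)) =
        τ ((oprod fun i : Fin N => m i.succ) * y * (m 0 - m' 0)) +
        (τ (y * m' 0 * oprod fun i : Fin N => m i.succ) -
          τ (y * m' 0 * oprod fun i : Fin N => m' i.succ)) := by
      rw [e1, mul_assoc y (m' 0) (oprod fun i : Fin N => m' i.succ)]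
      ring
    rw [e2]
    exact (norm_add_le _ _).trans (add_le_add h1 h2)

end Vale.Agent.P095
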