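import Vale.Agent.P095.Basic

/-! P095: ping-pong in `SL_2(Z)`. See skel/P095/BLUEPRINT.md. -/

namespace Vale.Agent.P095

open Filter Topology Vale.Agent.P101 Vale.Agent.P101.F
open scoped ComplexOrder

universe u v w

lemma pingA_disj (x : Matrix.SpecialLinearGroup (Fin 2) ℤ) {i j : ℤ} (h : i ≠ j)
    (hi : |x 0 0 + 3 * i * x 1 0| ≤ |x 1 0|) (hj : |x 0 0 + 3 * j * x 1 0| ≤ |x 1 0|) : False := by
  have h1 := (abs_sub _ _).trans (add_le_add hi hj)
  rw [show x 0 0 + 3 * i * x 1 0 - (x 0 0 + 3 * j * x 1 0) = 3 * ((i - j) * x 1 0) by ring,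
    abs_mul, abs_mul] at h1
  have h2 := mul_le_mul_of_nonneg_right (Int.one_le_abs (sub_ne_zero.2 h)) (abs_nonneg (x 1 0))
  have h3 : x 1 0 = 0 := abs_nonpos_iff.1 (by rw [abs_of_pos (by norm_num : (0 : ℤ) < 3)] at h1; omega)
  have h4 := x.det_coe
  rw [Matrix.det_fin_two] at h4
  simp only [h3, mul_zero, add_zero, abs_zero, abs_nonpos_iff] at hi
  simp [h3, hi] at h4

lemma pingA_res : ResFin (Matrix.SpecialLinearGroup (Fin 2) ℤ) := by
  intro S
  obtain ⟨N, hN⟩ := ((S ×ˢ S ×ˢ (Finset.univ : Finset (Fin 2 × Fin 2))).image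
    fun p => (p.1 p.2.2.1 p.2.2.2 - p.2.1 p.2.2.1 p.2.2.2).natAbs).exists_le
  refine ⟨Matrix.SpecialLinearGroup (Fin 2) (ZMod (N + 1)), inferInstance, inferInstance,
    Matrix.SpecialLinearGroup.map (Int.castRingHom _), fun x hx y hy h => ?_⟩
  ext i j
  have h1 : ((y i j : ℤ) : ZMod (N + 1)) = (x i j : ℤ) := (congrArg (fun z => z i j) h).symm
  have h2 := hN _ (Finset.mem_image_of_mem _ (show (x, y, i, j) ∈ _ by simpa using ⟨hx, hy⟩))
  exact sub_eq_zero.1 (Int.eq_zero_of_abs_lt_dvd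
    ((ZMod.intCast_eq_intCast_iff_dvd_sub _ _ _).1 h1) (by rw [Int.abs_eq_natAbs]; dsimp only at h2; omega))

lemma pingA_map (a : ℤ) : ∃ g : Matrix.SpecialLinearGroup (Fin 2) ℤ,
    ∀ x : Matrix.SpecialLinearGroup (Fin 2) ℤ, (g * x) 0 0 = a * x 0 0 + (a * a - 1) * x 1 0 ∧
      (g * x) 1 0 = x 0 0 + a * x 1 0 :=
  ⟨⟨!![a, a * a - 1; 1, a], by simp [Matrix.det_fin_two]⟩, fun x =>
    ⟨(Matrix.mul_apply (M := !![a, a * a - 1; 1, a]) (N := x.1)).trans (by simp),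
      (Matrix.mul_apply (M := !![a, a * a - 1; 1, a]) (N := x.1)).trans (by simp)⟩⟩

theorem exists_ping (J : Type) [Finite J] : ∃ (Γ : Type) (_ : Group Γ) (g : J → Γ)
    (Up Um : J → Set Γ), Ping g Up Um ∧ ResFin Γ := by
  obtain ⟨e, he⟩ := exists_injective_nat J
  have he' : ∀ i j, i ≠ j → (e i : ℤ) ≠ e j := fun i j h h' => h (he (Nat.cast_injective h'))
  choose g hg using pingA_map
  refine ⟨Matrix.SpecialLinearGroup (Fin 2) ℤ, inferInstance, fun j => g (3 * e j),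
    fun j => {x | |x 0 0 + 3 * (-e j) * x 1 0| ≤ |x 1 0|},
    fun j => {x | |x 0 0 + 3 * e j * x 1 0| ≤ |x 1 0|},
    ⟨fun i j h => Set.disjoint_left.2 fun x => pingA_disj x (neg_injective.ne (he' i j h)),
      fun i j h => Set.disjoint_left.2 fun x => pingA_disj x (he' i j h), fun i x hx => ?_⟩,
    pingA_res⟩
  rw [Set.mem_ofPred_eq, (hg _ x).1, (hg _ x).2]
  refine le_trans (le_of_eq ?_) (not_le.1 hx).le
  rw [← abs_neg]
  congr 1
  ring

end Vale.Agent.P095
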