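import Vale.Agent.P095.Oprod

/-! P095: the averaged estimate behind the fingerprints. See skel/P095/BLUEPRINT.md. -/

namespace Vale.Agent.P095

open Filter Topology Vale.Agent.P101 Vale.Agent.P101.F
open scoped ComplexOrder

universe u v w

variable {Q : Type u} [CStarAlgebra Q]

/-- the even part of `rot t h * rot (-t) h'` -/
noncomputable def printEst_mt (t : ℝ) (h h' : Q) : Q :=
  ((Real.cos t ^ 2 : ℝ) : ℂ) • (1 : Q) + ((Real.sin t ^ 2 : ℝ) : ℂ) • (h * h')

theorem printEst_sub (t : ℝ) (h h' : Q) :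
    rot t h * rot (-t) h' - printEst_mt t h h' =
      (((Real.sin t * Real.cos t : ℝ) : ℂ) * Complex.I) • (h - h') := by
  have hI : Complex.I * Complex.I = -1 := Complex.I_mul_I
  simp only [rot, printEst_mt, Real.cos_neg, Real.sin_neg, add_mul, mul_add, smul_mul_assoc,
    mul_smul_comm, one_mul, mul_one, smul_smul, smul_add, smul_sub]
  match_scalars
  · ring
  · ring
  · ring
  · linear_combination (-(Complex.sin t) ^ 2) * hI

theorem printEst_norm_mt {h h' : Q} (hh : Symm h) (hh' : Symm h') (t : ℝ) :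
    ‖printEst_mt t h h'‖ ≤ 1 := by
  have h1 : ‖(1 : Q)‖ ≤ 1 := Symm.norm_le ⟨star_one Q, one_mul 1⟩
  have h2 : ‖h * h'‖ ≤ 1 := (norm_mul_le _ _).trans (mul_le_one₀ hh.norm_le (norm_nonneg _)
    hh'.norm_le)
  have h3 := Real.cos_sq_add_sin_sq t
  calc ‖printEst_mt t h h'‖ ≤ ‖((Real.cos t ^ 2 : ℝ) : ℂ) • (1 : Q)‖ +
        ‖((Real.sin t ^ 2 : ℝ) : ℂ) • (h * h')‖ := norm_add_le _ _
    _ = Real.cos t ^ 2 * ‖(1 : Q)‖ + Real.sin t ^ 2 * ‖h * h'‖ := by
        rw [norm_smul, norm_smul, Complex.norm_real, Complex.norm_real,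
          Real.norm_of_nonneg (sq_nonneg _), Real.norm_of_nonneg (sq_nonneg _)]
    _ ≤ Real.cos t ^ 2 * 1 + Real.sin t ^ 2 * 1 := by gcongr
    _ = 1 := by linarith

theorem printEst_mt_star {h h' : Q} (hh : Symm h) (hh' : Symm h') (t : ℝ) :
    printEst_mt t h h' * star (printEst_mt t h h') =
      1 - (((Real.cos t * Real.sin t) ^ 2 : ℝ) : ℂ) • (h - h') ^ 2 := by
  have h3 : (Complex.cos t) ^ 2 + (Complex.sin t) ^ 2 = 1 := Complex.cos_sq_add_sin_sq t
  have e1 : h * h' * (h' * h) = 1 := by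
    rw [mul_assoc, ← mul_assoc h', hh'.sq, one_mul, hh.sq]
  have e2 : (h - h') ^ 2 = (2 : ℂ) • (1 : Q) - h * h' - h' * h := by
    rw [sq, sub_mul, mul_sub, mul_sub, hh.sq, hh'.sq, two_smul]; abel
  have e3 : star (printEst_mt t h h') =
      ((Real.cos t ^ 2 : ℝ) : ℂ) • (1 : Q) + ((Real.sin t ^ 2 : ℝ) : ℂ) • (h' * h) := by
    rw [printEst_mt, star_add, star_smul, star_smul, star_one, star_mul, hh.sa, hh'.sa,
      Complex.star_def, Complex.conj_ofReal, Complex.conj_ofReal]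
  rw [e3, e2]
  simp only [printEst_mt, add_mul, mul_add, smul_mul_assoc, mul_smul_comm, one_mul, mul_one,
    e1]
  match_scalars
  · linear_combination ((Complex.cos t) ^ 2 + (Complex.sin t) ^ 2 + 1) * h3
  · ring
  · ring

theorem printEst_commute_mt {h h' y : Q} (h1 : Commute h y) (h2 : Commute h' y) (t : ℝ) :
    Commute (printEst_mt t h h') y :=
  (((Commute.one_left y).smul_left _).add_left ((h1.mul_left h2).smul_left _))

theorem printEst_norm_sub {h h' : Q} (hh : Symm h) (hh' : Symm h') : ‖h - h'‖ ≤ 2 := by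
  have := norm_sub_le h h'
  linarith [hh.norm_le, hh'.norm_le]

theorem printEst_hyb {τ : Q →L[ℂ] ℂ} (hτ : IsTr τ) {N : ℕ} (h k h' k' : Fin N → Q)
    (hp : ∀ i, Pair (h i) (k i)) (hp' : ∀ i, Pair (h' i) (k' i))
    (hc : ∀ i j, i ≠ j → ∀ x ∈ ({h i, k i, h' i, k' i} : Set Q),
      ∀ y ∈ ({h j, k j, h' j, k' j} : Set Q), Commute x y) (t : ℝ) {ε : ℝ}
    (hs : |Real.sin t| ≤ ε) (j : Fin N) :
    ‖τ ((h j - h' j) ^ 2 * oprod fun i => rot t (h i) * rot (-t) (h' i)) -
      τ ((h j - h' j) ^ 2 * oprod fun i => printEst_mt t (h i) (h' i))‖ ≤ 8 * ε := by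
  classical
  have hch : ∀ i j, i ≠ j → ∀ y ∈ ({h j, k j, h' j, k' j} : Set Q), Commute (h i) y :=
    fun i j hij y hy => hc i j hij _ (by simp) y hy
  have hch' : ∀ i j, i ≠ j → ∀ y ∈ ({h j, k j, h' j, k' j} : Set Q), Commute (h' i) y :=
    fun i j hij y hy => hc i j hij _ (by simp) y hy
  have hd := printEst_norm_sub (hp j).fst (hp' j).fst
  have key := hybrid τ hτ.trace
    (fun i => if i = j then ∅ else ({h i, k i, h' i, k' i} : Set Q))
    (fun i => rot t (h i) * rot (-t) (h' i)) (fun i => printEst_mt t (h i) (h' i))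
    ((4⁻¹ : ℂ) • (h j - h' j) ^ 2) (fun i => if i = j then 2 * ε else 0)
    (fun i => (norm_mul_le _ _).trans (mul_le_one₀ (norm_rot_le (hp i).fst t) (norm_nonneg _)
      (norm_rot_le (hp' i).fst _)))
    (fun i => printEst_norm_mt (hp i).fst (hp' i).fst t)
    (by
      have h1 : ‖(h j - h' j) ^ 2‖ ≤ 4 := by
        rw [sq]
        refine (norm_mul_le _ _).trans ?_
        nlinarith [norm_nonneg (h j - h' j)]
      rw [norm_smul]
      have h2 : ‖(4⁻¹ : ℂ)‖ = 4⁻¹ := by simp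
      rw [h2]
      linarith)
    (by
      intro i x hx
      by_cases hij : i = j
      · simp [hij] at hx
      · rw [if_neg hij] at hx
        exact (((hch j i (Ne.symm hij) x hx).sub_left
          (hch' j i (Ne.symm hij) x hx)).pow_left 2).smul_left _)
    (by
      intro i l hil x hx
      by_cases hij : i = j
      · simp [hij] at hx
      · rw [if_neg hij] at hx
        exact ⟨(commute_rot (hch l i hil.symm x hx) t).mul_left
          (commute_rot (hch' l i hil.symm x hx) _),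
          printEst_commute_mt (hch l i hil.symm x hx) (hch' l i hil.symm x hx) t⟩)
    (by
      intro i z hz hzc
      rw [printEst_sub]
      by_cases hij : i = j
      · rw [if_pos hij, hij]
        refine (hτ.norm_apply_le _).trans ((norm_mul_le _ _).trans ?_)
        have h1 : ‖(((Real.sin t * Real.cos t : ℝ) : ℂ) * Complex.I)‖ ≤ ε := by
          rw [norm_mul, Complex.norm_I, mul_one, Complex.norm_real, Real.norm_eq_abs, abs_mul]
          exact (mul_le_of_le_one_right (abs_nonneg _) (Real.abs_cos_le_one t)).trans hs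
        have h0 : 0 ≤ ε := (abs_nonneg _).trans hs
        calc ‖z‖ * ‖(((Real.sin t * Real.cos t : ℝ) : ℂ) * Complex.I) • (h j - h' j)‖
            ≤ 1 * (ε * 2) := by
              rw [norm_smul]
              gcongr
          _ = 2 * ε := by ring
      · simp only [if_neg hij] at hzc ⊢
        rw [mul_smul_comm, map_smul, mul_sub, map_sub,
          center τ hτ.trace (hp i) (hzc _ (by simp)),
          center τ hτ.trace (hp' i) (hzc _ (by simp))]
        simp)
  rw [Finset.sum_ite_eq' Finset.univ j, if_pos (Finset.mem_univ j), smul_mul_assoc,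
    smul_mul_assoc, map_smul, map_smul, ← smul_sub, norm_smul] at key
  have h2 : ‖(4⁻¹ : ℂ)‖ = 4⁻¹ := by simp
  rw [h2] at key
  linarith

theorem printEst_sum {τ : Q →L[ℂ] ℂ} (hτ : IsTr τ) {N : ℕ} (h h' : Fin N → Q)
    (hp : ∀ i, Symm (h i)) (hp' : ∀ i, Symm (h' i))
    (hc : ∀ i j, i ≠ j → ∀ x ∈ ({h i, h' i} : Set Q),
      ∀ y ∈ ({h j, h' j} : Set Q), Commute x y) (t : ℝ) :
    (Real.cos t * Real.sin t) ^ 2 *
      ∑ j, nrm τ ((h j - h' j) * oprod fun i => printEst_mt t (h i) (h' i)) ^ 2 ≤ 1 := by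
  set κ : ℝ := (Real.cos t * Real.sin t) ^ 2 with hκ
  have hκ0 : 0 ≤ κ := sq_nonneg _
  have hsa : ∀ i, star (h i - h' i) = h i - h' i := fun i => by
    rw [star_sub, (hp i).sa, (hp' i).sa]
  have c1 : ∀ i j, i ≠ j → ∀ y ∈ ({h j, h' j} : Set Q),
      Commute (printEst_mt t (h i) (h' i)) y := fun i j hij y hy =>
    printEst_commute_mt (hc i j hij _ (by simp) y hy) (hc i j hij _ (by simp) y hy) t
  have c2 : ∀ i j, i ≠ j → Commute (printEst_mt t (h i) (h' i)) (printEst_mt t (h j) (h' j)) :=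
    fun i j hij => (printEst_commute_mt (c1 i j hij _ (by simp)).symm
      (c1 i j hij _ (by simp)).symm t).symm
  have c3 : ∀ i j, i ≠ j →
      Commute (printEst_mt t (h i) (h' i)) (star (printEst_mt t (h j) (h' j))) := by
    intro i j hij
    have e3 : star (printEst_mt t (h j) (h' j)) = printEst_mt t (h' j) (h j) := by
      rw [printEst_mt, printEst_mt, star_add, star_smul, star_smul, star_one, star_mul,
        (hp j).sa, (hp' j).sa, Complex.star_def, Complex.conj_ofReal, Complex.conj_ofReal]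
    rw [e3]
    exact (printEst_commute_mt (c1 i j hij _ (by simp)).symm
      (c1 i j hij _ (by simp)).symm t).symm
  have hM : oprod (fun i => printEst_mt t (h i) (h' i)) *
      star (oprod fun i => printEst_mt t (h i) (h' i)) =
      oprod fun i => 1 - (κ : ℂ) • (h i - h' i) ^ 2 := by
    rw [star_oprod c2, oprod_mul c3]
    exact congrArg oprod (funext fun i => printEst_mt_star (hp i) (hp' i) t)
  have w0 : ∀ i, 0 ≤ (κ : ℂ) • (h i - h' i) ^ 2 := by
    intro i
    have e : (κ : ℂ) • (h i - h' i) ^ 2 =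
        star (((Real.cos t * Real.sin t : ℝ) : ℂ) • (h i - h' i)) *
          (((Real.cos t * Real.sin t : ℝ) : ℂ) • (h i - h' i)) := by
      rw [star_smul, hsa, Complex.star_def, Complex.conj_ofReal, smul_mul_smul_comm, ← sq, ← sq,
        hκ, Complex.ofReal_pow]
    rw [e]
    exact star_mul_self_nonneg _
  have w1 : ∀ i, (κ : ℂ) • (h i - h' i) ^ 2 ≤ 1 := by
    intro i
    rw [← sub_nonneg, ← printEst_mt_star (hp i) (hp' i) t]
    exact mul_star_self_nonneg _
  have wc : ∀ i j, Commute ((κ : ℂ) • (h i - h' i) ^ 2) ((κ : ℂ) • (h j - h' j) ^ 2) := by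
    intro i j
    by_cases hij : i = j
    · rw [hij]
    · refine (Commute.pow_pow ?_ 2 2).smul_left _ |>.smul_right _
      exact ((hc i j hij _ (by simp) _ (by simp)).sub_right
        (hc i j hij _ (by simp) _ (by simp))).sub_left
        ((hc i j hij _ (by simp) _ (by simp)).sub_right (hc i j hij _ (by simp) _ (by simp)))
  have key := hτ.re_mono (sum_mul_oprod_le w0 w1 wc)
  have h1 : (τ 1).re ≤ 1 := (Complex.re_le_norm _).trans ((hτ.norm_apply_le _).trans
    (Symm.norm_le ⟨star_one Q, one_mul 1⟩))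
  refine le_trans (le_of_eq ?_) (key.trans h1)
  rw [← hM, Finset.sum_mul, map_sum, Complex.re_sum, Finset.mul_sum]
  refine Finset.sum_congr rfl fun j _ => ?_
  rw [hτ.nrm_sq, smul_mul_assoc, map_smul, smul_eq_mul, Complex.re_ofReal_mul, star_mul, hsa,
    mul_assoc, hτ.trace, sq]
  simp only [mul_assoc]

theorem print_est {τ : Q →L[ℂ] ℂ} (hτ : IsTr τ) {N : ℕ} (hN : 0 < N) (h k h' k' : Fin N → Q)
    (hp : ∀ i, Pair (h i) (k i)) (hp' : ∀ i, Pair (h' i) (k' i))
    (hc : ∀ i j, i ≠ j → ∀ x ∈ ({h i, k i, h' i, k' i} : Set Q),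
      ∀ y ∈ ({h j, k j, h' j, k' j} : Set Q), Commute x y) (t : ℝ) {ε : ℝ} (hε : 0 < ε)
    (hs : |Real.sin t| ≤ ε) (hκ : 1 ≤ ε ^ 2 * (N * (Real.cos t * Real.sin t) ^ 2)) :
    ‖(N : ℂ)⁻¹ * ∑ j, τ ((h j - h' j) ^ 2 * oprod fun i => rot t (h i) * rot (-t) (h' i))‖ ≤
      10 * ε := by
  have hN' : (0 : ℝ) < N := Nat.cast_pos.2 hN
  have hsub : ∀ i, ∀ x ∈ ({h i, h' i} : Set Q), x ∈ ({h i, k i, h' i, k' i} : Set Q) := by
    intro i x hx
    rcases hx with rfl | rfl <;> simp
  have hS := printEst_sum hτ h h' (fun i => (hp i).fst) (fun i => (hp' i).fst)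
    (fun i j hij x hx y hy => hc i j hij x (hsub i x hx) y (hsub j y hy)) t
  set a : Fin N → ℝ := fun j =>
    nrm τ ((h j - h' j) * oprod fun i => printEst_mt t (h i) (h' i)) with ha
  have a0 : ∀ j, 0 ≤ a j := fun j => nrm_nonneg _ _
  have h1 : ∀ j, ‖τ ((h j - h' j) ^ 2 * oprod fun i => rot t (h i) * rot (-t) (h' i))‖ ≤
      8 * ε + 2 * a j := by
    intro j
    have e1 := printEst_hyb hτ h k h' k' hp hp' hc t hs j
    have e2 : ‖τ ((h j - h' j) ^ 2 * oprod fun i => printEst_mt t (h i) (h' i))‖ ≤ 2 * a j := by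
      have hsa : star (h j - h' j) = h j - h' j := by
        rw [star_sub, (hp j).fst.sa, (hp' j).fst.sa]
      have e3 := hτ.cs (h j - h' j) ((h j - h' j) * oprod fun i => printEst_mt t (h i) (h' i))
      rw [hsa, ← mul_assoc, ← sq] at e3
      refine e3.trans (mul_le_mul_of_nonneg_right ?_ (a0 j))
      exact (hτ.nrm_le_norm _).trans (printEst_norm_sub (hp j).fst (hp' j).fst)
    have e4 := norm_le_insert'
      (τ ((h j - h' j) ^ 2 * oprod fun i => rot t (h i) * rot (-t) (h' i)))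
      (τ ((h j - h' j) ^ 2 * oprod fun i => printEst_mt t (h i) (h' i)))
    linarith
  have h2 : ∑ j, a j ≤ ε * N := by
    have e1 : (∑ j, a j) ^ 2 ≤ N * ∑ j, a j ^ 2 := by
      simpa using sq_sum_le_card_mul_sum_sq (s := Finset.univ) (f := a)
    have e2 : 0 ≤ ∑ j, a j ^ 2 := Finset.sum_nonneg fun j _ => sq_nonneg _
    have e3 : ∑ j, a j ^ 2 ≤ ε ^ 2 * N := by
      calc ∑ j, a j ^ 2 = 1 * ∑ j, a j ^ 2 := (one_mul _).symm
        _ ≤ ε ^ 2 * (N * (Real.cos t * Real.sin t) ^ 2) * ∑ j, a j ^ 2 := by gcongr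
        _ = ε ^ 2 * N * ((Real.cos t * Real.sin t) ^ 2 * ∑ j, a j ^ 2) := by ring
        _ ≤ ε ^ 2 * N * 1 := by gcongr
        _ = ε ^ 2 * N := mul_one _
    refine abs_le_of_sq_le_sq' ?_ (by positivity) |>.2
    calc (∑ j, a j) ^ 2 ≤ N * ∑ j, a j ^ 2 := e1
      _ ≤ N * (ε ^ 2 * N) := by gcongr
      _ = (ε * N) ^ 2 := by ring
  rw [norm_mul, norm_inv, Complex.norm_natCast, inv_mul_le_iff₀ hN']
  calc ‖∑ j, τ ((h j - h' j) ^ 2 * oprod fun i => rot t (h i) * rot (-t) (h' i))‖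
      ≤ ∑ j, (8 * ε + 2 * a j) := norm_sum_le_of_le _ fun j _ => h1 j
    _ = N * (8 * ε) + 2 * ∑ j, a j := by
        rw [Finset.sum_add_distrib, ← Finset.mul_sum Finset.univ a]; simp
    _ ≤ N * (10 * ε) := by nlinarith

end Vale.Agent.P095
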