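import Vale.Agent.P095.Gamma
import Vale.Agent.P095.Expand
import Vale.Agent.P095.PrintEst

/-! P095: a pair together with unitary fingerprints. See skel/P095/BLUEPRINT.md. -/

namespace Vale.Agent.P095

open Filter Topology Vale.Agent.P101 Vale.Agent.P101.F
open scoped ComplexOrder

universe u v w

variable {Q : Type u} [CStarAlgebra Q] {G : Type v} [Group G]
variable {α : G →* (Q ≃⋆ₐ[ℂ] Q)} {T : Set (Q →L[ℂ] ℂ)}

section Aux

variable {N : ℕ} {L : Fin N → Set Q} {τ : Q →L[ℂ] ℂ} {u v : Fin N → Q} {p : Fin N → Q}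

theorem prints_norm {W : Q} (hW : W ∈ unitary Q) : ‖W‖ ≤ 1 := by
  rcases subsingleton_or_nontrivial Q with h | h
  · rw [Subsingleton.elim W 0, norm_zero]
    exact zero_le_one
  · exact (CStarRing.norm_of_mem_unitary hW).le

theorem prints_rr {x y : Q} (h : Commute x y) (s t : ℝ) : Commute (rot s x) (rot t y) :=
  commute_rot (commute_rot h.symm t).symm s

theorem prints_nrm_unitary (hτ : IsTr τ) {W : Q} (hW : W ∈ unitary Q) :
    nrm τ (W - 1) ^ 2 ≤ 2 * ‖τ W - τ 1‖ := by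
  have e : star (W - 1) * (W - 1) = (1 - W) + star (1 - W) := by
    rw [star_sub, star_sub, star_one, sub_mul, mul_sub, mul_sub, (Unitary.mem_iff.1 hW).1]
    simp only [mul_one, one_mul]
    abel
  rw [hτ.nrm_sq, e, map_add, hτ.map_star', Complex.add_re, Complex.star_def, Complex.conj_re,
    norm_sub_rev, ← map_sub]
  linarith [Complex.re_le_norm (τ (1 - W))]

variable (hL : ∀ i j, i ≠ j → ∀ x ∈ L i, ∀ y ∈ L j, Commute x y)
include hL

theorem prints_star (hu : ∀ i, Symm (u i)) (hu' : ∀ i, u i ∈ L i) (t : ℝ) :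
    star (oprod fun i => rot t (u i)) = oprod fun i => rot (-t) (u i) := by
  rw [star_oprod fun i j h => prints_rr (hL i j h _ (hu' i) _ (hu' j)) t t]
  simp only [star_rot (hu _)]

theorem prints_pow (hu : ∀ i, Symm (u i)) (hu' : ∀ i, u i ∈ L i) (t : ℝ) (n : ℕ) :
    (oprod fun i => rot t (u i)) ^ n = oprod fun i => rot (n * t) (u i) := by
  rw [oprod_pow fun i j h => prints_rr (hL i j h _ (hu' i) _ (hu' j)) t t]
  simp only [rot_pow (hu _)]

theorem prints_zz (hτ : IsTr τ) (hu : ∀ i, Symm (u i)) (hu' : ∀ i, u i ∈ L i)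
    (hv : ∀ i, Symm (v i)) (hv' : ∀ i, v i ∈ L i) {t : ℝ} (h0 : 0 ≤ t) (h1 : t ≤ 1) :
    nrm τ ((oprod fun i => rot t (u i)) * (oprod fun i => rot t (v i)) -
      (oprod fun i => rot t (v i)) * oprod fun i => rot t (u i)) ^ 2 ≤ 64 * (N * t ^ 3) := by
  have hU : (oprod fun i => rot t (u i)) ∈ unitary Q :=
    oprod_mem_unitary fun i => rot_mem_unitary (hu i) t
  have hV : (oprod fun i => rot t (v i)) ∈ unitary Q :=
    oprod_mem_unitary fun i => rot_mem_unitary (hv i) t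
  have hm : ∀ i, star (rot t (u i)) * star (rot t (v i)) * rot t (u i) * rot t (v i) ∈ unitary Q :=
    fun i => mul_mem (mul_mem (mul_mem (Unitary.star_mem (rot_mem_unitary (hu i) t))
      (Unitary.star_mem (rot_mem_unitary (hv i) t))) (rot_mem_unitary (hu i) t))
      (rot_mem_unitary (hv i) t)
  have c : ∀ {w : Fin N → Q}, (∀ i, w i ∈ L i) → ∀ s i j, i ≠ j → ∀ x ∈ L i,
      Commute (rot s (w j)) x := fun hw s i j h x hx => commute_rot (hL j i h.symm _ (hw j) x hx) s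
  have d : ∀ {w w' : Fin N → Q}, (∀ i, w i ∈ L i) → (∀ i, w' i ∈ L i) → ∀ s s' i j, i ≠ j →
      Commute (rot s (w i)) (rot s' (w' j)) := fun hw hw' s s' i j h =>
    prints_rr (hL i j h _ (hw i) _ (hw' j)) s s'
  have e : star (oprod fun i => rot t (u i)) * star (oprod fun i => rot t (v i)) *
      (oprod fun i => rot t (u i)) * (oprod fun i => rot t (v i)) = oprod fun i =>
      star (rot t (u i)) * star (rot t (v i)) * rot t (u i) * rot t (v i) := by
    rw [prints_star hL hu hu', prints_star hL hv hv', oprod_mul (d hu' hv' _ _),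
      oprod_mul fun i j h => (d hu' hu' _ _ i j h).mul_left (d hv' hu' _ _ i j h),
      oprod_mul fun i j h => ((d hu' hv' _ _ i j h).mul_left (d hv' hv' _ _ i j h)).mul_left
        (d hu' hv' _ _ i j h)]
    simp only [star_rot (hu _), star_rot (hv _)]
  have k := hybrid τ hτ.trace L (fun i =>
      star (rot t (u i)) * star (rot t (v i)) * rot t (u i) * rot t (v i)) (fun _ => 1) 1
    (fun _ => 32 * t ^ 3) (fun i => prints_norm (hm i))
    (fun _ => prints_norm (one_mem _))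
    (prints_norm (one_mem _)) (fun _ x _ => Commute.one_left x)
    (fun i j h x hx => ⟨by
      rw [star_rot (hu j), star_rot (hv j)]
      exact (((c hu' _ i j h x hx).mul_left (c hv' _ i j h x hx)).mul_left
        (c hu' _ i j h x hx)).mul_left (c hv' _ i j h x hx), Commute.one_left x⟩)
    fun i z hz hc => comm_est hτ (hu i) (hv i) hz (hc _ (hu' i)) h0 h1
  rw [one_mul, one_mul, oprod_one, ← e, Finset.sum_const, Finset.card_univ, Fintype.card_fin,
    nsmul_eq_mul] at k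
  generalize (oprod fun i => rot t (u i)) = U at *
  generalize (oprod fun i => rot t (v i)) = V at *
  have e2 : U * V - V * U = V * U * (star U * star V * U * V - 1) := by
    rw [mul_sub, mul_one]
    simp only [← mul_assoc]
    rw [mul_assoc V U, (Unitary.mem_iff.1 hU).2, mul_one, (Unitary.mem_iff.1 hV).2, one_mul]
  have k2 := prints_nrm_unitary hτ (mul_mem (mul_mem (mul_mem (Unitary.star_mem hU)
    (Unitary.star_mem hV)) hU) hV)
  have k3 : nrm τ (U * V - V * U) ≤ nrm τ (star U * star V * U * V - 1) := by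
    rw [e2]
    exact (hτ.nrm_mul_left _ _).trans (mul_le_of_le_one_left (nrm_nonneg _ _)
      (prints_norm (mul_mem hV hU)))
  have k4 := pow_le_pow_left₀ (nrm_nonneg _ _) k3 2
  linarith

theorem prints_haar (hτ : IsTr τ) (hp : ∀ i, Pair (u i) (v i)) (hu' : ∀ i, u i ∈ L i)
    (hv' : ∀ i, v i ∈ L i) (s : ℝ) : ‖τ (oprod fun i => rot s (u i))‖ ≤ |Real.cos s| ^ N := by
  have h1 : ‖(1 : Q)‖ ≤ 1 := prints_norm (one_mem _)
  have hc : ‖((Real.cos s : ℝ) : ℂ)‖ = |Real.cos s| := by rw [Complex.norm_real, Real.norm_eq_abs]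
  have k := hybrid τ hτ.trace L (fun i => rot s (u i)) (fun _ => ((Real.cos s : ℝ) : ℂ) • (1 : Q)) 1
    (fun _ => 0) (fun i => norm_rot_le (hp i).fst s)
    (fun _ => by
      rw [norm_smul, hc]
      exact mul_le_one₀ (Real.abs_cos_le_one s) (norm_nonneg _) h1)
    h1 (fun _ x _ => Commute.one_left x)
    (fun i j h x hx => ⟨commute_rot (hL j i h.symm _ (hu' j) x hx) s,
      (Commute.one_left x).smul_left _⟩)
    fun i z _ hz => by
      rw [rot, add_sub_cancel_left, mul_smul_comm, map_smul,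
        center τ hτ.trace (hp i) (hz _ (hv' i)), smul_zero, norm_zero]
  rw [one_mul, one_mul, Finset.sum_const_zero, norm_le_zero_iff, sub_eq_zero, oprod_smul_one] at k
  rw [k, map_smul, norm_smul, norm_pow, hc]
  exact mul_le_of_le_one_right (by positivity) ((hτ.norm_apply_le 1).trans h1)

theorem prints_zh (hu : ∀ i, Symm (u i)) (hu' : ∀ i, u i ∈ L i) (hv : ∀ i, Symm (v i))
    (hv' : ∀ i, v i ∈ L i) (hp : Part p) (hpu : ∀ i j, Commute (p i) (u j))
    (hpv : ∀ i j, Commute (p i) (v j)) (t : ℝ) :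
    ‖(oprod fun i => rot t (u i)) * ∑ j, p j * v j -
      (∑ j, p j * v j) * oprod fun i => rot t (u i)‖ ≤ 2 * |t| := by
  have hU : ∀ j, Commute (oprod fun i => rot t (u i)) (p j) := fun j =>
    commute_oprod fun i => commute_rot (hpu j i).symm t
  have e : (oprod fun i => rot t (u i)) * ∑ j, p j * v j -
      (∑ j, p j * v j) * oprod (fun i => rot t (u i)) = ∑ j, p j *
        ((oprod fun i => rot t (u i)) * v j - v j * oprod fun i => rot t (u i)) := by
    rw [Finset.mul_sum, Finset.sum_mul, ← Finset.sum_sub_distrib]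
    refine Finset.sum_congr rfl fun j _ => ?_
    rw [mul_sub, ← mul_assoc, (hU j).eq, mul_assoc, mul_assoc]
  rw [e]
  refine hp.norm_sum_le _ (by positivity) (fun j => ?_) fun j =>
    ((hU j).symm.mul_right (hpv j j)).sub_right ((hpv j j).mul_right (hU j).symm)
  rw [oprod_eq_mul (fun i j h => prints_rr (hL i j h _ (hu' i) _ (hu' j)) t t) j]
  have h1 : Commute (oprod (Function.update (fun i => rot t (u i)) j 1)) (v j) :=
    commute_oprod fun i => by
      by_cases h : i = j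
      · subst h
        rw [Function.update_self]
        exact Commute.one_left _
      · rw [Function.update_of_ne h]
        exact commute_rot (hL i j h _ (hu' i) _ (hv' j)) t
  have h2 : ‖oprod (Function.update (fun i => rot t (u i)) j 1)‖ ≤ 1 :=
    norm_oprod_le fun i => by
      by_cases h : i = j
      · subst h
        rw [Function.update_self]
        exact prints_norm (one_mem _)
      · rw [Function.update_of_ne h]
        exact norm_rot_le (hu i) t
  generalize oprod (Function.update (fun i => rot t (u i)) j 1) = W at *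
  have e2 : W * rot t (u j) * v j - v j * (W * rot t (u j)) =
      W * ((rot t (u j) - 1) * v j - v j * (rot t (u j) - 1)) := by
    rw [← mul_assoc (v j), ← h1.eq]
    noncomm_ring
  rw [e2]
  have h3 := norm_rot_sub_one (hu j) t
  have h4 := (hv j).norm_le
  refine (norm_mul_le _ _).trans ((mul_le_of_le_one_left (norm_nonneg _) h2).trans
    ((norm_sub_le _ _).trans ?_))
  have h5 := (norm_mul_le (rot t (u j) - 1) (v j)).trans
    (mul_le_of_le_one_right (norm_nonneg _) h4)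
  have h6 := (norm_mul_le (v j) (rot t (u j) - 1)).trans
    (mul_le_of_le_one_left (norm_nonneg _) h4)
  linarith

theorem prints_last (hτ : IsTr τ) (hu : ∀ i, Symm (u i)) (hu' : ∀ i, u i ∈ L i)
    (hv : ∀ i, Symm (v i)) (hv' : ∀ i, v i ∈ L i) (hp : Part p)
    (hpu : ∀ i j, Commute (p i) (u j)) (hpv : ∀ i j, Commute (p i) (v j)) (t : ℝ) (n : ℕ)
    (hd : ∀ j, τ (((u j - v j) ^ 2 * oprod fun i => rot (n * t) (u i) * rot (-(n * t)) (v i)) *
      p j) = τ ((u j - v j) ^ 2 * oprod fun i => rot (n * t) (u i) * rot (-(n * t)) (v i)) /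
        Fintype.card (Fin N)) :
    τ ((∑ j, p j * u j - ∑ j, p j * v j) ^ 2 *
      ((oprod fun i => rot t (u i)) ^ n * star (oprod fun i => rot t (v i)) ^ n)) =
      (N : ℂ)⁻¹ * ∑ j, τ ((u j - v j) ^ 2 *
        oprod fun i => rot (n * t) (u i) * rot (-(n * t)) (v i)) := by
  rw [prints_star hL hv hv', prints_pow hL hu hu', prints_pow hL hv hv',
    oprod_mul fun i j h => prints_rr (hL i j h _ (hu' i) _ (hv' j)) _ _, ← Finset.sum_sub_distrib]
  simp only [← mul_sub, mul_neg]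
  rw [sq, hp.sum_mul_sum _ _ fun i j => (hpu i j).sub_right (hpv i j), Finset.sum_mul, map_sum,
    Finset.mul_sum]
  refine Finset.sum_congr rfl fun j _ => ?_
  rw [mul_assoc, hτ.trace, ← sq, hd, Fintype.card_fin, div_eq_inv_mul]

end Aux

theorem prints_approx (hT : TSat α T) [Countable G] (hF : Folner G) (n₀ : ℕ) {ε : ℝ}
    (hε : 0 < ε) (hε1 : ε ≤ 1) :
    ∃ h Z : Bool → Q, Pair (h true) (h false) ∧ (∀ b, Z b ∈ unitary Q) ∧
      (∀ g g' b b', ∀ τ ∈ T, nrm τ (α g (Z b) * α g' (Z b') - α g' (Z b') * α g (Z b)) ≤ 10 * ε ∧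
        nrm τ (α g (Z b) * α g' (h b') - α g' (h b') * α g (Z b)) ≤ 10 * ε) ∧
      ∀ b g g', ∀ τ ∈ T, ∀ n : ℕ, 1 ≤ n → n ≤ n₀ → ‖τ (Z b ^ n)‖ ≤ 10 * ε ∧
        ‖τ ((α g (h b) - α g' (h b)) ^ 2 * (α g (Z b) ^ n * star (α g' (Z b)) ^ n))‖ ≤
          10 * ε := by
  obtain ⟨t, N, t0, t1, t2, hN, t3, t4⟩ := exists_param n₀ (pow_pos hε 2)
  have hee : ε ^ 2 ≤ ε := by nlinarith
  obtain ⟨h, k, hhk, -, hL⟩ := hT.layers ∅ Set.countable_empty (Fin N)
  obtain ⟨H, hH1, hH0⟩ : ∃ H : Bool → Fin N → Q, H true = h ∧ H false = k :=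
    ⟨fun b => cond b h k, rfl, rfl⟩
  have hP : ∀ b j, Pair (H b j) (H (!b) j) := fun b j => by
    cases b
    · rw [Bool.not_false, hH1, hH0]
      exact (hhk j).symm
    · rw [Bool.not_true, hH1, hH0]
      exact hhk j
  have hA : ∀ g b j, α g (H b j) ∈ lay α (h j) (k j) := fun g b j => by
    cases b
    · exact ⟨g, Or.inr (by rw [hH0])⟩
    · exact ⟨g, Or.inl (by rw [hH1])⟩
  have hA1 : ∀ b j, H b j ∈ lay α (h j) (k j) := fun b j => act_one α (H b j) ▸ hA 1 b j
  have hS : ∀ g b j, Symm (α g (H b j)) := fun g b j => (hP b j).fst.act g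
  have : Nonempty (Fin N) := ⟨⟨0, hN⟩⟩
  obtain ⟨p, hp, hpα, hpc, hpτ⟩ := hT.exists_gamma hF
    (Set.range (fun x : G × Bool × Fin N => α x.1 (H x.2.1 x.2.2)) ∪
      Set.range fun x : (G × G) × Bool × Fin N × ℕ =>
        (α x.1.1 (H x.2.1 x.2.2.1) - α x.1.2 (H x.2.1 x.2.2.1)) ^ 2 * oprod fun i =>
          rot (x.2.2.2 * t) (α x.1.1 (H x.2.1 i)) * rot (-(x.2.2.2 * t)) (α x.1.2 (H x.2.1 i)))
    ((Set.countable_range _).union (Set.countable_range _)) (Fin N)
  have hc : ∀ g b i j, Commute (p i) (α g (H b j)) := fun g b i j =>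
    hpc i _ (Or.inl ⟨(g, b, j), rfl⟩)
  have hc1 : ∀ b i j, Commute (p i) (H b j) := fun b i j => act_one α (H b j) ▸ hc 1 b i j
  have eZ : ∀ g b, α g (oprod fun j => rot t (H b j)) = oprod fun j => rot t (α g (H b j)) :=
    fun g b => by rw [map_oprod]; simp only [map_rot]
  have eh : ∀ g b, α g (∑ j, p j * H b j) = ∑ j, p j * α g (H b j) := fun g b => by
    simp only [map_sum, map_mul, hpα]
  refine ⟨fun b => ∑ j, p j * H b j, fun b => oprod fun j => rot t (H b j),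
    hp.pair (hP true) fun i j => ⟨hc1 _ i j, hc1 _ i j⟩,
    fun b => oprod_mem_unitary fun j => rot_mem_unitary (hP b j).fst t,
    fun g g' b b' τ hτ => ⟨?_, ?_⟩, fun b g g' τ hτ n hn hn' => ⟨?_, ?_⟩⟩
  · rw [eZ, eZ]
    have := prints_zz hL (hT.tr τ hτ) (hS g b) (hA g b) (hS g' b') (hA g' b') t0.le t2
    exact le_of_sq_le_sq (by nlinarith) (by positivity)
  · rw [eZ, eh]
    have := prints_zh hL (hS g b) (hA g b) (hS g' b') (hA g' b') hp (hc g b) (hc g' b') t
    rw [abs_of_pos t0] at this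
    exact ((hT.tr τ hτ).nrm_le_norm _).trans (by linarith)
  · rw [prints_pow hL (fun j => (hP b j).fst) (hA1 b)]
    have := prints_haar hL (hT.tr τ hτ) (hP b) (hA1 b) (hA1 !b) (n * t)
    linarith [(t4 n hn hn').1]
  · rw [eZ, eZ, eh, eh, prints_last hL (hT.tr τ hτ) (hS g b) (hA g b) (hS g' b) (hA g' b) hp
      (hc g b) (hc g' b) t n fun j => hpτ j _ (Or.inr ⟨((g, g'), b, j, n), rfl⟩) τ hτ]
    refine print_est (hT.tr τ hτ) hN _ (fun j => α g (H (!b) j)) _ (fun j => α g' (H (!b) j))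
      (fun j => (hP b j).act g) (fun j => (hP b j).act g') (fun i j hij x hx y hy =>
        hL i j hij x ?_ y ?_) _ hε ((t4 n hn hn').2.1.trans hee) (t4 n hn hn').2.2
    · rcases hx with rfl | rfl | rfl | rfl <;> exact hA _ _ _
    · rcases hy with rfl | rfl | rfl | rfl <;> exact hA _ _ _

/-- the exact relations -/
noncomputable def printsN (α : G →* (Q ≃⋆ₐ[ℂ] Q)) (i : Fin 7 × (G × G) × Bool × Bool)
    (x : Bool ⊕ Bool → Q) : Q :=
  ![star (x (.inl i.2.2.1)) - x (.inl i.2.2.1), x (.inl i.2.2.1) * x (.inl i.2.2.1) - 1,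
    x (.inl true) * x (.inl false) + x (.inl false) * x (.inl true),
    star (x (.inr i.2.2.1)) * x (.inr i.2.2.1) - 1, x (.inr i.2.2.1) * star (x (.inr i.2.2.1)) - 1,
    α i.2.1.1 (x (.inr i.2.2.1)) * α i.2.1.2 (x (.inr i.2.2.2)) -
      α i.2.1.2 (x (.inr i.2.2.2)) * α i.2.1.1 (x (.inr i.2.2.1)),
    α i.2.1.1 (x (.inr i.2.2.1)) * α i.2.1.2 (x (.inl i.2.2.2)) -
      α i.2.1.2 (x (.inl i.2.2.2)) * α i.2.1.1 (x (.inr i.2.2.1))] i.1

/-- the trace conditions -/
noncomputable def printsP (α : G →* (Q ≃⋆ₐ[ℂ] Q)) (j : Fin 2 × (G × G) × Bool × ℕ)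
    (x : Bool ⊕ Bool → Q) : Q :=
  ![x (.inr j.2.2.1) ^ (j.2.2.2 + 1),
    (α j.2.1.1 (x (.inl j.2.2.1)) - α j.2.1.2 (x (.inl j.2.2.1))) ^ 2 *
      (α j.2.1.1 (x (.inr j.2.2.1)) ^ (j.2.2.2 + 1) *
        star (α j.2.1.2 (x (.inr j.2.2.1))) ^ (j.2.2.2 + 1))] j.1

theorem printsN_dfn (i : Fin 7 × (G × G) × Bool × Bool) :
    Dfn (fun g => α g) (printsN α i) := by
  obtain ⟨i, ⟨g, g'⟩, b, b'⟩ := i
  have v : ∀ v : Bool ⊕ Bool, Dfn (fun g => α g) fun x : Bool ⊕ Bool → Q => x v := .var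
  have a : ∀ (g : G) (v : Bool ⊕ Bool), Dfn (fun g => α g) fun x : Bool ⊕ Bool → Q => α g (x v) :=
    fun g w => .act (α := fun g => α g) g (v w)
  fin_cases i
  · exact (v (.inl b)).star.sub (v (.inl b))
  · exact ((v (.inl b)).mul (v (.inl b))).sub (.const 1)
  · exact ((v (.inl true)).mul (v (.inl false))).add ((v (.inl false)).mul (v (.inl true)))
  · exact ((v (.inr b)).star.mul (v (.inr b))).sub (.const 1)
  · exact ((v (.inr b)).mul (v (.inr b)).star).sub (.const 1)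
  · exact ((a g (.inr b)).mul (a g' (.inr b'))).sub ((a g' (.inr b')).mul (a g (.inr b)))
  · exact ((a g (.inr b)).mul (a g' (.inl b'))).sub ((a g' (.inl b')).mul (a g (.inr b)))

theorem printsP_dfn (j : Fin 2 × (G × G) × Bool × ℕ) : Dfn (fun g => α g) (printsP α j) := by
  obtain ⟨j, ⟨g, g'⟩, b, n⟩ := j
  have v : ∀ v : Bool ⊕ Bool, Dfn (fun g => α g) fun x : Bool ⊕ Bool → Q => x v := .var
  have a : ∀ (g : G) (v : Bool ⊕ Bool), Dfn (fun g => α g) fun x : Bool ⊕ Bool → Q => α g (x v) :=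
    fun g w => .act (α := fun g => α g) g (v w)
  fin_cases j
  · exact (v (.inr b)).pow (n + 1)
  · exact (((a g (.inl b)).sub (a g' (.inl b))).pow 2).mul
      (((a g (.inr b)).pow (n + 1)).mul ((a g' (.inr b)).star.pow (n + 1)))

theorem TSat.exists_prints (hT : TSat α T) [Countable G] (hF : Folner G) :
    ∃ h Z : Bool → Q, Pair (h true) (h false) ∧ (∀ b, Z b ∈ unitary Q) ∧
      (∀ g g' b b', Commute (α g (Z b)) (α g' (Z b')) ∧ Commute (α g (Z b)) (α g' (h b'))) ∧
      (∀ b, ∀ τ ∈ T, ∀ n : ℕ, 1 ≤ n → τ (Z b ^ n) = 0) ∧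
      ∀ b g g', ∀ τ ∈ T, ∀ n : ℕ, 1 ≤ n →
        τ ((α g (h b) - α g' (h b)) ^ 2 * (α g (Z b) ^ n * star (α g' (Z b)) ^ n)) = 0 := by
  obtain ⟨x, -, hN, hP⟩ := hT.sat2 (printsN α) (printsP α) printsN_dfn printsP_dfn
    fun s t ε hε => by
      obtain ⟨h, Z, hp, hZ, h1, h2⟩ := prints_approx hT hF (t.sup (fun j => j.2.2.2) + 1)
        (lt_min (div_pos hε (by norm_num : (0 : ℝ) < 10)) one_pos) (min_le_right _ _)
      have hm : 10 * min (ε / 10) 1 ≤ ε := by linarith [min_le_left (ε / 10) 1]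
      have hs : ∀ b, Symm (h b) := fun b => by
        cases b
        · exact hp.snd
        · exact hp.fst
      have h0 : ∀ τ ∈ T, ∀ y : Q, y = 0 → nrm τ y ≤ ε := fun τ hτ y hy =>
        ((hT.tr τ hτ).nrm_le_norm y).trans (by rw [hy, norm_zero]; exact hε.le)
      refine ⟨Sum.elim h Z, ?_, ?_, ?_⟩
      · rintro (b | b)
        · exact (hs b).norm_le
        · exact prints_norm (hZ b)
      · rintro ⟨i, ⟨g, g'⟩, b, b'⟩ - τ hτ
        fin_cases i
        · exact h0 τ hτ _ (sub_eq_zero.2 (hs b).sa)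
        · exact h0 τ hτ _ (sub_eq_zero.2 (hs b).sq)
        · exact h0 τ hτ _ (add_eq_zero_iff_eq_neg.2 hp.anti)
        · exact h0 τ hτ _ (sub_eq_zero.2 (Unitary.mem_iff.1 (hZ b)).1)
        · exact h0 τ hτ _ (sub_eq_zero.2 (Unitary.mem_iff.1 (hZ b)).2)
        · exact (h1 g g' b b' τ hτ).1.trans hm
        · exact (h1 g g' b b' τ hτ).2.trans hm
      · rintro ⟨j, ⟨g, g'⟩, b, n⟩ hj τ hτ
        have k := h2 b g g' τ hτ (n + 1) (Nat.le_add_left 1 n)
          (Nat.succ_le_succ (Finset.le_sup (f := fun j : Fin 2 × (G × G) × Bool × ℕ => j.2.2.2) hj))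
        fin_cases j
        · exact k.1.trans hm
        · exact k.2.trans hm
  have hs : ∀ b, Symm (x (.inl b)) := fun b =>
    ⟨sub_eq_zero.1 (hN (0, (1, 1), b, b)), sub_eq_zero.1 (hN (1, (1, 1), b, b))⟩
  refine ⟨fun b => x (.inl b), fun b => x (.inr b),
    ⟨hs true, hs false, add_eq_zero_iff_eq_neg.1 (hN (2, (1, 1), true, true))⟩,
    fun b => Unitary.mem_iff.2
      ⟨sub_eq_zero.1 (hN (3, (1, 1), b, b)), sub_eq_zero.1 (hN (4, (1, 1), b, b))⟩,
    fun g g' b b' => ⟨sub_eq_zero.1 (hN (5, (g, g'), b, b')),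
      sub_eq_zero.1 (hN (6, (g, g'), b, b'))⟩, fun b τ hτ n hn => ?_, fun b g g' τ hτ n hn => ?_⟩
  · obtain ⟨n, rfl⟩ := Nat.exists_eq_add_of_le' hn
    exact hP (0, (1, 1), b, n) τ hτ
  · obtain ⟨n, rfl⟩ := Nat.exists_eq_add_of_le' hn
    exact hP (1, (g, g'), b, n) τ hτ

end Vale.Agent.P095
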