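import Vale.Agent.P095.Ann
import Vale.Agent.P095.Nrm

/-! P095: countable saturation of the ultrapower. See skel/P095/BLUEPRINT.md. -/

namespace Vale.Agent.P095

open Filter Topology Vale.Agent.P101 Vale.Agent.P101.F
open scoped ComplexOrder

universe u v w

variable {B : Type u} [CStarAlgebra B] {G : Type v} [Group G] {E : Env B G}
variable {ω : Ultrafilter ℕ}


theorem exists_isLim (ω : Ultrafilter ℕ) {S : Set (B →L[ℂ] ℂ)} (r : ℕ → B →L[ℂ] ℂ)
    (hr : ∀ n, r n ∈ S) {C : ℝ} (hC : ∀ n, ‖r n‖ ≤ C) :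
    ∃ ρ : Ultrapower B ω →L[ℂ] ℂ, IsLim ω S ρ ∧ ‖ρ‖ ≤ C ∧ ∀ x : BoundedContinuousFunction ℕ B,
      Tendsto (fun n => r n (x n)) (ω : Filter ℕ) (𝓝 (ρ (umk ω x))) := by
  have hC0 : 0 ≤ C := (norm_nonneg _).trans (hC 0)
  have hb : ∀ (x : BoundedContinuousFunction ℕ B) n, ‖r n (x n)‖ ≤ C * ‖x n‖ := fun x n =>
    (r n).le_of_opNorm_le (hC n) _
  have h1 : ∀ x : BoundedContinuousFunction ℕ B,
      ∃ l, Tendsto (fun n => r n (x n)) (ω : Filter ℕ) (𝓝 l) := fun x => by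
    obtain ⟨l, -, hl⟩ := (isCompact_closedBall (0 : ℂ) (C * ‖x‖)).ultrafilter_le_nhds
      (ω.map fun n => r n (x n)) (by
        rw [Ultrafilter.coe_map, le_principal_iff, mem_map]
        exact Eventually.of_forall fun n => mem_closedBall_zero_iff.2 ((hb x n).trans
          (mul_le_mul_of_nonneg_left (x.norm_coe_le_norm n) hC0)))
    exact ⟨l, hl⟩
  choose L hL using h1
  have h2 : ∀ x, ‖L x‖ ≤ C * ‖umk ω x‖ := fun x =>
    le_of_tendsto_of_tendsto' (hL x).norm ((tendsto_norm_umk x).const_mul C) (hb x)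
  let f : BoundedContinuousFunction ℕ B →ₗ[ℂ] ℂ :=
    { toFun := L
      map_add' := fun x y => tendsto_nhds_unique (hL (x + y)) (by
        simpa only [BoundedContinuousFunction.add_apply, map_add] using (hL x).add (hL y))
      map_smul' := fun c x => tendsto_nhds_unique (hL (c • x)) (by
        simpa only [BoundedContinuousFunction.smul_apply, map_smul, RingHom.id_apply] using
          (hL x).const_smul c) }
  have h3 : ∀ x, ‖f x‖ ≤ C * ‖x‖ := fun x =>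
    (h2 x).trans (mul_le_mul_of_nonneg_left (norm_umk_le x) hC0)
  obtain ⟨ρ, h4, h5⟩ := exists_clm_lift (umk ω) umk_surjective (f.mkContinuous C h3) fun x hx => by
    have := h2 x
    rw [hx, norm_zero, mul_zero] at this
    exact norm_le_zero_iff.1 this
  have h6 : ∀ x : BoundedContinuousFunction ℕ B,
      Tendsto (fun n => r n (x n)) (ω : Filter ℕ) (𝓝 (ρ (umk ω x))) := fun x => by
    rw [h5]
    exact hL x
  exact ⟨ρ, ⟨r, hr, h6⟩, h4.trans (f.mkContinuous_norm_le hC0 h3), h6⟩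

/-- a bound for all limit functionals holds eventually and uniformly -/
theorem eventually_of_isLim {S : Set (B →L[ℂ] ℂ)} {C : ℝ} (hS : ∀ r ∈ S, ‖r‖ ≤ C)
    (x : BoundedContinuousFunction ℕ B) {c ε : ℝ} (hε : 0 < ε)
    (h : ∀ ρ, IsLim ω S ρ → (ρ (umk ω x)).re ≤ c) :
    ∀ᶠ n in (ω : Filter ℕ), ∀ r ∈ S, (r (x n)).re ≤ c + ε := by
  by_contra hc
  have h1 := Ultrafilter.eventually_not.2 hc
  obtain ⟨n₀, h0⟩ := h1.exists
  push Not at h0
  obtain ⟨r₀, hr₀, -⟩ := h0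
  have h2 : ∀ n, ∃ r ∈ S, ¬ (∀ r ∈ S, (r (x n)).re ≤ c + ε) → c + ε ≤ (r (x n)).re := fun n => by
    by_cases h2 : ∀ r ∈ S, (r (x n)).re ≤ c + ε
    · exact ⟨r₀, hr₀, fun h => absurd h2 h⟩
    · push Not at h2
      obtain ⟨r, hr, h2⟩ := h2
      exact ⟨r, hr, fun _ => h2.le⟩
  choose r hr hr' using h2
  obtain ⟨ρ, h3, -, h4⟩ := exists_isLim ω r hr fun n => hS _ (hr n)
  have h5 := ge_of_tendsto ((Complex.continuous_re.tendsto _).comp (h4 x)) (h1.mono hr')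
  linarith [h ρ h3]

theorem satU_rep {V : Type} {P : (V → Ultrapower B ω) → Ultrapower B ω}
    (hP : Dfn (fun g => uact E ω g) P) :
    ∃ p : ℕ → (V → B) → B, ∀ y : V → BoundedContinuousFunction ℕ B,
      ∃ z : BoundedContinuousFunction ℕ B, (∀ n, z n = p n fun i => y i n) ∧
        umk ω z = P fun i => umk ω (y i) := by
  induction hP with
  | const c =>
    obtain ⟨z, rfl⟩ := umk_surjective c
    exact ⟨fun n _ => z n, fun _ => ⟨z, fun _ => rfl, rfl⟩⟩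
  | var i => exact ⟨fun _ w => w i, fun y => ⟨y i, fun _ => rfl, rfl⟩⟩
  | act g _ ih =>
    obtain ⟨p, hp⟩ := ih
    refine ⟨fun n w => E.α g (p n w), fun y => ?_⟩
    obtain ⟨z, h1, h2⟩ := hp y
    refine ⟨seqMap (E.α g : B →⋆ₐ[ℂ] B) z, fun n => congrArg (E.α g) (h1 n), ?_⟩
    beta_reduce
    rw [← h2]
    rfl
  | star _ ih =>
    obtain ⟨p, hp⟩ := ih
    refine ⟨fun n w => Star.star (p n w), fun y => ?_⟩
    obtain ⟨z, h1, h2⟩ := hp y
    refine ⟨Star.star z, fun n => congrArg Star.star (h1 n), ?_⟩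
    beta_reduce
    rw [← h2, map_star]
  | add _ _ ih ih' =>
    obtain ⟨p, hp⟩ := ih
    obtain ⟨p', hp'⟩ := ih'
    refine ⟨fun n w => p n w + p' n w, fun y => ?_⟩
    obtain ⟨z, h1, h2⟩ := hp y
    obtain ⟨z', h1', h2'⟩ := hp' y
    refine ⟨z + z', fun n => congrArg₂ (· + ·) (h1 n) (h1' n), ?_⟩
    beta_reduce
    rw [← h2, ← h2', map_add]
  | mul _ _ ih ih' =>
    obtain ⟨p, hp⟩ := ih
    obtain ⟨p', hp'⟩ := ih'
    refine ⟨fun n w => p n w * p' n w, fun y => ?_⟩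
    obtain ⟨z, h1, h2⟩ := hp y
    obtain ⟨z', h1', h2'⟩ := hp' y
    refine ⟨z * z', fun n => congrArg₂ (· * ·) (h1 n) (h1' n), ?_⟩
    beta_reduce
    rw [← h2, ← h2', map_mul]

theorem satU_ball_le {ρ : Ultrapower B ω →L[ℂ] ℂ} (hρ : IsLim ω {r | ‖r‖ ≤ 1} ρ)
    (y : Ultrapower B ω) : (ρ y).re ≤ ‖y‖ := by
  obtain ⟨r, hr, h⟩ := hρ
  obtain ⟨z, rfl⟩ := umk_surjective y
  exact (Complex.re_le_norm _).trans (le_of_tendsto_of_tendsto' (h z).norm (tendsto_norm_umk z)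
    fun n => ((r n).le_of_opNorm_le (hr n) _).trans_eq (one_mul _))

theorem satU_ball_zero {y : Ultrapower B ω}
    (h : ∀ ρ, IsLim ω {r : B →L[ℂ] ℂ | ‖r‖ ≤ 1} ρ → (ρ y).re ≤ 0) : y = 0 := by
  obtain ⟨z, rfl⟩ := umk_surjective y
  choose r hr hr' using fun n => exists_dual_vector'' ℂ (z n)
  obtain ⟨ρ, h1, -, h2⟩ := exists_isLim ω (S := {r : B →L[ℂ] ℂ | ‖r‖ ≤ 1}) r hr hr
  have h3 := (Complex.continuous_re.tendsto _).comp (h2 z)
  have h4 : (ρ (umk ω z)).re = ‖umk ω z‖ := tendsto_nhds_unique h3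
    ((tendsto_norm_umk z).congr fun n => by simp [hr'])
  exact norm_le_zero_iff.1 (h4 ▸ h ρ h1)

theorem satU (hω : (ω : Filter ℕ) ≤ cofinite) {V : Type} [Countable V] {ι : Type*} [Countable ι]
    (P : ι → (V → Ultrapower B ω) → Ultrapower B ω) (S : ι → Set (B →L[ℂ] ℂ)) (c : ι → ℝ)
    (hP : ∀ k, Dfn (fun g => uact E ω g) (P k)) (hS : ∀ k, ∀ r ∈ S k, ‖r‖ ≤ 1)
    (h : ∀ (s : Finset ι) (ε : ℝ), 0 < ε → ∃ x : V → Ultrapower B ω, (∀ i, ‖x i‖ ≤ 1) ∧
      ∀ k ∈ s, ∀ ρ, IsLim ω (S k) ρ → (ρ (P k x)).re ≤ c k + ε) :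
    ∃ x : V → Ultrapower B ω, (∀ i, ‖x i‖ ≤ 1) ∧
      ∀ k ρ, IsLim ω (S k) ρ → (ρ (P k x)).re ≤ c k := by
  obtain ⟨e, he⟩ := Countable.exists_injective_nat ι
  choose p hp using fun k => satU_rep (hP k)
  have : Nonempty {w : V → B // ∀ i, ‖w i‖ ≤ 1} := ⟨⟨0, fun _ => by simp⟩⟩
  obtain ⟨w, hw⟩ := diag_seq hω (fun k n (w : {w : V → B // ∀ i, ‖w i‖ ≤ 1}) =>
      ∀ j, e j ≤ k → ∀ r ∈ S j,
        (r (p j n w)).re ≤ c j + 1 / ((k : ℝ) + 1) + 1 / ((k : ℝ) + 1)) fun k => by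
    have hf : {j | e j ≤ k}.Finite := (Set.finite_Iic k).preimage he.injOn
    obtain ⟨x, h1, h2⟩ := h hf.toFinset _ (Nat.one_div_pos_of_nat (n := k))
    choose y hy hy' using fun i => exists_rep_norm (x i)
    choose z hz hz' using fun j => hp j y
    simp only [hy] at hz'
    filter_upwards [(eventually_all_finite hf).2 fun j hj => eventually_of_isLim (hS j) (z j)
      (Nat.one_div_pos_of_nat (n := k)) fun ρ hρ => hz' j ▸ h2 j (hf.mem_toFinset.2 hj) ρ hρ]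
      with n hn
    exact ⟨⟨fun i => y i n, fun i => (hy' i n).trans (h1 i)⟩, fun j hj r hr =>
      hz j n ▸ hn j hj r hr⟩
  choose y hy using fun i => exists_bcf (fun n => (w n).1 i) 1 fun n => (w n).2 i
  refine ⟨fun i => umk ω (y i), fun i => le_of_tendsto' (tendsto_norm_umk _) fun n =>
    hy i n ▸ (w n).2 i, ?_⟩
  rintro j ρ ⟨r, hr, hρ⟩
  obtain ⟨z, hz, hz'⟩ := hp j y
  rw [← hz']
  refine le_of_forall_pos_le_add fun ε hε => ?_
  obtain ⟨k, hk⟩ := exists_nat_one_div_lt (half_pos hε)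
  refine le_of_tendsto ((Complex.continuous_re.tendsto _).comp (hρ z)) ?_
  filter_upwards [hw (max k (e j))] with n ⟨k', h1, h2⟩
  have h3 := h2 j ((le_max_right _ _).trans h1) _ (hr n)
  have h4 : (1 : ℝ) / (k' + 1) ≤ 1 / (k + 1) := Nat.one_div_le_one_div ((le_max_left _ _).trans h1)
  have h5 : z n = p j n (w n) := by simp only [hz, hy]
  show (r n (z n)).re ≤ _
  rw [h5]
  linarith

/-- saturation of the central sequence algebra, with norm conditions `N` -/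
theorem satC [TopologicalSpace.SeparableSpace B] (hω : (ω : Filter ℕ) ≤ cofinite) {V : Type}
    [Countable V] {ι κ : Type*} [Countable ι] [Countable κ]
    (N : κ → (V → Ultrapower B ω) → Ultrapower B ω)
    (P : ι → (V → Ultrapower B ω) → Ultrapower B ω) (S : ι → Set (B →L[ℂ] ℂ)) (c : ι → ℝ)
    (hN : ∀ j, Dfn (fun g => uact E ω g) (N j)) (hP : ∀ k, Dfn (fun g => uact E ω g) (P k))
    (hS : ∀ k, ∀ r ∈ S k, ‖r‖ ≤ 1)
    (h : ∀ (t : Finset κ) (s : Finset ι) (ε : ℝ), 0 < ε → ∃ x : V → Ultrapower B ω,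
      (∀ i, x i ∈ centralSeq B ω ∧ ‖x i‖ ≤ 1) ∧ (∀ j ∈ t, ‖N j x‖ ≤ ε) ∧
      ∀ k ∈ s, ∀ ρ, IsLim ω (S k) ρ → (ρ (P k x)).re ≤ c k + ε) :
    ∃ x : V → Ultrapower B ω, (∀ i, x i ∈ centralSeq B ω ∧ ‖x i‖ ≤ 1) ∧ (∀ j, N j x = 0) ∧
      ∀ k ρ, IsLim ω (S k) ρ → (ρ (P k x)).re ≤ c k := by
  obtain ⟨b, hb⟩ := TopologicalSpace.exists_dense_seq B
  obtain ⟨x, h1, h2⟩ := satU (E := E) hω (ι := ι ⊕ κ ⊕ ℕ × V)
    (Sum.elim P (Sum.elim N fun p x => uconst ω (b p.1) * x p.2 - x p.2 * uconst ω (b p.1)))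
    (Sum.elim S fun _ => {r | ‖r‖ ≤ 1}) (Sum.elim c fun _ => 0)
    (by
      rintro (k | j | p)
      · exact hP k
      · exact hN j
      · exact ((Dfn.const _).mul (Dfn.var _)).sub ((Dfn.var _).mul (Dfn.const _)))
    (by
      rintro (k | j)
      · exact hS k
      · exact fun _ h => h)
    fun s ε hε => by
      obtain ⟨x, h1, h2, h3⟩ := h s.toRight.toLeft s.toLeft ε hε
      refine ⟨x, fun i => (h1 i).2, ?_⟩
      rintro (k | j | p) hk ρ hρ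
      · exact h3 k (Finset.mem_toLeft.2 hk) ρ hρ
      · exact (satU_ball_le hρ _).trans ((h2 j (Finset.mem_toLeft.2
          (Finset.mem_toRight.2 hk))).trans_eq (zero_add ε).symm)
      · show (ρ (uconst ω (b p.1) * x p.2 - x p.2 * uconst ω (b p.1))).re ≤ 0 + ε
        rw [mem_centralSeq.1 (h1 p.2).1, sub_self, map_zero, Complex.zero_re, zero_add]
        exact hε.le
  refine ⟨x, fun i => ⟨mem_centralSeq.2 fun a => ?_, h1 i⟩,
    fun j => satU_ball_zero (h2 (.inr (.inl j))), fun k => h2 (.inl k)⟩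
  have hc := reind_cont (uconst ω : B →⋆ₐ[ℂ] Ultrapower B ω)
  refine hb.induction_on (p := fun a => uconst ω a * x i = x i * uconst ω a) a
    (isClosed_eq (by fun_prop) (by fun_prop)) fun m => ?_
  exact sub_eq_zero.1 (satU_ball_zero (h2 (.inr (.inr (m, i)))))

end Vale.Agent.P095
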