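import Vale.Agent.P095.SubBasic

/-! P095: property (SI) at a finite level. See skel/P095/BLUEPRINT.md. -/

namespace Vale.Agent.P095

open Filter Topology Vale.Agent.P101 Vale.Agent.P101.F
open scoped ComplexOrder

universe u v w

variable {B : Type u} [CStarAlgebra B] {G : Type v} [Group G] {E : Env B G}
variable {ω : Ultrafilter ℕ}

theorem siLevel_mul_le {a b : B} {x y : ℝ} (ha : ‖a‖ ≤ x) (hb : ‖b‖ ≤ y) : ‖a * b‖ ≤ x * y :=
  (norm_mul_le _ _).trans (mul_le_mul ha hb (norm_nonneg _) ((norm_nonneg _).trans ha))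

theorem siLevel_sq_comm {f c : B} (hf : ‖f‖ ≤ 1) {η : ℝ} (h : ‖c * f - f * c‖ ≤ η) :
    ‖f * f * c - c * (f * f)‖ ≤ 2 * η := by
  have e : f * f * c - c * (f * f) = -(f * (c * f - f * c)) - (c * f - f * c) * f := by
    noncomm_ring
  have h1 := siLevel_mul_le hf h
  have h2 := siLevel_mul_le h hf
  have h3 := norm_sub_le (-(f * (c * f - f * c))) ((c * f - f * c) * f)
  rw [norm_neg] at h3
  rw [e]
  linarith

/-- almost orthogonal elements below `x m` that carry `f * f` -/
theorem siLevel_fam {φ : B →L[ℂ] ℂ} {x : ℕ → B} (hx : Excises E φ x) {f : ℕ → B}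
    (hf : ∀ n, star (f n) = f n ∧ ‖f n‖ ≤ 1)
    (hc : ∀ a : B, Tendsto (fun n => ‖a * f n - f n * a‖) (ω : Filter ℕ) (𝓝 0))
    (hN : NegSeq E ω f) (m : ℕ) (J : Type) [Fintype J] [DecidableEq J] (C : Finset B)
    (hC : ∀ c ∈ C, c ∈ E.I) {η : ℝ} (hη : 0 < η) :
    ∀ᶠ n in (ω : Filter ℕ), ∃ t : J → B, (∀ μ, x m * t μ = t μ ∧ ‖t μ‖ ≤ 2) ∧
      ∀ μ ν, ∀ c ∈ C, ‖star (t μ) * t ν * c - if μ = ν then c * (f n * f n) else 0‖ ≤ η := by
  obtain ⟨M, hM0, hM⟩ : ∃ M : ℝ, 0 ≤ M ∧ ∀ c ∈ C, ‖c‖ ≤ M :=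
    ⟨∑ c ∈ C, ‖c‖, Finset.sum_nonneg fun _ _ => norm_nonneg _, fun c hc =>
      Finset.single_le_sum (f := fun c => ‖c‖) (fun _ _ => norm_nonneg _) hc⟩
  obtain ⟨δ, hδ, hδ1, hδη⟩ : ∃ δ : ℝ, 0 < δ ∧ δ ≤ 1 ∧ (2 * M + 4) * δ ≤ η := by
    refine ⟨min 1 (η / (2 * M + 4)), lt_min one_pos (by positivity), min_le_left _ _, ?_⟩
    rw [mul_comm]
    exact (le_div_iff₀ (by positivity)).1 (min_le_right _ _)
  obtain ⟨h, hI, h0, h1, hu⟩ := E.exists_unit C hC hδ
  have hxs : star (x (m + 1)) = x (m + 1) := (hx.pos (m + 1)).isSelfAdjoint.star_eq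
  have hy0 : 0 ≤ x (m + 1) * x (m + 1) := by
    simpa only [hxs] using star_mul_self_nonneg (x (m + 1))
  have hyn : x (m + 1) * x (m + 1) ≠ 0 := by
    intro h2
    have h3 := CStarRing.norm_star_mul_self (x := x (m + 1))
    rw [hxs, h2, norm_zero, hx.norm] at h3
    norm_num at h3
  have hcC : ∀ᶠ n in (ω : Filter ℕ), ∀ c ∈ C, ‖c * f n - f n * c‖ ≤ δ :=
    (Finset.eventually_all C).2 fun c _ => (hc c).eventually (ge_mem_nhds hδ)
  filter_upwards [hN h hI h0 _ (E.mul_left (hx.mem (m + 1)) _) hy0 hyn (Fintype.card J) δ hδ, hcC]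
    with n hn hcn
  obtain ⟨t, ht⟩ := hn δ hδ
  have hs : star h = h := h0.isSelfAdjoint.star_eq
  have hff : ‖f n * f n‖ ≤ 1 := by simpa using siLevel_mul_le (hf n).2 (hf n).2
  have hz0 : 0 ≤ h * (f n * f n) * h := by
    have := star_mul_self_nonneg (f n * h)
    rwa [star_mul, hs, (hf n).1, ← mul_assoc, mul_assoc h] at this
  have hz1 : ‖h * (f n * f n) * h‖ ≤ 1 := by
    simpa using siLevel_mul_le (siLevel_mul_le h1 hff) h1
  have hcut := norm_sub_cut hδ.le hz0
  set e := cut δ (h * (f n * f n) * h) with he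
  have hen : ‖e‖ ≤ 1 + δ := by
    have := norm_sub_le (h * (f n * f n) * h) (h * (f n * f n) * h - e)
    rw [sub_sub_cancel] at this
    linarith
  let q := Fintype.equivFin J
  have hT : ∀ μ ν, ‖star (x (m + 1) * t 0 (q μ)) * (x (m + 1) * t 0 (q ν)) -
      if μ = ν then e else 0‖ ≤ δ := by
    intro μ ν
    have := ht (q μ) (q ν)
    simp only [Finset.univ_unique, Finset.sum_singleton, Fin.default_eq_zero,
      EmbeddingLike.apply_eq_iff_eq] at this
    simpa only [star_mul, hxs, mul_assoc] using this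
  refine ⟨fun μ => x (m + 1) * t 0 (q μ), fun μ => ⟨by rw [← mul_assoc, hx.mul], ?_⟩,
    fun μ ν c hcm => ?_⟩
  · refine (sq_le_sq₀ (norm_nonneg _) zero_le_two).1 ?_
    have h2 := hT μ μ
    rw [if_pos rfl] at h2
    have h3 := norm_add_le (star (x (m + 1) * t 0 (q μ)) * (x (m + 1) * t 0 (q μ)) - e) e
    rw [sub_add_cancel, CStarRing.norm_star_mul_self] at h3
    rw [sq]
    linarith
  · have h2 := siLevel_mul_le (hT μ ν) (hM c hcm)
    have hMδ : 0 ≤ δ * M := mul_nonneg hδ.le hM0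
    by_cases hμ : μ = ν
    · rw [if_pos hμ] at h2 ⊢
      have h3 := siLevel_mul_le hcut (hM c hcm)
      have h4 := siLevel_mul_le (siLevel_mul_le h1 hff) (hu c hcm).1
      have h5 := siLevel_mul_le h1 (siLevel_sq_comm (hf n).2 (hcn c hcm))
      have h6 := siLevel_mul_le (hu c hcm).1 hff
      set W := star (x (m + 1) * t 0 (q μ)) * (x (m + 1) * t 0 (q ν))
      have e1 : W * c - c * (f n * f n) = (W - e) * c - (h * (f n * f n) * h - e) * c +
          h * (f n * f n) * (h * c - c) + h * (f n * f n * c - c * (f n * f n)) +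
          (h * c - c) * (f n * f n) := by noncomm_ring
      rw [e1]
      refine (norm_add_le _ _).trans ?_
      refine (add_le_add_left (norm_add_le _ _) _).trans ?_
      refine (add_le_add_left (add_le_add_left (norm_add_le _ _) _) _).trans ?_
      refine (add_le_add_left (add_le_add_left (add_le_add_left (norm_sub_le _ _) _) _) _).trans ?_
      linarith
    · rw [if_neg hμ, sub_zero] at h2 ⊢
      linarith

theorem siLevel_down {φ : B →L[ℂ] ℂ} {x : ℕ → B} (hx : Excises E φ x) {m : ℕ} {t : B}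
    (ht : x m * t = t) : star t * x m = star t := by
  have := congrArg star ht
  rwa [star_mul, (hx.pos m).isSelfAdjoint.star_eq] at this

theorem siLevel_norm_sum {P : Type} [Fintype P] {u : P → P → B} {δ : ℝ} (h : ∀ p q, ‖u p q‖ ≤ δ) :
    ‖∑ p, ∑ q, u p q‖ ≤ (Fintype.card P : ℝ) ^ 2 * δ := by
  refine (norm_sum_le _ _).trans ?_
  refine (Finset.sum_le_sum fun p _ => (norm_sum_le _ _).trans
    (Finset.sum_le_sum fun q _ => h p q)).trans ?_
  simp only [Finset.sum_const, Finset.card_univ, nsmul_eq_mul]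
  exact le_of_eq (by ring)

/-- the Matui-Sato estimate over an abstract index set -/
theorem siLevel_abs {φ : B →L[ℂ] ℂ} {x : ℕ → B} (hx : Excises E φ x) {f : ℕ → B}
    (hf : ∀ n, star (f n) = f n ∧ ‖f n‖ ≤ 1)
    (hc : ∀ a : B, Tendsto (fun n => ‖a * f n - f n * a‖) (ω : Filter ℕ) (𝓝 0))
    (hN : NegSeq E ω f) {P J : Type} [Fintype P] [Fintype J] [DecidableEq J] (π : P → J)
    (c d : P → B) (hcI : ∀ p, c p ∈ E.I) (S : Finset B) (K : Finset G)
    (hK : ∀ g ∈ K, ∀ b, Tendsto (fun n => ‖x n * b * E.α g (x n)‖) atTop (𝓝 0)) {η : ℝ}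
    (hη : 0 < η) : ∀ᶠ n in (ω : Filter ℕ), ∃ s : Fin 2 → B,
      (∀ b ∈ S, ∀ i j, ‖star (s i) * b * s j - ∑ p, ∑ q, if (i, π p) = (j, π q) then
        φ (star (d p) * b * d q) • (star (c p) * c q * (f n * f n)) else 0‖ ≤ η) ∧
      ∀ g ∈ K, ∀ i j, ‖star (s i) * E.α g (s j)‖ ≤ η := by
  classical
  obtain ⟨M, hM1, hMc, hMd⟩ : ∃ M : ℝ, 1 ≤ M ∧ (∀ p, ‖c p‖ ≤ M) ∧
      ∀ b ∈ S, ∀ p q, ‖φ (star (d p) * b * d q)‖ ≤ M := by
    have a1 : 0 ≤ ∑ p, ‖c p‖ := Finset.sum_nonneg fun _ _ => norm_nonneg _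
    have a2 : 0 ≤ ∑ b ∈ S, ∑ p, ∑ q, ‖φ (star (d p) * b * d q)‖ :=
      Finset.sum_nonneg fun _ _ => Finset.sum_nonneg fun _ _ =>
        Finset.sum_nonneg fun _ _ => norm_nonneg _
    refine ⟨1 + ∑ p, ‖c p‖ + ∑ b ∈ S, ∑ p, ∑ q, ‖φ (star (d p) * b * d q)‖, by linarith,
      fun p => ?_, fun b hb p q => ?_⟩
    · have := Finset.single_le_sum (f := fun p => ‖c p‖) (fun _ _ => norm_nonneg _)
        (Finset.mem_univ p)
      linarith
    · have b1 := Finset.single_le_sum (f := fun q => ‖φ (star (d p) * b * d q)‖)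
        (fun _ _ => norm_nonneg _) (Finset.mem_univ q)
      have b2 := Finset.single_le_sum (f := fun p => ∑ q, ‖φ (star (d p) * b * d q)‖)
        (fun _ _ => Finset.sum_nonneg fun _ _ => norm_nonneg _) (Finset.mem_univ p)
      have b3 := Finset.single_le_sum (f := fun b => ∑ p, ∑ q, ‖φ (star (d p) * b * d q)‖)
        (fun _ _ => Finset.sum_nonneg fun _ _ => Finset.sum_nonneg fun _ _ => norm_nonneg _) hb
      linarith
  obtain ⟨δ, hδ, hδη⟩ : ∃ δ : ℝ, 0 < δ ∧ (Fintype.card P : ℝ) ^ 2 * (5 * M ^ 2 * δ) ≤ η := by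
    refine ⟨η / (((Fintype.card P : ℝ) ^ 2 + 1) * (5 * M ^ 2)), by positivity, ?_⟩
    have e : (Fintype.card P : ℝ) ^ 2 * (5 * M ^ 2 *
        (η / (((Fintype.card P : ℝ) ^ 2 + 1) * (5 * M ^ 2)))) =
        η * ((Fintype.card P : ℝ) ^ 2 / ((Fintype.card P : ℝ) ^ 2 + 1)) := by
      field_simp
    rw [e]
    exact mul_le_of_le_one_right hη.le ((div_le_one (by positivity)).2 (by linarith))
  have e1 : ∀ᶠ m in atTop, ∀ b ∈ S, ∀ p q, ‖x m * (star (d p) * b * d q) * x m -
      φ (star (d p) * b * d q) • (x m * x m)‖ ≤ δ :=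
    (Finset.eventually_all S).2 fun b _ => eventually_all.2 fun p => eventually_all.2 fun q =>
      (hx.lim _).eventually (ge_mem_nhds hδ)
  have e2 : ∀ᶠ m in atTop, ∀ g ∈ K, ∀ p q,
      ‖x m * (star (d p) * E.α g (d q)) * E.α g (x m)‖ ≤ δ :=
    (Finset.eventually_all K).2 fun g hg => eventually_all.2 fun p => eventually_all.2 fun q =>
      (hK g hg _).eventually (ge_mem_nhds hδ)
  obtain ⟨m, hm1, hm2⟩ := (e1.and e2).exists
  filter_upwards [siLevel_fam hx hf hc hN m (Fin 2 × J) (Finset.univ.image c) (fun a ha => by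
    obtain ⟨p, -, rfl⟩ := Finset.mem_image.1 ha
    exact hcI p) hδ] with n hn
  obtain ⟨t, ht1, ht2⟩ := hn
  have hcs : ∀ p, ‖star (c p)‖ ≤ M := fun p => by rw [norm_star]; exact hMc p
  have hts : ∀ μ, ‖star (t μ)‖ ≤ 2 := fun μ => by rw [norm_star]; exact (ht1 μ).2
  have hM0 : 0 ≤ M ^ 2 * δ := by positivity
  refine ⟨fun i => ∑ p, d p * t (i, π p) * c p, fun b hb i j => ?_, fun g hg i j => ?_⟩
  · simp only [star_sum, Finset.sum_mul, Finset.mul_sum]
    rw [Finset.sum_comm, ← Finset.sum_sub_distrib]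
    simp only [← Finset.sum_sub_distrib]
    refine (siLevel_norm_sum fun p q => ?_).trans hδη
    set z := φ (star (d p) * b * d q) with hz
    set u := star (d p) * b * d q with hu
    have h1 := siLevel_mul_le (siLevel_mul_le (siLevel_mul_le (siLevel_mul_le (hcs p)
      (hts (i, π p))) (hm1 b hb p q)) (ht1 (j, π q)).2) (hMc q)
    have h2 := siLevel_mul_le (hcs p) (ht2 (i, π p) (j, π q) (c q)
      (Finset.mem_image_of_mem c (Finset.mem_univ q)))
    have h3 : ‖z • (star (c p) * (star (t (i, π p)) * t (j, π q) * c q -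
        if (i, π p) = (j, π q) then c q * (f n * f n) else 0))‖ ≤ M * (M * δ) := by
      rw [norm_smul]
      exact mul_le_mul (hMd b hb p q) h2 (norm_nonneg _) (by linarith)
    have a1 := siLevel_down hx (ht1 (i, π p)).1
    have a2 := (ht1 (j, π q)).1
    have e : (star (d p * t (i, π p) * c p) * b * (d q * t (j, π q) * c q) -
        if (i, π p) = (j, π q) then z • (star (c p) * c q * (f n * f n)) else 0) =
        star (c p) * star (t (i, π p)) * (x m * u * x m - z • (x m * x m)) * t (j, π q) * c q +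
        z • (star (c p) * (star (t (i, π p)) * t (j, π q) * c q -
          if (i, π p) = (j, π q) then c q * (f n * f n) else 0)) := by
      have b1 : star (t (i, π p)) * (x m * u * x m - z • (x m * x m)) * t (j, π q) =
          star (t (i, π p)) * u * t (j, π q) - z • (star (t (i, π p)) * t (j, π q)) := by
        calc _ = star (t (i, π p)) * x m * u * (x m * t (j, π q)) -
            z • (star (t (i, π p)) * x m * (x m * t (j, π q))) := by
              simp only [mul_sub, sub_mul, mul_smul_comm, smul_mul_assoc, mul_assoc]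
          _ = _ := by rw [a1, a2]
      have b2 : star (c p) * star (t (i, π p)) * (x m * u * x m - z • (x m * x m)) *
          t (j, π q) * c q = star (c p) * (star (t (i, π p)) *
            (x m * u * x m - z • (x m * x m)) * t (j, π q)) * c q := by
        simp only [mul_assoc]
      rw [b2, b1, hu]
      split_ifs
      · simp only [star_mul, mul_sub, sub_mul, mul_smul_comm, smul_mul_assoc, mul_assoc, smul_sub]
        abel
      · simp only [star_mul, mul_sub, sub_mul, mul_smul_comm, smul_mul_assoc, mul_assoc, sub_zero]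
        abel
    rw [e]
    refine (norm_add_le _ _).trans ?_
    nlinarith
  · simp only [star_sum, map_sum, Finset.sum_mul, Finset.mul_sum]
    rw [Finset.sum_comm]
    refine (siLevel_norm_sum fun p q => ?_).trans hδη
    have n1 : ‖E.α g (t (j, π q))‖ ≤ 2 := by
      rw [StarAlgEquiv.norm_map]
      exact (ht1 _).2
    have n2 : ‖E.α g (c q)‖ ≤ M := by
      rw [StarAlgEquiv.norm_map]
      exact hMc q
    have h1 := siLevel_mul_le (siLevel_mul_le (siLevel_mul_le (siLevel_mul_le (hcs p)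
      (hts (i, π p))) (hm2 g hg p q)) n1) n2
    have a1 := siLevel_down hx (ht1 (i, π p)).1
    have a2 : E.α g (x m) * E.α g (t (j, π q)) = E.α g (t (j, π q)) := by
      rw [← map_mul, (ht1 (j, π q)).1]
    have e : star (d p * t (i, π p) * c p) * E.α g (d q * t (j, π q) * c q) =
        star (c p) * star (t (i, π p)) * (x m * (star (d p) * E.α g (d q)) * E.α g (x m)) *
          E.α g (t (j, π q)) * E.α g (c q) := by
      calc _ = star (c p) * (star (t (i, π p)) * x m) * (star (d p) * E.α g (d q)) *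
          (E.α g (x m) * E.α g (t (j, π q))) * E.α g (c q) := by
            rw [a1, a2]
            simp only [star_mul, map_mul, mul_assoc]
        _ = _ := by simp only [mul_assoc]
    rw [e]
    nlinarith

/-- the estimate for the compression by `h` -/
theorem siLevel_comp {φ : B →L[ℂ] ℂ} {x : ℕ → B} (hx : Excises E φ x) (hn : NucL E φ) {f : ℕ → B}
    (hf : ∀ n, star (f n) = f n ∧ ‖f n‖ ≤ 1)
    (hc : ∀ a : B, Tendsto (fun n => ‖a * f n - f n * a‖) (ω : Filter ℕ) (𝓝 0))
    (hN : NegSeq E ω f) {h : B} (hI : h ∈ E.I) (hs : star h = h) (S : Finset B) (K : Finset G)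
    (hK : ∀ g ∈ K, ∀ b, Tendsto (fun n => ‖x n * b * E.α g (x n)‖) atTop (𝓝 0)) {η : ℝ}
    (hη : 0 < η) : ∀ᶠ n in (ω : Filter ℕ), ∃ s : Fin 2 → B,
      (∀ b ∈ S, ∀ i j, ‖star (s i) * b * s j -
        if i = j then h * b * h * (f n * f n) else 0‖ ≤ η) ∧
      ∀ g ∈ K, ∀ i j, ‖star (s i) * E.α g (s j)‖ ≤ η := by
  classical
  obtain ⟨k, l, r, c, d, hcI, hcd⟩ := hn (S.image fun b => h * b * h) (η / 2) (fun a ha => by
    obtain ⟨b, -, rfl⟩ := Finset.mem_image.1 ha
    exact E.mul_left hI _) (half_pos hη)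
  filter_upwards [siLevel_abs hx hf hc hN (P := (Fin l × Fin r) × Fin k) Prod.fst
    (fun p => c p.1.1 p.2) (fun p => h * d p.1.2 p.2) (fun p => hcI _ _) S K hK (half_pos hη)]
    with n hn
  obtain ⟨s, h1, h2⟩ := hn
  refine ⟨s, fun b hb i j => ?_, fun g hg i j => (h2 g hg i j).trans (half_le_self hη.le)⟩
  have h3 := h1 b hb i j
  by_cases hij : i = j
  · have e : (∑ p : (Fin l × Fin r) × Fin k, ∑ q : (Fin l × Fin r) × Fin k,
        if (i, p.1) = (j, q.1) then φ (star (h * d p.1.2 p.2) * b * (h * d q.1.2 q.2)) •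
          (star (c p.1.1 p.2) * c q.1.1 q.2 * (f n * f n)) else 0) =
        kraus c (vecs φ d (h * b * h)) * (f n * f n) := by
      simp only [hij, Prod.mk.injEq, true_and, kraus, vecs, Matrix.of_apply, Finset.sum_mul,
        Finset.sum_smul, smul_mul_assoc, star_mul, hs, mul_assoc]
      rw [Fintype.sum_prod_type, Fintype.sum_prod_type]
      refine Finset.sum_congr rfl fun σ _ => ?_
      rw [Finset.sum_comm]
      refine Finset.sum_congr rfl fun a _ => ?_
      rw [Finset.sum_comm (s := Finset.univ (α := Fin k))]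
      refine Finset.sum_congr rfl fun ρ _ => ?_
      rw [Fintype.sum_prod_type, Finset.sum_comm]
      refine Finset.sum_congr rfl fun a' _ => ?_
      rw [Finset.sum_ite_eq, if_pos (Finset.mem_univ _)]
    rw [e] at h3
    rw [if_pos hij]
    have hff : ‖f n * f n‖ ≤ 1 := by simpa using siLevel_mul_le (hf n).2 (hf n).2
    have h4 := siLevel_mul_le (hcd _ (Finset.mem_image_of_mem _ hb)) hff
    rw [sub_mul] at h4
    have := norm_sub_le_norm_sub_add_norm_sub (star (s i) * b * s j)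
      (kraus c (vecs φ d (h * b * h)) * (f n * f n)) (h * b * h * (f n * f n))
    linarith
  · simp only [Prod.mk.injEq, hij, false_and, if_false, Finset.sum_const_zero] at h3
    rw [if_neg hij]
    linarith

theorem si_level {φ : B →L[ℂ] ℂ} {x : ℕ → B} (hx : Excises E φ x) (hn : NucL E φ) {f : ℕ → B}
    (hf : ∀ n, star (f n) = f n ∧ ‖f n‖ ≤ 1)
    (hc : ∀ a : B, Tendsto (fun n => ‖a * f n - f n * a‖) (ω : Filter ℕ) (𝓝 0))
    (hN : NegSeq E ω f) (F : Finset B) (hF : ∀ a ∈ F, a ∈ E.I) (K : Finset G)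
    (hK : ∀ g ∈ K, ∀ b, Tendsto (fun n => ‖x n * b * E.α g (x n)‖) atTop (𝓝 0)) {ε : ℝ}
    (hε : 0 < ε) : ∀ᶠ n in (ω : Filter ℕ), ∃ s : Fin 2 → B, (∀ i, ‖s i‖ ≤ 2) ∧
      (∀ a ∈ F, ∀ i, ‖a * s i - s i * a‖ ≤ ε) ∧
      (∀ a ∈ F, ∀ i j, ‖a * (star (s i) * s j - if i = j then f n * f n else 0)‖ ≤ ε) ∧
      ∀ g ∈ K, ∀ i j, ‖star (s i) * E.α g (s j)‖ ≤ ε := by
  classical
  obtain ⟨M, hM0, hM⟩ : ∃ M : ℝ, 0 ≤ M ∧ ∀ c ∈ F, ‖c‖ ≤ M :=
    ⟨∑ c ∈ F, ‖c‖, Finset.sum_nonneg fun _ _ => norm_nonneg _, fun c hc =>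
      Finset.single_le_sum (f := fun c => ‖c‖) (fun _ _ => norm_nonneg _) hc⟩
  obtain ⟨δ, hδ, hδ1, hδ2, hδ3⟩ : ∃ δ : ℝ, 0 < δ ∧ δ ≤ 1 ∧ (M + 2) * δ ≤ ε ∧
      (3 + 8 * M + M ^ 2) * δ ≤ ε ^ 2 := by
    refine ⟨min 1 (min (ε / (M + 2)) (ε ^ 2 / (3 + 8 * M + M ^ 2))),
      lt_min one_pos (lt_min (by positivity) (by positivity)), min_le_left _ _, ?_, ?_⟩
    · rw [mul_comm]
      exact (le_div_iff₀ (by positivity)).1 ((min_le_right _ _).trans (min_le_left _ _))
    · rw [mul_comm]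
      exact (le_div_iff₀ (by positivity)).1 ((min_le_right _ _).trans (min_le_right _ _))
  let F' : Finset B := F ∪ (F.image star ∪ F.image fun a => star a * a)
  have m1 : ∀ a ∈ F, a ∈ F' := fun a ha => Finset.mem_union_left _ ha
  have m2 : ∀ a ∈ F, star a ∈ F' := fun a ha => Finset.mem_union_right _
    (Finset.mem_union_left _ (Finset.mem_image_of_mem _ ha))
  have m3 : ∀ a ∈ F, star a * a ∈ F' := fun a ha => Finset.mem_union_right _
    (Finset.mem_union_right _ (Finset.mem_image_of_mem (fun a => star a * a) ha))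
  obtain ⟨h, hI, h0, h1, hu⟩ := E.exists_unit F' (fun a ha => by
    rcases Finset.mem_union.1 ha with ha | ha
    · exact hF a ha
    rcases Finset.mem_union.1 ha with ha | ha
    · obtain ⟨b, hb, rfl⟩ := Finset.mem_image.1 ha
      exact E.star_mem (hF b hb)
    · obtain ⟨b, hb, rfl⟩ := Finset.mem_image.1 ha
      exact E.mul_left (hF b hb) _) hδ
  filter_upwards [siLevel_comp hx hn hf hc hN hI h0.isSelfAdjoint.star_eq (insert 1 F') K hK hδ]
    with n hn
  obtain ⟨s, hs1, hs2⟩ := hn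
  have hff : ‖f n * f n‖ ≤ 1 := by simpa using siLevel_mul_le (hf n).2 (hf n).2
  set y := f n * f n with hy
  have hone := hs1 1 (Finset.mem_insert_self _ _)
  simp only [mul_one] at hone
  have hW : ∀ b ∈ F', ∀ i, ‖star (s i) * b * s i - b * y‖ ≤ 3 * δ := by
    intro b hb i
    have a1 := hs1 b (Finset.mem_insert_of_mem hb) i i
    rw [if_pos rfl] at a1
    have a2 := siLevel_mul_le (siLevel_mul_le h1 (hu b hb).2) hff
    have a3 := siLevel_mul_le (hu b hb).1 hff
    have e : star (s i) * b * s i - b * y = (star (s i) * b * s i - h * b * h * y) +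
        h * (b * h - b) * y + (h * b - b) * y := by noncomm_ring
    rw [e]
    refine (norm_add_le _ _).trans ?_
    refine (add_le_add_left (norm_add_le _ _) _).trans ?_
    linarith
  have hV : ∀ b ∈ F', ‖b‖ ≤ M → ∀ i j,
      ‖b * (star (s i) * s j - if i = j then y else 0)‖ ≤ (M + 2) * δ := by
    intro b hb hbM i j
    have a1 := siLevel_mul_le hbM (hone i j)
    by_cases hij : i = j
    · rw [if_pos hij] at a1 ⊢
      have a2 := siLevel_mul_le (siLevel_mul_le (hu b hb).2 h1) hff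
      have a3 := siLevel_mul_le (hu b hb).2 hff
      have e : b * (star (s i) * s j - y) = b * (star (s i) * s j - h * h * y) +
          (b * h - b) * h * y + (b * h - b) * y := by noncomm_ring
      rw [e]
      refine (norm_add_le _ _).trans ?_
      refine (add_le_add_left (norm_add_le _ _) _).trans ?_
      linarith
    · rw [if_neg hij] at a1 ⊢
      linarith
  refine ⟨s, fun i => ?_, fun a ha i => ?_, fun a ha i j => (hV a (m1 a ha) (hM a ha) i j).trans hδ2,
    fun g hg i j => (hs2 g hg i j).trans ?_⟩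
  · refine (sq_le_sq₀ (norm_nonneg _) zero_le_two).1 ?_
    have a1 := hone i i
    rw [if_pos rfl] at a1
    have a2 := siLevel_mul_le (siLevel_mul_le h1 h1) hff
    have a3 := norm_add_le (star (s i) * s i - h * h * y) (h * h * y)
    rw [sub_add_cancel, CStarRing.norm_star_mul_self] at a3
    rw [sq]
    linarith
  · refine (sq_le_sq₀ (norm_nonneg _) hε.le).1 (le_trans ?_ hδ3)
    have hsM : ‖star a‖ ≤ M := by rw [norm_star]; exact hM a ha
    have a1 := hW _ (m3 a ha) i
    have a2 := siLevel_mul_le (hW _ (m2 a ha) i) (hM a ha)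
    have a3 := siLevel_mul_le hsM (hW _ (m1 a ha) i)
    have a4 := hV _ (m2 a ha) hsM i i
    rw [if_pos rfl] at a4
    have a5 := siLevel_mul_le a4 (hM a ha)
    have e : star (a * s i - s i * a) * (a * s i - s i * a) =
        (star (s i) * (star a * a) * s i - star a * a * y) -
        (star (s i) * star a * s i - star a * y) * a - star a * (star (s i) * a * s i - a * y) +
        star a * (star (s i) * s i - y) * a := by
      simp only [star_sub, star_mul]
      noncomm_ring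
    rw [sq, ← CStarRing.norm_star_mul_self, e]
    refine (norm_add_le _ _).trans ?_
    refine (add_le_add_left (norm_sub_le _ _) _).trans ?_
    refine (add_le_add_left (add_le_add_left (norm_sub_le _ _) _) _).trans ?_
    nlinarith
  · nlinarith

end Vale.Agent.P095
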