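import Vale.Agent.P095.UEnv
import Vale.Agent.P101.ZSpatial

/-! P095: existence of the tensor product action on the spatial tensor product. -/

namespace Vale.Agent.P095

open Filter Topology Vale.Agent.P101 Vale.Agent.P101.F Vale.Agent.P101.ZSpatial
open scoped ComplexOrder TensorProduct

universe u v w

section Norm

variable {B : Type u} [CStarAlgebra B] {G : Type v} [Group G] {E : Env B G}
variable {H K : Type*} [NormedAddCommGroup H] [InnerProductSpace ℂ H] [CompleteSpace H]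
  [NormedAddCommGroup K] [InnerProductSpace ℂ K] [CompleteSpace K]

lemma ta_form_nonneg (ρ : B →⋆ₐ[ℂ] (H →L[ℂ] H)) {κ : Type} [Fintype κ] {M : κ → κ → B}
    (hM : MPos M) (h : κ → H) : 0 ≤ (∑ k, ∑ l, inner ℂ (h k) (ρ (M k l) (h l))).re := by
  obtain ⟨R, hR⟩ := hM.exists_factor
  have e : ∑ k, ∑ l, inner ℂ (h k) (ρ (M k l) (h l)) =
      ∑ s, inner ℂ (∑ k, ρ (R s k) (h k)) (∑ l, ρ (R s l) (h l)) := by
    simp only [hR, map_sum, map_mul, map_star, _root_.sum_apply, inner_sum, sum_inner,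
      mul_apply_eq_comp, ContinuousLinearMap.star_eq_adjoint,
      ContinuousLinearMap.adjoint_inner_right]
    rw [Finset.sum_comm]
    refine (Finset.sum_congr rfl fun l _ => Finset.sum_comm).trans ?_
    exact Finset.sum_comm
  rw [e, Complex.re_sum]
  exact Finset.sum_nonneg fun s _ => inner_self_nonneg (𝕜 := ℂ)

lemma ta_nonneg (ρ : B →⋆ₐ[ℂ] (H →L[ℂ] H)) (hρ : ∀ y ∈ E.I, ρ y = 0 → y = 0) {y : B}
    (hy : y ∈ E.I) (hs : star y = y) (h : ∀ ξ, 0 ≤ (inner ℂ ξ (ρ y ξ)).re) : 0 ≤ y := by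
  have h1 : IsSelfAdjoint (ρ y) := by rw [IsSelfAdjoint, ← map_star, hs]
  have h2 : (ρ y).IsPositive := ⟨h1.isSymmetric, fun ξ => by
    rw [ContinuousLinearMap.reApplyInnerSelf, inner_re_symm]; exact h ξ⟩
  have h3 := (ContinuousLinearMap.nonneg_iff_isPositive _).2 h2
  have hc : Continuous fun t : ℝ => max (-t) 0 := by fun_prop
  have h4 : cfc (fun t : ℝ => max (-t) 0) y = 0 := by
    refine hρ _ (E.cfc_mem hy hs hc (by simp)) ?_
    rw [map_cfc_real ρ hs hc, ← cfc_zero ℝ (ρ y)]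
    exact cfc_congr fun t ht => max_eq_right (neg_nonpos.2 (spectrum_nonneg_of_nonneg h3 ht))
  have h5 : y = cfc (fun t : ℝ => max t 0) y - cfc (fun t : ℝ => max (-t) 0) y := by
    rw [← cfc_sub _ _ y (by fun_prop) (by fun_prop)]
    refine (cfc_id' ℝ y (show IsSelfAdjoint y from hs)).symm.trans (cfc_congr fun t _ => ?_)
    rcases le_total t 0 with h | h
    · simp [h]
    · simp [h]
  rw [h5, h4, sub_zero]
  exact cfc_nonneg fun t _ => le_max_right _ _

omit [CompleteSpace K] in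
lemma ta_sq (ρ : B →⋆ₐ[ℂ] (H →L[ℂ] H)) {ι κ : Type*} [Fintype ι] [Fintype κ] (b : ι → B)
    (S : ι → K →L[ℂ] K) (h : κ → H) (e : κ → K) :
    ‖(∑ i, opTensor (ρ (b i)) (S i)) (emb (∑ k, h k ⊗ₜ[ℂ] e k))‖ ^ 2 =
      (∑ k, ∑ l, inner ℂ (h k) (ρ (∑ i, ∑ j, inner ℂ (S i (e k)) (S j (e l)) •
        (star (b i) * b j)) (h l))).re := by
  have hsum : ∀ (s : Finset ι) (x : ι → H ⊗[ℂ] K), emb (∑ i ∈ s, x i) = ∑ i ∈ s, emb (x i) :=
    fun s x => map_sum (UniformSpace.Completion.toComplL (𝕜 := ℂ)) x s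
  rw [_root_.sum_apply]
  simp only [op_emb]
  rw [← hsum, ← inner_self_eq_norm_sq (𝕜 := ℂ), emb_inner]
  refine congrArg Complex.re ?_
  simp only [map_sum, TensorProduct.mapL_tmul, inner_sum, sum_inner, TensorProduct.inner_tmul,
    map_smul, map_mul, map_star, _root_.sum_apply, _root_.smul_apply,
    inner_smul_right, mul_apply_eq_comp, ContinuousLinearMap.star_eq_adjoint,
    ContinuousLinearMap.adjoint_inner_right]
  calc _ = ∑ l, ∑ j, ∑ k, ∑ i, inner ℂ (ρ (b i) (h k)) (ρ (b j) (h l)) *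
        inner ℂ (S i (e k)) (S j (e l)) := by
        rw [Finset.sum_comm]
        exact Finset.sum_congr rfl fun l _ => Finset.sum_congr rfl fun j _ => Finset.sum_comm
    _ = ∑ l, ∑ k, ∑ j, ∑ i, inner ℂ (ρ (b i) (h k)) (ρ (b j) (h l)) *
        inner ℂ (S i (e k)) (S j (e l)) := Finset.sum_congr rfl fun l _ => Finset.sum_comm
    _ = _ := by
        rw [Finset.sum_comm]
        refine Finset.sum_congr rfl fun k _ => Finset.sum_congr rfl fun l _ => ?_
        rw [Finset.sum_comm]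
        exact Finset.sum_congr rfl fun i _ => Finset.sum_congr rfl fun j _ => mul_comm _ _

omit [CompleteSpace H] [CompleteSpace K] in
lemma ta_bound (x : HilbertTensor H K →L[ℂ] HilbertTensor H K) {C : ℝ} (hC : 0 ≤ C)
    (h : ∀ η, ‖x (emb η)‖ ≤ C * ‖emb η‖) : ‖x‖ ≤ C :=
  x.opNorm_le_bound hC fun y => dense_emb.induction_on (p := fun y => ‖x y‖ ≤ C * ‖y‖) y
    (isClosed_le (by fun_prop) (by fun_prop)) h

omit [CompleteSpace H] [CompleteSpace K] in
lemma ta_op_norm (S : H →L[ℂ] H) (T : K →L[ℂ] K) : ‖opTensor S T‖ ≤ ‖S‖ * ‖T‖ :=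
  ta_bound _ (by positivity) fun η => by
    rw [op_emb]
    have h1 : ∀ x : H ⊗[ℂ] K, ‖emb x‖ = ‖x‖ := fun x => UniformSpace.Completion.norm_coe x
    rw [h1, h1]
    exact ((TensorProduct.mapL S T).le_opNorm η).trans
      (mul_le_mul_of_nonneg_right (TensorProduct.norm_mapL_le S T) (norm_nonneg _))

omit [CompleteSpace K] in
theorem ta_norm_le (ρ ρ' : B →⋆ₐ[ℂ] (H →L[ℂ] H)) (hρ : ∀ y ∈ E.I, ρ y = 0 → y = 0) {ι : Type*}
    [Fintype ι] (a : ι → B) (ha : ∀ i, a i ∈ E.I) (S : ι → K →L[ℂ] K) :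
    ‖∑ i, opTensor (ρ' (a i)) (S i)‖ ≤ ‖∑ i, opTensor (ρ (a i)) (S i)‖ := by
  classical
  set C := ‖∑ i, opTensor (ρ (a i)) (S i)‖ with hC
  refine ta_bound _ (norm_nonneg _) fun η => ?_
  obtain ⟨n, h, e, rfl⟩ := TensorProduct.exists_sum_tmul_eq η
  have key : ∀ u ∈ E.I, ‖u‖ ≤ 1 →
      ‖(∑ i, opTensor (ρ' (a i * u)) (S i)) (emb (∑ k, h k ⊗ₜ[ℂ] e k))‖ ≤
        C * ‖emb (∑ k, h k ⊗ₜ[ℂ] e k)‖ := by
    intro u hu hu1
    let N : Fin n → Fin n → B := fun k l =>
      ((C ^ 2 : ℝ) : ℂ) • (∑ _i : Unit, ∑ _j : Unit,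
        inner ℂ ((1 : K →L[ℂ] K) (e k)) ((1 : K →L[ℂ] K) (e l)) • (star u * u)) -
      ∑ i, ∑ j, inner ℂ (S i (e k)) (S j (e l)) • (star (a i * u) * (a j * u))
    have hform : ∀ (σ : B →⋆ₐ[ℂ] (H →L[ℂ] H)) (g : Fin n → H),
        (∑ k, ∑ l, inner ℂ (g k) (σ (N k l) (g l))).re =
          C ^ 2 * ‖opTensor (σ u) (1 : K →L[ℂ] K) (emb (∑ k, g k ⊗ₜ[ℂ] e k))‖ ^ 2 -
          ‖(∑ i, opTensor (σ (a i * u)) (S i)) (emb (∑ k, g k ⊗ₜ[ℂ] e k))‖ ^ 2 := by
      intro σ g
      have e1 := ta_sq σ (fun _ : Unit => u) (fun _ => (1 : K →L[ℂ] K)) g e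
      rw [Fintype.sum_unique] at e1
      rw [e1, ta_sq σ (fun i => a i * u) S g e, ← Complex.re_ofReal_mul, ← Complex.sub_re]
      simp only [N, map_sub, map_smul σ ((C ^ 2 : ℝ) : ℂ), _root_.sub_apply,
        _root_.smul_apply, inner_sub_right, inner_smul_right, Finset.sum_sub_distrib,
        Finset.mul_sum]
    have hNI : ∀ k l, N k l ∈ E.I := fun k l => sub_mem (E.smul_mem (sum_mem fun _ _ =>
      sum_mem fun _ _ => E.smul_mem (E.mul_left hu _) _) _) (sum_mem fun _ _ => sum_mem fun _ _ =>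
        E.smul_mem (E.mul_left (E.mul_left hu _) _) _)
    have hNs : ∀ k l, star (N k l) = N l k := fun k l => by
      simp only [N, star_sub, star_smul, star_sum, star_mul, star_star, Complex.star_def,
        inner_conj_symm, Complex.conj_ofReal]
      congr 1
      exact Finset.sum_comm
    have hN : MPos N := fun v => by
      refine ta_nonneg ρ hρ (sum_mem fun _ _ => sum_mem fun _ _ =>
        E.mul_right (E.mul_left (hNI _ _) _) _) ?_ fun ξ => ?_
      · simp only [star_sum, star_mul, star_star, hNs, ← mul_assoc]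
        exact Finset.sum_comm
      · have e2 : inner ℂ ξ (ρ (∑ k, ∑ l, star (v k) * N k l * v l) ξ) =
            ∑ k, ∑ l, inner ℂ (ρ (v k) ξ) (ρ (N k l) (ρ (v l) ξ)) := by
          simp only [map_sum, map_mul, map_star, _root_.sum_apply, inner_sum,
            mul_apply_eq_comp, ContinuousLinearMap.star_eq_adjoint,
            ContinuousLinearMap.adjoint_inner_right]
        rw [e2, hform, sub_nonneg, ← mul_pow]
        refine pow_le_pow_left₀ (norm_nonneg _) ?_ 2
        have e3 : ∑ i, opTensor (ρ (a i * u)) (S i) =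
            (∑ i, opTensor (ρ (a i)) (S i)) * opTensor (ρ u) 1 := by
          rw [Finset.sum_mul]
          exact Finset.sum_congr rfl fun i _ => by rw [← op_mul, map_mul, mul_one]
        rw [e3]
        exact (∑ i, opTensor (ρ (a i)) (S i)).le_opNorm _
    have h1 := ta_form_nonneg ρ' hN h
    rw [hform, sub_nonneg, ← mul_pow] at h1
    refine (le_of_sq_le_sq h1 (by positivity)).trans
      (mul_le_mul_of_nonneg_left ?_ (norm_nonneg _))
    refine (ContinuousLinearMap.le_opNorm _ _).trans (mul_le_of_le_one_left (norm_nonneg _) ?_)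
    exact (ta_op_norm _ _).trans (mul_le_one₀ ((NonUnitalStarAlgHom.norm_apply_le ρ' u).trans hu1)
      (norm_nonneg _) ContinuousLinearMap.norm_id_le)
  set η := emb (∑ k, h k ⊗ₜ[ℂ] e k)
  refine le_of_forall_pos_le_add fun ε hε => ?_
  have hK : 0 < (∑ i, ‖S i‖) * ‖η‖ + 1 := by positivity
  obtain ⟨u, hu, -, hu1, hu2⟩ := E.exists_unit (Finset.univ.image a)
    (by simpa using ha) (div_pos hε hK)
  have e4 : ∑ i, opTensor (ρ' (a i)) (S i) = ∑ i, opTensor (ρ' (a i * u)) (S i) +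
      ∑ i, opTensor (ρ' (a i - a i * u)) (S i) := by
    rw [← Finset.sum_add_distrib]
    exact Finset.sum_congr rfl fun i _ => by rw [← op_add_left, ← map_add, add_sub_cancel]
  rw [e4, _root_.add_apply]
  refine (norm_add_le _ _).trans (add_le_add (key u hu hu1) ?_)
  have h5 : ‖∑ i, opTensor (ρ' (a i - a i * u)) (S i)‖ ≤
      ε / ((∑ i, ‖S i‖) * ‖η‖ + 1) * ∑ i, ‖S i‖ := by
    rw [Finset.mul_sum]
    refine norm_sum_le_of_le _ fun i _ => (ta_op_norm _ _).trans
      (mul_le_mul_of_nonneg_right ((NonUnitalStarAlgHom.norm_apply_le ρ' _).trans ?_)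
        (norm_nonneg _))
    rw [norm_sub_rev]
    exact (hu2 _ (Finset.mem_image_of_mem a (Finset.mem_univ i))).2
  refine (ContinuousLinearMap.le_opNorm _ _).trans
    ((mul_le_mul_of_nonneg_right h5 (norm_nonneg _)).trans ?_)
  rw [mul_assoc, div_mul_eq_mul_div, div_le_iff₀ hK]
  nlinarith

end Norm

theorem exists_tensor_action {G A Z B H K : Type*} [Group G] [NonUnitalCStarAlgebra A]
    [CStarAlgebra Z] [NonUnitalCStarAlgebra B]
    [NormedAddCommGroup H] [InnerProductSpace ℂ H] [CompleteSpace H]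
    [NormedAddCommGroup K] [InnerProductSpace ℂ K] [CompleteSpace K]
    (π : A →⋆ₙₐ[ℂ] (H →L[ℂ] H)) (σ : Z →⋆ₐ[ℂ] (K →L[ℂ] K)) (hπ : Function.Injective π)
    (j : B →⋆ₙₐ[ℂ]
      (UniformSpace.Completion (H ⊗[ℂ] K) →L[ℂ] UniformSpace.Completion (H ⊗[ℂ] K)))
    (t : A → Z → B)
    (hj : IsClosedSpan j t fun a z => (TensorProduct.mapL (π a) (σ z)).completion)
    (α : G →* (A ≃⋆ₐ[ℂ] A)) :
    ∃ β : G →* (B ≃⋆ₐ[ℂ] B), ∀ g a z, β g (t a z) = t (α g a) z := by
  classical
  obtain ⟨hji, hjt, hd⟩ := hj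
  have hjt' : ∀ a z, j (t a z) = opTensor (π a) (σ z) := hjt
  obtain ⟨E, hE, -⟩ := exists_uenv α
  have tmul : ∀ a z a' z', t a z * t a' z' = t (a * a') (z * z') := fun a z a' z' =>
    hji (by rw [map_mul, hjt', hjt', hjt', map_mul, map_mul]; exact (op_mul _ _ _ _).symm)
  have tstar : ∀ a z, star (t a z) = t (star a) (star z) := fun a z =>
    hji (by rw [map_star, hjt', hjt', map_star, map_star]; exact (op_star _ _).symm)
  have tsmul : ∀ (c : ℂ) a z, c • t a z = t (c • a) z := fun c a z =>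
    hji (by rw [map_smul, hjt', hjt', map_smul]; exact (op_smul_left _ _ _).symm)
  have ind : ∀ p : B → Prop, IsClosed {x | p x} → p 0 → (∀ x y, p x → p y → p (x + y)) →
      (∀ a z, p (t a z)) → ∀ x, p x := by
    intro p hc h0 hadd hgen x
    refine hd.induction (P := p) (fun y hy => ?_) hc x
    have : ∀ c : ℂ, p (c • y) := by
      induction hy using Submodule.span_induction with
      | mem y hy => obtain ⟨a, z, rfl⟩ := hy; exact fun c => tsmul c a z ▸ hgen _ _
      | zero => exact fun c => by rwa [smul_zero]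
      | add x y _ _ h h' => exact fun c => by rw [smul_add]; exact hadd _ _ (h c) (h' c)
      | smul c' x _ h => exact fun c => by rw [smul_smul]; exact h _
    simpa using this 1
  let e : (A → A) → ((A × Z) →₀ ℂ) →ₗ[ℂ] B := fun γ =>
    Finsupp.linearCombination ℂ fun p => t (γ p.1) p.2
  have hde : DenseRange (e id) := by
    refine hd.mono fun x hx => ?_
    change x ∈ LinearMap.range (e id)
    rw [Finsupp.range_linearCombination]
    refine Submodule.span_mono ?_ hx
    rintro _ ⟨a, z, rfl⟩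
    exact ⟨(a, z), rfl⟩
  have hn : ∀ g v, ‖e (α g) v‖ ≤ 1 * ‖e id v‖ := by
    intro g v
    have hl : ∀ f : A →⋆ₙₐ[ℂ] (H →L[ℂ] H), ∃ ρ : Unitization ℂ A →⋆ₐ[ℂ] (H →L[ℂ] H),
        ∀ a : A, ρ a = f a := fun f => ⟨Unitization.starLift f, fun a => by
      simp [Unitization.starLift, NonUnitalAlgHom.toAlgHom]⟩
    obtain ⟨ρ, hρ⟩ := hl π
    obtain ⟨ρ', hρ'⟩ := hl (π.comp (α g : A →⋆ₙₐ[ℂ] A))
    have h1 := ta_norm_le (E := E) ρ ρ' (fun y hy h0 => by
      obtain ⟨a, rfl⟩ := (hE y).1 hy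
      have : π a = π 0 := by rw [map_zero, ← hρ, h0]
      rw [hπ this]; rfl) (fun p : v.support => ((v p • p.1.1 : A) : Unitization ℂ A))
      (fun p => (hE _).2 ⟨_, rfl⟩) fun p => σ p.1.2
    have h2 : ∀ (γ : A → A), j (e γ v) = ∑ p : v.support, opTensor (π (v p • γ p.1.1)) (σ p.1.2) := by
      intro γ
      rw [Finsupp.linearCombination_apply, Finsupp.sum, ← Finset.sum_coe_sort, map_sum]
      exact Finset.sum_congr rfl fun p _ => by rw [tsmul, hjt']
    rw [one_mul, ← NonUnitalStarAlgHom.norm_map j hji, ← NonUnitalStarAlgHom.norm_map j hji (e id v),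
      h2, h2]
    simp only [hρ, hρ'] at h1
    refine le_of_eq_of_le (congrArg norm (Finset.sum_congr rfl fun p _ => ?_)) h1
    rw [← map_smul (α g)]
    rfl
  let T : G → B →L[ℂ] B := fun g => (e (α g)).extendOfNorm (e id)
  have hT : ∀ g a z, T g (t a z) = t (α g a) z := fun g a z => by
    have := LinearMap.extendOfNorm_eq (f := e (α g)) hde ⟨1, hn g⟩ (Finsupp.single (a, z) 1)
    simpa [e, T] using this
  have hmul : ∀ g g' x, T (g * g') x = T g (T g' x) := fun g g' =>
    ind _ (isClosed_eq (by fun_prop) (by fun_prop)) (by simp)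
      (fun x y h h' => by rw [map_add, map_add, map_add, h, h'])
      fun a z => by rw [hT, hT, hT, map_mul]; rfl
  have hone : ∀ x, T 1 x = x :=
    ind _ (isClosed_eq (by fun_prop) (by fun_prop)) (by simp)
      (fun x y h h' => by rw [map_add, h, h']) fun a z => by rw [hT, map_one]; rfl
  have hm : ∀ g x y, T g (x * y) = T g x * T g y := fun g x y => by
    refine ind (fun x => T g (x * y) = T g x * T g y) (isClosed_eq (by fun_prop) (by fun_prop))
      (by simp) (fun x x' h h' => by rw [add_mul, map_add, map_add, h, h', add_mul])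
      (fun a z => ?_) x
    exact ind (fun y => T g (t a z * y) = T g (t a z) * T g y)
      (isClosed_eq (by fun_prop) (by fun_prop)) (by simp)
      (fun y y' h h' => by rw [mul_add, map_add, map_add, h, h', mul_add])
      (fun a' z' => by rw [tmul, hT, hT, hT, tmul, map_mul]) y
  have hs : ∀ g x, T g (star x) = star (T g x) := fun g =>
    ind _ (isClosed_eq (by fun_prop) (by fun_prop)) (by simp)
      (fun x y h h' => by rw [star_add, map_add, map_add, h, h', star_add])
      fun a z => by rw [tstar, hT, hT, tstar, map_star]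
  let β : G → B ≃⋆ₐ[ℂ] B := fun g =>
    { toFun := T g
      invFun := T g⁻¹
      left_inv := fun x => by rw [← hmul, inv_mul_cancel, hone]
      right_inv := fun x => by rw [← hmul, mul_inv_cancel, hone]
      map_mul' := hm g
      map_add' := map_add (T g)
      map_star' := hs g
      map_smul' := map_smul (T g) }
  exact ⟨MonoidHom.mk' β fun g g' => StarAlgEquiv.ext (hmul g g'), hT⟩

end Vale.Agent.P095
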