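import Vale.Agent.P095.ToolsA
import Vale.Agent.P083.State

/-! P095: general tools on quotients, ideals and approximate units. See skel/P095/BLUEPRINT.md. -/

namespace Vale.Agent.P095

open Filter Topology Vale.Agent.P101 Vale.Agent.P101.F
open scoped ComplexOrder

universe u v w

section Ideal

variable {B : Type u} [CStarAlgebra B] {G : Type v} [Group G] (E : Env B G)

theorem Env.mul_left {a : B} (ha : a ∈ E.I) (x : B) : x * a ∈ E.I := E.I.mul_mem_left x ha

theorem Env.mul_right {a : B} (ha : a ∈ E.I) (x : B) : a * x ∈ E.I :=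
  E.two.mul_mem_of_left x ha

theorem Env.smul_mem {a : B} (ha : a ∈ E.I) (c : ℂ) : c • a ∈ E.I := by
  rw [Algebra.smul_def]
  exact E.mul_left ha _

theorem Env.star_mem {a : B} (ha : a ∈ E.I) : star a ∈ E.I :=
  have := E.two
  quot_star E.I E.closed ha

theorem Env.mem_of_star_mul {a : B} (ha : star a * a ∈ E.I) : a ∈ E.I := by
  have := E.two
  obtain ⟨Q, _, q, -, hk, -⟩ := exists_quot E.I E.closed
  have h := (hk _).2 ha
  rw [map_mul, map_star] at h
  exact (hk _).1 ((CStarRing.star_mul_self_eq_zero_iff _).1 h)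

theorem Env.mem_of_sum {ι : Type*} [Fintype ι] {a : ι → B} (ha : ∑ i, star (a i) * a i ∈ E.I)
    (i : ι) : a i ∈ E.I := by
  have := E.two
  obtain ⟨Q, _, q, -, hk, -⟩ := exists_quot E.I E.closed
  have h := (hk _).2 ha
  simp only [map_sum, map_mul, map_star] at h
  have h1 := (Finset.sum_eq_zero_iff_of_nonneg fun j _ => star_mul_self_nonneg (q (a j))).1 h i
    (Finset.mem_univ i)
  exact (hk _).1 ((CStarRing.star_mul_self_eq_zero_iff _).1 h1)

theorem Env.cfc_mem {a : B} (ha : a ∈ E.I) (hs : star a = a) {g : ℝ → ℝ} (hg : Continuous g)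
    (h0 : g 0 = 0) : cfc g a ∈ E.I := by
  have := E.two
  obtain ⟨Q, _, q, -, hk, -⟩ := exists_quot E.I E.closed
  refine (hk _).1 ?_
  rw [map_cfc_real q hs hg, (hk _).2 ha, cfc_apply_zero, h0, map_zero]

theorem tools_norm_mul_le {j x m : B} (hj : star x * x ≤ j) {ε : ℝ} (hε : 0 < ε) (hm : ‖m‖ ≤ 1)
    (h : ‖j * m‖ ≤ ε ^ 2) : ‖x * (m * m)‖ ≤ ε := by
  have h1 : ‖x * m‖ ≤ ε := by
    refine (sq_le_sq₀ (norm_nonneg _) hε.le).1 ?_
    have h2 : star (x * m) * (x * m) ≤ star m * j * m := by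
      have := star_left_conjugate_le_conjugate hj m
      simpa only [star_mul, mul_assoc] using this
    rw [sq, ← CStarRing.norm_star_mul_self]
    refine (CStarAlgebra.norm_le_norm_of_nonneg_of_le (star_mul_self_nonneg _) h2).trans ?_
    rw [mul_assoc]
    refine (norm_mul_le _ _).trans ?_
    rw [norm_star]
    exact (mul_le_of_le_one_left (norm_nonneg _) hm).trans h
  rw [← mul_assoc]
  exact (norm_mul_le _ _).trans ((mul_le_of_le_one_right (norm_nonneg _) hm).trans h1)

theorem Env.exists_unit (F : Finset B) (hF : ∀ a ∈ F, a ∈ E.I) {ε : ℝ} (hε : 0 < ε) :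
    ∃ h ∈ E.I, 0 ≤ h ∧ ‖h‖ ≤ 1 ∧ ∀ a ∈ F, ‖h * a - a‖ ≤ ε ∧ ‖a * h - a‖ ≤ ε := by
  have := E.two
  have hj : ∑ a ∈ F, (star a * a + a * star a) ∈ E.I := E.I.sum_mem fun a ha =>
    E.I.add_mem (E.mul_left (hF a ha) _) (E.mul_right (hF a ha) _)
  obtain ⟨m, h1, h2, h3, h4⟩ := quot_unit E.I hj (pow_pos hε 2)
  have hp : 0 ≤ m * m := by simpa only [h1] using star_mul_self_nonneg m
  have hn : ‖m * m‖ ≤ 1 := (norm_mul_le _ _).trans (mul_le_one₀ h2 (norm_nonneg _) h2)
  have h5 : 0 ≤ 1 - m * m := sub_nonneg.2 ((CStarAlgebra.norm_le_one_iff_of_nonneg _ hp).1 hn)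
  refine ⟨1 - m * m, ?_, h5, (CStarAlgebra.norm_le_one_iff_of_nonneg _ h5).2 (sub_le_self _ hp),
    fun a ha => ?_⟩
  · have e : 1 - m * m = (1 - m) * (1 + m) := by noncomm_ring
    rw [e]
    exact E.mul_right h3 _
  · have hle : star a * a + a * star a ≤ ∑ a ∈ F, (star a * a + a * star a) :=
      Finset.single_le_sum (f := fun a => star a * a + a * star a)
        (fun b _ => add_nonneg (star_mul_self_nonneg b) (mul_star_self_nonneg b)) ha
    constructor
    · have := tools_norm_mul_le (x := star a) (by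
        rw [star_star]
        exact (le_add_of_nonneg_left (star_mul_self_nonneg a)).trans hle) hε h2 h4
      rwa [sub_mul, one_mul, sub_sub_cancel_left, norm_neg, ← norm_star, star_mul, star_mul, h1]
    · rw [mul_sub, mul_one, sub_sub_cancel_left, norm_neg]
      exact tools_norm_mul_le ((le_add_of_nonneg_right (mul_star_self_nonneg a)).trans hle) hε h2 h4

theorem Env.exists_dense [TopologicalSpace.SeparableSpace B] :
    ∃ a : ℕ → B, (∀ n, a n ∈ E.I) ∧ ∀ b ∈ E.I, b ∈ closure (Set.range a) := by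
  obtain ⟨s, hs, hc, hd⟩ := (TopologicalSpace.IsSeparable.of_separableSpace
    (E.I : Set B)).exists_countable_dense_subset
  have hne : s.Nonempty := closure_nonempty_iff.1 ⟨0, hd E.I.zero_mem⟩
  obtain ⟨a, rfl⟩ := hc.exists_eq_range hne
  exact ⟨a, fun n => hs ⟨n, rfl⟩, fun b hb => hd hb⟩

theorem Env.exists_unit_seq [TopologicalSpace.SeparableSpace B] :
    ∃ h : ℕ → B, (∀ n, h n ∈ E.I ∧ 0 ≤ h n ∧ ‖h n‖ ≤ 1) ∧ ∀ a ∈ E.I,
      Tendsto (fun n => h n * a) atTop (𝓝 a) ∧ Tendsto (fun n => a * h n) atTop (𝓝 a) := by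
  classical
  obtain ⟨a, ha, hd⟩ := E.exists_dense
  choose h h1 h2 h3 h4 using fun n : ℕ => E.exists_unit ((Finset.range (n + 1)).image a)
    (fun b hb => by
      obtain ⟨k, -, rfl⟩ := Finset.mem_image.1 hb
      exact ha k) (Nat.one_div_pos_of_nat (α := ℝ) (n := n))
  refine ⟨h, fun n => ⟨h1 n, h2 n, h3 n⟩, fun b hb => ?_⟩
  have key : ∀ ε : ℝ, 0 < ε → ∀ᶠ n in atTop, ‖h n * b - b‖ < ε ∧ ‖b * h n - b‖ < ε := by
    intro ε hε
    obtain ⟨_, ⟨k, rfl⟩, hk⟩ := Metric.mem_closure_iff.1 (hd b hb) (ε / 3) (by positivity)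
    rw [dist_eq_norm] at hk
    filter_upwards [eventually_ge_atTop k, tendsto_one_div_add_atTop_nhds_zero_nat.eventually
      (gt_mem_nhds (show (0 : ℝ) < ε / 3 by positivity))] with n hn hn'
    obtain ⟨e1, e2⟩ := h4 n (a k) (Finset.mem_image_of_mem a (Finset.mem_range.2 (by omega)))
    have e3 : ‖h n * (b - a k)‖ ≤ ‖b - a k‖ :=
      (norm_mul_le _ _).trans (mul_le_of_le_one_left (norm_nonneg _) (h3 n))
    have e4 : ‖(b - a k) * h n‖ ≤ ‖b - a k‖ :=
      (norm_mul_le _ _).trans (mul_le_of_le_one_right (norm_nonneg _) (h3 n))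
    constructor
    · have e : h n * b - b = h n * (b - a k) + (h n * a k - a k) - (b - a k) := by noncomm_ring
      have := norm_sub_le (h n * (b - a k) + (h n * a k - a k)) (b - a k)
      have := norm_add_le (h n * (b - a k)) (h n * a k - a k)
      rw [e]
      linarith
    · have e : b * h n - b = (b - a k) * h n + (a k * h n - a k) - (b - a k) := by noncomm_ring
      have := norm_sub_le ((b - a k) * h n + (a k * h n - a k)) (b - a k)
      have := norm_add_le ((b - a k) * h n) (a k * h n - a k)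
      rw [e]
      linarith
  constructor
  · refine Metric.tendsto_nhds.2 fun ε hε => (key ε hε).mono fun n hn => ?_
    rw [dist_eq_norm]
    exact hn.1
  · refine Metric.tendsto_nhds.2 fun ε hε => (key ε hε).mono fun n hn => ?_
    rw [dist_eq_norm]
    exact hn.2

end Ideal

section State

variable {B : Type u} [CStarAlgebra B]

theorem exists_isState [Nontrivial B] {a : B} (ha : 0 ≤ a) :
    ∃ φ : B →L[ℂ] ℂ, IsState φ ∧ φ a = ‖a‖ := by
  obtain ⟨f, h1, h2⟩ := P083.exists_state a ha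
  exact ⟨⟨f.toLinearMap, map_continuous f⟩, ⟨h1, fun x => f.map_nonneg (star_mul_self_nonneg x)⟩, h2⟩

theorem IsState.nonneg {φ : B →L[ℂ] ℂ} (h : IsState φ) {a : B} (ha : 0 ≤ a) : 0 ≤ φ a := by
  obtain ⟨x, rfl⟩ := CStarAlgebra.nonneg_iff_eq_star_mul_self.1 ha
  exact h.pos x

/-- a state as a positive linear map -/
noncomputable def IsState.tools_pos {φ : B →L[ℂ] ℂ} (h : IsState φ) : B →ₚ[ℂ] ℂ :=
  PositiveLinearMap.mk₀ φ.toLinearMap fun _ hx => h.nonneg hx

theorem IsState.map_star' {φ : B →L[ℂ] ℂ} (h : IsState φ) (a : B) :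
    φ (star a) = star (φ a) := map_star h.tools_pos a

theorem IsState.cs {φ : B →L[ℂ] ℂ} (h : IsState φ) (x y : B) :
    ‖φ (star x * y)‖ ^ 2 ≤ (φ (star x * x)).re * (φ (star y * y)).re := by
  have h1 := norm_inner_le_norm (𝕜 := ℂ) (h.tools_pos.toPreGNS x) (h.tools_pos.toPreGNS y)
  have h2 : ‖φ (star x * y)‖ ≤ √(φ (star x * x)).re * √(φ (star y * y)).re := h1
  have h3 := pow_le_pow_left₀ (norm_nonneg _) h2 2
  rwa [mul_pow, Real.sq_sqrt (h.pos x).1, Real.sq_sqrt (h.pos y).1] at h3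

theorem IsState.norm_le {φ : B →L[ℂ] ℂ} (h : IsState φ) : ‖φ‖ ≤ 1 := by
  refine φ.opNorm_le_bound zero_le_one fun x => ?_
  have h1 := h.cs 1 x
  rw [star_one, one_mul, one_mul, h.one, Complex.one_re, one_mul] at h1
  have h2 := h.nonneg (sub_nonneg.2 (CStarAlgebra.star_mul_le_algebraMap_norm_sq (a := x)))
  rw [map_sub, sub_nonneg, Algebra.algebraMap_eq_smul_one, ← Complex.coe_smul, map_smul, h.one,
    smul_eq_mul, mul_one] at h2
  rw [one_mul]
  exact (sq_le_sq₀ (norm_nonneg _) (norm_nonneg _)).1 (h1.trans h2.1)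

/-- a state that is one on the square of a positive contraction is multiplicative on it -/
theorem IsState.mul_eq {φ : B →L[ℂ] ℂ} (h : IsState φ) {x : B} (h0 : 0 ≤ x) (h1 : ‖x‖ ≤ 1)
    (hx : φ (x * x) = 1) (b : B) : φ (x * b) = φ b ∧ φ (b * x) = φ b := by
  have hle : x ≤ 1 := (CStarAlgebra.norm_le_one_iff_of_nonneg _ h0).1 h1
  have hsq : x * x ≤ x := by simpa only [sq, pow_one] using CStarAlgebra.pow_antitone h0 hle one_le_two
  have e1 := h.nonneg (sub_nonneg.2 hle)
  have e2 := h.nonneg (sub_nonneg.2 hsq)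
  rw [map_sub, sub_nonneg, h.one] at e1
  rw [map_sub, sub_nonneg, hx] at e2
  have e3 : φ x = 1 := le_antisymm e1 e2
  have hs : star (1 - x) = 1 - x := by rw [star_sub, star_one, h0.isSelfAdjoint.star_eq]
  have e4 : φ (star (1 - x) * (1 - x)) = 0 := by
    have e : (1 - x) * (1 - x) = 1 - x - x + x * x := by noncomm_ring
    rw [hs, e, map_add, map_sub, map_sub, h.one, e3, hx]
    ring
  constructor
  · have := h.cs (1 - x) b
    rw [e4, Complex.zero_re, zero_mul, hs, sub_mul, one_mul, map_sub] at this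
    exact (sub_eq_zero.1 (norm_eq_zero.1 (pow_eq_zero_iff two_ne_zero |>.1
      (le_antisymm this (sq_nonneg _))))).symm
  · have := h.cs (star b) (1 - x)
    rw [e4, Complex.zero_re, mul_zero, star_star, mul_sub, mul_one, map_sub] at this
    exact (sub_eq_zero.1 (norm_eq_zero.1 (pow_eq_zero_iff two_ne_zero |>.1
      (le_antisymm this (sq_nonneg _))))).symm

end State

end Vale.Agent.P095
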