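import Vale.Agent.P095.Basic

/-! P095: lifting lemmas and sequences. See skel/P095/BLUEPRINT.md. -/

namespace Vale.Agent.P095

open Filter Topology Vale.Agent.P101 Vale.Agent.P101.F
open scoped ComplexOrder

universe u v w

section Lift

variable {X : Type u} {Y : Type v} {W : Type w} [CStarAlgebra X] [CStarAlgebra Y] [CStarAlgebra W]

theorem toolsA_conj (x : X) {g : ℝ → ℝ} (hg : ContinuousOn g (spectrum ℝ (star x * x))) :
    star (x * cfc g (star x * x)) * (x * cfc g (star x * x)) =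
      cfc (fun t => g t * t * g t) (star x * x) := by
  have h := IsSelfAdjoint.star_mul_self x
  rw [cfc_mul (fun t => g t * t) g (star x * x), cfc_mul g (fun t => t) (star x * x),
    cfc_id' ℝ (star x * x), star_mul,
    (cfc_predicate g (star x * x)).star_eq]
  simp only [mul_assoc]

theorem toolsA_graph (Γ : StarSubalgebra ℂ (X × Y)) (C : ℝ) (hb : ∀ g ∈ Γ, ‖g.2‖ ≤ C * ‖g.1‖)
    (hd : Dense (Prod.fst '' (Γ : Set (X × Y)))) :
    ∃ Ψ : X →⋆ₐ[ℂ] Y, ∀ g ∈ Γ, Ψ g.1 = g.2 := by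
  have hc : IsClosed (Γ.topologicalClosure : Set (X × Y)) := Γ.isClosed_topologicalClosure
  have hb' : ∀ g ∈ Γ.topologicalClosure, ‖g.2‖ ≤ C * ‖g.1‖ := fun g hg =>
    closure_minimal (t := {g : X × Y | ‖g.2‖ ≤ C * ‖g.1‖}) hb
      (isClosed_le (by fun_prop) (by fun_prop)) hg
  let p : Γ.topologicalClosure →⋆ₐ[ℂ] X := (StarAlgHom.fst ℂ X Y).comp Γ.topologicalClosure.subtype
  have hi : Function.Injective p := by
    rw [injective_iff_map_eq_zero]
    intro g hg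
    have h1 : g.1.1 = 0 := hg
    have h2 := hb' g.1 g.2
    rw [h1, norm_zero, mul_zero, norm_le_zero_iff] at h2
    exact Subtype.ext (Prod.ext h1 h2)
  have hs : Function.Surjective p := by
    have h1 : IsClosed (Set.range p) :=
      (NonUnitalStarAlgHom.isometry p hi).isClosedEmbedding.isClosed_range
    have h2 : Dense (Set.range p) := hd.mono (by
      rintro _ ⟨g, hg, rfl⟩
      exact ⟨⟨g, Γ.le_topologicalClosure hg⟩, rfl⟩)
    rw [← Set.range_eq_univ, ← h1.closure_eq, h2.closure_eq]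
  let e := StarAlgEquiv.ofBijective p ⟨hi, hs⟩
  refine ⟨((StarAlgHom.snd ℂ X Y).comp Γ.topologicalClosure.subtype).comp
    (e.symm : X →⋆ₐ[ℂ] Γ.topologicalClosure), fun g hg => ?_⟩
  have : e.symm g.1 = ⟨g, Γ.le_topologicalClosure hg⟩ := e.symm_apply_eq.2 rfl
  change (e.symm g.1).1.2 = _
  rw [this]

theorem toolsA_cfc (f : X →⋆ₐ[ℂ] Y) (x : X) {g : ℝ → ℝ}
    (hg : ContinuousOn g (spectrum ℝ (star x * x))) :
    f (cfc g (star x * x)) = cfc g (star (f x) * f x) := by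
  rw [f.map_cfc g _ hg (continuous_starAlgHom f) (.star_mul_self x)
    ((IsSelfAdjoint.star_mul_self x).map f), map_mul, map_star]

theorem exists_lift_norm (q : X →⋆ₐ[ℂ] Y) (hq : Function.Surjective q) (y : Y) :
    ∃ x, q x = y ∧ ‖x‖ ≤ ‖y‖ := by
  rcases (norm_nonneg y).eq_or_lt with h | h
  · exact ⟨0, by rw [map_zero, norm_eq_zero.1 h.symm], by simp⟩
  obtain ⟨x, rfl⟩ := hq y
  have h1 (t : ℝ) : 0 < max |t| (‖q x‖ ^ 2) := lt_max_of_lt_right (by positivity)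
  have hg : Continuous fun t : ℝ => ‖q x‖ / √(max |t| (‖q x‖ ^ 2)) :=
    continuous_const.div (by fun_prop) fun t => (Real.sqrt_pos.2 (h1 t)).ne'
  refine ⟨x * cfc (fun t : ℝ => ‖q x‖ / √(max |t| (‖q x‖ ^ 2))) (star x * x), ?_,
    le_of_sq_le_sq ?_ h.le⟩
  · have e := IsSelfAdjoint.star_mul_self (q x)
    rw [map_mul, toolsA_cfc q x hg.continuousOn, cfc_congr (g := fun _ => 1),
      cfc_const_one ℝ (star (q x) * q x), mul_one]
    intro t ht
    have := norm_apply_le_norm_cfc (fun t : ℝ => t) _ ht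
    rw [cfc_id' ℝ (star (q x) * q x), CStarRing.norm_star_mul_self, ← sq, Real.norm_eq_abs] at this
    beta_reduce
    rw [max_eq_right this, Real.sqrt_sq h.le, div_self h.ne']
  · rw [sq, ← CStarRing.norm_star_mul_self, toolsA_conj x hg.continuousOn]
    refine norm_cfc_le (sq_nonneg _) fun t _ => ?_
    rw [mul_right_comm, div_mul_div_comm, Real.mul_self_sqrt (h1 t).le, norm_mul, Real.norm_eq_abs t,
      Real.norm_of_nonneg (div_nonneg (mul_self_nonneg _) (h1 t).le), div_mul_eq_mul_div,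
      div_le_iff₀ (h1 t), ← sq]
    exact mul_le_mul_of_nonneg_left (le_max_left _ _) (sq_nonneg _)

theorem exists_lift_sa (q : X →⋆ₐ[ℂ] Y) (hq : Function.Surjective q) {y : Y} (hy : star y = y) :
    ∃ x, q x = y ∧ star x = x ∧ ‖x‖ ≤ ‖y‖ := by
  obtain ⟨x, rfl, h⟩ := exists_lift_norm q hq y
  refine ⟨(2⁻¹ : ℂ) • (x + star x), ?_, by simp [add_comm], ?_⟩
  · rw [map_smul, map_add, map_star, hy, ← two_smul ℂ, inv_smul_smul₀ two_ne_zero]
  · have := norm_add_le x (star x)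
    rw [norm_star] at this
    rw [norm_smul, norm_inv, Complex.norm_ofNat]
    linarith

theorem exists_lift_nonneg (q : X →⋆ₐ[ℂ] Y) (hq : Function.Surjective q) {y : Y} (hy : 0 ≤ y) :
    ∃ x, q x = y ∧ 0 ≤ x ∧ ‖x‖ ≤ ‖y‖ := by
  obtain ⟨b, rfl⟩ := CStarAlgebra.nonneg_iff_eq_star_mul_self.1 hy
  obtain ⟨x, rfl, h⟩ := exists_lift_norm q hq b
  refine ⟨star x * x, by rw [map_mul, map_star], star_mul_self_nonneg x, ?_⟩
  rw [CStarRing.norm_star_mul_self, CStarRing.norm_star_mul_self]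
  exact mul_self_le_mul_self (norm_nonneg _) h

theorem exists_hom_lift (q : X →⋆ₐ[ℂ] Y) (hq : Function.Surjective q) (f : X →⋆ₐ[ℂ] W)
    (h : ∀ x, q x = 0 → f x = 0) : ∃ f' : Y →⋆ₐ[ℂ] W, ∀ x, f' (q x) = f x := by
  obtain ⟨Ψ, e⟩ := toolsA_graph (q.prod f).range 1 (by
    rintro _ ⟨x, rfl⟩
    obtain ⟨x', e, h1⟩ := exists_lift_norm q hq (q x)
    have := h (x - x') (by rw [map_sub, e, sub_self])
    rw [map_sub, sub_eq_zero] at this
    rw [one_mul]
    exact (congrArg norm this).trans_le ((NonUnitalStarAlgHom.norm_apply_le f x').trans h1))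
    fun y => subset_closure (by
      obtain ⟨x, rfl⟩ := hq y
      exact ⟨_, ⟨x, rfl⟩, rfl⟩)
  exact ⟨Ψ, fun x => e _ ⟨x, rfl⟩⟩

theorem exists_clm_lift (q : X →⋆ₐ[ℂ] Y) (hq : Function.Surjective q) (f : X →L[ℂ] ℂ)
    (h : ∀ x, q x = 0 → f x = 0) : ∃ f' : Y →L[ℂ] ℂ, ‖f'‖ ≤ ‖f‖ ∧ ∀ x, f' (q x) = f x := by
  obtain ⟨g, hg⟩ := q.toAlgHom.toLinearMap.exists_rightInverse_of_surjective
    (LinearMap.range_eq_top.2 hq)
  have e (x : X) : f (g (q x)) = f x := by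
    rw [← sub_eq_zero, ← map_sub]
    exact h _ (by rw [map_sub]; exact sub_eq_zero.2 (LinearMap.congr_fun hg (q x)))
  refine ⟨(f.toLinearMap ∘ₗ g).mkContinuous ‖f‖ fun y => ?_,
    LinearMap.mkContinuous_norm_le _ (norm_nonneg _) _, e⟩
  obtain ⟨x, rfl, h1⟩ := exists_lift_norm q hq y
  exact (congrArg norm (e x)).trans_le
    ((f.le_opNorm x).trans (mul_le_mul_of_nonneg_left h1 (norm_nonneg _)))

theorem exists_lift_unitary (q : X →⋆ₐ[ℂ] Y) (hq : Function.Surjective q) {y : Y}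
    (hy : y ∈ unitary Y) (hj : InvJoined y) : ∃ x ∈ unitary X, q x = y := by
  obtain ⟨f, hf, hu, f0, rfl⟩ := hj
  have hl : IsLocallyConstant fun t => ∃ x, IsUnit x ∧ q x = f t := by
    refine (IsLocallyConstant.iff_eventually_eq _).2 fun t => ?_
    obtain ⟨u, e⟩ := hu t
    have c : Continuous fun s => ‖1 - f s * u⁻¹‖ := by fun_prop
    filter_upwards [c.continuousAt.eventually_lt (g := fun _ => 1) (x₀ := t) continuousAt_const
      (by rw [← e, u.mul_inv, sub_self, norm_zero]; exact one_pos)] with s hs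
    obtain ⟨w, e1, e2⟩ := exists_lift_norm q hq (1 - f s * u⁻¹)
    have e3 : q (Units.oneSub w (e2.trans_lt hs)) * f t = f s := by
      rw [Units.val_oneSub, map_sub, map_one, e1, sub_sub_cancel, ← e, Units.inv_mul_cancel_right]
    generalize Units.oneSub w (e2.trans_lt hs) = z at e3
    refine propext ⟨fun ⟨x, h1, h2⟩ => ⟨_, (Units.isUnit z⁻¹).mul h1, ?_⟩,
      fun ⟨x, h1, h2⟩ => ⟨_, (Units.isUnit _).mul h1, by rw [map_mul, h2, e3]⟩⟩
    rw [map_mul, h2, ← e3, ← mul_assoc, ← map_mul, Units.inv_mul, map_one, one_mul]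
  obtain ⟨x, h1, h2⟩ := (hl.apply_eq_of_preconnectedSpace 0 1).mp ⟨1, isUnit_one, by rw [map_one, f0]⟩
  have h3 (t : ℝ) (ht : t ∈ spectrum ℝ (star x * x)) : 0 < t :=
    (spectrum_nonneg_of_nonneg (star_mul_self_nonneg x) ht).lt_of_ne' fun e =>
      spectrum.zero_notMem ℝ (h1.star.mul h1) (e ▸ ht)
  have h4 (t : ℝ) (ht : t ∈ spectrum ℝ (star x * x)) := (Real.sqrt_pos.2 (h3 t ht)).ne'
  have hg : ContinuousOn (fun t : ℝ => (√t)⁻¹) (spectrum ℝ (star x * x)) :=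
    Real.continuous_sqrt.continuousOn.inv₀ h4
  have e := IsSelfAdjoint.star_mul_self x
  refine ⟨x * cfc (fun t : ℝ => (√t)⁻¹) (star x * x), (h1.mul (isUnit_cfc _ _ hg e fun t ht =>
    inv_ne_zero (h4 t ht))).mem_unitary_of_star_mul_self ?_, ?_⟩
  · rw [toolsA_conj x hg, cfc_congr (g := fun _ => 1), cfc_const_one ℝ (star x * x)]
    intro t ht
    beta_reduce
    rw [mul_right_comm, ← mul_inv, Real.mul_self_sqrt (h3 t ht).le, inv_mul_cancel₀ (h3 t ht).ne']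
  · rw [map_mul, toolsA_cfc q x hg, h2, hy.1, cfc_apply_one]
    simp

theorem ext_graph' (Γ : StarSubalgebra ℂ (X × Y)) (C : ℝ) (hb : ∀ g ∈ Γ, ‖g.2‖ ≤ C * ‖g.1‖)
    (hd : Dense (Prod.fst '' (Γ : Set (X × Y)))) :
    ∃ Ψ : X →⋆ₐ[ℂ] Y, ∀ g ∈ Γ, Ψ g.1 = g.2 := toolsA_graph Γ C hb hd

theorem map_nonneg' (f : X →⋆ₐ[ℂ] Y) {x : X} (hx : 0 ≤ x) : 0 ≤ f x := by
  obtain ⟨b, rfl⟩ := CStarAlgebra.nonneg_iff_eq_star_mul_self.1 hx
  rw [map_mul, map_star]
  exact star_mul_self_nonneg _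

theorem map_cfc_real (f : X →⋆ₐ[ℂ] Y) {x : X} (hx : star x = x) {g : ℝ → ℝ}
    (hg : Continuous g) : f (cfc g x) = cfc g (f x) :=
  f.map_cfc g x hg.continuousOn (continuous_starAlgHom f) hx (IsSelfAdjoint.map hx f)

end Lift

theorem diag_seq {X : Type*} [Nonempty X] {ω : Ultrafilter ℕ} (hω : (ω : Filter ℕ) ≤ cofinite)
    (P : ℕ → ℕ → X → Prop) (h : ∀ k, ∀ᶠ n in (ω : Filter ℕ), ∃ x, P k n x) :
    ∃ x : ℕ → X, ∀ k, ∀ᶠ n in (ω : Filter ℕ), ∃ k', k ≤ k' ∧ P k' n (x n) := by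
  classical
  refine ⟨fun n => Classical.epsilon (P (Nat.findGreatest (fun k => ∃ x, P k n x) n) n), fun k => ?_⟩
  filter_upwards [h k, hω (Nat.cofinite_eq_atTop ▸ eventually_ge_atTop k)] with n h1 h2
  exact ⟨_, Nat.le_findGreatest h2 h1,
    Classical.epsilon_spec (Nat.findGreatest_spec (P := fun k => ∃ x, P k n x) h2 h1)⟩

section Seq

variable {B : Type u} [CStarAlgebra B] {ω : Ultrafilter ℕ}

theorem exists_rep_norm (x : Ultrapower B ω) :
    ∃ y : BoundedContinuousFunction ℕ B, umk ω y = x ∧ ∀ n, ‖y n‖ ≤ ‖x‖ :=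
  (exists_lift_norm (umk ω) umk_surjective x).imp fun y h =>
    ⟨h.1, fun n => (y.norm_coe_le_norm n).trans h.2⟩

theorem exists_rep_sa {x : Ultrapower B ω} (hx : star x = x) :
    ∃ y : BoundedContinuousFunction ℕ B, umk ω y = x ∧
      ∀ n, star (y n) = y n ∧ ‖y n‖ ≤ ‖x‖ :=
  (exists_lift_sa (umk ω) umk_surjective hx).imp fun y h =>
    ⟨h.1, fun n => ⟨DFunLike.congr_fun h.2.1 n, (y.norm_coe_le_norm n).trans h.2.2⟩⟩

theorem exists_bcf (y : ℕ → B) (C : ℝ) (h : ∀ n, ‖y n‖ ≤ C) :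
    ∃ z : BoundedContinuousFunction ℕ B, ∀ n, z n = y n :=
  ⟨.ofNormedAddCommGroupDiscrete y C h, fun _ => rfl⟩

end Seq

end Vale.Agent.P095
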