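import Vale.Agent.P095.Basic

/-! P095: nilpotent matrices covering a projection of rank at least two. -/

namespace Vale.Agent.P095

open Finset Vale.Agent.P101 Vale.Agent.P101.F
open scoped ComplexOrder Matrix.Norms.L2Operator

universe u

section Units

variable {A : Type u} [Ring A] [StarRing A] {N : Type} [DecidableEq N] {E : N → N → A}

theorem znil_sq (hs : ∀ i j, star (E i j) = E j i)
    (hm : ∀ i j k l, E i j * E k l = if j = k then E i l else 0) {ι : Type} [Fintype ι]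
    {u v : ι → N} (hu : Function.Injective u) (hv : Function.Injective v) :
    star (∑ i, E (u i) (v i)) * ∑ i, E (u i) (v i) = ∑ k ∈ univ.image v, E k k := by
  classical
  rw [sum_image fun i _ j _ h => hv h, star_sum, sum_mul_sum]
  refine sum_congr rfl fun i _ => ?_
  simp only [hs, hm, hu.eq_iff, sum_ite_eq, mem_univ, if_true]

omit [StarRing A] in
theorem znil_diag (hm : ∀ i j k l, E i j * E k l = if j = k then E i l else 0) (T : Finset N)
    {i j : N} : (i ∈ T → (∑ k ∈ T, E k k) * E i j = E i j) ∧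
      (j ∈ T → E i j * ∑ k ∈ T, E k k = E i j) := by
  constructor
  · intro h
    rw [sum_mul, sum_eq_single_of_mem i h fun k _ hk => by rw [hm, if_neg hk], hm, if_pos rfl]
  · intro h
    rw [mul_sum, sum_eq_single_of_mem j h fun k _ hk => by rw [hm, if_neg hk.symm], hm,
      if_pos rfl]

omit [StarRing A] in
theorem znil_diag_sum (hm : ∀ i j k l, E i j * E k l = if j = k then E i l else 0)
    (T : Finset N) {ι : Type} (s : Finset ι) {u v : ι → N} (hu : ∀ i ∈ s, u i ∈ T)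
    (hv : ∀ i ∈ s, v i ∈ T) :
    (∑ k ∈ T, E k k) * ∑ i ∈ s, E (u i) (v i) = ∑ i ∈ s, E (u i) (v i) ∧
      (∑ i ∈ s, E (u i) (v i)) * ∑ k ∈ T, E k k = ∑ i ∈ s, E (u i) (v i) := by
  rw [mul_sum, sum_mul (s := s)]
  exact ⟨sum_congr rfl fun i hi => (znil_diag hm T).1 (hu i hi),
    sum_congr rfl fun i hi => (znil_diag hm T).2 (hv i hi)⟩

theorem znil_move (hs : ∀ i j, star (E i j) = E j i)
    (hm : ∀ i j k l, E i j * E k l = if j = k then E i l else 0) {S T T' : Finset N}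
    (hT : T ⊆ S) (hT' : T' ⊆ S) (hd : Disjoint T T') (hc : T.card ≤ T'.card) :
    ∃ (x : A) (B : Finset N), B ⊆ T' ∧ B.card = T.card ∧ star x * x = ∑ k ∈ T, E k k ∧
      x * star x = ∑ k ∈ B, E k k ∧ x * x = 0 ∧ (∑ k ∈ S, E k k) * x = x ∧
      x * ∑ k ∈ S, E k k = x := by
  obtain ⟨f, hf⟩ := Function.Embedding.exists_of_card_le_finset (α := T) (s := T')
    (by rwa [Fintype.card_coe])
  have h1 : ∀ a, f a ∈ T' := fun a => hf ⟨a, rfl⟩
  have h2 := znil_diag_sum hm S univ (u := f) (v := fun a : T => a.1) (fun a _ => hT' (h1 a))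
    fun a _ => hT a.2
  refine ⟨∑ a : T, E (f a) a, univ.image f, fun b hb => ?_, ?_, ?_, ?_, ?_, h2.1, h2.2⟩
  · obtain ⟨a, -, rfl⟩ := mem_image.1 hb
    exact h1 a
  · rw [card_image_of_injective _ f.injective, card_univ, Fintype.card_coe]
  · rw [znil_sq hs hm f.injective Subtype.val_injective, univ_eq_attach, attach_image_val]
  · rw [← znil_sq hs hm Subtype.val_injective f.injective, star_sum, star_sum]
    simp only [hs]
  · rw [sum_mul_sum]
    exact sum_eq_zero fun a _ => sum_eq_zero fun b _ => by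
      rw [hm, if_neg fun h : a.1 = f b => disjoint_left.1 hd a.2 (h ▸ h1 b)]

theorem znil_cover (hs : ∀ i j, star (E i j) = E j i)
    (hm : ∀ i j k l, E i j * E k l = if j = k then E i l else 0) {S : Finset N}
    (hS : 1 < S.card) : ∃ (x : Fin 2 → A) (y : A),
      (∀ i, star (x i) * x i * (star (x i) * x i) = star (x i) * x i ∧ x i * x i = 0 ∧
        (∑ k ∈ S, E k k) * x i = x i ∧ x i * ∑ k ∈ S, E k k = x i) ∧
      (∑ k ∈ S, E k k) * y = y ∧
      ∑ i, (star (x i) * x i + x i * star (x i)) = ∑ k ∈ S, E k k + star y * y := by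
  obtain ⟨T, hT, hc⟩ := exists_subset_card_eq (s := S) (n := S.card / 2) (Nat.div_le_self _ _)
  have c1 := card_sdiff_of_subset hT
  obtain ⟨x, B, hB, c2, a1, a2, a3, a4, a5⟩ := znil_move hs hm hT (sdiff_subset (t := T))
    disjoint_sdiff (by omega)
  have c3 := card_sdiff_of_subset hB
  obtain ⟨x', B', hB', -, b1, b2, b3, b4, b5⟩ := znil_move hs hm
    ((sdiff_subset (t := B)).trans (sdiff_subset (t := T))) hT
    (disjoint_sdiff.symm.mono_left sdiff_subset) (by omega)
  have hid : ∀ U : Finset N, (∑ k ∈ U, E k k) * ∑ k ∈ U, E k k = ∑ k ∈ U, E k k := fun U =>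
    (znil_diag_sum hm U U (fun _ h => h) fun _ h => h).1
  refine ⟨![x, x'], ∑ k ∈ B', E k k, Fin.forall_fin_two.2 ⟨⟨?_, a3, a4, a5⟩, ?_, b3, b4, b5⟩,
    (znil_diag_sum hm S B' (fun _ h => hT (hB' h)) fun _ h => hT (hB' h)).1, ?_⟩
  · exact (congrArg₂ (· * ·) a1 a1).trans ((hid _).trans a1.symm)
  · exact (congrArg₂ (· * ·) b1 b1).trans ((hid _).trans b1.symm)
  · rw [Fin.sum_univ_two, star_sum]
    simp only [Matrix.cons_val_zero, Matrix.cons_val_one, hs]
    rw [a1, a2, b1, b2, hid, ← sum_sdiff hT, ← sum_sdiff hB]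
    abel

end Units

theorem znil_proj {N : Type} [Fintype N] [DecidableEq N] {P p₁ p₂ : Matrix N N ℂ}
    (hP : star P = P) (hP' : P * P = P) (h1 : star p₁ = p₁ ∧ p₁ ≠ 0 ∧ P * p₁ = p₁)
    (h2 : star p₂ = p₂ ∧ p₂ ≠ 0 ∧ P * p₂ = p₂) (h12 : p₁ * p₂ = 0) :
    ∃ (x : Fin 2 → Matrix N N ℂ) (y : Matrix N N ℂ),
      (∀ i, star (x i) * x i * (star (x i) * x i) = star (x i) * x i ∧ x i * x i = 0 ∧
        P * x i = x i ∧ x i * P = x i) ∧ P * y = y ∧
      ∑ i, (star (x i) * x i + x i * star (x i)) = P + star y * y := by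
  have hH : P.IsHermitian := hP
  obtain ⟨Φ, d, hd⟩ : ∃ (Φ : Matrix N N ℂ ≃⋆ₐ[ℂ] Matrix N N ℂ) (d : N → ℂ),
    P = Φ (Matrix.diagonal d) := ⟨_, _, hH.spectral_theorem⟩
  have h3 : ∀ k, d k ≠ 1 → d k = 0 := fun k hk => by
    rw [hd, ← map_mul, Matrix.diagonal_mul_diagonal] at hP'
    have h4 : d k * d k = d k := congrFun (Matrix.diagonal_injective (Φ.injective hP')) k
    by_contra h0
    exact hk (mul_right_cancel₀ h0 (h4.trans (one_mul _).symm))
  have h4 : P = ∑ k ∈ univ.filter (fun k => d k = 1), Φ (Matrix.single k k 1) := by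
    rw [hd, ← map_sum, sum_filter]
    refine congrArg Φ (Matrix.sum_single_eq_diagonal d).symm |>.trans
      (congrArg Φ (sum_congr rfl fun k _ => ?_))
    split_ifs with h
    · rw [h]
    · rw [h3 k h, Matrix.single_zero]
  have h5 : ∀ p : Matrix N N ℂ, star p = p → P * p = p → ∀ i j, Φ.symm p i j ≠ 0 →
      d i = 1 ∧ d j = 1 := by
    intro p a1 a2
    have a3 : ∀ i j, Φ.symm p i j ≠ 0 → d i = 1 := fun i j h => by
      have a4 : Matrix.diagonal d * Φ.symm p = Φ.symm p := by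
        rw [← Φ.symm_apply_apply (Matrix.diagonal d), ← hd, ← map_mul, a2]
      have a5 := congrFun (congrFun a4 i) j
      rw [Matrix.diagonal_mul] at a5
      exact mul_right_cancel₀ h (a5.trans (one_mul _).symm)
    refine fun i j h => ⟨a3 i j h, a3 j i fun h' => h ?_⟩
    rw [← a1, map_star, Matrix.star_apply, h', star_zero]
  have h6 : ∀ p : Matrix N N ℂ, p ≠ 0 → ∃ i j, Φ.symm p i j ≠ 0 := fun p hp => by
    by_contra h
    push Not at h
    exact hp (Φ.symm.injective ((Matrix.ext h).trans (map_zero _).symm))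
  have h7 : 1 < (univ.filter fun k => d k = 1).card := by
    by_contra h
    have a1 : ∀ i j, d i = 1 → d j = 1 → i = j := fun i j hi hj =>
      card_le_one.1 (not_lt.1 h) i (mem_filter.2 ⟨mem_univ _, hi⟩) j (mem_filter.2 ⟨mem_univ _, hj⟩)
    obtain ⟨i, j, a2⟩ := h6 _ h1.2.1
    obtain ⟨k, l, a3⟩ := h6 _ h2.2.1
    obtain ⟨b1, b2⟩ := h5 _ h1.1 h1.2.2 i j a2
    obtain ⟨b3, -⟩ := h5 _ h2.1 h2.2.2 k l a3
    obtain rfl := a1 _ _ b2 b3
    have a4 : (Φ.symm p₁ * Φ.symm p₂) i l = 0 := by rw [← map_mul, h12, map_zero, Matrix.zero_apply]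
    rw [Matrix.mul_apply, sum_eq_single j (fun m _ hm => ?_) fun h => absurd (mem_univ j) h] at a4
    · exact mul_ne_zero a2 a3 a4
    · rw [not_not.1 fun h' => hm (a1 _ _ (h5 _ h1.1 h1.2.2 i m h').2 b2), zero_mul]
  rw [h4]
  refine znil_cover (E := fun i j => Φ (Matrix.single i j 1)) (fun i j => ?_) (fun i j k l => ?_) h7
  · rw [← map_star]
    exact congrArg Φ (by simp [Matrix.star_eq_conjTranspose])
  · rw [← map_mul]
    split_ifs with h
    · rw [h, Matrix.single_mul_single_same, mul_one]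
    · rw [Matrix.single_mul_single_of_ne _ _ _ _ h, map_zero]

section CStar

variable {A : Type u} [CStarAlgebra A]

theorem znil_norm_le {x : A} (h : star x * x * (star x * x) = star x * x) : ‖x‖ ≤ 1 := by
  have h1 := CStarRing.norm_star_mul_self (x := star x * x)
  rw [star_mul, star_star, h, CStarRing.norm_star_mul_self] at h1
  by_contra h2
  have h3 : 1 < ‖x‖ * ‖x‖ := by nlinarith [not_le.1 h2]
  nlinarith

theorem znil_exists_star {ι : Type} (s : Finset ι) (y : ι → A) :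
    ∃ z, ∑ i ∈ s, star (y i) * y i = star z * z :=
  CStarAlgebra.nonneg_iff_eq_star_mul_self.1 (sum_nonneg fun _ _ => star_mul_self_nonneg _)

theorem znil_cross {ι : Type} (s : Finset ι) {P z w : ι → A}
    (h : ∀ i ∈ s, ∀ j ∈ s, i ≠ j → P i * P j = 0) (hz : ∀ i ∈ s, z i * P i = z i)
    (hw : ∀ i ∈ s, P i * w i = w i) :
    (∑ i ∈ s, z i) * ∑ i ∈ s, w i = ∑ i ∈ s, z i * w i := by
  rw [sum_mul_sum]
  refine sum_congr rfl fun i hi => sum_eq_single_of_mem i hi fun j hj hne => ?_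
  rw [← hz i hi, ← hw j hj, mul_assoc, ← mul_assoc (P i), h i hi j hj hne.symm, zero_mul, mul_zero]

theorem znil_block {ι : Type} (s : Finset ι) {P z : ι → A} (hs : ∀ i ∈ s, star (P i) = P i)
    (h1 : ∑ i ∈ s, P i * P i = 1) (h : ∀ i ∈ s, ∀ j ∈ s, i ≠ j → P i * P j = 0)
    (hz : ∀ i ∈ s, P i * z i = z i ∧ z i * P i = z i) {c : ℝ} (hc : 0 ≤ c)
    (hn : ∀ i ∈ s, ‖z i‖ ≤ c) : ‖∑ i ∈ s, z i‖ ≤ c := by
  have h2 : star (∑ i ∈ s, z i) * ∑ i ∈ s, z i ≤ algebraMap ℝ A (c * c) := by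
    rw [star_sum, znil_cross s h (fun i hi => by rw [← hs i hi, ← star_mul, (hz i hi).1])
      fun i hi => (hz i hi).1, ← mul_one (algebraMap ℝ A _), ← h1, mul_sum]
    refine sum_le_sum fun i hi => ?_
    have h3 : star (z i) * z i ≤ algebraMap ℝ A (c * c) :=
      (CStarAlgebra.norm_le_iff_le_algebraMap _ (mul_nonneg hc hc) (star_mul_self_nonneg _)).1
        (CStarRing.norm_star_mul_self.trans_le (mul_le_mul (hn i hi) (hn i hi) (norm_nonneg _) hc))
    have h4 := star_left_conjugate_le_conjugate h3 (P i)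
    rw [← mul_assoc, ← star_mul, (hz i hi).2, mul_assoc, (hz i hi).2, hs i hi,
      ← Algebra.commutes, mul_assoc] at h4
    exact h4
  have h3 := (CStarAlgebra.norm_le_iff_le_algebraMap _ (mul_nonneg hc hc)
    (star_mul_self_nonneg _)).2 h2
  rw [CStarRing.norm_star_mul_self] at h3
  exact (mul_self_le_mul_self_iff (norm_nonneg _) hc).2 h3

end CStar

end Vale.Agent.P095
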