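import Vale.Agent.P095.Tools
import Vale.Agent.P101.ZTens
import Vale.Agent.P095.ZNil_a

/-! P095: nilpotents that almost commute with a representation of a dimension drop algebra. See skel/P095/BLUEPRINT.md. -/

namespace Vale.Agent.P095

open Filter Topology Vale.Agent.P101 Vale.Agent.P101.F
open scoped ComplexOrder Matrix.Norms.L2Operator

universe u v w

theorem nil_of_units {N J : Type} [Fintype N] [DecidableEq N] [Fintype J] [DecidableEq J]
    (e : J → J → Matrix N N ℂ) (o : J) (hs : ∀ i j, star (e i j) = e j i)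
    (hm : ∀ i j k l, e i j * e k l = if j = k then e i l else 0) {p₁ p₂ : Matrix N N ℂ}
    (h1 : star p₁ = p₁ ∧ p₁ * p₁ = p₁ ∧ p₁ ≠ 0 ∧ e o o * p₁ = p₁)
    (h2 : star p₂ = p₂ ∧ p₂ * p₂ = p₂ ∧ p₂ ≠ 0 ∧ e o o * p₂ = p₂) (h12 : p₁ * p₂ = 0) :
    ∃ (x : Fin 2 → Matrix N N ℂ) (y : Matrix N N ℂ),
      (∀ i, ‖x i‖ ≤ 1 ∧ x i * x i = 0 ∧ (∑ j, e j j) * x i = x i ∧ x i * (∑ j, e j j) = x i ∧
        ∀ j k, Commute (x i) (e j k)) ∧
      ∑ i, (star (x i) * x i + x i * star (x i)) = ∑ j, e j j + star y * y := by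
  have h0 : e o o * e o o = e o o := by rw [hm, if_pos rfl]
  obtain ⟨x, y, hx, hy, hsum⟩ := znil_proj (hs o o) h0 ⟨h1.1, h1.2.2⟩ ⟨h2.1, h2.2.2⟩ h12
  obtain ⟨L, hL⟩ : ∃ L : Matrix N N ℂ →+ Matrix N N ℂ, ∀ a, L a = ∑ j, e j o * a * e o j :=
    ⟨⟨⟨fun a => ∑ j, e j o * a * e o j, by simp⟩, fun a b => by
      simp only [mul_add, add_mul, Finset.sum_add_distrib]⟩, fun _ => rfl⟩
  have l1 : ∀ a j k, L a * e j k = e j o * a * e o k := fun a j k => by
    rw [hL, Finset.sum_mul, Finset.sum_eq_single j (fun i _ hi => by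
      rw [mul_assoc, hm, if_neg hi, mul_zero]) fun h => absurd (Finset.mem_univ j) h, mul_assoc,
      hm, if_pos rfl]
  have l2 : ∀ a j k, e j k * L a = e j o * a * e o k := fun a j k => by
    rw [hL, Finset.mul_sum, Finset.sum_eq_single k (fun i _ hi => by
      rw [← mul_assoc, ← mul_assoc, hm, if_neg hi.symm, zero_mul, zero_mul])
      fun h => absurd (Finset.mem_univ k) h, ← mul_assoc, ← mul_assoc, hm, if_pos rfl]
  have l3 : ∀ a, star (L a) = L (star a) := fun a => by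
    simp only [hL, star_sum, star_mul, hs, mul_assoc]
  have l4 : ∀ a b, e o o * b = b → L a * L b = L (a * b) := fun a b hb => by
    rw [hL a, hL (a * b), Finset.sum_mul]
    refine Finset.sum_congr rfl fun j _ => ?_
    rw [mul_assoc, l2, hb]
    simp only [mul_assoc]
  have l5 : L (e o o) = ∑ j, e j j := by
    simp only [hL, hm, if_true]
  have l6 : ∀ i, e o o * star (x i) = star (x i) := fun i => by
    rw [← hs o o, ← star_mul, (hx i).2.2.2]
  refine ⟨fun i => L (x i), L y, fun i => ⟨znil_norm_le ?_, ?_, ?_, ?_, fun j k => ?_⟩, ?_⟩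
  · rw [l3, l4 _ _ (hx i).2.2.1, l4 _ _ (by rw [← mul_assoc, l6]), (hx i).1]
  · rw [l4 _ _ (hx i).2.2.1, (hx i).2.1, map_zero]
  · rw [← l5, l4 _ _ (hx i).2.2.1, (hx i).2.2.1]
  · rw [← l5, l4 _ _ h0, (hx i).2.2.2]
  · exact (l1 _ j k).trans (l2 _ j k).symm
  · rw [← l5, l3, l4 _ _ hy, ← map_add, ← hsum, map_sum]
    refine Finset.sum_congr rfl fun i _ => ?_
    rw [l3, l4 _ _ (hx i).2.2.1, l4 _ _ (l6 i), map_add]

section Rep

variable {p q : ℕ} {N : Type} [Fintype N] [DecidableEq N]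

/-- `ρ` only sees the values on `Z` -/
def ZNilSees (ρ : dimDrop p q →⋆ₐ[ℂ] Matrix N N ℂ) (Z : Set unitInterval) : Prop :=
  ∀ (G : dimDrop p q) (c : ℝ), 0 ≤ c → (∀ t ∈ Z, ‖G.1 t‖ ≤ c) → ‖ρ G‖ ≤ c

theorem znil_sees (ρ : dimDrop p q →⋆ₐ[ℂ] Matrix N N ℂ) :
    ∃ Z : Set unitInterval, Z.Finite ∧ 0 ∈ Z ∧ 1 ∈ Z ∧ ZNilSees ρ Z := by
  obtain ⟨π, hπ⟩ : ∃ π : C(unitInterval, ℂ) →⋆ₐ[ℂ] Matrix N N ℂ,
    ∀ g, π g = ρ (ZTens.sc p q g) := ⟨ρ.comp (ZTens.sc p q), fun _ => rfl⟩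
  have h1 : IsClosed (RingHom.ker π : Set C(unitInterval, ℂ)) :=
    isClosed_eq (ZTens.cont π) continuous_const
  have h2 : (ContinuousMap.setOfIdeal (RingHom.ker π))ᶜ.Finite := by
    have h3 : Polynomial.aeval tt (π tt).charpoly ∈ RingHom.ker π := by
      rw [RingHom.mem_ker, ← Polynomial.aeval_algHom_apply, Matrix.aeval_self_charpoly]
    refine ((Polynomial.finite_setOfPred_isRoot (π tt).charpoly_monic.ne_zero).preimage
      (f := fun t : unitInterval => ((t : ℝ) : ℂ)) fun a _ b _ h =>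
        Subtype.ext (Complex.ofReal_injective h)).subset fun t ht => ?_
    have h4 := ContinuousMap.notMem_setOfIdeal.1 ht h3
    rwa [Polynomial.aeval_continuousMap_apply] at h4
  refine ⟨insert 0 (insert 1 _), (h2.insert 1).insert 0, Set.mem_insert _ _,
    Set.mem_insert_of_mem _ (Set.mem_insert _ _), fun G c hc hG => ?_⟩
  refine le_of_forall_pos_le_add fun η hη => ?_
  have h3 : ∀ t, 0 < max (c + η) ‖G.1 t‖ := fun t => lt_max_of_lt_left (by linarith)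
  obtain ⟨h, hh⟩ : ∃ h : C(unitInterval, ℂ), ∀ t, h t = ((c + η) / max (c + η) ‖G.1 t‖ : ℝ) :=
    ⟨⟨_, Complex.continuous_ofReal.comp (continuous_const.div
      (continuous_const.max G.1.continuous.norm) fun t => (h3 t).ne')⟩, fun _ => rfl⟩
  have h4 : h - 1 ∈ RingHom.ker π := by
    rw [← ContinuousMap.idealOfSet_ofIdeal_isClosed h1, ContinuousMap.mem_idealOfSet]
    intro t ht
    have h5 := hG t (Set.mem_insert_of_mem _ (Set.mem_insert_of_mem _ ht))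
    rw [ContinuousMap.sub_apply, hh, max_eq_left (by linarith), div_self (by linarith)]
    simp
  rw [RingHom.mem_ker, map_sub, map_one, sub_eq_zero, hπ] at h4
  rw [← one_mul (ρ G), ← h4, ← map_mul]
  refine (NonUnitalStarAlgHom.norm_apply_le ρ _).trans
    ((ContinuousMap.norm_le _ (by linarith)).2 fun t => ?_)
  change ‖(h t • 1) * G.1 t‖ ≤ _
  rw [smul_mul_assoc, one_mul, norm_smul, hh, Complex.norm_real,
    Real.norm_of_nonneg (div_nonneg (by linarith) (h3 t).le), div_mul_eq_mul_div,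
    div_le_iff₀ (h3 t)]
  exact mul_le_mul_of_nonneg_left (le_max_right _ _) (by linarith)

theorem ZNilSees.ext {ρ : dimDrop p q →⋆ₐ[ℂ] Matrix N N ℂ} {Z : Set unitInterval}
    (h : ZNilSees ρ Z) {G G' : dimDrop p q} (hG : ∀ t ∈ Z, G.1 t = G'.1 t) : ρ G = ρ G' := by
  rw [← sub_eq_zero, ← map_sub, ← norm_le_zero_iff]
  refine h _ 0 le_rfl fun t ht => ?_
  change ‖G.1 t - G'.1 t‖ ≤ 0
  rw [hG t ht, sub_self, norm_zero]

theorem znil_bump {Z K : Set unitInterval} (hZ : Z.Finite) (hK : IsClosed K) :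
    ∃ g : C(unitInterval, ℂ), (∀ t ∈ K, g t = 1) ∧ ∀ t ∈ Z, t ∉ K → g t = 0 := by
  obtain ⟨f, h0, h1, -⟩ := exists_continuous_zero_one_of_isClosed
    (hZ.subset (Set.sdiff_subset (t := K))).isClosed hK Set.disjoint_sdiff_left
  exact ⟨⟨fun t => (f t : ℂ), by fun_prop⟩, fun t ht => by simp [h1 ht],
    fun t ht ht' => by simp [h0 ⟨ht, ht'⟩]⟩

/-- boundary conditions for a constant matrix on `W` -/
def ZNilBd (W : Set unitInterval) (Y : Matrix (Fin p × Fin q) (Fin p × Fin q) ℂ) : Prop :=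
  (0 ∈ W → ∃ c, Y = kL _ _ c) ∧ (1 ∈ W → ∃ c, Y = kR _ _ c)

theorem znil_ind {Z : Set unitInterval} (hZ : Z.Finite) (h0 : 0 ∈ Z) (h1 : 1 ∈ Z)
    {W : Set unitInterval} {Y : Matrix (Fin p × Fin q) (Fin p × Fin q) ℂ} (hY : ZNilBd W Y) :
    ∃ G : dimDrop p q, ∀ t ∈ Z, G.1 t = W.indicator (fun _ => Y) t := by
  obtain ⟨g, g1, g0⟩ := znil_bump hZ (hZ.inter_of_left W).isClosed
  have h2 : ∀ t ∈ Z, (g • ContinuousMap.const unitInterval Y) t = W.indicator (fun _ => Y) t := by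
    intro t ht
    change g t • Y = _
    by_cases h : t ∈ W
    · rw [g1 t ⟨ht, h⟩, one_smul, Set.indicator_of_mem h]
    · rw [g0 t ht fun h' => h h'.2, zero_smul, Set.indicator_of_notMem h]
  refine ⟨⟨g • ContinuousMap.const _ Y, mem_dimDrop.2 ⟨?_, ?_⟩⟩, h2⟩
  · rw [h2 0 h0]
    by_cases h : 0 ∈ W
    · rw [Set.indicator_of_mem h]
      exact hY.1 h
    · rw [Set.indicator_of_notMem h]
      exact ⟨0, (map_zero (kL (Fin p) (Fin q))).symm⟩
  · rw [h2 1 h1]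
    by_cases h : 1 ∈ W
    · rw [Set.indicator_of_mem h]
      exact hY.2 h
    · rw [Set.indicator_of_notMem h]
      exact ⟨0, (map_zero (kR (Fin p) (Fin q))).symm⟩

theorem znil_bin {ρ : dimDrop p q →⋆ₐ[ℂ] Matrix N N ℂ} {Z : Set unitInterval} (hZ : Z.Finite)
    (h0 : 0 ∈ Z) (h1 : 1 ∈ Z) (h : ZNilSees ρ Z) {W : Set unitInterval} {J : Type} [Fintype J]
    [DecidableEq J] (o : J) (κ : Matrix J J ℂ →⋆ₐ[ℂ] Matrix (Fin p × Fin q) (Fin p × Fin q) ℂ)
    (hκ : ∀ X, ZNilBd W (κ X)) {K : Fin 2 → Set unitInterval} (hK : ∀ i, K i ⊆ W)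
    (hd : Disjoint (K 0) (K 1))
    (hne : ∀ i (G : dimDrop p q), (∀ t ∈ Z, G.1 t = (K i).indicator (fun _ => 1) t) → ρ G ≠ 0)
    {P : dimDrop p q} (hP : ∀ t ∈ Z, P.1 t = W.indicator (fun _ => 1) t) :
    ∃ (x : Fin 2 → Matrix N N ℂ) (y : Matrix N N ℂ),
      (∀ i, ‖x i‖ ≤ 1 ∧ x i * x i = 0 ∧ ρ P * x i = x i ∧ x i * ρ P = x i ∧
        ∀ (f : dimDrop p q) (X : Matrix J J ℂ) (c : ℝ), 0 ≤ c → (∀ t ∈ W, ‖f.1 t - κ X‖ ≤ c) →
          ‖x i * ρ f - ρ f * x i‖ ≤ 2 * c) ∧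
      ∑ i, (star (x i) * x i + x i * star (x i)) = ρ P + star y * y := by
  choose G hG using fun (V : Set unitInterval) (hV : V ⊆ W) (X : Matrix J J ℂ) =>
    znil_ind hZ h0 h1 (W := V) (Y := κ X)
      ⟨fun a => (hκ X).1 (hV a), fun a => (hκ X).2 (hV a)⟩
  have g1 : ∀ V hV X, star (ρ (G V hV X)) = ρ (G V hV (star X)) := fun V hV X => by
    rw [← map_star]
    refine h.ext fun t ht => ?_
    change star ((G V hV X).1 t) = _
    rw [hG _ _ _ t ht, hG _ _ _ t ht]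
    by_cases a : t ∈ V <;> simp [a, map_star]
  have g2 : ∀ V hV V' hV' X X', ρ (G V hV X) * ρ (G V' hV' X') =
      ρ (G (V ∩ V') (Set.inter_subset_left.trans hV) (X * X')) := fun V hV V' hV' X X' => by
    rw [← map_mul]
    refine h.ext fun t ht => ?_
    change (G V hV X).1 t * (G V' hV' X').1 t = _
    rw [hG _ _ _ t ht, hG _ _ _ t ht, hG _ _ _ t ht]
    by_cases a : t ∈ V <;> by_cases b : t ∈ V' <;> simp [a, b]
  have g3 : ∀ V hV V' hV' X, V = V' → ρ (G V hV X) = ρ (G V' hV' X) := by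
    rintro V hV V' hV' X rfl
    rfl
  have g4 : ∀ V hV, ρ (G V hV 0) = 0 := fun V hV => by
    rw [← map_zero ρ]
    refine h.ext fun t ht => ?_
    rw [hG _ _ _ t ht]
    simp
  have g5 : ∀ V hV (X : Matrix J J ℂ), ∑ j, ∑ k, X j k • ρ (G V hV (Matrix.single j k 1)) =
      ρ (G V hV X) := fun V hV X => by
    simp only [← map_smul, ← map_sum]
    refine h.ext fun t ht => ?_
    simp only [ZTens.sum_apply]
    change ∑ j, ∑ k, X j k • (G V hV (Matrix.single j k 1)).1 t = _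
    simp only [hG _ _ _ t ht]
    by_cases a : t ∈ V
    · simp only [Set.indicator_of_mem a, ← map_smul, ← map_sum, ZTens.sum_single]
    · simp [a]
  have g6 : ∀ V hV, ∑ j, ρ (G V hV (Matrix.single j j 1)) = ρ (G V hV 1) := fun V hV => by
    rw [← g5 V hV 1]
    refine Finset.sum_congr rfl fun j _ => ?_
    rw [Finset.sum_eq_single j (fun k _ hk => by rw [Matrix.one_apply_ne hk.symm, zero_smul])
      fun a => absurd (Finset.mem_univ j) a, Matrix.one_apply_eq, one_smul]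
  have g7 : ρ (G W subset_rfl 1) = ρ P := h.ext fun t ht => by
    rw [hG _ _ _ t ht, hP t ht, map_one]
  have g8 : ∀ i, star (ρ (G (K i) (hK i) (Matrix.single o o 1))) =
        ρ (G (K i) (hK i) (Matrix.single o o 1)) ∧
      ρ (G (K i) (hK i) (Matrix.single o o 1)) * ρ (G (K i) (hK i) (Matrix.single o o 1)) =
        ρ (G (K i) (hK i) (Matrix.single o o 1)) ∧
      ρ (G (K i) (hK i) (Matrix.single o o 1)) ≠ 0 ∧
      ρ (G W subset_rfl (Matrix.single o o 1)) * ρ (G (K i) (hK i) (Matrix.single o o 1)) =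
        ρ (G (K i) (hK i) (Matrix.single o o 1)) := fun i => by
    refine ⟨by rw [g1, ZTens.single_star], ?_, fun a => ?_, ?_⟩
    · rw [g2, ZTens.single_mul, if_pos rfl]
      exact g3 _ _ _ _ _ (Set.inter_self _)
    · refine hne i (G (K i) (hK i) 1) (fun t ht => by rw [hG _ _ _ t ht, map_one]) ?_
      rw [← g6]
      refine Finset.sum_eq_zero fun j _ => ?_
      have a1 : ρ (G (K i) (hK i) (Matrix.single j o 1)) *
          ρ (G (K i) (hK i) (Matrix.single o o 1)) * ρ (G (K i) (hK i) (Matrix.single o j 1)) =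
          ρ (G (K i) (hK i) (Matrix.single j j 1)) := by
        rw [g2, g2, ZTens.single_mul, if_pos rfl, ZTens.single_mul, if_pos rfl]
        exact g3 _ _ _ _ _ (by rw [Set.inter_self, Set.inter_self])
      rw [← a1, a, mul_zero, zero_mul]
    · rw [g2, ZTens.single_mul, if_pos rfl]
      exact g3 _ _ _ _ _ (Set.inter_eq_right.2 (hK i))
  obtain ⟨x, y, hx, hsum⟩ := nil_of_units (fun j k => ρ (G W subset_rfl (Matrix.single j k 1))) o
    (fun i j => by rw [g1, ZTens.single_star]) (fun i j k l => by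
      rw [g2, ZTens.single_mul]
      split_ifs
      exacts [g3 _ _ _ _ _ (Set.inter_self _), g4 _ _]) (g8 0) (g8 1) (by
      rw [g2, ← map_zero ρ]
      refine h.ext fun t ht => ?_
      rw [hG _ _ _ t ht, Set.disjoint_iff_inter_eq_empty.1 hd]
      simp)
  rw [g6, g7] at hx hsum
  refine ⟨x, y, fun i => ⟨(hx i).1, (hx i).2.1, (hx i).2.2.1, (hx i).2.2.2.1,
    fun f X c hc hf => ?_⟩, hsum⟩
  obtain ⟨a1, -, a2, a3, a4⟩ := hx i
  have b1 : Commute (x i) (ρ (G W subset_rfl X)) := by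
    rw [← g5]
    exact Commute.sum_right _ _ _ fun j _ => Commute.sum_right _ _ _ fun k _ =>
      (a4 j k).smul_right _
  have b2 : ρ P * ρ f = ρ f * ρ P := by
    rw [← map_mul, ← map_mul]
    refine h.ext fun t ht => ?_
    change P.1 t * f.1 t = f.1 t * P.1 t
    rw [hP t ht]
    by_cases a : t ∈ W <;> simp [a]
  have b3 : ‖ρ f * ρ P - ρ (G W subset_rfl X)‖ ≤ c := by
    rw [← map_mul, ← map_sub]
    refine h _ c hc fun t ht => ?_
    change ‖f.1 t * P.1 t - (G W subset_rfl X).1 t‖ ≤ c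
    rw [hP t ht, hG _ _ _ t ht]
    by_cases a : t ∈ W
    · rw [Set.indicator_of_mem a, Set.indicator_of_mem a, mul_one]
      exact hf t a
    · simpa [a] using hc
  have b4 : x i * ρ f - ρ f * x i = x i * (ρ f * ρ P - ρ (G W subset_rfl X)) -
      (ρ f * ρ P - ρ (G W subset_rfl X)) * x i := by
    rw [mul_sub, sub_mul, b1.eq, mul_assoc (ρ f), a2, ← b2, ← mul_assoc, a3]
    abel
  rw [b4]
  refine (norm_sub_le _ _).trans ?_
  linarith [(norm_mul_le (x i) _).trans (mul_le_mul a1 b3 (norm_nonneg _) zero_le_one),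
    (norm_mul_le _ (x i)).trans (mul_le_mul b3 a1 (norm_nonneg _) hc)]

end Rep

theorem rep_nil {p q : ℕ} (hp : 0 < p) (hq : 0 < q) (F : Finset (dimDrop p q)) {ε : ℝ}
    (hε : 0 < ε) : ∃ δ : ℝ, 0 < δ ∧ ∀ (N : Type) [Fintype N] [DecidableEq N]
      (ρ : dimDrop p q →⋆ₐ[ℂ] Matrix N N ℂ),
      (∀ (s : unitInterval) (g : C(unitInterval, ℂ)),
        (∀ t : unitInterval, |(t : ℝ) - s| ≤ δ → g t = 1) → ρ (ZTens.sc p q g) ≠ 0) →
      ∃ (x : Fin 2 → Matrix N N ℂ) (y : Matrix N N ℂ),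
        (∀ i, ‖x i‖ ≤ 1 ∧ x i * x i = 0 ∧ ∀ f ∈ F, ‖x i * ρ f - ρ f * x i‖ ≤ ε) ∧
        ∑ i, (star (x i) * x i + x i * star (x i)) = 1 + star y * y := by
  obtain ⟨M, hM1, hM⟩ : ∃ M : ℕ, 1 ≤ M ∧ ∀ f ∈ F, ∀ s t : unitInterval,
      |(s : ℝ) - t| * (M + 1 / 2) < 1 → ‖f.1 s - f.1 t‖ ≤ ε / 2 := by
    refine ((eventually_ge_atTop 1).and (F.eventually_all.2 fun f _ => ?_)).exists
    obtain ⟨η, hη, h⟩ := Metric.uniformContinuous_iff.1
      (CompactSpace.uniformContinuous_of_continuous f.1.continuous) _ (half_pos hε)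
    filter_upwards [eventually_ge_atTop ⌈1 / η⌉₊] with M hM s t hst
    have h1 : 1 ≤ M * η := (div_le_iff₀ hη).1 (Nat.ceil_le.1 hM)
    refine (dist_eq_norm _ _).symm.trans_le (h (show |(s : ℝ) - t| < η from ?_)).le
    by_contra h2
    nlinarith [mul_le_mul_of_nonneg_right (not_lt.1 h2) (Nat.cast_nonneg (α := ℝ) M),
      abs_nonneg ((s : ℝ) - t)]
  obtain ⟨a, ha⟩ : ∃ a : ℝ, a = M + 1 / 2 := ⟨_, rfl⟩
  have hM' : (1 : ℝ) ≤ M := by exact_mod_cast hM1
  have ha0 : 0 < a := by linarith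
  rw [← ha] at hM
  refine ⟨1 / (16 * a), by positivity, fun N _ _ ρ hρ => ?_⟩
  obtain ⟨Z, hZ, h0, h1, h⟩ := znil_sees ρ
  obtain ⟨W, hW⟩ : ∃ W : ℕ → Set unitInterval, ∀ b t, t ∈ W b ↔ ⌊(t : ℝ) * a⌋₊ = b :=
    ⟨fun b => {t | ⌊(t : ℝ) * a⌋₊ = b}, fun _ _ => Iff.rfl⟩
  have w1 : ∀ b, ∀ s ∈ W b, ∀ t ∈ W b, |(s : ℝ) - t| * a < 1 := fun b s hs t ht => by
    have a1 := (Nat.floor_eq_iff (mul_nonneg s.2.1 ha0.le)).1 ((hW b s).1 hs)
    have a2 := (Nat.floor_eq_iff (mul_nonneg t.2.1 ha0.le)).1 ((hW b t).1 ht)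
    rw [← abs_of_pos ha0, ← abs_mul, sub_mul, abs_lt]
    constructor <;> linarith [a1.1, a1.2, a2.1, a2.2]
  have w2 : ∀ t : unitInterval, ⌊(t : ℝ) * a⌋₊ ∈ Finset.range (M + 1) := fun t => by
    rw [Finset.mem_range, Nat.floor_lt (mul_nonneg t.2.1 ha0.le)]
    push_cast
    linarith [mul_le_of_le_one_left ha0.le t.2.2]
  have w3 : ∀ b, 0 ∈ W b → 1 ∉ W b := fun b a1 a2 => by
    have a3 := w1 b 1 a2 0 a1
    norm_num at a3
    linarith
  choose P hP using fun b => znil_ind hZ h0 h1 (W := W b)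
    (Y := (1 : Matrix (Fin p × Fin q) (Fin p × Fin q) ℂ))
    ⟨fun _ => ⟨1, (map_one _).symm⟩, fun _ => ⟨1, (map_one _).symm⟩⟩
  have key : ∀ b ∈ Finset.range (M + 1), ∃ (x : Fin 2 → Matrix N N ℂ) (y : Matrix N N ℂ),
      (∀ i, ‖x i‖ ≤ 1 ∧ x i * x i = 0 ∧ ρ (P b) * x i = x i ∧ x i * ρ (P b) = x i ∧
        ∀ f ∈ F, ‖x i * ρ f - ρ f * x i‖ ≤ ε) ∧
      ∑ i, (star (x i) * x i + x i * star (x i)) = ρ (P b) + star y * y := by
    intro b hb
    have hb' : (b : ℝ) ≤ M := by exact_mod_cast Nat.le_of_lt_succ (Finset.mem_range.1 hb)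
    have hb0 : (0 : ℝ) ≤ b := Nat.cast_nonneg b
    obtain ⟨s, hs⟩ : ∃ s : Fin 2 → unitInterval, ∀ i, (s i : ℝ) * a = b + ![1 / 8, 3 / 8] i := by
      have a1 : ∀ c : ℝ, 0 ≤ c → c ≤ 1 / 2 → ∃ s : unitInterval, (s : ℝ) * a = b + c :=
        fun c c0 c1 => ⟨⟨(b + c) / a, by positivity, (div_le_one ha0).2 (by linarith)⟩,
          div_mul_cancel₀ _ ha0.ne'⟩
      obtain ⟨s0, e0⟩ := a1 (1 / 8) (by norm_num) (by norm_num)
      obtain ⟨s1, e1⟩ := a1 (3 / 8) (by norm_num) (by norm_num)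
      exact ⟨![s0, s1], Fin.forall_fin_two.2 ⟨e0, e1⟩⟩
    have k1 : ∀ i (t : unitInterval), |(t : ℝ) - s i| ≤ 1 / (16 * a) →
        |(t : ℝ) * a - (b + ![1 / 8, 3 / 8] i)| ≤ 1 / 16 := fun i t ht => by
      rw [← hs, ← sub_mul, abs_mul, abs_of_pos ha0]
      refine (mul_le_mul_of_nonneg_right ht ha0.le).trans_eq ?_
      field_simp
    have k2 : ∀ i, {t : unitInterval | |(t : ℝ) - s i| ≤ 1 / (16 * a)} ⊆ W b := fun i t ht => by
      have a1 := abs_le.1 (k1 i t ht)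
      rw [hW, Nat.floor_eq_iff (mul_nonneg t.2.1 ha0.le)]
      fin_cases i <;> simp only [Fin.zero_eta, Fin.mk_one, Matrix.cons_val_zero,
        Matrix.cons_val_one] at a1 <;> constructor <;> linarith [a1.1, a1.2]
    have k3 : ∀ (J : Type) [Fintype J] [DecidableEq J] (_ : J)
        (κ : Matrix J J ℂ →⋆ₐ[ℂ] Matrix (Fin p × Fin q) (Fin p × Fin q) ℂ),
        (∀ X, ZNilBd (W b) (κ X)) → (∃ r ∈ W b, ∀ f : dimDrop p q, ∃ X, f.1 r = κ X) →
        ∃ (x : Fin 2 → Matrix N N ℂ) (y : Matrix N N ℂ),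
          (∀ i, ‖x i‖ ≤ 1 ∧ x i * x i = 0 ∧ ρ (P b) * x i = x i ∧ x i * ρ (P b) = x i ∧
            ∀ f ∈ F, ‖x i * ρ f - ρ f * x i‖ ≤ ε) ∧
          ∑ i, (star (x i) * x i + x i * star (x i)) = ρ (P b) + star y * y := by
      rintro J _ _ o κ hκ ⟨r, hr, hr'⟩
      obtain ⟨x, y, hx, hsum⟩ := znil_bin hZ h0 h1 h o κ hκ k2 (Set.disjoint_left.2 fun t a1 a2 => by
        have a3 := abs_le.1 (k1 0 t a1)
        have a4 := abs_le.1 (k1 1 t a2)
        simp only [Matrix.cons_val_zero, Matrix.cons_val_one] at a3 a4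
        linarith [a3.2, a4.1]) (fun i G hG => by
          obtain ⟨g, g1, g0⟩ := znil_bump
            (K := {t : unitInterval | |(t : ℝ) - s i| ≤ 1 / (16 * a)}) hZ
            (isClosed_le (by fun_prop) continuous_const)
          rw [h.ext (G' := ZTens.sc p q g) fun t ht => ?_]
          · exact hρ (s i) g g1
          · rw [hG t ht, ZTens.sc_apply]
            by_cases a1 : t ∈ {t : unitInterval | |(t : ℝ) - s i| ≤ 1 / (16 * a)}
            · rw [Set.indicator_of_mem a1, g1 t a1, one_smul]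
            · rw [Set.indicator_of_notMem a1, g0 t ht a1, zero_smul]) (hP b)
      refine ⟨x, y, fun i => ⟨(hx i).1, (hx i).2.1, (hx i).2.2.1, (hx i).2.2.2.1, fun f hf => ?_⟩,
        hsum⟩
      obtain ⟨X, hX⟩ := hr' f
      refine ((hx i).2.2.2.2 f X _ (half_pos hε).le fun t ht => ?_).trans_eq (by ring)
      rw [← hX]
      exact hM f hf t r (w1 b t ht r hr)
    by_cases c0 : 0 ∈ W b
    · exact k3 _ ⟨0, hp⟩ (kL _ _) (fun X => ⟨fun _ => ⟨X, rfl⟩, fun c => absurd c (w3 b c0)⟩)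
        ⟨0, c0, fun f => (mem_dimDrop.1 f.2).1⟩
    by_cases c1 : 1 ∈ W b
    · exact k3 _ ⟨0, hq⟩ (kR _ _) (fun X => ⟨fun c => absurd c c0, fun _ => ⟨X, rfl⟩⟩)
        ⟨1, c1, fun f => (mem_dimDrop.1 f.2).2⟩
    · exact k3 _ (⟨0, hp⟩, ⟨0, hq⟩) (StarAlgHom.id ℂ _)
        (fun X => ⟨fun c => absurd c c0, fun c => absurd c c1⟩)
        ⟨s 0, k2 0 (by simp [ha0.le]), fun f => ⟨_, rfl⟩⟩
  choose! x y hx hsum using key
  have p1 : ∀ b ∈ Finset.range (M + 1), star (ρ (P b)) = ρ (P b) := fun b _ => by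
    rw [← map_star]
    refine h.ext fun t ht => ?_
    change star ((P b).1 t) = _
    rw [hP b t ht]
    by_cases c : t ∈ W b <;> simp [c]
  have p2 : ∀ b ∈ Finset.range (M + 1), ∀ b' ∈ Finset.range (M + 1), b ≠ b' →
      ρ (P b) * ρ (P b') = 0 := fun b _ b' _ hne => by
    rw [← map_mul, ← map_zero ρ]
    refine h.ext fun t ht => ?_
    change (P b).1 t * (P b').1 t = 0
    rw [hP b t ht, hP b' t ht]
    by_cases c : t ∈ W b
    · rw [Set.indicator_of_notMem fun c' => hne (((hW _ _).1 c).symm.trans ((hW _ _).1 c')),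
        mul_zero]
    · rw [Set.indicator_of_notMem c, zero_mul]
  have p3 : ∑ b ∈ Finset.range (M + 1), ρ (P b) = 1 := by
    rw [← map_sum, ← map_one ρ]
    refine h.ext fun t ht => ?_
    rw [ZTens.sum_apply, Finset.sum_eq_single_of_mem _ (w2 t) fun b _ hb => by
      rw [hP b t ht, Set.indicator_of_notMem fun c => hb ((hW _ _).1 c).symm], hP _ t ht,
      Set.indicator_of_mem ((hW _ _).2 rfl)]
    rfl
  have p4 : ∑ b ∈ Finset.range (M + 1), ρ (P b) * ρ (P b) = 1 := by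
    rw [← znil_cross _ p2 (fun b hb => ?_) fun b hb => ?_, p3, mul_one]
    all_goals
      rw [← map_mul]
      refine h.ext fun t ht => ?_
      change (P b).1 t * (P b).1 t = _
      rw [hP b t ht]
      by_cases c : t ∈ W b <;> simp [c]
  have p5 : ∀ b f, ρ (P b) * ρ f = ρ f * ρ (P b) := fun b f => by
    rw [← map_mul, ← map_mul]
    refine h.ext fun t ht => ?_
    change (P b).1 t * f.1 t = f.1 t * (P b).1 t
    rw [hP b t ht]
    by_cases c : t ∈ W b <;> simp [c]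
  obtain ⟨y', hy'⟩ := znil_exists_star (Finset.range (M + 1)) y
  refine ⟨fun i => ∑ b ∈ Finset.range (M + 1), x b i, y', fun i => ⟨znil_block _ p1 p4 p2
    (fun b hb => ⟨(hx b hb i).2.2.1, (hx b hb i).2.2.2.1⟩) zero_le_one fun b hb => (hx b hb i).1,
    ?_, fun f hf => ?_⟩, ?_⟩
  · rw [znil_cross _ p2 (fun b hb => (hx b hb i).2.2.2.1) fun b hb => (hx b hb i).2.2.1]
    exact Finset.sum_eq_zero fun b hb => (hx b hb i).2.1
  · rw [Finset.sum_mul, Finset.mul_sum, ← Finset.sum_sub_distrib]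
    refine znil_block _ p1 p4 p2 (fun b hb => ⟨?_, ?_⟩) hε.le fun b hb => (hx b hb i).2.2.2.2 f hf
    · rw [mul_sub, ← mul_assoc, ← mul_assoc, p5, mul_assoc (ρ f), (hx b hb i).2.2.1]
    · rw [sub_mul, mul_assoc, mul_assoc, ← p5, ← mul_assoc (x b i), (hx b hb i).2.2.2.1]
  · rw [← hy', ← p3, ← Finset.sum_add_distrib, ← Finset.sum_congr rfl hsum, Finset.sum_comm]
    refine Finset.sum_congr rfl fun i _ => ?_
    rw [star_sum, znil_cross _ p2 (fun b hb => by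
      rw [← p1 b hb, ← star_mul, (hx b hb i).2.2.1]) fun b hb => (hx b hb i).2.2.1,
      znil_cross _ p2 (fun b hb => (hx b hb i).2.2.2.1) fun b hb => by
        rw [← p1 b hb, ← star_mul, (hx b hb i).2.2.2.1], ← Finset.sum_add_distrib]

end Vale.Agent.P095
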